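import Vale.Agent.P157.Moments

/-!
The Efron–Stein inequality for a partition of the coordinates of a Gaussian vector.
-/

namespace Vale.Agent.P157.Parisi

open MeasureTheory ProbabilityTheory Finset

variable {ι : Type} [Fintype ι]

/-- The coordinates in `A` taken from the second vector. -/
def mix (A : ι → Prop) [DecidablePred A] (z z' : ι → ℝ) : ι → ℝ :=
  fun i => if A i then z' i else z i

omit [Fintype ι] in
lemma mix_none (A : ι → Prop) [DecidablePred A] (h : ∀ i, ¬A i) (z z' : ι → ℝ) :
    mix A z z' = z := funext fun i => if_neg (h i)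

omit [Fintype ι] in
lemma mix_all (A : ι → Prop) [DecidablePred A] (h : ∀ i, A i) (z z' : ι → ℝ) :
    mix A z z' = z' := funext fun i => if_pos (h i)

lemma measurePreserving_mix (A : ι → Prop) [DecidablePred A] :
    MeasurePreserving (fun p : (ι → ℝ) × (ι → ℝ) => (mix A p.1 p.2, mix A p.2 p.1))
      ((gauss ι).prod (gauss ι)) ((gauss ι).prod (gauss ι)) := by
  have e := measurePreserving_arrowProdEquivProdArrow ℝ ℝ ι
    (fun _ => gaussianReal 0 1) (fun _ => gaussianReal 0 1)
  have hswap : ∀ i : ι, MeasurePreserving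
      (fun q : ℝ × ℝ => (if A i then q.2 else q.1, if A i then q.1 else q.2))
      ((gaussianReal 0 1).prod (gaussianReal 0 1)) ((gaussianReal 0 1).prod (gaussianReal 0 1)) := by
    intro i
    by_cases h : A i
    · simp only [if_pos h]
      exact Measure.measurePreserving_swap
    · simp only [if_neg h]
      exact MeasurePreserving.id _
  exact e.comp ((measurePreserving_pi _ _ hswap).comp e.symm)

/-- Efron–Stein for a partition of the coordinates. -/
theorem gauss_efron_stein {β : Type} [Fintype β] [DecidableEq β] (p : ι → β) {F : (ι → ℝ) → ℝ}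
    (hF : MemLp F 2 (gauss ι)) :
    variance F (gauss ι) ≤ (1 / 2) * ∑ b, ∫ z, ∫ z',
      (F z - F (fun i => if p i = b then z' i else z i)) ^ 2 ∂gauss ι ∂gauss ι := by
  classical
  set P := (gauss ι).prod (gauss ι)
  let T : Finset β → (ι → ℝ) × (ι → ℝ) → (ι → ℝ) × (ι → ℝ) :=
    fun s q => (mix (fun i => p i ∈ s) q.1 q.2, mix (fun i => p i ∈ s) q.2 q.1)
  have hT : ∀ s, MeasurePreserving (T s) P P := fun s => measurePreserving_mix _
  let F₁ : (ι → ℝ) × (ι → ℝ) → ℝ := fun q => F q.1
  have hF₁ : MemLp F₁ 2 P := hF.comp_measurePreserving measurePreserving_fst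
  have hG : ∀ s, MemLp (F₁ ∘ T s) 2 P := fun s => hF₁.comp_measurePreserving (hT s)
  let E2 : β → ℝ := fun b => ∫ q, (F₁ q - F₁ (T {b} q)) ^ 2 ∂P
  have key : ∀ s : Finset β,
      ∫ q, F₁ q * (F₁ q - F₁ (T s q)) ∂P ≤ ∑ b ∈ s, (1 / 2) * E2 b := by
    intro s
    induction s using Finset.induction_on with
    | empty =>
      simp [T, mix_none]
    | @insert b s hb ih =>
      let u : (ι → ℝ) × (ι → ℝ) → ℝ := fun q => F₁ q - F₁ (T {b} q)
      let w : (ι → ℝ) × (ι → ℝ) → ℝ := fun q => F₁ (T s q) - F₁ (T (insert b s) q)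
      have hu : MemLp u 2 P := hF₁.sub (hG {b})
      have hw : MemLp w 2 P := (hG s).sub (hG (insert b s))
      have i1 : Integrable (fun q => F₁ q * (F₁ q - F₁ (T s q))) P :=
        hF₁.integrable_mul (hF₁.sub (hG s))
      have i2 : Integrable (fun q => F₁ q * w q) P := hF₁.integrable_mul hw
      have i3 : Integrable (fun q => F₁ (T {b} q) * w q) P := (hG {b}).integrable_mul hw
      have hsplit : ∫ q, F₁ q * (F₁ q - F₁ (T (insert b s) q)) ∂P =
          ∫ q, F₁ q * (F₁ q - F₁ (T s q)) ∂P + ∫ q, F₁ q * w q ∂P := by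
        rw [← integral_add i1 i2]
        congr 1
        funext q
        simp only [w]
        ring
      have hflip : ∀ q, T s (T {b} q) = T (insert b s) q ∧ T (insert b s) (T {b} q) = T s q ∧
          T {b} (T s q) = T (insert b s) q := by
        intro q
        refine ⟨?_, ?_, ?_⟩ <;>
          · refine Prod.ext ?_ ?_ <;> funext i <;>
              by_cases h1 : p i = b <;> by_cases h2 : p i ∈ s <;>
              simp_all [T, mix]
      have hanti : ∫ q, F₁ q * w q ∂P = -∫ q, F₁ (T {b} q) * w q ∂P := by
        rw [← integral_neg]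
        conv_lhs => rw [← (hT {b}).map_eq]
        rw [integral_map (hT {b}).measurable.aemeasurable
          (by rw [(hT {b}).map_eq]; exact i2.aestronglyMeasurable)]
        congr 1
        funext q
        simp only [w, (hflip q).1, (hflip q).2.1]
        ring
      have hw2 : ∫ q, w q ^ 2 ∂P = E2 b := by
        have hiu : Integrable (fun q => u q ^ 2) P := hu.integrable_sq
        show _ = ∫ q, u q ^ 2 ∂P
        conv_rhs => rw [← (hT s).map_eq]
        rw [integral_map (hT s).measurable.aemeasurable
          (by rw [(hT s).map_eq]; exact hiu.aestronglyMeasurable)]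
        congr 1
        funext q
        simp only [u, w, (hflip q).2.2]
      have hle : 2 * ∫ q, F₁ q * w q ∂P ≤ (1 / 2) * (∫ q, u q ^ 2 ∂P) + (1 / 2) * ∫ q, w q ^ 2 ∂P := by
        have e : 2 * ∫ q, F₁ q * w q ∂P = ∫ q, u q * w q ∂P := by
          rw [two_mul]
          nth_rewrite 2 [hanti]
          rw [← sub_eq_add_neg, ← integral_sub i2 i3]
          congr 1
          funext q
          simp only [u]
          ring
        rw [e, ← integral_const_mul, ← integral_const_mul,
          ← integral_add (hu.integrable_sq.const_mul _) (hw.integrable_sq.const_mul _)]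
        exact integral_mono (hu.integrable_mul hw)
          ((hu.integrable_sq.const_mul _).add (hw.integrable_sq.const_mul _))
          fun q => by nlinarith [sq_nonneg (u q - w q)]
      rw [hsplit, sum_insert hb]
      rw [hw2] at hle
      have : ∫ q, u q ^ 2 ∂P = E2 b := rfl
      linarith
  have hI : Integrable F (gauss ι) := hF.integrable one_le_two
  have hvar : variance F (gauss ι) = ∫ q, F₁ q * (F₁ q - F₁ (T univ q)) ∂P := by
    have i0 : Integrable (fun q => F₁ q * F₁ q) P := hF₁.integrable_mul hF₁
    have i1 : Integrable (fun q => F₁ q * F₁ (T univ q)) P := hF₁.integrable_mul (hG univ)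
    simp only [mul_sub]
    rw [integral_sub i0 i1, variance_eq_sub hF]
    have hcross : ∫ q, F₁ q * F₁ (T univ q) ∂P = (∫ z, F z ∂gauss ι) ^ 2 := by
      rw [sq, ← integral_prod_mul F F]
      congr 1
      funext q
      simp [F₁, T, mix_all]
    rw [hcross]
    congr 1
    have h2 : ∫ q, F₁ q * F₁ q ∂P = ∫ z, F z ^ 2 ∂gauss ι := by
      simp only [sq]
      rw [integral_fun_fst (fun z => F z * F z)]
      simp
    rw [h2]
    rfl
  rw [hvar, mul_sum]
  refine (key univ).trans (le_of_eq (sum_congr rfl fun b _ => ?_))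
  congr 1
  rw [show E2 b = ∫ q, (F₁ q - F₁ (T {b} q)) ^ 2 ∂P from rfl,
    integral_prod (fun q => (F₁ q - F₁ (T {b} q)) ^ 2) ((hF₁.sub (hG {b})).integrable_sq)]
  congr 1
  funext z
  congr 1
  funext z'
  simp only [F₁, T]
  congr 3
  funext i
  simp [mix]

end Vale.Agent.P157.Parisi
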