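import Mathlib

/-!
The variational formula for the free energy of the Gaussian perceptron.

For a number of levels `K`, a path is `q 0 ≤ ... ≤ q K` with the weights `1 / (K + 1)`; level `l`
carries the parameter `lvl K l = l / (K + 1)`.
-/

namespace Vale.Agent.P157.Parisi

open MeasureTheory ProbabilityTheory

/-- The parameter of level `l` out of `K`. -/
noncomputable def lvl (K l : ℕ) : ℝ := (l : ℝ) / ((K : ℝ) + 1)

/-- One step of the recursion: `(1/m) log E exp (m u (y + √v z))` with `z` standard Gaussian. -/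
noncomputable def gaussStep (m v : ℝ) (u : ℝ → ℝ) (y : ℝ) : ℝ :=
  m⁻¹ * Real.log (∫ z, Real.exp (m * u (y + Real.sqrt v * z)) ∂gaussianReal 0 1)

/-- The function at level `K - d` of the recursion along `q` which starts from `u` at level `K`. -/
noncomputable def descend (K : ℕ) (q : ℕ → ℝ) (u : ℝ → ℝ) : ℕ → ℝ → ℝ
  | 0 => u
  | d + 1 => gaussStep (lvl K (K - d)) (q (K - d) - q (K - d - 1)) (descend K q u d)

/-- The value of the recursion along `q` at the root. -/
noncomputable def cascade (K : ℕ) (q : ℕ → ℝ) (u : ℝ → ℝ) : ℝ :=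
  ∫ z, descend K q u K (Real.sqrt (q 0) * z) ∂gaussianReal 0 1

/-- The energy term: the recursion applied to the weight `exp f`. -/
noncomputable def energy (f : ℝ → ℝ) (K : ℕ) (q : ℕ → ℝ) : ℝ :=
  cascade K q fun y =>
    Real.log (∫ z, Real.exp (f (y + Real.sqrt (1 - q K) * z)) ∂gaussianReal 0 1)

/-- Nondecreasing, nonnegative paths. -/
def IsPath (h : ℕ → ℝ) : Prop := Monotone h ∧ 0 ≤ h 0

/-- Free energy of one uniform spin `±1` in a hierarchical field with variance path `h`. -/
noncomputable def isingField (K : ℕ) (h : ℕ → ℝ) : ℝ :=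
  cascade K h (fun y => Real.log (Real.cosh y)) - h K / 2

/-- The entropy term for the Ising cube. -/
noncomputable def isingEntropy (K : ℕ) (q : ℕ → ℝ) : ℝ :=
  ⨆ h : {h : ℕ → ℝ // IsPath h},
    isingField K h.1 + (∑ l ∈ Finset.range (K + 1), h.1 l * q l) / (2 * ((K : ℝ) + 1))

/-- `∫_{q l}^1` of the distribution function of the path. -/
noncomputable def tailMass (K : ℕ) (q : ℕ → ℝ) (l : ℕ) : ℝ :=
  1 - q K + ∑ m ∈ Finset.Ico l K, lvl K (m + 1) * (q (m + 1) - q m)

/-- The entropy term for the sphere (Crisanti–Sommers). -/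
noncomputable def sphereEntropy (K : ℕ) (q : ℕ → ℝ) : ℝ :=
  (q 0 / tailMass K q 0
    + (∑ l ∈ Finset.range K,
        (lvl K (l + 1))⁻¹ * Real.log (tailMass K q l / tailMass K q (l + 1)))
    + Real.log (1 - q K)) / 2

/-- The variational formula for a given entropy term. -/
noncomputable def variationalValue (S : ℕ → (ℕ → ℝ) → ℝ) (f : ℝ → ℝ) (α : ℝ) : ℝ :=
  sInf {v | ∃ K q, IsPath q ∧ q K < 1 ∧ v = S K q + α * energy f K q}

/-- The predicted limit on the Ising cube. -/
noncomputable def isingValue (f : ℝ → ℝ) (α : ℝ) : ℝ := variationalValue isingEntropy f α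

/-- The predicted limit on the sphere. -/
noncomputable def sphereValue (f : ℝ → ℝ) (α : ℝ) : ℝ := variationalValue sphereEntropy f α

end Vale.Agent.P157.Parisi
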