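import Vale.Agent.P157.Parisi.Defs
import Vale.Agent.P157.Parisi.Formula
import Vale.Agent.P157.SphereLimit

/-!
The perceptron with hierarchical fields on the configurations and on the patterns, and the field of
one block of spins.
-/

namespace Vale.Agent.P157.Parisi

open MeasureTheory ProbabilityTheory Finset

/-- Coordinates: pattern entries, configuration fields, pattern fields. -/
abbrev PIdx (M : ℕ) (δ : Type) := (Fin M × δ) ⊕ δ ⊕ Fin M

/-- A point of the sphere of radius `√n`: rescaling, or the all-ones vector at the origin. -/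
noncomputable def normBlock {n : ℕ} (σ : Fin n → ℝ) (i : Fin n) : ℝ :=
  if ∑ k, σ k ^ 2 = 0 then 1 else Real.sqrt n * σ i / Real.sqrt (∑ k, σ k ^ 2)

variable {δ : Type} [Fintype δ]

/-- The coefficient of coordinate `i` in the argument of term `j`, for the configuration `σ`. -/
def percCoef (M : ℕ) (σ : δ → ℝ) : Fin M ⊕ Unit → PIdx M δ → ℝ
  | Sum.inl a, Sum.inl (b, i) => if a = b then σ i else 0
  | Sum.inl a, Sum.inr (Sum.inr b) => if a = b then 1 else 0
  | Sum.inl _, Sum.inr (Sum.inl _) => 0
  | Sum.inr _, Sum.inr (Sum.inl i) => σ i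
  | Sum.inr _, _ => 0

/-- The leaf of the perceptron with potential `φ`. -/
def percLeaf {Ω : Type} (φ φ1 φ2 : ℝ → ℝ) (spin : Ω → δ → ℝ) (M : ℕ) :
    Leaf Ω (Fin M ⊕ Unit) (PIdx M δ) where
  a ω := percCoef M (spin ω)
  φ j := Sum.elim (fun _ => φ) (fun _ z => z) j
  φ1 j := Sum.elim (fun _ => φ1) (fun _ _ => 1) j
  φ2 j := Sum.elim (fun _ => φ2) (fun _ _ => 0) j

/-- The amplitudes: pattern entries (level 0 only), configuration fields, pattern fields. -/
def percAmp {M : ℕ} (g : Fin M → δ → ℝ) (s : ℕ → δ → ℝ) (c : ℕ → Fin M → ℝ) :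
    ℕ → PIdx M δ → ℝ
  | l, Sum.inl (a, i) => if l = 0 then g a i else 0
  | l, Sum.inr (Sum.inl i) => s l i
  | l, Sum.inr (Sum.inr a) => c l a

/-- The parameters with one additional last level, of weight zero. -/
noncomputable def gridX (K l : ℕ) : ℝ := min 1 (lvl K l)

/-- The hierarchy of the perceptron: `K + 1` levels and the uniform grid. -/
noncomputable def percNest (K : ℕ) {M : ℕ} (g : Fin M → δ → ℝ) (s : ℕ → δ → ℝ)
    (c : ℕ → Fin M → ℝ) : Nest (PIdx M δ) where
  K := K + 1
  x := gridX K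
  amp := percAmp g s c

/-- The hierarchy of one block of `n` spins in a field with variance path `h`. -/
noncomputable def blockNest (n K : ℕ) (h : ℕ → ℝ) : Nest (Fin n) where
  K := K
  x := gridX K
  amp l _ := if l = 0 then Real.sqrt (h 0) else Real.sqrt (h l - h (l - 1))

/-- The leaf of one block. -/
noncomputable def blockLeaf (n : ℕ) : Leaf (Fin n → ℝ) Unit (Fin n) where
  a σ _ i := normBlock σ i
  φ _ z := z
  φ1 _ _ := 1
  φ2 _ _ := 0

/-- The normalised free energy of one block of `n` spins in the field `h`. -/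
noncomputable def blockField (n K : ℕ) (h : ℕ → ℝ) : ℝ :=
  (blockNest n K h).free (blockLeaf n) (sphereUnif n) / n - h K / 2

/-- The entropy term of blocks of `n` spins. -/
noncomputable def blockEntropy (n K : ℕ) (q : ℕ → ℝ) : ℝ :=
  ⨆ h : {h : ℕ → ℝ // IsPath h},
    blockField n K h.1 + (∑ l ∈ Finset.range (K + 1), h.1 l * q l) / (2 * ((K : ℝ) + 1))

/-- The free energy of the sphere in the field `h`. -/
noncomputable def sphereField (K : ℕ) (h : ℕ → ℝ) : ℝ :=
  sInf {v | ∃ q, IsPath q ∧ q K < 1 ∧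
    v = sphereEntropy K q - (∑ l ∈ Finset.range (K + 1), h l * q l) / (2 * ((K : ℝ) + 1))}

/-- `N` blocks of `n` spins, each uniform on its sphere. -/
noncomputable def blockPrior (n N : ℕ) : Measure (Fin N × Fin n → ℝ) :=
  (Measure.pi fun _ : Fin N => sphereUnif n).map fun x p => x p.1 p.2

/-- The configurations of `N` blocks. -/
noncomputable def blockSpin (n N : ℕ) (ω : Fin N → Fin n → ℝ) (p : Fin N × Fin n) : ℝ :=
  normBlock (ω p.1) p.2

/-- The law of `N` independent blocks. -/
noncomputable def blockLaw (n N : ℕ) : Measure (Fin N → Fin n → ℝ) :=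
  Measure.pi fun _ => sphereUnif n

/-- The pressure of `M` patterns on a prior `ν`. -/
noncomputable def priorPressure (f : ℝ → ℝ) (M : ℕ) (ν : Measure (δ → ℝ)) : ℝ :=
  (∫ G, Real.log (∫ x, Real.exp (∑ a, f ((∑ i, G a i * x i) / Real.sqrt (Fintype.card δ))) ∂ν)
    ∂Measure.pi fun _ : Fin M => gauss δ) / Fintype.card δ

end Vale.Agent.P157.Parisi
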