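import Vale.Agent.P157.Parisi.Quant
import Vale.Agent.P157.Parisi.Model

/-! Vocabulary of module D (the perceptron model). -/

namespace Vale.Agent.P157.Parisi

open MeasureTheory ProbabilityTheory Finset

/-- Spins on the sphere of squared radius the number of coordinates, each bounded by `R`. -/
structure SpinSys {Ω δ : Type} [MeasurableSpace Ω] [Fintype δ] (spin : Ω → δ → ℝ) (R : ℝ) :
    Prop where
  meas : ∀ i, Measurable fun ω => spin ω i
  bound : ∀ ω i, |spin ω i| ≤ R
  norm_sq : ∀ ω, ∑ i, spin ω i ^ 2 = (Fintype.card δ : ℝ)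

/-- A smooth bounded potential. -/
structure PhiGood (φ φ1 φ2 : ℝ → ℝ) (B : ℝ) : Prop where
  one_le : 1 ≤ B
  deriv1 : ∀ z, HasDerivAt φ (φ1 z) z
  deriv2 : ∀ z, HasDerivAt φ1 (φ2 z) z
  cont2 : Continuous φ2
  bound0 : ∀ z, |φ z| ≤ B
  bound1 : ∀ z, |φ1 z| ≤ B
  bound2 : ∀ z, |φ2 z| ≤ B

/-- The configuration coordinates. -/
def ySet (M : ℕ) {δ : Type} [Fintype δ] [DecidableEq δ] (s : Finset δ) : Finset (PIdx M δ) :=
  s.image fun i => Sum.inr (Sum.inl i)

/-- The pattern coordinates. -/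
def cSet (M : ℕ) {δ : Type} [Fintype δ] [DecidableEq δ] : Finset (PIdx M δ) :=
  univ.image fun a => Sum.inr (Sum.inr a)

/-- The free energy of a single pattern: one coordinate, leaf potential `φ`, amplitudes `v`. -/
noncomputable def oneFree (φ φ1 φ2 : ℝ → ℝ) (K : ℕ) (v : ℕ → ℝ) : ℝ :=
  ({ K := K + 1, x := gridX K, amp := fun l _ => v l } : Nest Unit).free
    ({ a := fun _ _ _ => 1, φ := fun _ => φ, φ1 := fun _ => φ1, φ2 := fun _ => φ2 } :
      Leaf Unit Unit Unit) (Measure.dirac ())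

/-- The amplitudes of a single pattern for the path `q`. -/
noncomputable def pathAmp (K : ℕ) (q : ℕ → ℝ) (l : ℕ) : ℝ :=
  if l = 0 then Real.sqrt (q 0)
  else if l = K + 1 then Real.sqrt (1 - q K) else Real.sqrt (q l - q (l - 1))

section

variable {Ω δ : Type} [MeasurableSpace Ω] [Fintype δ] [DecidableEq δ]
variable {φ φ1 φ2 : ℝ → ℝ} {spin : Ω → δ → ℝ} {μ : Measure Ω} [IsProbabilityMeasure μ] {R B : ℝ}
variable (hφ : PhiGood φ φ1 φ2 B) (hs : SpinSys spin R)

include hφ hs

/-! ### D2: insertion of a pattern -/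

/-- Pattern entries along the insertion: the last pattern has variance `t / D`. -/
noncomputable def insG (M : ℕ) (g : Fin M → δ → ℝ) (t : ℝ) : Fin (M + 1) → δ → ℝ :=
  Fin.snoc g fun _ => Real.sqrt (t / Fintype.card δ)

/-- Pattern fields along the insertion. -/
noncomputable def insC (K M : ℕ) (c : ℕ → Fin M → ℝ) (e q : ℕ → ℝ) (t : ℝ) (l : ℕ) :
    Fin (M + 1) → ℝ :=
  Fin.snoc (c l) (Real.sqrt (e l ^ 2 + (1 - t) * pathAmp K q l ^ 2))

end

/-! ### D3: bridges to the formula -/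

/-! ### D4: the cavity in the coordinates -/

section

variable {φ φ1 φ2 : ℝ → ℝ} {B : ℝ} (hφ : PhiGood φ φ1 φ2 B) {n N m : ℕ}
variable (hn : 0 < n) (hN : 0 < N) (hm : 0 < m)

include hφ hn hN hm

/-- The fraction of the new coordinates. -/
noncomputable def cavT (N m : ℕ) : ℝ := (m : ℝ) / ((N : ℝ) + m)

/-- Pattern entries along the cavity interpolation. -/
noncomputable def cavG (n N m M : ℕ) (t : ℝ) : Fin M → Fin (N + m) × Fin n → ℝ :=
  fun _ p => if (p.1 : ℕ) < N then Real.sqrt ((1 - t * cavT N m) / ((n : ℝ) * N))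
    else Real.sqrt (t * cavT N m / ((n : ℝ) * m))

/-- Configuration fields along the cavity interpolation: `s` old, `e` own field of the new blocks. -/
noncomputable def cavS (n N m K : ℕ) (s e h : ℕ → ℝ) (t : ℝ) (l : ℕ) :
    Fin (N + m) × Fin n → ℝ :=
  fun p => if (p.1 : ℕ) < N then s l
    else Real.sqrt (e l ^ 2 + (1 - t) *
      (if l = 0 then h 0 else if l ≤ K then h l - h (l - 1) else 0))

/-- The hierarchy along the cavity interpolation. -/
noncomputable def cavNest (n N m K M : ℕ) (s e h : ℕ → ℝ) (c : ℕ → Fin M → ℝ) (t : ℝ) :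
    Nest (PIdx M (Fin (N + m) × Fin n)) :=
  percNest K (cavG n N m M t) (cavS n N m K s e h t) c

end

end Vale.Agent.P157.Parisi
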