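import Vale.Agent.P157.Parisi.CalcIBP
import Vale.Agent.P157.Parisi.EfronStein
import Vale.Agent.P157.Parisi.ModelDefs
import Vale.Agent.P157.Spaces

/-!
Bounds and comparisons for the hierarchies of the perceptron model.
-/

set_option linter.unusedSectionVars false

namespace Vale.Agent.P157.Parisi.ModelFacts

open MeasureTheory ProbabilityTheory Finset

variable {ι : Type} [Fintype ι]

/-! ### Gaussian integrals of functions of linear growth -/

lemma integrable_exp_abs (a : ι → ℝ) :
    Integrable (fun z => Real.exp (∑ i, a i * |z i|)) (gauss ι) := by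
  simp only [Real.exp_sum]
  exact Integrable.fintype_prod (f := fun i x => Real.exp (a i * |x|)) fun i =>
    integrable_exp_mul_abs (X := fun x : ℝ => x) (integrable_exp_mul_gaussianReal _)
      (integrable_exp_mul_gaussianReal _)

/-- Continuous functions of at most linear growth. -/
def LinB (U : (ι → ℝ) → ℝ) : Prop :=
  Continuous U ∧ ∃ C k : ℝ, 0 ≤ C ∧ 0 ≤ k ∧ ∀ y, |U y| ≤ C + k * ∑ i, |y i|

lemma continuous_move (s : ι → ℝ) : Continuous fun p : (ι → ℝ) × (ι → ℝ) => move s p.1 p.2 := by
  unfold move; fun_prop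

lemma sum_abs_move (s y z : ι → ℝ) :
    ∑ i, |move s y z i| ≤ ∑ i, |y i| + ∑ i, |s i| * |z i| := by
  rw [← sum_add_distrib]
  exact sum_le_sum fun i _ => (abs_add_le _ _).trans (by rw [abs_mul])

lemma exp_move_le {U : (ι → ℝ) → ℝ} {C k : ℝ} (hk : 0 ≤ k) (hb : ∀ y, |U y| ≤ C + k * ∑ i, |y i|)
    (m : ℝ) (s y z : ι → ℝ) :
    Real.exp (m * U (move s y z)) ≤
      Real.exp (|m| * (C + k * ∑ i, |y i|)) * Real.exp (∑ i, |m| * k * |s i| * |z i|) := by
  rw [← Real.exp_add]
  refine Real.exp_le_exp.2 ((le_abs_self _).trans ?_)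
  rw [abs_mul]
  refine (mul_le_mul_of_nonneg_left ((hb _).trans (add_le_add le_rfl
    (mul_le_mul_of_nonneg_left (sum_abs_move s y z) hk))) (abs_nonneg m)).trans (le_of_eq ?_)
  simp only [mul_add, mul_sum]
  rw [← add_assoc]
  congr 1
  exact sum_congr rfl fun i _ => by ring

lemma integrable_exp_move {U : (ι → ℝ) → ℝ} (hU : LinB U) (m : ℝ) (s y : ι → ℝ) :
    Integrable (fun z => Real.exp (m * U (move s y z))) (gauss ι) := by
  obtain ⟨hc, C, k, -, hk, hb⟩ := hU
  refine ((integrable_exp_abs fun i => |m| * k * |s i|).const_mul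
    (Real.exp (|m| * (C + k * ∑ i, |y i|)))).mono' ?_ (.of_forall fun z => ?_)
  · exact (Real.continuous_exp.comp (continuous_const.mul
      (hc.comp ((continuous_move s).comp (continuous_const.prodMk continuous_id))))).aestronglyMeasurable
  · rw [Real.norm_eq_abs, Real.abs_exp]
    exact exp_move_le hk hb m s y z

lemma integral_exp_move_pos {U : (ι → ℝ) → ℝ} (hU : LinB U) (m : ℝ) (s y : ι → ℝ) :
    0 < ∫ z, Real.exp (m * U (move s y z)) ∂gauss ι :=
  integral_exp_pos (integrable_exp_move hU m s y)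

lemma stepLog_linB {U : (ι → ℝ) → ℝ} (hU : LinB U) (m : ℝ) (s : ι → ℝ) :
    LinB (stepLog m s U) := by
  have hU' := hU
  obtain ⟨hc, C, k, hC, hk, hb⟩ := hU'
  set J := ∫ z, Real.exp (∑ i, |m| * k * |s i| * |z i|) ∂gauss ι
  set J' := ∫ z, Real.exp (∑ i, -(|m| * k * |s i|) * |z i|) ∂gauss ι
  have hint : Continuous fun y => ∫ z, Real.exp (m * U (move s y z)) ∂gauss ι := by
    refine continuous_iff_continuousAt.2 fun y₀ => ?_
    refine continuousAt_of_dominated (bound := fun z =>
      Real.exp (|m| * (C + k * (∑ i, |y₀ i| + 1))) * Real.exp (∑ i, |m| * k * |s i| * |z i|))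
      (.of_forall fun y => (integrable_exp_move hU m s y).aestronglyMeasurable) ?_ ?_
      (.of_forall fun z => ?_)
    · have h1 : Continuous fun y : ι → ℝ => ∑ i, |y i| := by fun_prop
      filter_upwards [h1.continuousAt.eventually (eventually_lt_nhds
        (show ∑ i, |y₀ i| < ∑ i, |y₀ i| + 1 by linarith))] with y hy
      refine .of_forall fun z => ?_
      rw [Real.norm_eq_abs, Real.abs_exp]
      refine (exp_move_le hk hb m s y z).trans (mul_le_mul_of_nonneg_right ?_ (Real.exp_pos _).le)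
      gcongr
    · exact ((integrable_exp_abs fun i => |m| * k * |s i|).const_mul _)
    · exact (Real.continuous_exp.comp (continuous_const.mul
        (hc.comp ((continuous_move s).comp (continuous_id.prodMk continuous_const))))).continuousAt
  refine ⟨continuous_const.mul (hint.log fun y => (integral_exp_move_pos hU m s y).ne'), ?_⟩
  refine ⟨|m⁻¹| * (|m| * C + |Real.log J| + |Real.log J'|), |m⁻¹| * (|m| * k),
    by positivity, by positivity, fun y => ?_⟩
  have hJ : 0 < J := integral_exp_pos (integrable_exp_abs _)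
  have hJ' : 0 < J' := integral_exp_pos (integrable_exp_abs _)
  have hpos := integral_exp_move_pos hU m s y
  set A := |m| * (C + k * ∑ i, |y i|) with hA
  have hup : ∫ z, Real.exp (m * U (move s y z)) ∂gauss ι ≤ Real.exp A * J := by
    rw [← integral_const_mul]
    exact integral_mono (integrable_exp_move hU m s y) ((integrable_exp_abs _).const_mul _)
      fun z => exp_move_le hk hb m s y z
  have hlo : Real.exp (-A) * J' ≤ ∫ z, Real.exp (m * U (move s y z)) ∂gauss ι := by
    rw [← integral_const_mul]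
    refine integral_mono ((integrable_exp_abs _).const_mul _) (integrable_exp_move hU m s y)
      fun z => ?_
    have h1 := exp_move_le hk hb (-m) s y z
    simp only [abs_neg, neg_mul, Real.exp_neg, sum_neg_distrib] at h1 ⊢
    rw [← mul_inv]
    exact inv_le_of_inv_le₀ (Real.exp_pos _) h1
  have h1 : Real.log (∫ z, Real.exp (m * U (move s y z)) ∂gauss ι) ≤ A + Real.log J := by
    refine (Real.log_le_log hpos hup).trans (le_of_eq ?_)
    rw [Real.log_mul (Real.exp_pos _).ne' hJ.ne', Real.log_exp]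
  have h2 : -A + Real.log J' ≤ Real.log (∫ z, Real.exp (m * U (move s y z)) ∂gauss ι) := by
    refine le_trans (le_of_eq ?_) (Real.log_le_log (by positivity) hlo)
    rw [Real.log_mul (Real.exp_pos _).ne' hJ'.ne', Real.log_exp]
  rw [stepLog, abs_mul, mul_assoc, ← mul_add]
  refine mul_le_mul_of_nonneg_left ?_ (abs_nonneg _)
  have := le_abs_self (Real.log J)
  have := neg_abs_le (Real.log J')
  have := abs_nonneg (Real.log J)
  have := abs_nonneg (Real.log J')
  rw [abs_le, hA] at *
  constructor <;> nlinarith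

lemma linB_uUp (N : Nest ι) {U : (ι → ℝ) → ℝ} (hU : LinB U) : ∀ d, LinB (N.uUp U d)
  | 0 => hU
  | d + 1 => stepLog_linB (linB_uUp N hU d) _ _

lemma linB_const_add {U : (ι → ℝ) → ℝ} (hU : LinB U) (v : ι → ℝ) :
    LinB fun y => U fun i => y i + v i := by
  obtain ⟨hc, C, k, hC, hk, hb⟩ := hU
  refine ⟨hc.comp (by fun_prop), C + k * ∑ i, |v i|, k, by positivity, hk, fun y => ?_⟩
  refine (hb _).trans ?_
  have : ∑ i, |y i + v i| ≤ ∑ i, |y i| + ∑ i, |v i| := by
    rw [← sum_add_distrib]; exact sum_le_sum fun i _ => abs_add_le _ _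
  nlinarith

lemma integrable_of_linB {U : (ι → ℝ) → ℝ} (hU : LinB U) (a : ι → ℝ) :
    MemLp (fun z => U fun i => a i * z i) 2 (gauss ι) := by
  obtain ⟨hc, C, k, hC, hk, hb⟩ := hU
  have hcont : Continuous fun z : ι → ℝ => U fun i => a i * z i := hc.comp (by fun_prop)
  rw [memLp_two_iff_integrable_sq hcont.aestronglyMeasurable]
  refine ((integrable_exp_abs fun i => 2 * k * |a i|).const_mul (Real.exp (2 * C))).mono'
    (hcont.pow 2).aestronglyMeasurable (.of_forall fun z => ?_)
  rw [Real.norm_eq_abs, abs_pow]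
  have h1 := hb fun i => a i * z i
  set w := C + k * ∑ i, |a i * z i| with hw
  have h2 : w ≤ Real.exp w := by linarith [Real.add_one_le_exp w]
  calc |U fun i => a i * z i| ^ 2 ≤ Real.exp w ^ 2 :=
        pow_le_pow_left₀ (abs_nonneg _) (h1.trans h2) 2
    _ = _ := by
        rw [← Real.exp_nat_mul, ← Real.exp_add, hw]
        congr 1
        simp only [mul_sum, mul_add, abs_mul]
        push_cast
        congr 1
        exact sum_congr rfl fun i _ => by ring

/-! ### Comparisons of two recursions -/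

lemma stepLog_le_add {U U' : (ι → ℝ) → ℝ} (hU : LinB U) (hU' : LinB U') {m c : ℝ} (hm : 0 < m)
    (h : ∀ y, U y ≤ U' y + c) (s y : ι → ℝ) : stepLog m s U y ≤ stepLog m s U' y + c := by
  have h1 : Real.log (∫ z, Real.exp (m * U (move s y z)) ∂gauss ι) ≤
      m * c + Real.log (∫ z, Real.exp (m * U' (move s y z)) ∂gauss ι) := by
    refine (Real.log_le_log (integral_exp_move_pos hU m s y) ((integral_mono
      (g := fun z => Real.exp (m * c) * Real.exp (m * U' (move s y z)))
      (integrable_exp_move hU m s y) ((integrable_exp_move hU' m s y).const_mul _)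
      fun z => ?_).trans_eq (integral_const_mul _ _))).trans (le_of_eq ?_)
    · beta_reduce
      rw [← Real.exp_add, ← mul_add, add_comm c]
      exact Real.exp_le_exp.2 (mul_le_mul_of_nonneg_left (h _) hm.le)
    · rw [Real.log_mul (Real.exp_pos _).ne' (integral_exp_move_pos hU' m s y).ne', Real.log_exp]
  unfold stepLog
  rw [inv_mul_le_iff₀ hm, mul_add, mul_inv_cancel_left₀ hm.ne']
  linarith

lemma uUp_le_add {N : Nest ι} (hN : N.Good) {U U' : (ι → ℝ) → ℝ} (hU : LinB U) (hU' : LinB U')
    {c : ℝ} (h : ∀ y, U y ≤ U' y + c) :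
    ∀ d ≤ N.K, ∀ y, N.uUp U d y ≤ N.uUp U' d y + c
  | 0, _, y => h y
  | d + 1, hd, y =>
    stepLog_le_add (linB_uUp N hU d) (linB_uUp N hU' d) (hN.x_pos _ (by omega) (by omega))
      (uUp_le_add hN hU hU' h d (by omega)) _ y

lemma u_close {N : Nest ι} (hN : N.Good) {U U' : (ι → ℝ) → ℝ} (hU : LinB U) (hU' : LinB U')
    {c : ℝ} (h : ∀ y, |U y - U' y| ≤ c) (y : ι → ℝ) : |N.u U 0 y - N.u U' 0 y| ≤ c := by
  rw [abs_le, Nest.u, Nest.u, Nat.sub_zero]
  constructor
  · linarith [uUp_le_add hN hU' hU (fun y => by linarith [(abs_le.1 (h y)).1]) _ le_rfl y]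
  · linarith [uUp_le_add hN hU hU' (fun y => by linarith [(abs_le.1 (h y)).2]) _ le_rfl y]

lemma uUp_shift (N : Nest ι) (U : (ι → ℝ) → ℝ) (v : ι → ℝ) :
    ∀ d y, N.uUp (fun w => U fun i => w i + v i) d y = N.uUp U d fun i => y i + v i
  | 0, y => rfl
  | d + 1, y => by
    simp only [Nest.uUp, stepLog, uUp_shift N U v d]
    unfold move
    simp only [add_right_comm]

lemma u_shift_close {N : Nest ι} (hN : N.Good) {U : (ι → ℝ) → ℝ} (hU : LinB U) {v : ι → ℝ}
    {c : ℝ} (h : ∀ w, |U (fun i => w i + v i) - U w| ≤ c) (y : ι → ℝ) :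
    |N.u U 0 (fun i => y i + v i) - N.u U 0 y| ≤ c := by
  have := u_close hN (linB_const_add hU v) hU h y
  rwa [Nest.u, uUp_shift] at this

/-- Two hierarchies which agree off `S`, applied to a function which does not depend on `S`. -/
lemma uUp_congr_off {N N' : Nest ι} {U : (ι → ℝ) → ℝ} {S : Finset ι} (hK : N'.K = N.K)
    (hx : N'.x = N.x) (ha : ∀ l, ∀ i ∉ S, N'.amp l i = N.amp l i)
    (hU : ∀ y y', (∀ i ∉ S, y i = y' i) → U y = U y') :
    ∀ d, ∀ y y', (∀ i ∉ S, y i = y' i) → N'.uUp U d y = N.uUp U d y'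
  | 0, y, y', h => hU y y' h
  | d + 1, y, y', h => by
    have ih := uUp_congr_off hK hx ha hU d
    simp only [Nest.uUp, stepLog, hK, hx]
    congr 2
    refine integral_congr_ae (.of_forall fun z => ?_)
    simp only
    rw [ih _ (move (N.amp (N.K - d)) y' z) fun i hi => ?_]
    simp [move, h i hi, ha _ i hi]

lemma uUp_zero_amp [DecidableEq ι] {N : Nest ι} (hN : N.Good) (U : (ι → ℝ) → ℝ)
    (ha : ∀ l, 1 ≤ l → l ≤ N.K → ∀ i, N.amp l i = 0) : ∀ d ≤ N.K, N.uUp U d = U
  | 0, _ => rfl
  | d + 1, hd => by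
    funext y
    have hx := hN.x_pos (N.K - d) (by omega) (by omega)
    have hmove : ∀ z, move (N.amp (N.K - d)) y z = y := fun z => by
      funext i; simp [move, ha (N.K - d) (by omega) (by omega) i]
    simp [Nest.uUp, stepLog, uUp_zero_amp hN U ha d (by omega), hmove, hx.ne']

/-! ### The log-partition function -/

section leaf

variable {Ω κ : Type} [Fintype κ] [MeasurableSpace Ω]

lemma abs_loc_le {L : Leaf Ω κ ι} {B : ℝ} (hL : L.Good B) (ω : Ω) (y : ι → ℝ) (j : κ) :
    |L.loc ω y j| ≤ B * ∑ i, |y i| := by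
  rw [Leaf.loc, mul_sum]
  refine (abs_sum_le_sum_abs _ _).trans (sum_le_sum fun i _ => ?_)
  rw [abs_mul]
  exact mul_le_mul_of_nonneg_right (hL.bound ω j i) (abs_nonneg _)

lemma abs_phi_le {L : Leaf Ω κ ι} {B : ℝ} (hL : L.Good B) (j : κ) (z w : ℝ) :
    |L.φ j z - L.φ j w| ≤ B * |z - w| :=
  convex_univ.norm_image_sub_le_of_norm_hasDerivWithin_le
    (fun x _ => (hL.deriv1 j x).hasDerivWithinAt) (fun x _ => hL.bound1 j x)
    (Set.mem_univ w) (Set.mem_univ z)

lemma measurable_loc {L : Leaf Ω κ ι} {B : ℝ} (hL : L.Good B) (y : ι → ℝ) (j : κ) :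
    Measurable fun ω => L.loc ω y j :=
  Finset.measurable_sum _ fun i _ => (hL.meas j i).mul_const _

lemma measurable_ham {L : Leaf Ω κ ι} {B : ℝ} (hL : L.Good B) (y : ι → ℝ) :
    Measurable fun ω => L.ham ω y :=
  Finset.measurable_sum _ fun j _ =>
    (continuous_iff_continuousAt.2 fun z => (hL.deriv1 j z).continuousAt).measurable.comp
      (measurable_loc hL y j)

lemma abs_ham_le {L : Leaf Ω κ ι} {B : ℝ} (hL : L.Good B) (ω : Ω) (y : ι → ℝ) :
    |L.ham ω y| ≤ ∑ j, |L.φ j 0| + Fintype.card κ * B ^ 2 * ∑ i, |y i| := by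
  refine (abs_sum_le_sum_abs _ _).trans ?_
  calc ∑ j, |L.φ j (L.loc ω y j)| ≤ ∑ j, (|L.φ j 0| + B * (B * ∑ i, |y i|)) :=
        sum_le_sum fun j _ => by
          have h := abs_phi_le hL j (L.loc ω y j) 0
          rw [sub_zero] at h
          have := mul_le_mul_of_nonneg_left (abs_loc_le hL ω y j) hL.nonneg
          have := abs_sub_abs_le_abs_sub (L.φ j (L.loc ω y j)) (L.φ j 0)
          linarith
    _ = _ := by rw [sum_add_distrib, sum_const, card_univ, nsmul_eq_mul]; ring

lemma integrable_exp_ham_mul {L : Leaf Ω κ ι} {B : ℝ} (hL : L.Good B) (μ : Measure Ω)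
    [IsFiniteMeasure μ] (y : ι → ℝ) {g : Ω → ℝ} (hg : Measurable g) {C : ℝ} (hC : ∀ ω, |g ω| ≤ C) :
    Integrable (fun ω => Real.exp (L.ham ω y) * g ω) μ :=
  Integrable.of_bound ((Real.measurable_exp.comp (measurable_ham hL y)).mul hg).aestronglyMeasurable
    (Real.exp (∑ j, |L.φ j 0| + Fintype.card κ * B ^ 2 * ∑ i, |y i|) * C)
    (.of_forall fun ω => by
      rw [Real.norm_eq_abs, abs_mul, Real.abs_exp]
      exact mul_le_mul (Real.exp_le_exp.2 ((le_abs_self _).trans (abs_ham_le hL ω y))) (hC ω)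
        (abs_nonneg _) (Real.exp_pos _).le)

lemma integrable_exp_ham {L : Leaf Ω κ ι} {B : ℝ} (hL : L.Good B) (μ : Measure Ω)
    [IsFiniteMeasure μ] (y : ι → ℝ) : Integrable (fun ω => Real.exp (L.ham ω y)) μ := by
  simpa using integrable_exp_ham_mul hL μ y (g := fun _ => 1) measurable_const (C := 1)
    (fun _ => by simp)

variable (μ : Measure Ω) [IsProbabilityMeasure μ]

lemma log_integral_exp_close {F G : Ω → ℝ} (hF : Integrable (fun ω => Real.exp (F ω)) μ)
    (hG : Integrable (fun ω => Real.exp (G ω)) μ) {c : ℝ} (h : ∀ ω, |F ω - G ω| ≤ c) :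
    |Real.log (∫ ω, Real.exp (F ω) ∂μ) - Real.log (∫ ω, Real.exp (G ω) ∂μ)| ≤ c := by
  have key : ∀ {F G : Ω → ℝ}, Integrable (fun ω => Real.exp (F ω)) μ →
      Integrable (fun ω => Real.exp (G ω)) μ → (∀ ω, F ω ≤ c + G ω) →
      Real.log (∫ ω, Real.exp (F ω) ∂μ) ≤ c + Real.log (∫ ω, Real.exp (G ω) ∂μ) := by
    intro F G hF hG h
    refine (Real.log_le_log (integral_exp_pos hF) ((integral_mono hF (hG.const_mul (Real.exp c))
      fun ω => by rw [← Real.exp_add]; exact Real.exp_le_exp.2 (h ω)).trans_eq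
      (integral_const_mul _ _))).trans (le_of_eq ?_)
    rw [Real.log_mul (Real.exp_pos _).ne' (integral_exp_pos hG).ne', Real.log_exp]
  rw [abs_le]
  constructor
  · linarith [key hG hF fun ω => by linarith [(abs_le.1 (h ω)).1]]
  · linarith [key hF hG fun ω => by linarith [(abs_le.1 (h ω)).2]]

lemma linB_logZ {N : Nest ι} (hN : N.Good) {L : Leaf Ω κ ι} {B : ℝ} (hL : L.Good B) :
    LinB (L.logZ μ) := by
  refine ⟨(logZ_tame hN hL).1, ∑ j, |L.φ j 0|, Fintype.card κ * B ^ 2, by positivity,
    by positivity, fun y => ?_⟩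
  have h0 : Integrable (fun _ : Ω => Real.exp 0) μ := integrable_const _
  simpa [Leaf.logZ] using log_integral_exp_close μ (integrable_exp_ham hL μ y) h0
    (fun ω => by simpa using abs_ham_le hL ω y)

lemma free_eq (N : Nest ι) (L : Leaf Ω κ ι) :
    N.free L μ = ∫ z, N.u (L.logZ μ) 0 (fun i => N.amp 0 i * z i) ∂gauss ι := rfl

lemma integrable_root (N : Nest ι) {U : (ι → ℝ) → ℝ} (hU : LinB U) :
    MemLp (fun z => N.u U 0 fun i => N.amp 0 i * z i) 2 (gauss ι) :=
  integrable_of_linB (linB_uUp N hU _) _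

lemma free_close {N : Nest ι} (hN : N.Good) {L : Leaf Ω κ ι} {B : ℝ} (hL : L.Good B)
    {Ω' κ' : Type} [Fintype κ'] [MeasurableSpace Ω'] (μ' : Measure Ω') [IsProbabilityMeasure μ']
    {L' : Leaf Ω' κ' ι} {B' : ℝ} (hL' : L'.Good B') {c : ℝ}
    (h : ∀ y, |L.logZ μ y - L'.logZ μ' y| ≤ c) : |N.free L μ - N.free L' μ'| ≤ c := by
  have hU := linB_logZ μ hN hL
  have hU' := linB_logZ μ' hN hL'
  rw [free_eq, free_eq, ← integral_sub ((integrable_root N hU).integrable one_le_two)
    ((integrable_root N hU').integrable one_le_two)]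
  rw [← Real.norm_eq_abs]
  refine (norm_integral_le_of_norm_le_const (μ := gauss ι) (C := c) (.of_forall fun z => ?_)).trans
    (le_of_eq ?_)
  · exact (Real.norm_eq_abs _).trans_le (u_close hN hU hU' h _)
  simp

end leaf

/-! ### Sums -/

lemma sum_swap_tail (K : ℕ) (a b : ℕ → ℝ) :
    ∑ l ∈ range (K + 1), a l * ∑ m ∈ Icc l K, b m =
      ∑ m ∈ range (K + 1), b m * ∑ l ∈ range (m + 1), a l := by
  simp only [mul_sum]
  rw [sum_comm' (t' := range (K + 1)) (s' := fun m => range (m + 1))
    fun l m => by simp only [mem_range, mem_Icc]; omega]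
  exact sum_congr rfl fun m _ => sum_congr rfl fun l _ => mul_comm _ _

lemma tame_add {f g : (ι → ℝ) → ℝ} (hf : Tame f) (hg : Tame g) : Tame fun y => f y + g y := by
  obtain ⟨hfc, C, k, hf⟩ := hf
  obtain ⟨hgc, C', k', hg⟩ := hg
  refine ⟨hfc.add hgc, |C| + |C'|, max k k', fun y => (abs_add_le _ _).trans ?_⟩
  have hs : 0 ≤ ∑ i, |y i| := sum_nonneg fun _ _ => abs_nonneg _
  have h : ∀ C k : ℝ, k ≤ max k' k → C * Real.exp (k * ∑ i, |y i|) ≤
      |C| * Real.exp (max k' k * ∑ i, |y i|) := fun C k hk =>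
    (mul_le_mul_of_nonneg_right (le_abs_self C) (Real.exp_pos _).le).trans
      (mul_le_mul_of_nonneg_left (Real.exp_le_exp.2 (mul_le_mul_of_nonneg_right hk hs))
        (abs_nonneg C))
  rw [add_mul]
  refine add_le_add ((hf y).trans ?_) ((hg y).trans ?_)
  · exact (mul_le_mul_of_nonneg_right (le_abs_self C) (Real.exp_pos _).le).trans
      (mul_le_mul_of_nonneg_left (Real.exp_le_exp.2
        (mul_le_mul_of_nonneg_right (le_max_left _ _) hs)) (abs_nonneg C))
  · exact (mul_le_mul_of_nonneg_right (le_abs_self C') (Real.exp_pos _).le).trans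
      (mul_le_mul_of_nonneg_left (Real.exp_le_exp.2
        (mul_le_mul_of_nonneg_right (le_max_right _ _) hs)) (abs_nonneg C'))

lemma tame_sum {α : Type} (t : Finset α) {f : α → (ι → ℝ) → ℝ} (h : ∀ a ∈ t, Tame (f a)) :
    Tame fun y => ∑ a ∈ t, f a y := by
  classical
  induction t using Finset.induction_on with
  | empty => exact ⟨by simp [continuous_const], 0, 0, fun y => by simp⟩
  | @insert a t ha ih =>
    simp only [sum_insert ha]
    exact tame_add (h a (mem_insert_self _ _)) (ih fun b hb => h b (mem_insert_of_mem hb))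

end Vale.Agent.P157.Parisi.ModelFacts

namespace Vale.Agent.P157.Parisi.ModelFacts

open MeasureTheory ProbabilityTheory Finset

/-! ### Interpolation in the squared amplitudes -/

lemma sqrt_affine_deriv {α β t : ℝ} (hα : 0 ≤ α) (hβ : 0 ≤ β) (ht : t ∈ Set.Ioo (0 : ℝ) 1) :
    HasDerivAt (fun s => Real.sqrt ((1 - s) * α + s * β))
      ((β - α) / (2 * Real.sqrt ((1 - t) * α + t * β))) t := by
  have h : HasDerivAt (fun s : ℝ => (1 - s) * α + s * β) (β - α) t := by
    have h' := (((hasDerivAt_id' t).const_sub 1).mul_const α).add ((hasDerivAt_id' t).mul_const β)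
    exact h'.congr_deriv (by ring)
  rcases (add_nonneg (mul_nonneg (sub_nonneg.2 ht.2.le) hα) (mul_nonneg ht.1.le hβ)).eq_or_lt
    with h0 | h0
  · obtain ⟨ha, hb⟩ := (add_eq_zero_iff_of_nonneg (mul_nonneg (sub_nonneg.2 ht.2.le) hα)
      (mul_nonneg ht.1.le hβ)).1 h0.symm
    have hα0 : α = 0 := (mul_eq_zero.1 ha).resolve_left (by linarith [ht.2])
    have hβ0 : β = 0 := (mul_eq_zero.1 hb).resolve_left (by linarith [ht.1])
    subst hα0 hβ0
    simpa using hasDerivAt_const t (0 : ℝ)
  · exact h.sqrt h0.ne'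

/-- Each amplitude is constant or has an affine square. -/
def SqPath {ι : Type} (A : ℝ → ℕ → ι → ℝ) (Δ : ℕ → ι → ℝ) (l : ℕ) (i : ι) : Prop :=
  ((∃ a, ∀ t, A t l i = a) ∧ Δ l i = 0) ∨
    ∃ α β : ℝ, 0 ≤ α ∧ 0 ≤ β ∧ (∀ t, A t l i = Real.sqrt ((1 - t) * α + t * β)) ∧ Δ l i = β - α

variable {ι : Type} [Fintype ι] {Ω κ : Type} [Fintype κ] [MeasurableSpace Ω]

lemma continuous_sqPath {A : ℝ → ℕ → ι → ℝ} {Δ : ℕ → ι → ℝ} {l : ℕ} {i : ι}
    (h : SqPath A Δ l i) : Continuous fun t => A t l i := by
  rcases h with ⟨⟨a, ha⟩, -⟩ | ⟨α, β, -, -, ha, -⟩ <;> simp only [ha] <;> fun_prop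

lemma hasDerivAt_sqPath {A : ℝ → ℕ → ι → ℝ} {Δ : ℕ → ι → ℝ} {l : ℕ} {i : ι} (h : SqPath A Δ l i)
    {t : ℝ} (ht : t ∈ Set.Ioo (0 : ℝ) 1) :
    HasDerivAt (fun s => A s l i) (Δ l i / (2 * A t l i)) t ∧
      Δ l i / (2 * A t l i) * A t l i = Δ l i / 2 ∧ (A t l i = 0 → Δ l i = 0) := by
  rcases h with ⟨⟨a, ha⟩, hΔ⟩ | ⟨α, β, hα, hβ, ha, hΔ⟩
  · simp only [ha, hΔ]
    exact ⟨by simpa using hasDerivAt_const t a, by simp, fun _ => trivial⟩
  · have hz : A t l i = 0 → Δ l i = 0 := by
      intro h0
      rw [ha, Real.sqrt_eq_zero (add_nonneg (mul_nonneg (sub_nonneg.2 ht.2.le) hα)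
        (mul_nonneg ht.1.le hβ)), add_eq_zero_iff_of_nonneg (mul_nonneg (sub_nonneg.2 ht.2.le) hα)
        (mul_nonneg ht.1.le hβ)] at h0
      rw [hΔ, (mul_eq_zero.1 h0.1).resolve_left (by linarith [ht.2]),
        (mul_eq_zero.1 h0.2).resolve_left (by linarith [ht.1]), sub_zero]
    refine ⟨?_, ?_, hz⟩
    · simp only [ha, hΔ]; exact sqrt_affine_deriv hα hβ ht
    · rcases eq_or_ne (A t l i) 0 with h0 | h0
      · simp [h0, hz h0]
      · field_simp

/-! ### Gaussian coordinates -/

lemma integral_sq_sub (a : ℝ) : ∫ x, (a - x) ^ 2 ∂gaussianReal 0 1 = a ^ 2 + 1 := by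
  have hm : MemLp (fun x : ℝ => x) 2 (gaussianReal 0 1) := memLp_id_gaussianReal' 2 (by simp)
  have h1 : Integrable (fun x : ℝ => x) (gaussianReal 0 1) := hm.integrable one_le_two
  have h2 : Integrable (fun x : ℝ => x ^ 2) (gaussianReal 0 1) := hm.integrable_sq
  have hv := variance_eq_sub hm
  simp only [variance_fun_id_gaussianReal, integral_id_gaussianReal] at hv
  have hv' : ∫ x : ℝ, x ^ 2 ∂gaussianReal 0 1 = 1 := by
    simpa [Pi.pow_apply] using hv.symm
  simp only [sub_sq]
  have h12 : Integrable (fun x : ℝ => a ^ 2 - 2 * a * x) (gaussianReal 0 1) :=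
    (integrable_const _).sub (h1.const_mul _)
  rw [integral_add h12 h2,
    integral_sub (integrable_const _) (h1.const_mul _), integral_const_mul,
    integral_id_gaussianReal, hv']
  simp

lemma integral_coord_sq_sub (i : ι) :
    ∫ z, ∫ z', (z i - z' i) ^ 2 ∂gauss ι ∂gauss ι = 2 := by
  have h : ∀ F : ℝ → ℝ, Measurable F → ∫ z, F (z i) ∂gauss ι = ∫ x, F x ∂gaussianReal 0 1 := by
    intro F hF
    have hm : MeasurePreserving (fun z : ι → ℝ => z i) (gauss ι) (gaussianReal 0 1) :=
      measurePreserving_eval (fun _ : ι => gaussianReal 0 1) i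
    rw [← hm.map_eq, integral_map hm.measurable.aemeasurable hF.aestronglyMeasurable]
  have h1 : ∀ z : ι → ℝ, ∫ z', (z i - z' i) ^ 2 ∂gauss ι = z i ^ 2 + 1 := fun z => by
    rw [h (fun x => (z i - x) ^ 2) (by fun_prop), integral_sq_sub]
  simp only [h1]
  rw [h (fun x => x ^ 2 + 1) (by fun_prop)]
  have := integral_sq_sub 0
  simp only [zero_sub, neg_sq] at this
  have h2 : Integrable (fun x : ℝ => x ^ 2) (gaussianReal 0 1) :=
    (memLp_id_gaussianReal' 2 (by simp)).integrable_sq
  rw [integral_add h2 (integrable_const _), this]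
  simp
  norm_num

/-- Integrals over pairs of indices as integrals over families of vectors. -/
lemma measurePreserving_curry (β γ : Type) [Fintype β] [Fintype γ] :
    MeasurePreserving (fun z : β × γ → ℝ => fun a i => z (a, i)) (gauss (β × γ))
      (Measure.pi fun _ : β => gauss γ) := by
  classical
  have h : MeasurePreserving (MeasurableEquiv.curry β γ ℝ).symm
      (Measure.pi fun _ : β => gauss γ) (gauss (β × γ)) := by
    refine ⟨MeasurableEquiv.measurable _, (Measure.pi_eq fun s hs => ?_).symm⟩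
    rw [MeasurableEquiv.map_apply, MeasurableEquiv.coe_curry_symm,
      show Function.uncurry ⁻¹' Set.pi Set.univ s
          = Set.pi Set.univ fun a => Set.pi Set.univ fun i => s (a, i) by
        ext f; simp [Set.mem_pi, Prod.forall],
      Measure.pi_pi, Fintype.prod_prod_type]
    exact prod_congr rfl fun a _ => by rw [gauss, Measure.pi_pi]
  exact h.symm _

end Vale.Agent.P157.Parisi.ModelFacts

namespace Vale.Agent.P157.Parisi

open MeasureTheory ProbabilityTheory Finset ModelFacts

theorem sphereUnif_ae_norm {n : ℕ} (hn : 0 < n) :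
    ∀ᵐ σ ∂sphereUnif n, normBlock σ = σ ∧ ∑ i, σ i ^ 2 = (n : ℝ) := by
  have hscale : Measurable fun a : Fin n → ℝ => fun i => Real.sqrt n * a i := by fun_prop
  have hmap : sphereUnif n = (unitUnif (Fin n)).map fun a i => Real.sqrt n * a i := by
    rw [unitUnif, Measure.map_smul, Measure.map_map hscale measurable_sphereCoord, sphereUnif]
    rfl
  have : Nonempty (Fin n) := ⟨⟨0, hn⟩⟩
  have hm : MeasurableSet {σ : Fin n → ℝ | ∑ i, σ i ^ 2 = (n : ℝ)} :=
    measurableSet_eq_fun (by fun_prop) measurable_const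
  have h1 : ∀ᵐ σ ∂sphereUnif n, ∑ i, σ i ^ 2 = (n : ℝ) := by
    rw [hmap, ae_map_iff hscale.aemeasurable hm]
    filter_upwards [unitUnif_ae_unit] with a ha
    simp [mul_pow, ← mul_sum, ha]
  filter_upwards [h1] with σ hσ
  have hn' : (0:ℝ) < n := by exact_mod_cast hn
  refine ⟨funext fun i => ?_, hσ⟩
  rw [normBlock, if_neg (by rw [hσ]; exact hn'.ne'), hσ]
  field_simp

theorem blockSpin_sys {n N : ℕ} (hn : 0 < n) :
    SpinSys (blockSpin n N) (Real.sqrt n) ∧ IsProbabilityMeasure (blockLaw n N) ∧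
      (blockLaw n N).map (blockSpin n N) = blockPrior n N := by
  have : Nonempty (Fin n) := ⟨⟨0, hn⟩⟩
  have hscale : Measurable fun a : Fin n → ℝ => fun i => Real.sqrt n * a i := by fun_prop
  have hmap : sphereUnif n = (unitUnif (Fin n)).map fun a i => Real.sqrt n * a i := by
    rw [unitUnif, Measure.map_smul, Measure.map_map hscale measurable_sphereCoord, sphereUnif]
    rfl
  have hP : IsProbabilityMeasure (sphereUnif n) := by
    rw [hmap]; exact Measure.isProbabilityMeasure_map hscale.aemeasurable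
  have hnorm : ∀ σ : Fin n → ℝ, ∑ i, normBlock σ i ^ 2 = (n : ℝ) := fun σ => by
    unfold normBlock
    split_ifs with h
    · simp
    · simp only [div_pow, mul_pow, Real.sq_sqrt (Nat.cast_nonneg n),
        Real.sq_sqrt (sum_nonneg fun k _ => sq_nonneg (σ k)), mul_div_assoc, ← mul_sum,
        ← sum_div, div_self h, mul_one]
  have hmeas : ∀ i, Measurable fun σ : Fin n → ℝ => normBlock σ i := fun i =>
    Measurable.ite (measurableSet_eq_fun (by fun_prop) measurable_const) measurable_const
      (by fun_prop)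
  refine ⟨⟨fun p => (hmeas p.2).comp (measurable_pi_apply p.1), fun ω p => ?_, fun ω => ?_⟩,
    by unfold blockLaw; infer_instance, ?_⟩
  · refine Real.le_sqrt_of_sq_le ?_
    rw [sq_abs, blockSpin, ← hnorm (ω p.1)]
    exact single_le_sum (f := fun i => normBlock (ω p.1) i ^ 2) (fun _ _ => sq_nonneg _)
      (mem_univ p.2)
  · simp only [blockSpin, Fintype.sum_prod_type, hnorm, Fintype.card_prod, Fintype.card_fin,
      sum_const, card_univ, nsmul_eq_mul, Nat.cast_mul]
  · rw [blockPrior, blockLaw]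
    refine Measure.map_congr ?_
    have h : ∀ a, ∀ᵐ ω ∂Measure.pi fun _ : Fin N => sphereUnif n, normBlock (ω a) = ω a := by
      intro a
      exact (measurePreserving_eval (fun _ : Fin N => sphereUnif n) a).quasiMeasurePreserving.ae
        ((sphereUnif_ae_norm hn).mono fun σ h => h.1)
    filter_upwards [ae_all_iff.2 h] with ω hω
    funext p
    rw [blockSpin, hω]

section

variable {Ω δ : Type} [MeasurableSpace Ω] [Fintype δ] [DecidableEq δ]
variable {φ φ1 φ2 : ℝ → ℝ} {spin : Ω → δ → ℝ} {μ : Measure Ω} [IsProbabilityMeasure μ] {R B : ℝ}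
variable (hφ : PhiGood φ φ1 φ2 B) (hs : SpinSys spin R)

include hφ hs

/-! ### D1: bounds -/

theorem perc_good (M : ℕ) : (percLeaf φ φ1 φ2 spin M).Good (max R B) where
  nonneg := le_trans (zero_le_one.trans hφ.one_le) (le_max_right _ _)
  meas j i := by
    rcases j with a | _ <;> rcases i with ⟨b, k⟩ | k | b <;>
      simp only [percLeaf, percCoef] <;> try split_ifs
    all_goals first | exact hs.meas _ | exact measurable_const
  bound ω j i := by
    have h0 : (0:ℝ) ≤ max R B := le_trans (zero_le_one.trans hφ.one_le) (le_max_right _ _)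
    have h1 : (1:ℝ) ≤ max R B := le_trans hφ.one_le (le_max_right _ _)
    rcases j with a | _ <;> rcases i with ⟨b, k⟩ | k | b <;>
      simp only [percLeaf, percCoef] <;> try split_ifs
    all_goals first
      | exact (hs.bound ω _).trans (le_max_left _ _)
      | simpa using h1
      | simpa using h0
  deriv1 j z := by
    rcases j with a | _
    · exact hφ.deriv1 z
    · exact hasDerivAt_id' z
  deriv2 j z := by
    rcases j with a | _
    · exact hφ.deriv2 z
    · exact hasDerivAt_const z 1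
  cont2 j := by
    rcases j with a | _
    · exact hφ.cont2
    · exact continuous_const
  bound1 j z := by
    rcases j with a | _
    · exact (hφ.bound1 z).trans (le_max_right _ _)
    · simpa [percLeaf] using Or.inr hφ.one_le
  bound2 j z := by
    rcases j with a | _
    · exact (hφ.bound2 z).trans (le_max_right _ _)
    · simpa [percLeaf] using le_trans (zero_le_one.trans hφ.one_le) (le_max_right R B)

theorem percNest_good (K M : ℕ) (g : Fin M → δ → ℝ) (s : ℕ → δ → ℝ) (c : ℕ → Fin M → ℝ) :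
    (percNest K g s c).Good where
  x_zero := by simp [percNest, gridX, lvl]
  x_last := by
    simp only [percNest, gridX, lvl, min_eq_left_iff]
    rw [le_div_iff₀ (by positivity)]
    push_cast; linarith
  x_pos l h1 _ := lt_min one_pos (div_pos (by exact_mod_cast h1) (by positivity))
  x_mono l _ := min_le_min le_rfl (div_le_div_of_nonneg_right (by simp) (by positivity))

theorem curvLower_y (M : ℕ) (t : Finset δ) :
    (percLeaf φ φ1 φ2 spin M).CurvLower (ySet M t) 0 := by
  refine ⟨le_rfl, fun ω y v hv => ?_⟩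
  rw [zero_mul, neg_zero]
  refine sum_nonneg fun j _ => ?_
  rcases j with a | _
  · have h : ∑ i, (percLeaf φ φ1 φ2 spin M).a ω (Sum.inl a) i * v i = 0 := by
      refine sum_eq_zero fun i _ => ?_
      rcases i with ⟨b, k⟩ | k | b
      · simp [hv (Sum.inl (b, k)) (by simp [ySet])]
      · simp [percLeaf, percCoef]
      · simp [hv (Sum.inr (Sum.inr b)) (by simp [ySet])]
    simp [h]
  · simp [percLeaf]

theorem curvLower_c (M : ℕ) : (percLeaf φ φ1 φ2 spin M).CurvLower (cSet M (δ := δ)) B := by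
  have hB : 0 ≤ B := zero_le_one.trans hφ.one_le
  refine ⟨hB, fun ω y v hv => ?_⟩
  rw [Fintype.sum_sum_type]
  have h2 : ∀ u : Unit, (percLeaf φ φ1 φ2 spin M).φ2 (Sum.inr u)
      ((percLeaf φ φ1 φ2 spin M).loc ω y (Sum.inr u)) = 0 := fun u => rfl
  have h1 : ∀ a : Fin M, ∑ i, (percLeaf φ φ1 φ2 spin M).a ω (Sum.inl a) i * v i
      = v (Sum.inr (Sum.inr a)) := by
    intro a
    rw [Fintype.sum_eq_single (Sum.inr (Sum.inr a))]
    · simp [percLeaf, percCoef]
    · intro i hi
      rcases i with ⟨b, k⟩ | k | b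
      · simp [hv (Sum.inl (b, k)) (by simp [cSet])]
      · simp [percLeaf, percCoef]
      · have : a ≠ b := fun h => hi (by rw [h])
        simp [percLeaf, percCoef, this]
  simp only [h1, h2, zero_mul, sum_const_zero, add_zero]
  rw [cSet, sum_image fun a _ b _ h => by simpa using h, mul_sum, ← sum_neg_distrib]
  refine sum_le_sum fun a _ => ?_
  have := mul_le_mul_of_nonneg_right (neg_le_of_abs_le (hφ.bound2
    ((percLeaf φ φ1 φ2 spin M).loc ω y (Sum.inl a)))) (sq_nonneg (v (Sum.inr (Sum.inr a))))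
  simpa [percLeaf] using this

theorem free_zero_fields [Nonempty δ] (K M : ℕ) :
    (percNest K (fun _ : Fin M => fun _ : δ => (Real.sqrt (Fintype.card δ))⁻¹) (fun _ _ => 0)
      (fun _ _ => 0)).free (percLeaf φ φ1 φ2 spin M) μ =
      Fintype.card δ * priorPressure φ M (μ.map spin) := by
  set g := fun _ : Fin M => fun _ : δ => (Real.sqrt (Fintype.card δ))⁻¹ with hg
  have hN := percNest_good hφ hs K M g (fun _ _ => 0) (fun _ _ => 0)
  have hspin : Measurable spin := measurable_pi_lambda _ hs.meas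
  have hu : ∀ z, (percNest K g (fun _ _ => 0) (fun _ _ => 0)).u
      ((percLeaf φ φ1 φ2 spin M).logZ μ) 0 z = (percLeaf φ φ1 φ2 spin M).logZ μ z := by
    intro z
    rw [Nest.u, Nat.sub_zero, uUp_zero_amp hN _ (fun l hl _ i => ?_) _ le_rfl]
    rcases i with ⟨b, k⟩ | k | b <;> simp [percNest, percAmp, Nat.one_le_iff_ne_zero.1 hl]
  rw [free_eq, priorPressure, mul_div_cancel₀ _ (Nat.cast_ne_zero.2 Fintype.card_ne_zero)]
  simp only [hu]
  set F : (Fin M → δ → ℝ) → ℝ := fun G => Real.log (∫ x, Real.exp (∑ a, φ ((∑ i, G a i * x i) /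
    Real.sqrt (Fintype.card δ))) ∂μ.map spin) with hF
  have hφc : Continuous φ := continuous_iff_continuousAt.2 fun z => (hφ.deriv1 z).continuousAt
  have hF' : ∀ z : PIdx M δ → ℝ, (percLeaf φ φ1 φ2 spin M).logZ μ
      (fun i => (percNest K g (fun _ _ => 0) (fun _ _ => 0)).amp 0 i * z i)
        = F fun a i => z (Sum.inl (a, i)) := by
    intro z
    simp only [hF, Leaf.logZ]
    rw [integral_map hspin.aemeasurable (Continuous.aestronglyMeasurable (by fun_prop))]
    refine congrArg Real.log (integral_congr_ae (.of_forall fun ω => congrArg Real.exp ?_))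
    simp only [Leaf.ham, Leaf.loc, Fintype.sum_sum_type, percLeaf, percNest, percAmp, percCoef,
      hg, Sum.elim_inl, Sum.elim_inr, mul_zero, zero_mul, sum_const_zero, add_zero, if_true]
    refine sum_congr rfl fun a _ => congrArg φ ?_
    rw [Fintype.sum_prod_type, sum_div, Fintype.sum_eq_single a]
    · exact sum_congr rfl fun i _ => by rw [if_pos rfl]; ring
    · exact fun b hb => sum_eq_zero fun i _ => by rw [if_neg (Ne.symm hb), zero_mul]
  simp only [hF']
  have h1 : MeasurePreserving (fun z : PIdx M δ → ℝ => fun p : Fin M × δ => z (Sum.inl p))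
      (gauss (PIdx M δ)) (gauss (Fin M × δ)) :=
    measurePreserving_fst.comp
      (measurePreserving_sumPiEquivProdPi fun _ : (Fin M × δ) ⊕ (δ ⊕ Fin M) => gaussianReal 0 1)
  have h2 : MeasurePreserving (fun z : PIdx M δ → ℝ => fun a i => z (Sum.inl (a, i)))
      (gauss (PIdx M δ)) (Measure.pi fun _ : Fin M => gauss δ) :=
    (measurePreserving_curry (Fin M) δ).comp h1
  rw [← h2.map_eq, integral_map h2.measurable.aemeasurable]
  refine Measurable.aestronglyMeasurable ?_
  refine Real.measurable_log.comp ?_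
  exact (StronglyMeasurable.integral_prod_right (f := fun (G : Fin M → δ → ℝ) (x : δ → ℝ) =>
    Real.exp (∑ a, φ ((∑ i, G a i * x i) / Real.sqrt (Fintype.card δ))))
    (Continuous.stronglyMeasurable (by fun_prop))).measurable

theorem root_dev (K M : ℕ) (g : Fin M → δ → ℝ) (s : ℕ → δ → ℝ) (c : ℕ → Fin M → ℝ) :
    (percNest K g s c).mean ((percLeaf φ φ1 φ2 spin M).logZ μ) 0 (fun y =>
      |(percNest K g s c).u ((percLeaf φ φ1 φ2 spin M).logZ μ) 0 y -
        (percNest K g s c).free (percLeaf φ φ1 φ2 spin M) μ|) ≤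
      Real.sqrt (4 * B ^ 2 * M + R ^ 2 * ∑ i, s 0 i ^ 2) := by
  have hN := percNest_good hφ hs K M g s c
  have hL := perc_good hφ hs M
  set N := percNest K g s c with hNdef
  set L := percLeaf φ φ1 φ2 spin M with hLdef
  have hU := linB_logZ μ hN hL
  set F : (PIdx M δ → ℝ) → ℝ := fun z => N.u (L.logZ μ) 0 fun i => N.amp 0 i * z i with hFdef
  have hF : MemLp F 2 (gauss _) := integrable_root N hU
  show ∫ z, |F z - N.free L μ| ∂gauss _ ≤ _
  rw [show N.free L μ = ∫ z, F z ∂gauss (PIdx M δ) from free_eq μ N L]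
  have hB : 0 ≤ B := zero_le_one.trans hφ.one_le
  have hG : MemLp (fun z => |F z - ∫ z, F z ∂gauss (PIdx M δ)|) 2 (gauss _) :=
    (hF.sub (memLp_const _)).abs
  have hv := variance_nonneg (fun z => |F z - ∫ z, F z ∂gauss (PIdx M δ)|) (gauss (PIdx M δ))
  rw [variance_eq_sub hG] at hv
  simp only [Pi.pow_apply, sq_abs] at hv
  rw [← variance_eq_integral hF.aestronglyMeasurable.aemeasurable] at hv
  refine Real.le_sqrt_of_sq_le ((by linarith : (∫ z, |F z - ∫ z, F z ∂gauss (PIdx M δ)|
    ∂gauss (PIdx M δ)) ^ 2 ≤ Var[F; gauss _]).trans ?_)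
  -- the blocks: one per pattern, one per configuration field
  let blk : PIdx M δ → Fin M ⊕ δ := Sum.elim (fun p => Sum.inl p.1) (Sum.elim Sum.inr Sum.inl)
  refine (gauss_efron_stein blk hF).trans ?_
  have key : ∀ (b : Fin M ⊕ δ) (z z' : PIdx M δ → ℝ) (c' : ℝ),
      (∀ ω w, |L.ham ω (fun i => w i + if blk i = b then N.amp 0 i * (z' i - z i) else 0)
        - L.ham ω w| ≤ c') →
      (F z - F fun i => if blk i = b then z' i else z i) ^ 2 ≤ c' ^ 2 := by
    intro b z z' c' h
    have hc : |N.u (L.logZ μ) 0 (fun i => N.amp 0 i * z i +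
        (if blk i = b then N.amp 0 i * (z' i - z i) else 0)) - F z| ≤ c' :=
      u_shift_close hN hU (fun w => log_integral_exp_close μ (integrable_exp_ham hL μ _)
        (integrable_exp_ham hL μ _) fun ω => h ω w) _
    have e : (fun i => N.amp 0 i * z i + if blk i = b then N.amp 0 i * (z' i - z i) else 0)
        = fun i => N.amp 0 i * (if blk i = b then z' i else z i) := by
      funext i; split_ifs <;> ring
    rw [e] at hc
    rw [← sq_abs, abs_sub_comm]
    exact pow_le_pow_left₀ (abs_nonneg _) hc 2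
  rw [Fintype.sum_sum_type]
  have hpat : ∀ a : Fin M, ∫ z, ∫ z', (F z - F fun i => if blk i = Sum.inl a then z' i else z i) ^ 2
      ∂gauss _ ∂gauss _ ≤ 4 * B ^ 2 := by
    intro a
    refine (integral_mono_of_nonneg (.of_forall fun z => integral_nonneg fun z' => sq_nonneg _)
      (integrable_const ((2 * B) ^ 2)) (.of_forall fun z => ?_)).trans (le_of_eq (by simp; ring))
    refine (integral_mono_of_nonneg (.of_forall fun z' => sq_nonneg _)
      (integrable_const ((2 * B) ^ 2)) (.of_forall fun z' => key _ z z' (2 * B) fun ω w => ?_)).trans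
      (le_of_eq (by simp))
    set v := fun i => if blk i = Sum.inl a then N.amp 0 i * (z' i - z i) else 0 with hv
    have hloc : ∀ j, j ≠ Sum.inl a → L.loc ω (fun i => w i + v i) j = L.loc ω w j := by
      intro j hj
      refine sum_congr rfl fun i _ => ?_
      rcases i with ⟨b, k⟩ | k | b <;> rcases j with e | _ <;>
        simp only [hv, blk, hLdef, percLeaf, percCoef, Sum.elim_inl, Sum.elim_inr,
          Sum.inl.injEq, zero_mul, reduceCtorEq, if_false, add_zero] <;>
        split_ifs <;> simp_all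
    rw [Leaf.ham, Leaf.ham, ← sum_sub_distrib,
      Fintype.sum_eq_single (Sum.inl a) fun j hj => by rw [hloc j hj, sub_self]]
    refine (abs_sub _ _).trans ?_
    rw [two_mul]
    exact add_le_add (hφ.bound0 _) (hφ.bound0 _)
  have hfield : ∀ k : δ, ∫ z, ∫ z', (F z - F fun i => if blk i = Sum.inr k then z' i else z i) ^ 2
      ∂gauss _ ∂gauss _ ≤ 2 * (R ^ 2 * s 0 k ^ 2) := by
    intro k
    have hval : ∀ z z' : PIdx M δ → ℝ,
        (F z - F fun i => if blk i = Sum.inr k then z' i else z i) ^ 2 ≤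
          R ^ 2 * s 0 k ^ 2 * (z (Sum.inr (Sum.inl k)) - z' (Sum.inr (Sum.inl k))) ^ 2 := by
      intro z z'
      refine (key _ z z' (R * |s 0 k| *
        |z (Sum.inr (Sum.inl k)) - z' (Sum.inr (Sum.inl k))|) fun ω w => ?_).trans (le_of_eq ?_)
      · set d := s 0 k * (z' (Sum.inr (Sum.inl k)) - z (Sum.inr (Sum.inl k))) with hd
        have hsum : ∀ j, L.loc ω (fun i => w i +
            if blk i = Sum.inr k then N.amp 0 i * (z' i - z i) else 0) j =
            L.loc ω w j + L.a ω j (Sum.inr (Sum.inl k)) * d := by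
          intro j
          simp only [Leaf.loc, mul_add, sum_add_distrib]
          congr 1
          rw [Fintype.sum_eq_single (Sum.inr (Sum.inl k))]
          · simp [blk, hd, hNdef, percNest, percAmp]
          · intro i hi
            rcases i with ⟨b, e⟩ | e | b
            · simp [blk]
            · have : e ≠ k := fun h => hi (by rw [h])
              simp [blk, this]
            · simp [blk]
        simp only [Leaf.ham, hsum]
        rw [← sum_sub_distrib, Fintype.sum_eq_single (Sum.inr ()) fun j hj => ?_]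
        · simp only [hLdef, percLeaf, percCoef, Sum.elim_inr, add_sub_cancel_left]
          rw [abs_mul, hd, abs_mul, abs_sub_comm (z' _), ← mul_assoc]
          gcongr
          exact hs.bound ω k
        · rcases j with a | u
          · simp [hLdef, percLeaf, percCoef]
          · exact absurd rfl hj
      · rw [mul_pow, mul_pow, sq_abs, sq_abs]
    have hint : ∀ z : PIdx M δ → ℝ, Integrable (fun z' : PIdx M δ → ℝ =>
        R ^ 2 * s 0 k ^ 2 * (z (Sum.inr (Sum.inl k)) - z' (Sum.inr (Sum.inl k))) ^ 2)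
        (gauss _) := by
      intro z
      have hm : MeasurePreserving (fun z' : PIdx M δ → ℝ => z' (Sum.inr (Sum.inl k)))
          (gauss _) (gaussianReal 0 1) :=
        measurePreserving_eval (fun _ : PIdx M δ => gaussianReal 0 1) _
      exact ((hm.integrable_comp (by fun_prop)).2
        ((memLp_const (z (Sum.inr (Sum.inl k)))).sub
          (memLp_id_gaussianReal' 2 (by simp))).integrable_sq).const_mul _
    refine (integral_mono_of_nonneg (.of_forall fun z => integral_nonneg fun z' => sq_nonneg _)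
      ?_ (.of_forall fun z => integral_mono_of_nonneg (.of_forall fun z' => sq_nonneg _)
        (hint z) (.of_forall fun z' => hval z z'))).trans (le_of_eq ?_)
    · have h1 : ∀ z : PIdx M δ → ℝ, ∫ z' : PIdx M δ → ℝ,
          R ^ 2 * s 0 k ^ 2 * (z (Sum.inr (Sum.inl k)) - z' (Sum.inr (Sum.inl k))) ^ 2 ∂gauss _
          = R ^ 2 * s 0 k ^ 2 * (z (Sum.inr (Sum.inl k)) ^ 2 + 1) := by
        intro z
        have hm : MeasurePreserving (fun z' : PIdx M δ → ℝ => z' (Sum.inr (Sum.inl k)))
            (gauss _) (gaussianReal 0 1) :=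
          measurePreserving_eval (fun _ : PIdx M δ => gaussianReal 0 1) _
        rw [integral_const_mul, ← integral_sq_sub, ← hm.map_eq,
          integral_map hm.measurable.aemeasurable (Continuous.aestronglyMeasurable (by fun_prop))]
      simp only [h1]
      have hm : MeasurePreserving (fun z' : PIdx M δ → ℝ => z' (Sum.inr (Sum.inl k)))
          (gauss _) (gaussianReal 0 1) :=
        measurePreserving_eval (fun _ : PIdx M δ => gaussianReal 0 1) _
      exact (((hm.integrable_comp (by fun_prop)).2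
        (memLp_id_gaussianReal' 2 (by simp)).integrable_sq).add (integrable_const 1)).const_mul _
    · simp only [integral_const_mul]
      rw [integral_coord_sq_sub]; ring
  calc (1 / 2 : ℝ) * _ ≤ 1 / 2 * (∑ _a : Fin M, 4 * B ^ 2 + ∑ k, 2 * (R ^ 2 * s 0 k ^ 2)) := by
        gcongr with a _ k _
        · exact hpat a
        · exact hfield k
    _ ≤ _ := by
        simp only [sum_const, card_univ, Fintype.card_fin, nsmul_eq_mul, ← mul_sum]
        nlinarith [mul_nonneg (sq_nonneg B) (Nat.cast_nonneg (α := ℝ) M),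
          sum_nonneg fun (k : δ) (_ : k ∈ univ) => sq_nonneg (s 0 k)]

/-- Changing the amplitudes of one pattern changes the free energy by at most `2 B`. -/
theorem free_one_pattern (K M : ℕ) (a : Fin M) (g g' : Fin M → δ → ℝ) (s : ℕ → δ → ℝ)
    (c c' : ℕ → Fin M → ℝ) (hg : ∀ b, b ≠ a → g' b = g b)
    (hc : ∀ l b, b ≠ a → c' l b = c l b) :
    |(percNest K g' s c').free (percLeaf φ φ1 φ2 spin M) μ -
      (percNest K g s c).free (percLeaf φ φ1 φ2 spin M) μ| ≤ 2 * B := by
  have hB : 0 ≤ B := zero_le_one.trans hφ.one_le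
  set L := percLeaf φ φ1 φ2 spin M with hLdef
  have hL := perc_good hφ hs M
  -- the system without pattern `a`
  let L₀ : Leaf Ω (Fin M ⊕ Unit) (PIdx M δ) :=
    { a := L.a
      φ := fun j => if j = Sum.inl a then fun _ => 0 else L.φ j
      φ1 := fun j => if j = Sum.inl a then fun _ => 0 else L.φ1 j
      φ2 := fun j => if j = Sum.inl a then fun _ => 0 else L.φ2 j }
  have hB' : 0 ≤ max R B := hB.trans (le_max_right _ _)
  have hL₀ : L₀.Good (max R B) :=
    { nonneg := hL.nonneg
      meas := hL.meas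
      bound := hL.bound
      deriv1 := fun j z => by
        by_cases h : j = Sum.inl a
        · simpa [L₀, h] using hasDerivAt_const z (0:ℝ)
        · simpa [L₀, h] using hL.deriv1 j z
      deriv2 := fun j z => by
        by_cases h : j = Sum.inl a
        · simpa [L₀, h] using hasDerivAt_const z (0:ℝ)
        · simpa [L₀, h] using hL.deriv2 j z
      cont2 := fun j => by
        by_cases h : j = Sum.inl a
        · simpa [L₀, h] using continuous_const
        · simpa [L₀, h] using hL.cont2 j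
      bound1 := fun j z => by
        by_cases h : j = Sum.inl a
        · simpa [L₀, h] using hB'
        · simpa [L₀, h] using hL.bound1 j z
      bound2 := fun j z => by
        by_cases h : j = Sum.inl a
        · simpa [L₀, h] using hB'
        · simpa [L₀, h] using hL.bound2 j z }
  have hclose : ∀ y, |L.logZ μ y - L₀.logZ μ y| ≤ B := fun y =>
    log_integral_exp_close μ (integrable_exp_ham hL μ y) (integrable_exp_ham hL₀ μ y) fun ω => by
      simp only [Leaf.ham]
      rw [← sum_sub_distrib, Fintype.sum_eq_single (Sum.inl a) fun j hj => by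
        simp [L₀, hj, Leaf.loc, hLdef]]
      simpa [L₀, hLdef, percLeaf] using hφ.bound0 _
  set S : Finset (PIdx M δ) :=
    (univ.image fun k => Sum.inl (a, k)) ∪ {Sum.inr (Sum.inr a)} with hS
  have hU : ∀ y y', (∀ i ∉ S, y i = y' i) → L₀.logZ μ y = L₀.logZ μ y' := by
    intro y y' hy
    refine congrArg Real.log (integral_congr_ae (.of_forall fun ω => congrArg Real.exp ?_))
    refine sum_congr rfl fun j _ => ?_
    by_cases h : j = Sum.inl a
    · simp [L₀, h]
    refine congrArg _ (sum_congr rfl fun i _ => ?_)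
    by_cases hi : i ∈ S
    · rcases j with e | _ <;> rcases i with ⟨b, k⟩ | k | b <;>
        simp_all [S, L₀, hLdef, percLeaf, percCoef]
    · rw [hy i hi]
  have hamp : ∀ l, ∀ i ∉ S, (percNest K g' s c').amp l i = (percNest K g s c).amp l i := by
    intro l i hi
    rcases i with ⟨b, k⟩ | k | b <;> simp [S] at hi
    · simp [percNest, percAmp, hg b (Ne.symm hi)]
    · rfl
    · simp [percNest, percAmp, hc l b hi]
  have hmid : (percNest K g' s c').free L₀ μ = (percNest K g s c).free L₀ μ := by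
    rw [free_eq, free_eq]
    refine integral_congr_ae (.of_forall fun z => ?_)
    exact uUp_congr_off (N := percNest K g s c) (N' := percNest K g' s c') rfl rfl hamp hU
      (K + 1) _ _ fun i hi => by rw [hamp 0 i hi]
  have h1 := free_close μ (percNest_good hφ hs K M g' s c') hL μ hL₀ hclose
  have h2 := free_close μ (percNest_good hφ hs K M g s c) hL μ hL₀ hclose
  rw [abs_le] at *
  constructor <;> linarith

end

end Vale.Agent.P157.Parisi
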