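import Vale.Agent.P157.Parisi.CalcAmpDeriv

/-!
Relabelling of coordinates and independent blocks.
-/

namespace Vale.Agent.P157.Parisi

open MeasureTheory ProbabilityTheory Finset

lemma gauss_comp_embedding {ι ι₁ : Type} [Fintype ι] [Fintype ι₁] (e : ι₁ ↪ ι) :
    MeasurePreserving (fun (z : ι → ℝ) i => z (e i)) (gauss ι) (gauss ι₁) := by
  classical
  refine ⟨by fun_prop, (Measure.pi_eq fun s hs => ?_).symm⟩
  rw [Measure.map_apply (by fun_prop) (MeasurableSet.univ_pi hs)]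
  have hpre : (fun (z : ι → ℝ) i => z (e i)) ⁻¹' Set.univ.pi s =
      Set.univ.pi (Function.extend e s fun _ => Set.univ) := by
    ext z
    simp only [Set.mem_preimage, Set.mem_univ_pi]
    refine ⟨fun h j => ?_, fun h i => by simpa [e.injective.extend_apply] using h (e i)⟩
    by_cases hj : ∃ i, e i = j
    · obtain ⟨i, rfl⟩ := hj
      rw [e.injective.extend_apply]
      exact h i
    · rw [Function.extend_apply' _ _ _ hj]
      trivial
  rw [hpre, gauss, Measure.pi_pi]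
  rw [← prod_subset (subset_univ (univ.map e)) fun j _ hj => ?_, prod_map]
  · exact prod_congr rfl fun i _ => by rw [e.injective.extend_apply]
  · rw [Function.extend_apply' _ _ _ fun ⟨i, hi⟩ => hj (by simp [← hi]), measure_univ]

lemma gauss_comp_pair {ι ι₁ ι₂ : Type} [Fintype ι] [Fintype ι₁] [Fintype ι₂] (e₁ : ι₁ ↪ ι)
    (e₂ : ι₂ ↪ ι) (hdisj : ∀ i j, e₁ i ≠ e₂ j) :
    MeasurePreserving (fun z : ι → ℝ => ((fun i => z (e₁ i)), fun j => z (e₂ j))) (gauss ι)
      ((gauss ι₁).prod (gauss ι₂)) := by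
  let e : ι₁ ⊕ ι₂ ↪ ι := ⟨Sum.elim e₁ e₂, e₁.injective.sumElim e₂.injective hdisj⟩
  exact (measurePreserving_sumPiEquivProdPi fun _ : ι₁ ⊕ ι₂ => gaussianReal 0 1).comp
    (gauss_comp_embedding e)

lemma integral_comp_embedding {ι ι₁ : Type} [Fintype ι] [Fintype ι₁] (e : ι₁ ↪ ι)
    {f : (ι₁ → ℝ) → ℝ} (hf : Continuous f) :
    ∫ z, f (fun i => z (e i)) ∂gauss ι = ∫ w, f w ∂gauss ι₁ := by
  have h := gauss_comp_embedding e
  rw [← h.map_eq, integral_map h.measurable.aemeasurable hf.aestronglyMeasurable]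

variable {ι : Type} [Fintype ι] {Ω κ : Type} [Fintype κ] [MeasurableSpace Ω]
variable {N : Nest ι} {L : Leaf Ω κ ι} {μ : Measure Ω} [IsProbabilityMeasure μ] {B : ℝ}

variable (hN : N.Good) (hL : L.Good B)

include hN hL

lemma continuous_exp_u (m : ℝ) (l : ℕ) (s y : ι → ℝ) :
    Continuous fun z => Real.exp (m * N.u (L.logZ μ) l (move s y z)) :=
  Real.continuous_exp.comp
    (continuous_const.mul ((u_tame hN hL l).1.comp (continuous_move_right s y)))

set_option linter.unusedVariables false in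
/-- Relabelling coordinates, terms and configurations changes neither the free energy nor the mean
square gradients. -/
theorem free_map {ι' Ω' κ' : Type} [Fintype ι'] [Fintype κ'] [MeasurableSpace Ω']
    (N' : Nest ι') (L' : Leaf Ω' κ' ι') (e : ι ≃ ι') (eκ : κ ≃ κ') (T : Ω → Ω')
    (hT : Measurable T) (hK : N'.K = N.K) (hx : N'.x = N.x)
    (hamp : ∀ l i, N'.amp l (e i) = N.amp l i)
    (hφ : ∀ j, L'.φ (eκ j) = L.φ j) (hφ1 : ∀ j, L'.φ1 (eκ j) = L.φ1 j)
    (hφ2 : ∀ j, L'.φ2 (eκ j) = L.φ2 j) (ha : ∀ ω j i, L'.a (T ω) (eκ j) (e i) = L.a ω j i)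
    (hL' : L'.Good B) :
    N'.free L' (μ.map T) = N.free L μ ∧
      ∀ l ≤ N.K, ∀ i, N'.sqGrad L' (μ.map T) l (e i) = N.sqGrad L μ l i := by
  have hN' : N'.Good := ⟨by rw [hx]; exact hN.x_zero, by rw [hx, hK]; exact hN.x_last,
    by rw [hx, hK]; exact hN.x_pos, by rw [hx, hK]; exact hN.x_mono⟩
  have : IsProbabilityMeasure (μ.map T) := Measure.isProbabilityMeasure_map hT.aemeasurable
  set P : (ι' → ℝ) → ι → ℝ := fun y i => y (e i)
  have hloc : ∀ ω y j, L'.loc (T ω) y (eκ j) = L.loc ω (P y) j := fun ω y j => by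
    rw [Leaf.loc, Leaf.loc, ← e.sum_comp]
    exact sum_congr rfl fun i _ => by rw [ha]
  have hham : ∀ ω y, L'.ham (T ω) y = L.ham ω (P y) := fun ω y => by
    rw [Leaf.ham, Leaf.ham, ← eκ.sum_comp]
    exact sum_congr rfl fun j _ => by rw [hloc, hφ]
  have hvec : ∀ ω y i, L'.vec (e i) (T ω) y = L.vec i ω (P y) := fun ω y i => by
    rw [Leaf.vec, Leaf.vec, ← eκ.sum_comp]
    exact sum_congr rfl fun j _ => by rw [hloc, hφ1, ha]
  have hden : ∀ y, ∫ ω', Real.exp (L'.ham ω' y) ∂μ.map T = ∫ ω, Real.exp (L.ham ω (P y)) ∂μ := by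
    intro y
    rw [integral_map hT.aemeasurable (measurable_ham hL' y).exp.aestronglyMeasurable]
    simp only [hham]
  have hZ : ∀ y, L'.logZ (μ.map T) y = L.logZ μ (P y) := fun y => by
    rw [Leaf.logZ, Leaf.logZ, hden]
  have hgibbs : ∀ i y, L'.gibbs (μ.map T) (L'.vec (e i)) y = L.gibbs μ (L.vec i) (P y) := by
    intro i y
    rw [Leaf.gibbs, Leaf.gibbs, hden]
    refine congrArg (· / _) ?_
    have hv := (vec_obs hN' hL' (e i)).1 y
    rw [integral_map hT.aemeasurable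
      (f := fun ω => Real.exp (L'.ham ω y) * L'.vec (e i) ω y)
      ((measurable_ham hL' y).exp.mul hv).aestronglyMeasurable]
    simp only [hham, hvec]
  have hmove : ∀ l y z, P (move (N'.amp l) y z) = move (N.amp l) (P y) (P z) := fun l y z =>
    funext fun i => by simp only [P, move, hamp]
  have hint : ∀ f : (ι → ℝ) → ℝ, Continuous f → ∫ z, f (P z) ∂gauss ι' = ∫ w, f w ∂gauss ι :=
    fun f hf => integral_comp_embedding e.toEmbedding hf
  have hu : ∀ l ≤ N.K, ∀ y, N'.u (L'.logZ (μ.map T)) l y = N.u (L.logZ μ) l (P y) := by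
    intro l hl
    refine levels_induction (P := fun l => ∀ y, N'.u (L'.logZ (μ.map T)) l y =
      N.u (L.logZ μ) l (P y)) (fun y => ?_) (fun m hm ih y => ?_) hl
    · rw [u_top (N := N) le_rfl, ← hK, u_top (N := N') le_rfl, hZ]
    · rw [u_succ (N := N) hm, u_succ (N := N') (hK ▸ hm), hx]
      simp only [stepLog, ih, hmove]
      rw [hint _ (continuous_exp_u hN hL _ _ _ _)]
  have havg : ∀ l < N.K, ∀ (f : (ι → ℝ) → ℝ), Continuous f → ∀ y,
      N'.avg (L'.logZ (μ.map T)) l (fun y => f (P y)) y = N.avg (L.logZ μ) l f (P y) := by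
    intro l hl f hf y
    have hc := hf.comp (continuous_move_right (N.amp (l + 1)) (P y))
    simp only [Nest.avg, tilt, hx, hu (l + 1) hl, hmove]
    rw [hint (fun w => Real.exp (N.x (l + 1) * N.u (L.logZ μ) (l + 1)
        (move (N.amp (l + 1)) (P y) w)) * f (move (N.amp (l + 1)) (P y) w))
        ((continuous_exp_u hN hL _ _ _ _).mul hc),
      hint _ (continuous_exp_u hN hL _ _ _ _)]
  have hmean : ∀ l ≤ N.K, ∀ (f : (ι → ℝ) → ℝ), Tame f →
      N'.mean (L'.logZ (μ.map T)) l (fun y => f (P y)) = N.mean (L.logZ μ) l f := by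
    intro l
    induction l with
    | zero =>
      intro _ f hf
      have : ∀ z, P (fun i => N'.amp 0 i * z i) = fun i => N.amp 0 i * P z i := fun z =>
        funext fun i => by simp only [P, hamp]
      simp only [Nest.mean, this]
      exact hint (fun w => f fun i => N.amp 0 i * w i) (hf.1.comp (by fun_prop))
    | succ l ih =>
      intro hl f hf
      simp only [Nest.mean]
      rw [show N'.avg (L'.logZ (μ.map T)) l (fun y => f (P y)) =
        fun y => N.avg (L.logZ μ) l f (P y) from funext (havg l hl f hf.1)]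
      exact ih (Nat.le_of_succ_le hl) _ (avg_tame hN hL hl hf)
  have hgrad : ∀ l ≤ N.K, ∀ i y,
      N'.grad L' (μ.map T) l (e i) y = N.grad L μ l i (P y) := by
    intro l hl i
    refine levels_induction (P := fun l => ∀ y,
      N'.node L' (μ.map T) l (L'.vec (e i)) y = N.node L μ l (L.vec i) (P y))
      (fun y => ?_) (fun m hm ih y => ?_) hl
    · rw [node_top hN hL, ← hK, node_top hN' hL', hgibbs]
    · rw [node_succ hN hL hm, node_succ hN' hL' (hK ▸ hm)]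
      rw [show N'.node L' (μ.map T) (m + 1) (L'.vec (e i)) =
        fun y => N.node L μ (m + 1) (L.vec i) (P y) from funext ih]
      exact havg m hm _ (node_tame hN hL hm (vec_obs hN hL i)).1 y
  refine ⟨?_, fun l hl i => ?_⟩
  · rw [Nest.free, show N'.u (L'.logZ (μ.map T)) 0 = fun y => N.u (L.logZ μ) 0 (P y) from
      funext (hu 0 (Nat.zero_le _))]
    exact hmean 0 (Nat.zero_le _) _ (u_tame hN hL 0)
  · rw [Nest.sqGrad, show (fun y => N'.grad L' (μ.map T) l (e i) y ^ 2) =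
      fun y => N.grad L μ l i (P y) ^ 2 from funext fun y => by rw [hgrad l hl i y]]
    exact hmean l hl _ (Tame.sq (grad_tame hN hL hl i))

omit [Fintype κ] [MeasurableSpace Ω] [IsProbabilityMeasure μ] hN hL in
lemma integrable_tame_scale {f : (ι → ℝ) → ℝ} (hf : Tame f) (s : ι → ℝ) :
    Integrable (fun z => f fun i => s i * z i) (gauss ι) := by
  obtain ⟨hc, C, k, h⟩ := hf
  refine integrable_of_exp_bound (hc.comp (by fun_prop)) (C := |C|) (k := |k| * l1 s)
    fun z => (h _).trans ?_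
  refine mul_le_mul (le_abs_self C) (Real.exp_le_exp.2 ?_) (Real.exp_pos _).le (abs_nonneg _)
  rw [mul_assoc]
  refine mul_le_mul (le_abs_self k) ?_ (sum_nonneg fun _ _ => abs_nonneg _) (abs_nonneg _)
  rw [l1, l1, mul_sum]
  refine sum_le_sum fun i _ => ?_
  rw [abs_mul]
  exact mul_le_mul_of_nonneg_right (abs_le_l1 s i) (abs_nonneg _)

set_option linter.unusedSectionVars false in
/-- Independent blocks: if, on the states reachable with the given amplitudes, the leaf is a sum of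
functions of disjoint sets of coordinates, then the free energy is the sum. -/
theorem free_add {ι₁ ι₂ Ω₁ κ₁ Ω₂ κ₂ : Type} [Fintype ι₁] [Fintype ι₂] [Fintype κ₁] [Fintype κ₂]
    [MeasurableSpace Ω₁] [MeasurableSpace Ω₂] {N₁ : Nest ι₁} {N₂ : Nest ι₂}
    {L₁ : Leaf Ω₁ κ₁ ι₁} {L₂ : Leaf Ω₂ κ₂ ι₂} {μ₁ : Measure Ω₁} {μ₂ : Measure Ω₂}
    [IsProbabilityMeasure μ₁] [IsProbabilityMeasure μ₂] {B₁ B₂ : ℝ}
    (hL₁ : L₁.Good B₁) (hL₂ : L₂.Good B₂) (e₁ : ι₁ ↪ ι) (e₂ : ι₂ ↪ ι)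
    (hdisj : ∀ i j, e₁ i ≠ e₂ j)
    (hK₁ : N₁.K = N.K) (hK₂ : N₂.K = N.K) (hx₁ : N₁.x = N.x) (hx₂ : N₂.x = N.x)
    (ha₁ : ∀ l i, N.amp l (e₁ i) = N₁.amp l i) (ha₂ : ∀ l i, N.amp l (e₂ i) = N₂.amp l i)
    (hU : ∀ y : ι → ℝ, (∀ i, (∀ l ≤ N.K, N.amp l i = 0) → y i = 0) →
      L.logZ μ y = L₁.logZ μ₁ (fun i => y (e₁ i)) + L₂.logZ μ₂ (fun i => y (e₂ i))) :
    N.free L μ = N₁.free L₁ μ₁ + N₂.free L₂ μ₂ := by
  have hN₁ : N₁.Good := ⟨by rw [hx₁]; exact hN.x_zero, by rw [hx₁, hK₁]; exact hN.x_last,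
    by rw [hx₁, hK₁]; exact hN.x_pos, by rw [hx₁, hK₁]; exact hN.x_mono⟩
  have hN₂ : N₂.Good := ⟨by rw [hx₂]; exact hN.x_zero, by rw [hx₂, hK₂]; exact hN.x_last,
    by rw [hx₂, hK₂]; exact hN.x_pos, by rw [hx₂, hK₂]; exact hN.x_mono⟩
  set P₁ : (ι → ℝ) → ι₁ → ℝ := fun y i => y (e₁ i)
  set P₂ : (ι → ℝ) → ι₂ → ℝ := fun y i => y (e₂ i)
  have hm₁ : ∀ l y z, P₁ (move (N.amp l) y z) = move (N₁.amp l) (P₁ y) (P₁ z) := fun l y z =>
    funext fun i => by simp only [P₁, move, ha₁]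
  have hm₂ : ∀ l y z, P₂ (move (N.amp l) y z) = move (N₂.amp l) (P₂ y) (P₂ z) := fun l y z =>
    funext fun i => by simp only [P₂, move, ha₂]
  have hu : ∀ l ≤ N.K, ∀ y : ι → ℝ, (∀ i, (∀ l ≤ N.K, N.amp l i = 0) → y i = 0) →
      N.u (L.logZ μ) l y = N₁.u (L₁.logZ μ₁) l (P₁ y) + N₂.u (L₂.logZ μ₂) l (P₂ y) := by
    intro l hl
    refine levels_induction (P := fun l => ∀ y : ι → ℝ,
      (∀ i, (∀ l ≤ N.K, N.amp l i = 0) → y i = 0) →
      N.u (L.logZ μ) l y = N₁.u (L₁.logZ μ₁) l (P₁ y) + N₂.u (L₂.logZ μ₂) l (P₂ y))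
      (fun y hy => ?_) (fun m hm ih y hy => ?_) hl
    · have h₁ : N₁.u (L₁.logZ μ₁) N.K = L₁.logZ μ₁ := by rw [← hK₁, u_top (N := N₁) le_rfl]
      have h₂ : N₂.u (L₂.logZ μ₂) N.K = L₂.logZ μ₂ := by rw [← hK₂, u_top (N := N₂) le_rfl]
      rw [u_top (N := N) le_rfl, h₁, h₂]
      exact hU y hy
    · have hy' : ∀ z i, (∀ l ≤ N.K, N.amp l i = 0) → move (N.amp (m + 1)) y z i = 0 :=
        fun z i hi => by simp [move, hy i hi, hi (m + 1) hm]
      rw [u_succ (N := N) hm, u_succ (N := N₁) (hK₁ ▸ hm), u_succ (N := N₂) (hK₂ ▸ hm), hx₁, hx₂]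
      simp only [stepLog]
      set x := N.x (m + 1)
      set F₁ := fun z => Real.exp (x * N₁.u (L₁.logZ μ₁) (m + 1) (move (N₁.amp (m + 1)) (P₁ y) z))
      set F₂ := fun z => Real.exp (x * N₂.u (L₂.logZ μ₂) (m + 1) (move (N₂.amp (m + 1)) (P₂ y) z))
      have hI : ∫ z, Real.exp (x * N.u (L.logZ μ) (m + 1) (move (N.amp (m + 1)) y z)) ∂gauss ι =
          (∫ z, F₁ z ∂gauss ι₁) * ∫ z, F₂ z ∂gauss ι₂ := by
        rw [← integral_prod_mul, ← (gauss_comp_pair e₁ e₂ hdisj).map_eq,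
          integral_map (gauss_comp_pair e₁ e₂ hdisj).measurable.aemeasurable
            (f := fun z => F₁ z.1 * F₂ z.2) (Continuous.aestronglyMeasurable (((continuous_exp_u hN₁ hL₁ _ _ _ _).comp
              continuous_fst).mul ((continuous_exp_u hN₂ hL₂ _ _ _ _).comp continuous_snd)))]
        refine integral_congr_ae (.of_forall fun z => ?_)
        simp only [F₁, F₂]
        rw [ih _ (hy' z), mul_add, Real.exp_add, hm₁, hm₂]
      have hpos : ∀ {β : Type} [Fintype β] {γ η : Type} [Fintype γ] [MeasurableSpace η]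
          {M : Nest β} {L' : Leaf η γ β} {ν : Measure η} [IsProbabilityMeasure ν] {B' : ℝ},
          M.Good → L'.Good B' → M.K = N.K → ∀ w,
          0 < ∫ z, Real.exp (x * M.u (L'.logZ ν) (m + 1) (move (M.amp (m + 1)) w z))
            ∂gauss β := by
        intro β _ γ η _ _ M L' ν _ B' hM hL' hMK w
        have hp := plin_u (μ := ν) (T := Unit) (A := fun _ => M.amp) hM hL'
          (fun _ _ _ => continuous_const) (show m + 1 ≤ M.K by omega)
        exact den_pos hp (s := fun _ => M.amp (m + 1)) (fun _ => continuous_const) x () w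
      rw [hI, Real.log_mul (hpos hN₁ hL₁ hK₁ _).ne' (hpos hN₂ hL₂ hK₂ _).ne', mul_add]
  have hr : ∀ (z : ι → ℝ) i, (∀ l ≤ N.K, N.amp l i = 0) → N.amp 0 i * z i = 0 :=
    fun z i hi => by simp [hi 0 (Nat.zero_le _)]
  show ∫ z, N.u (L.logZ μ) 0 (fun i => N.amp 0 i * z i) ∂gauss ι = _
  have hs : ∀ z, N.u (L.logZ μ) 0 (fun i => N.amp 0 i * z i) =
      N₁.u (L₁.logZ μ₁) 0 (fun i => N₁.amp 0 i * P₁ z i) +
        N₂.u (L₂.logZ μ₂) 0 (fun i => N₂.amp 0 i * P₂ z i) := fun z => by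
    rw [hu 0 (Nat.zero_le _) _ (hr z)]
    simp only [P₁, P₂, ha₁, ha₂]
  have hc₁ : Continuous fun w : ι₁ → ℝ => N₁.u (L₁.logZ μ₁) 0 (fun i => N₁.amp 0 i * w i) :=
    (u_tame hN₁ hL₁ 0).1.comp (by fun_prop)
  have hc₂ : Continuous fun w : ι₂ → ℝ => N₂.u (L₂.logZ μ₂) 0 (fun i => N₂.amp 0 i * w i) :=
    (u_tame hN₂ hL₂ 0).1.comp (by fun_prop)
  have i₁ : Integrable (fun z => N₁.u (L₁.logZ μ₁) 0 fun i => N₁.amp 0 i * P₁ z i) (gauss ι) :=
    ((gauss_comp_embedding e₁).integrable_comp hc₁.aestronglyMeasurable).2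
      (integrable_tame_scale (u_tame hN₁ hL₁ 0) _)
  have i₂ : Integrable (fun z => N₂.u (L₂.logZ μ₂) 0 fun i => N₂.amp 0 i * P₂ z i) (gauss ι) :=
    ((gauss_comp_embedding e₂).integrable_comp hc₂.aestronglyMeasurable).2
      (integrable_tame_scale (u_tame hN₂ hL₂ 0) _)
  simp only [hs]
  rw [integral_add i₁ i₂]
  exact congrArg₂ _ (integral_comp_embedding e₁ hc₁) (integral_comp_embedding e₂ hc₂)

end Vale.Agent.P157.Parisi
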