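import Vale.Agent.P157.Parisi.CalcBasic

/-!
Module A1: integration by parts under the tilt of one step, and the heat quantity.
-/

set_option linter.unusedSectionVars false

namespace Vale.Agent.P157.Parisi

open MeasureTheory ProbabilityTheory Finset

variable {ι : Type} [Fintype ι] {Ω κ : Type} [Fintype κ] [MeasurableSpace Ω]
variable {N : Nest ι} {L : Leaf Ω κ ι} {μ : Measure Ω} [IsProbabilityMeasure μ] {B : ℝ}

/-- Composition of a gradient with a move in the increment. -/
lemma GradOf.comp_move {F : (ι → ℝ) → ℝ} {G : ι → (ι → ℝ) → ℝ} (h : GradOf F G) (s y : ι → ℝ) :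
    GradOf (fun z => F (move s y z)) fun i z => s i * G i (move s y z) := by
  intro z v
  have := h (move s y z) fun i => s i * v i
  have e : ∀ t : ℝ, move s y (fun i => z i + t * v i) = fun i => move s y z i + t * (s i * v i) := by
    intro t; funext i; simp only [move]; ring
  simp only [e]
  exact this.congr_deriv (sum_congr rfl fun i _ => by ring)

lemma gradOf_coord [DecidableEq ι] (m : ι) :
    GradOf (fun z : ι → ℝ => z m) fun i _ => if i = m then 1 else 0 := by
  intro z v
  simpa using ((hasDerivAt_id (0 : ℝ)).mul_const (v m)).const_add (z m)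

section step

variable {u : (ι → ℝ) → ℝ} (hu : LinGrowth u) {g : ι → (ι → ℝ) → ℝ} (hg : ∀ i, Tame (g i))
  (hug : GradOf u g) (m : ℝ) (s : ι → ℝ)

include hu hg hug

/-- Integration by parts under one tilted increment. -/
lemma tilt_ibp {P : (ι → ℝ) → ℝ} {P' : ι → (ι → ℝ) → ℝ} (hP : Tame P) (hP' : ∀ i, Tame (P' i))
    (hd : GradOf P P') (k : ι) (y : ι → ℝ) :
    tilt m s u (fun _ z => z k * P z) y =
      tilt m s u (fun _ z => P' k z) y +
        m * s k * tilt m s u (fun v z => g k (move s v z) * P z) y := by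
  have hE : Tame fun z => Real.exp (m * u (move s y z)) := (hu.exp_tame m).comp_move s y
  have hGg : ∀ i, Tame fun z => m * (s i * g i (move s y z)) :=
    fun i => (((hg i).comp_move s y).const_mul (s i)).const_mul m
  have key := gauss_ibp (hE.mul hP) (fun i => ((hE.mul (hGg i)).mul hP).add (hE.mul (hP' i)))
    (((hug.comp_move s y).exp m).mul hd) k
  simp only [tilt]
  rw [← mul_div_assoc, ← add_div, ← integral_const_mul,
    ← integral_add (hE.mul (hP' k)).integrable
      ((hE.mul (((hg k).comp_move s y).mul hP)).const_mul (m * s k)).integrable]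
  congr 1
  refine Eq.trans (integral_congr_ae (.of_forall fun z => ?_))
    (key.trans (integral_congr_ae (.of_forall fun z => ?_)))
  · simp only; ring
  · simp only; ring

end step

variable (hN : N.Good) (hL : L.Good B)

include hN hL

theorem tilt_z {l : ℕ} (hl : l < N.K) (k : ι) (y : ι → ℝ) :
    tilt (N.x (l + 1)) (N.amp (l + 1)) (N.u (L.logZ μ) (l + 1)) (fun _ z => z k) y =
      N.x (l + 1) * N.amp (l + 1) k * N.grad L μ l k y := by
  have h := tilt_ibp (linGrowth_u (μ := μ) hN hL (l + 1)) (grad_tame (μ := μ) hN hL hl)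
    (gradOf_u hN hL hl) (N.x (l + 1)) (N.amp (l + 1)) (tame_const 1) (fun _ => tame_const 0)
    (fun y v => by simpa using hasDerivAt_const (0 : ℝ) (1 : ℝ)) k y
  simp only [mul_one] at h
  rw [h, grad_succ hN hL hl]
  simp [tilt, Nest.avg]

theorem tilt_z_grad {l : ℕ} (hl : l < N.K) (i k : ι) (y : ι → ℝ) :
    tilt (N.x (l + 1)) (N.amp (l + 1)) (N.u (L.logZ μ) (l + 1))
        (fun v z => z k * N.grad L μ (l + 1) i (move (N.amp (l + 1)) v z)) y =
      N.amp (l + 1) k *
        (N.hess L μ l i k y + N.x (l + 1) * N.grad L μ l k y * N.grad L μ l i y) := by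
  set s := N.amp (l + 1)
  set m := N.x (l + 1)
  set U := N.u (L.logZ μ) (l + 1)
  have h := tilt_ibp (linGrowth_u (μ := μ) hN hL (l + 1)) (grad_tame (μ := μ) hN hL hl)
    (gradOf_u hN hL hl) m s ((grad_tame (μ := μ) hN hL hl i).comp_move s y)
    (fun j => ((hess_tame hN hL hl i j).comp_move s y).const_mul (s j))
    ((gradOf_grad hN hL hl i).comp_move s y) k y
  have e0 : tilt m s U (fun v z => z k * N.grad L μ (l + 1) i (move s v z)) y =
      tilt m s U (fun _ z => z k * N.grad L μ (l + 1) i (move s y z)) y := rfl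
  have e1 : tilt m s U (fun _ z => s k * N.hess L μ (l + 1) i k (move s y z)) y =
      s k * N.avg (L.logZ μ) l (N.hess L μ (l + 1) i k) y := by
    rw [← avg_const_mul (μ := μ) hN hL]; rfl
  have e2 : tilt m s U
      (fun v z => N.grad L μ (l + 1) k (move s v z) * N.grad L μ (l + 1) i (move s y z)) y =
      N.avg (L.logZ μ) l (fun v => N.grad L μ (l + 1) i v * N.grad L μ (l + 1) k v) y := by
    simp only [tilt, Nest.avg]
    congr 1
    exact integral_congr_ae (.of_forall fun z => by ring)
  rw [e0, h, e1, e2, hess_succ hl]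
  ring

theorem tilt_z_z [DecidableEq ι] {l : ℕ} (hl : l < N.K) (k m : ι) (y : ι → ℝ) :
    tilt (N.x (l + 1)) (N.amp (l + 1)) (N.u (L.logZ μ) (l + 1)) (fun _ z => z k * z m) y =
      (if k = m then 1 else 0) + N.x (l + 1) * N.amp (l + 1) k * N.amp (l + 1) m *
        (N.hess L μ l k m y + N.x (l + 1) * N.grad L μ l k y * N.grad L μ l m y) := by
  have h := tilt_ibp (linGrowth_u (μ := μ) hN hL (l + 1)) (grad_tame (μ := μ) hN hL hl)
    (gradOf_u hN hL hl) (N.x (l + 1)) (N.amp (l + 1)) (tame_coord m)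
    (fun i => tame_const (if i = m then 1 else 0)) (gradOf_coord m) k y
  have e : tilt (N.x (l + 1)) (N.amp (l + 1)) (N.u (L.logZ μ) (l + 1))
      (fun v z => N.grad L μ (l + 1) k (move (N.amp (l + 1)) v z) * z m) y =
      N.amp (l + 1) m *
        (N.hess L μ l k m y + N.x (l + 1) * N.grad L μ l m y * N.grad L μ l k y) := by
    rw [← tilt_z_grad hN hL hl k m y]
    simp only [tilt]
    congr 1
    exact integral_congr_ae (.of_forall fun z => by ring)
  have e' : tilt (N.x (l + 1)) (N.amp (l + 1)) (N.u (L.logZ μ) (l + 1))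
      (fun _ _ => if k = m then (1 : ℝ) else 0) y = if k = m then 1 else 0 :=
    avg_const hN hL hl _ y
  rw [h, e, e']
  ring

theorem heat_succ {l : ℕ} (hl : l < N.K) (i : ι) (y : ι → ℝ) :
    N.heat L μ l i y = N.avg (L.logZ μ) l (N.heat L μ (l + 1) i) y -
      N.w (l + 1) * N.avg (L.logZ μ) l (fun v => N.grad L μ (l + 1) i v ^ 2) y := by
  have h : N.avg (L.logZ μ) l (N.heat L μ (l + 1) i) y =
      N.avg (L.logZ μ) l (N.hess L μ (l + 1) i i) y +
        N.x (l + 1 + 1) * N.avg (L.logZ μ) l (fun v => N.grad L μ (l + 1) i v ^ 2) y := by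
    rw [← avg_const_mul (μ := μ) hN hL]
    exact avg_add hN hL hl (hess_tame hN hL hl i i) ((grad_tame hN hL hl i).sq.const_mul _) y
  rw [h, Nest.w, Nest.heat, hess_succ hl]
  simp only [pow_two]
  ring

theorem heat_top (i : ι) (y : ι → ℝ) :
    N.heat L μ N.K i y = L.gibbs μ (fun ω v =>
      (∑ j, L.φ2 j (L.loc ω v j) * L.a ω j i ^ 2) + L.vec i ω v ^ 2) y := by
  rw [Nest.heat, hess_top, hN.x_last, grad_top hN hL]
  simp only [pow_two, ← mul_assoc]
  ring

theorem sqGrad_mono {l m : ℕ} (hlm : l ≤ m) (hm : m ≤ N.K) (i : ι) :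
    N.sqGrad L μ l i ≤ N.sqGrad L μ m i := by
  induction m, hlm using Nat.le_induction with
  | base => exact le_rfl
  | succ m hlm ih =>
    refine (ih (by omega)).trans ?_
    refine mean_mono hN hL (by omega) (grad_tame hN hL (by omega) i).sq
      (avg_tame hN hL (by omega) (grad_tame hN hL hm i).sq) fun y => ?_
    rw [grad_succ hN hL (show m < N.K by omega)]
    exact avg_sq_ge hN hL (by omega) (grad_tame hN hL hm i) y

end Vale.Agent.P157.Parisi
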