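import Vale.Agent.P157.ParisiG.ConcaveCore
import Vale.Agent.P157.ParisiG.Link
import Vale.Agent.P157.ParisiG.OneSpin
import Vale.Agent.P157.Parisi.CalcAmp

/-!
The free energy of a block of spins is concave in the variance path of its field.
-/

namespace Vale.Agent.P157.Parisi

open MeasureTheory ProbabilityTheory Finset Filter Topology

variable {n K : ℕ}

/-- A path from its first `K + 1` values. -/
def pathOf (x : Fin (K + 1) → ℝ) (l : ℕ) : ℝ :=
  if hl : l < K + 1 then x ⟨l, hl⟩ else x (Fin.last K)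

theorem pathOf_val (x : Fin (K + 1) → ℝ) (j : Fin (K + 1)) : pathOf x j = x j := by
  unfold pathOf
  rw [dif_pos j.isLt]

theorem pathOf_add_smul (x v : Fin (K + 1) → ℝ) (t : ℝ) (l : ℕ) :
    pathOf (x + t • v) l = pathOf x l + t * pathOf v l := by
  unfold pathOf; split <;> simp

theorem continuous_pathOf (l : ℕ) : Continuous fun x : Fin (K + 1) → ℝ => pathOf x l := by
  unfold pathOf; split <;> exact continuous_apply _

/-- Positive increasing paths. -/
def pathCone (K : ℕ) : Set (Fin (K + 1) → ℝ) :=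
  {x | 0 < x 0} ∩ ⋂ i : Fin K, {x | x i.castSucc < x i.succ}

theorem isOpen_pathCone (K : ℕ) : IsOpen (pathCone K) :=
  (isOpen_lt continuous_const (continuous_apply _)).inter
    (isOpen_iInter_of_finite fun _ => isOpen_lt (continuous_apply _) (continuous_apply _))

theorem mem_pathCone {x : Fin (K + 1) → ℝ} :
    x ∈ pathCone K ↔ 0 < x 0 ∧ ∀ i : Fin K, x i.castSucc < x i.succ := by
  simp [pathCone]

theorem convex_pathCone (K : ℕ) : Convex ℝ (pathCone K) := by
  intro x hx y hy a b ha hb hab
  rw [mem_pathCone] at hx hy ⊢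
  have key : ∀ p q p' q' : ℝ, p < q → p' < q' → a * p + b * p' < a * q + b * q' := by
    intro p q p' q' h h'
    rcases eq_or_lt_of_le ha with rfl | ha'
    · simp only [zero_add] at hab
      subst hab
      linarith
    · linarith [mul_lt_mul_of_pos_left h ha', mul_le_mul_of_nonneg_left h'.le hb]
  refine ⟨?_, fun i => ?_⟩
  · simpa using key 0 _ 0 _ hx.1 hy.1
  · simpa using key _ _ _ _ (hx.2 i) (hy.2 i)

theorem pathCone_lt {x : Fin (K + 1) → ℝ} (hx : x ∈ pathCone K) {l : ℕ} (hl : l < K) :
    pathOf x l < pathOf x (l + 1) := by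
  have := (mem_pathCone.1 hx).2 ⟨l, hl⟩
  unfold pathOf
  rw [dif_pos (by omega), dif_pos (by omega)]
  exact this

theorem pathCone_pos {x : Fin (K + 1) → ℝ} (hx : x ∈ pathCone K) : 0 < pathOf x 0 := by
  have := (mem_pathCone.1 hx).1
  simpa [pathOf] using this

theorem incr_pos {x : Fin (K + 1) → ℝ} (hx : x ∈ pathCone K) {l : ℕ} (hl : l ≤ K) :
    0 < RadG.incr (pathOf x) l := by
  unfold RadG.incr
  split
  · exact Real.sqrt_pos.2 (pathCone_pos hx)
  · obtain ⟨k, rfl⟩ : ∃ k, l = k + 1 := ⟨l - 1, by omega⟩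
    rw [Nat.add_sub_cancel]
    exact Real.sqrt_pos.2 (sub_pos.2 (pathCone_lt hx (by omega)))

/-- The first differences of a path. -/
def pathDiff (c : ℕ → ℝ) (l : ℕ) : ℝ := if l = 0 then c 0 else c l - c (l - 1)

theorem sum_pathDiff (c : ℕ → ℝ) (K : ℕ) : ∑ l ∈ range (K + 1), pathDiff c l = c K := by
  induction K with
  | zero => simp [pathDiff]
  | succ K ih => rw [sum_range_succ, ih]; simp [pathDiff]

theorem sum_pathDiff_tail (c f : ℕ → ℝ) (K : ℕ) :
    ∑ l ∈ range (K + 1), pathDiff c l * ∑ m ∈ Icc l K, f m =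
      ∑ m ∈ range (K + 1), f m * c m := by
  induction K with
  | zero => simp [pathDiff, mul_comm]
  | succ K ih =>
    have e : ∀ l ∈ range (K + 1), pathDiff c l * ∑ m ∈ Icc l (K + 1), f m =
        pathDiff c l * ∑ m ∈ Icc l K, f m + pathDiff c l * f (K + 1) := fun l hl => by
      rw [sum_Icc_succ_top (by rw [mem_range] at hl; omega), mul_add]
    rw [sum_range_succ, sum_congr rfl e, sum_add_distrib, ih, ← sum_mul, sum_pathDiff,
      sum_range_succ _ (K + 1), Icc_self, sum_singleton]
    simp only [pathDiff, Nat.add_sub_cancel, if_neg (Nat.succ_ne_zero K)]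
    ring

/-- The free energy depends on the path up to its last level only. -/
theorem blockField_congr (n K : ℕ) {h h' : ℕ → ℝ} (e : ∀ l ≤ K, h l = h' l) :
    blockField (n + 1) K h = blockField (n + 1) K h' := by
  have := RadG.isProbability_sphereUnif n
  set A : ℝ → ℕ → Fin (n + 1) → ℝ := fun t l _ =>
    (1 - t) * RadG.incr h l + t * RadG.incr h' l with hA
  have hd : ∀ t₀ : ℝ, HasDerivAt (fun t => ((blockNest (n + 1) K h).setAmp (A t)).free
      (blockLeaf (n + 1)) (sphereUnif (n + 1))) 0 t₀ := fun t₀ => by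
    have he : ∀ l ≤ K, RadG.incr h l = RadG.incr h' l := fun l hl => by
      simp only [RadG.incr, e 0 (Nat.zero_le K), e l hl, e (l - 1) (by omega)]
    refine (free_deriv (RadG.blockNest_good (n + 1) K h) (RadG.blockLeaf_good (n + 1))
      (A := A) (A' := fun _ _ _ => 0) (t₀ := t₀) one_pos (fun l hl i t _ => ?_)
      (fun l _ i => continuousAt_const)).congr_deriv (by simp)
    have : (fun s => A s l i) = fun _ => RadG.incr h l := by
      funext s
      simp only [hA, he l hl]
      ring
    rw [this]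
    exact hasDerivAt_const _ _
  have hc := is_const_of_deriv_eq_zero (fun t => (hd t).differentiableAt) (fun t => (hd t).deriv)
    0 1
  have e0 : (blockNest (n + 1) K h).setAmp (A 0) = blockNest (n + 1) K h := by
    have : A 0 = (blockNest (n + 1) K h).amp := by
      funext l i; simp [hA, RadG.blockNest_amp]
    rw [this]; rfl
  have e1 : (blockNest (n + 1) K h).setAmp (A 1) = blockNest (n + 1) K h' := by
    have : A 1 = (blockNest (n + 1) K h').amp := by
      funext l i; simp [hA, RadG.blockNest_amp]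
    rw [this]; rfl
  rw [e0, e1] at hc
  rw [blockField, blockField, hc, e K le_rfl]

/-- The gradient of the free energy. -/
noncomputable def blockGrad (n K : ℕ) (x : Fin (K + 1) → ℝ) (j : Fin (K + 1)) : ℝ :=
  -((gridX K (j + 1) - gridX K j) *
    RadG.qv n K (gridX K) (RadG.incr (pathOf x)) (RadG.leafProf n) j) / (2 * (n + 1 : ℕ))

theorem hasDerivAt_blockField {x : Fin (K + 1) → ℝ} (hx : x ∈ pathCone K)
    (v : Fin (K + 1) → ℝ) :
    HasDerivAt (fun t : ℝ => blockField (n + 1) K (pathOf (x + t • v)))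
      (ConcaveCore.pair (blockGrad n K x) v) 0 := by
  have := RadG.isProbability_sphereUnif n
  have hcont : Continuous fun t : ℝ => x + t • v := by fun_prop
  obtain ⟨r, hr, hball⟩ : ∃ r > 0, ∀ t : ℝ, |t - 0| < r → x + t • v ∈ pathCone K := by
    obtain ⟨r, hr, hs⟩ := Metric.isOpen_iff.1 ((isOpen_pathCone K).preimage hcont) 0
      (by simpa using hx)
    exact ⟨r, hr, fun t ht => hs (by simpa [Metric.mem_ball, Real.dist_eq] using ht)⟩
  set c := pathOf x
  set d := pathOf v
  set A : ℝ → ℕ → Fin (n + 1) → ℝ := fun t l _ => RadG.incr (pathOf (x + t • v)) l with hA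
  set A' : ℝ → ℕ → Fin (n + 1) → ℝ := fun t l i => pathDiff d l / (2 * A t l i) with hA'
  have hlin : ∀ l t, HasDerivAt (fun s : ℝ => pathOf (x + s • v) l) (d l) t := fun l t => by
    have e : (fun s : ℝ => pathOf (x + s • v) l) = fun s => c l + s * d l :=
      funext fun s => pathOf_add_smul x v s l
    rw [e]
    simpa using ((hasDerivAt_id t).mul_const (d l)).const_add (c l)
  have hdA : ∀ l ≤ K, ∀ i, ∀ t, |t - 0| < r → HasDerivAt (fun s => A s l i) (A' t l i) t := by
    intro l hl i t ht
    have hp := incr_pos (hball t ht) hl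
    simp only [hA', hA, RadG.incr, pathDiff] at hp ⊢
    by_cases h0 : l = 0
    · simp only [h0, if_true] at hp ⊢
      exact (hlin 0 t).sqrt (Real.sqrt_pos.1 hp).ne'
    · simp only [if_neg h0] at hp ⊢
      exact ((hlin l t).sub (hlin (l - 1) t)).sqrt (Real.sqrt_pos.1 hp).ne'
  have hcA' : ∀ l ≤ K, ∀ i, ContinuousAt (fun t => A' t l i) 0 := by
    intro l hl i
    refine continuousAt_const.div (continuousAt_const.mul
      (hdA l hl i 0 (by simpa using hr)).continuousAt) ?_
    have := incr_pos (hball 0 (by simpa using hr)) hl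
    simp only [hA]
    linarith
  have h := free_deriv (N := blockNest (n + 1) K c) (RadG.blockNest_good (n + 1) K c)
    (RadG.blockLeaf_good (n + 1)) (μ := sphereUnif (n + 1)) hr hdA hcA'
  set M := (blockNest (n + 1) K c).setAmp (A 0) with hMdef
  have hM : M = blockNest (n + 1) K c := by
    have : A 0 = (blockNest (n + 1) K c).amp := by
      funext l i; simp [hA, c, RadG.blockNest_amp]
    rw [hMdef, this]; rfl
  have hprod : ∀ l ≤ K, ∀ i, A' 0 l i * A 0 l i = pathDiff d l / 2 := fun l hl i => by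
    have := incr_pos (hball 0 (by simpa using hr)) hl
    simp only [hA', hA]
    field_simp
  have hN : ∑ i, (blockNest (n + 1) K c).heatTop (blockLeaf (n + 1)) (sphereUnif (n + 1)) i =
      (n + 1 : ℕ) := by
    simp only [Nest.heatTop]
    show ∑ i, (blockNest (n + 1) K c).mean _ K ((blockNest (n + 1) K c).heat _ _ K i) = _
    rw [← RadG.mean_finset_sum c (Nat.le_refl K) univ fun i _ =>
      heat_tame (RadG.blockNest_good (n + 1) K c) (RadG.blockLeaf_good (n + 1))
        (μ := sphereUnif (n + 1)) (l := K) (Nat.le_refl K) i]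
    simp only [RadG.heat_sum c]
    exact mean_const (RadG.blockNest_good (n + 1) K c) (RadG.blockLeaf_good (n + 1)) le_rfl _
  have hfree : ∀ t : ℝ, blockNest (n + 1) K (pathOf (x + t • v)) =
      (blockNest (n + 1) K c).setAmp (A t) := fun t => rfl
  have hfin := (h.div_const ((n + 1 : ℕ) : ℝ)).sub ((hlin K 0).div_const 2)
  refine (hfin.congr_of_eventuallyEq (Eventually.of_forall fun t => ?_)).congr_deriv ?_
  · simp only [blockField, hfree, Pi.sub_apply]
  set f : ℕ → ℝ := fun m => (gridX K (m + 1) - gridX K m) *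
    RadG.qv n K (gridX K) (RadG.incr c) (RadG.leafProf n) m with hf
  have hsum : ∑ l ∈ range ((blockNest (n + 1) K c).K + 1), ∑ i, A' 0 l i * A 0 l i *
      (M.heatTop (blockLeaf (n + 1)) (sphereUnif (n + 1)) i -
        ∑ m ∈ Icc l (blockNest (n + 1) K c).K, (blockNest (n + 1) K c).w m *
          M.sqGrad (blockLeaf (n + 1)) (sphereUnif (n + 1)) m i) =
      (d K * (n + 1 : ℕ) - ∑ m ∈ range (K + 1), f m * d m) / 2 := by
    rw [← sum_pathDiff d K, ← sum_pathDiff_tail d f K, sum_mul, ← sum_sub_distrib, sum_div]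
    show ∑ l ∈ range (K + 1), _ = _
    refine sum_congr rfl fun l hl => ?_
    rw [mem_range, Nat.lt_succ_iff] at hl
    simp only [hprod l hl, hM, ← mul_sum, sum_sub_distrib, hN]
    rw [sum_comm, ← mul_sub, div_mul_eq_mul_div]
    congr 2
    show _ - ∑ m ∈ Icc l K, _ = _
    congr 1
    refine sum_congr rfl fun m hm => ?_
    rw [← mul_sum, RadG.sqGrad_sum c (mem_Icc.1 hm).2]
    rfl
  rw [hsum]
  have hp : ConcaveCore.pair (blockGrad n K x) v =
      -(∑ m ∈ range (K + 1), f m * d m) / (2 * (n + 1 : ℕ)) := by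
    rw [ConcaveCore.pair, ← Fin.sum_univ_eq_sum_range (fun m => f m * d m), neg_div, sum_div,
      ← sum_neg_distrib]
    refine sum_congr rfl fun j _ => ?_
    simp only [blockGrad, hf, d, c, pathOf_val]
    ring
  rw [hp]
  field_simp
  ring

theorem blockGrad_off {x : Fin (K + 1) → ℝ} {j l : Fin (K + 1)} (hjl : j < l) {a : ℝ}
    (ha : 0 ≤ a) (hx : x ∈ pathCone K) (hy : x + a • Pi.single l (1 : ℝ) ∈ pathCone K) :
    blockGrad n K x j ≤ blockGrad n K (x + a • Pi.single l (1 : ℝ)) j := by
  set y := x + a • Pi.single l (1 : ℝ) with hydef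
  have hval : ∀ i, i ≤ K → pathOf y i = pathOf x i + if i = (l : ℕ) then a else 0 := fun i hi => by
    rw [hydef, pathOf_add_smul]
    congr 1
    simp [pathOf, Pi.single_apply, Fin.ext_iff, Nat.lt_succ_iff.2 hi]
  have hl : (l : ℕ) ≤ K := Nat.lt_succ_iff.1 l.isLt
  have hjl' : (j : ℕ) < l := hjl
  have hq : RadG.qv n K (gridX K) (RadG.incr (pathOf y)) (RadG.leafProf n) j ≤
      RadG.qv n K (gridX K) (RadG.incr (pathOf x)) (RadG.leafProf n) j := by
    refine RadG.qv_single (RadG.nice_leafProf n) (fun _ h1 _ => RadG.gridX_pos h1)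
      (fun i _ _ => RadG.gridX_mono K i) (RadG.gridX_le_one K K)
      (fun s hs => RadG.leafProf_top n hs) hjl' hl ha (by rw [hval _ hl, if_pos rfl])
      (fun i hi hne => by rw [hval i hi, if_neg hne, add_zero]) ?_ fun hlK => ?_
    · have h := pathCone_lt hx (show (l : ℕ) - 1 < K by omega)
      rw [Nat.sub_add_cancel (by omega)] at h
      exact h.le
    · have h := pathCone_lt hy hlK
      rw [hval _ hl, hval _ hlK, if_pos rfl, if_neg (by omega), add_zero] at h
      exact h.le
  simp only [blockGrad]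
  refine div_le_div_of_nonneg_right (neg_le_neg
    (mul_le_mul_of_nonneg_left hq (sub_nonneg.2 (RadG.gridX_mono K j)))) (by positivity)

theorem blockGrad_shift {x : Fin (K + 1) → ℝ} {j : Fin (K + 1)} {a : ℝ} (ha : 0 ≤ a) :
    blockGrad n K (x + a • (1 : Fin (K + 1) → ℝ)) j ≤ blockGrad n K x j := by
  have e : pathOf (x + a • (1 : Fin (K + 1) → ℝ)) = fun l => pathOf x l + a := by
    funext l
    rw [pathOf_add_smul]
    congr 1
    simp [pathOf]
  have hq := RadG.qv_shift (n := n) (K := K) (RadG.nice_leafProf n) (x := gridX K)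
    (fun _ h1 _ => RadG.gridX_pos h1) (h := pathOf x) ha (Nat.lt_succ_iff.1 j.isLt)
  simp only [blockGrad, e]
  refine div_le_div_of_nonneg_right (neg_le_neg
    (mul_le_mul_of_nonneg_left hq (sub_nonneg.2 (RadG.gridX_mono K j)))) (by positivity)

theorem concaveOn_blockField (n K : ℕ) :
    ConcaveOn ℝ (pathCone K) fun x => blockField (n + 1) K (pathOf x) :=
  ConcaveCore.concaveOn_of_gradient (G := blockGrad n K) (isOpen_pathCone K) (convex_pathCone K)
    (fun _ hx v => hasDerivAt_blockField hx v)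
    (fun _ hx _ _ hjl _ ha hy => blockGrad_off hjl ha hx hy)
    fun _ _ _ _ ha _ => blockGrad_shift ha

theorem continuous_blockField (n K : ℕ) :
    Continuous fun x : Fin (K + 1) → ℝ => blockField (n + 1) K (pathOf x) := by
  have := RadG.isProbability_sphereUnif n
  have hA : ∀ l ≤ K, ∀ _i : Fin (n + 1),
      Continuous fun x : Fin (K + 1) → ℝ => RadG.incr (pathOf x) l := fun l _ _ => by
    unfold RadG.incr
    split
    · exact (continuous_pathOf 0).sqrt
    · exact ((continuous_pathOf l).sub (continuous_pathOf (l - 1))).sqrt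
  have h := continuous_free (N := blockNest (n + 1) K 0) (RadG.blockNest_good (n + 1) K 0)
    (RadG.blockLeaf_good (n + 1)) (μ := sphereUnif (n + 1))
    (A := fun (x : Fin (K + 1) → ℝ) l (_ : Fin (n + 1)) => RadG.incr (pathOf x) l) hA
  exact (h.div_const _).sub ((continuous_pathOf K).div_const 2)

theorem blockField_concave {n : ℕ} (hn : 0 < n) (K : ℕ) {h h' : ℕ → ℝ} (hh : IsPath h)
    (hh' : IsPath h') {t : ℝ} (ht0 : 0 ≤ t) (ht1 : t ≤ 1) :
    (1 - t) * blockField n K h + t * blockField n K h' ≤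
      blockField n K (fun l => (1 - t) * h l + t * h' l) := by
  obtain ⟨m, rfl⟩ : ∃ m, n = m + 1 := ⟨n - 1, by omega⟩
  let lift : (ℕ → ℝ) → ℝ → Fin (K + 1) → ℝ := fun g ε j => g j + ε * ((j : ℕ) + 1)
  have hmem : ∀ g, IsPath g → ∀ ε, 0 < ε → lift g ε ∈ pathCone K := by
    intro g hg ε hε
    rw [mem_pathCone]
    refine ⟨?_, fun i => ?_⟩
    · simpa [lift] using add_pos_of_nonneg_of_pos hg.2 hε
    · have := hg.1 (show (i : ℕ) ≤ (i : ℕ) + 1 by omega)
      simp only [lift, Fin.val_castSucc, Fin.val_succ]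
      push_cast
      linarith
  set h'' : ℕ → ℝ := fun l => (1 - t) * h l + t * h' l with hh''
  have hineq : ∀ ε, 0 < ε → (1 - t) * blockField (m + 1) K (pathOf (lift h ε)) +
      t * blockField (m + 1) K (pathOf (lift h' ε)) ≤
        blockField (m + 1) K (pathOf (lift h'' ε)) := by
    intro ε hε
    have hc := (concaveOn_blockField m K).2 (hmem h hh ε hε) (hmem h' hh' ε hε)
      (sub_nonneg.2 ht1) ht0 (sub_add_cancel 1 t)
    have e : (1 - t) • lift h ε + t • lift h' ε = lift h'' ε := by
      funext j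
      simp only [lift, hh'', Pi.add_apply, Pi.smul_apply, smul_eq_mul]
      ring
    rw [e] at hc
    simpa using hc
  have hlim : ∀ g : ℕ → ℝ, Tendsto (fun ε => blockField (m + 1) K (pathOf (lift g ε)))
      (𝓝[>] 0) (𝓝 (blockField (m + 1) K g)) := by
    intro g
    have hl : Continuous (lift g) := by fun_prop
    have h0 := (((continuous_blockField m K).comp hl).tendsto 0).mono_left
      (nhdsWithin_le_nhds (s := Set.Ioi 0))
    have e : blockField (m + 1) K (pathOf (lift g 0)) = blockField (m + 1) K g :=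
      blockField_congr m K fun l hl => by simp [pathOf, lift, Nat.lt_succ_iff.2 hl]
    simpa [Function.comp_def, e] using h0
  exact le_of_tendsto_of_tendsto (((hlim h).const_mul _).add ((hlim h').const_mul _)) (hlim h'')
    (eventually_nhdsWithin_of_forall fun ε hε => hineq ε hε)

theorem blockField_one (K : ℕ) {h : ℕ → ℝ} (_hh : IsPath h) :
    blockField 1 K h = isingField K h :=
  RadG.blockField_one K h

end Vale.Agent.P157.Parisi
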