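import Vale.Agent.P157.Parisi.CalcAmp
import Vale.Agent.P157.Parisi.ModelFacts

/-!
Insertion of one pattern, and the single-pattern free energy.
-/

set_option linter.unusedSectionVars false

namespace Vale.Agent.P157.Parisi.ModelFacts

open MeasureTheory ProbabilityTheory Finset

section

variable {ι : Type} [Fintype ι] {Ω κ : Type} [Fintype κ] [MeasurableSpace Ω]
variable {N : Nest ι} {L : Leaf Ω κ ι} {μ : Measure Ω} [IsProbabilityMeasure μ] {B : ℝ}

omit [Fintype κ] [MeasurableSpace Ω] in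
lemma tame_of_bdd {f : (ι → ℝ) → ℝ} (hc : Continuous f) {C : ℝ} (h : ∀ y, |f y| ≤ C) : Tame f :=
  ⟨hc, C, 0, fun y => by simpa using h y⟩

/-- The derivative of the free energy along an interpolation of squared amplitudes. -/
theorem free_deriv_sq (hN : N.Good) (hL : L.Good B) {A : ℝ → ℕ → ι → ℝ} {Δ : ℕ → ι → ℝ}
    (hA : ∀ l ≤ N.K, ∀ i, SqPath A Δ l i) {t : ℝ} (ht : t ∈ Set.Ioo (0 : ℝ) 1) :
    HasDerivAt (fun s => (N.setAmp (A s)).free L μ)
      ((1 / 2) * ∑ i, ((∑ l ∈ range (N.K + 1), Δ l i) * (N.setAmp (A t)).heatTop L μ i -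
        ∑ m ∈ range (N.K + 1), N.w m * (N.setAmp (A t)).sqGrad L μ m i *
          ∑ l ∈ range (m + 1), Δ l i)) t := by
  have hr : 0 < min t (1 - t) := lt_min ht.1 (by linarith [ht.2])
  have hmem : ∀ s, |s - t| < min t (1 - t) → s ∈ Set.Ioo (0 : ℝ) 1 := fun s hs => by
    have h1 := (abs_lt.1 hs)
    constructor <;> linarith [min_le_left t (1 - t), min_le_right t (1 - t)]
  refine (free_deriv hN hL (A := A) (A' := fun s l i => Δ l i / (2 * A s l i)) hr
    (fun l hl i s hs => (hasDerivAt_sqPath (hA l hl i) (hmem s hs)).1)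
    (fun l hl i => ?_)).congr_deriv ?_
  · obtain ⟨-, -, hz⟩ := hasDerivAt_sqPath (hA l hl i) ht
    rcases eq_or_ne (A t l i) 0 with h0 | h0
    · simp only [hz h0, zero_div]; exact continuousAt_const
    · exact continuousAt_const.div (continuousAt_const.mul (continuous_sqPath (hA l hl i)).continuousAt)
        (mul_ne_zero two_ne_zero h0)
  · rw [mul_sum]
    conv_lhs => rw [sum_comm]
    refine sum_congr rfl fun i _ => ?_
    rw [← sum_swap_tail N.K (fun l => Δ l i)
        (fun m => N.w m * (N.setAmp (A t)).sqGrad L μ m i), sum_mul, ← sum_sub_distrib, mul_sum]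
    refine sum_congr rfl fun l hl => ?_
    rw [(hasDerivAt_sqPath (hA l (by simp only [mem_range] at hl; omega) i) ht).2.1]
    ring

theorem continuous_free_sq (hN : N.Good) (hL : L.Good B) {A : ℝ → ℕ → ι → ℝ} {Δ : ℕ → ι → ℝ}
    (hA : ∀ l ≤ N.K, ∀ i, SqPath A Δ l i) :
    Continuous fun s => (N.setAmp (A s)).free L μ :=
  continuous_free hN hL fun l hl i => continuous_sqPath (hA l hl i)

lemma mean_finsetSum (hN : N.Good) (hL : L.Good B) {l : ℕ} (hl : l ≤ N.K) {α : Type}
    (t : Finset α) {f : α → (ι → ℝ) → ℝ} (h : ∀ a ∈ t, Tame (f a)) :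
    N.mean (L.logZ μ) l (fun y => ∑ a ∈ t, f a y) = ∑ a ∈ t, N.mean (L.logZ μ) l (f a) := by
  classical
  induction t using Finset.induction_on with
  | empty => simpa using mean_const hN hL hl (0 : ℝ)
  | @insert a t ha ih =>
    simp only [sum_insert ha]
    rw [mean_add hN hL hl (h a (mem_insert_self _ _))
      (tame_sum t fun b hb => h b (mem_insert_of_mem hb)),
      ih fun b hb => h b (mem_insert_of_mem hb)]

lemma abs_gibbs_le (hL : L.Good B) {g : Ω → (ι → ℝ) → ℝ} {y : ι → ℝ}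
    (hg : Measurable fun ω => g ω y) {C : ℝ} (h : ∀ ω, |g ω y| ≤ C) : |L.gibbs μ g y| ≤ C := by
  rw [Leaf.gibbs, abs_div, abs_of_pos (integral_exp_pos (integrable_exp_ham hL μ y)),
    div_le_iff₀ (integral_exp_pos (integrable_exp_ham hL μ y)), ← integral_const_mul]
  refine abs_integral_le_integral_abs.trans (integral_mono
    (integrable_exp_ham_mul hL μ y hg h).abs ((integrable_exp_ham hL μ y).const_mul C) fun ω => ?_)
  rw [abs_mul, Real.abs_exp, mul_comm C]
  exact mul_le_mul_of_nonneg_left (h ω) (Real.exp_pos _).le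

end

/-- The hierarchy of a single pattern. -/
noncomputable abbrev oneNest (K : ℕ) (v : ℕ → ℝ) : Nest Unit :=
  { K := K + 1, x := gridX K, amp := fun l _ => v l }

/-- The leaf of a single pattern. -/
abbrev oneLeaf (φ φ1 φ2 : ℝ → ℝ) : Leaf Unit Unit Unit :=
  { a := fun _ _ _ => 1, φ := fun _ => φ, φ1 := fun _ => φ1, φ2 := fun _ => φ2 }

variable {φ φ1 φ2 : ℝ → ℝ} {B : ℝ}

lemma oneNest_good (K : ℕ) (v : ℕ → ℝ) : (oneNest K v).Good where
  x_zero := by simp [gridX, lvl]
  x_last := by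
    simp only [gridX, lvl, min_eq_left_iff]
    rw [le_div_iff₀ (by positivity)]
    push_cast; linarith
  x_pos l h1 _ := lt_min one_pos (div_pos (by exact_mod_cast h1) (by positivity))
  x_mono l _ := min_le_min le_rfl (div_le_div_of_nonneg_right (by simp) (by positivity))

lemma oneLeaf_good (hφ : PhiGood φ φ1 φ2 B) : (oneLeaf φ φ1 φ2).Good B where
  nonneg := zero_le_one.trans hφ.one_le
  meas _ _ := measurable_const
  bound _ _ _ := by simpa using hφ.one_le
  deriv1 _ := hφ.deriv1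
  deriv2 _ := hφ.deriv2
  cont2 _ := hφ.cont2
  bound1 _ := hφ.bound1
  bound2 _ := hφ.bound2

lemma gridX_of_le (K : ℕ) {l : ℕ} (h : l ≤ K + 1) : gridX K l = lvl K l := by
  refine min_eq_right ((div_le_one (by positivity)).2 ?_)
  exact_mod_cast h

lemma gridX_top (K : ℕ) {l : ℕ} (h : K + 1 ≤ l) : gridX K l = 1 := by
  refine min_eq_left ((one_le_div (by positivity)).2 ?_)
  exact_mod_cast h

lemma w_of_le (K : ℕ) {ι : Type} (N : Nest ι) (hx : N.x = gridX K) {m : ℕ} (hm : m ≤ K) :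
    N.w m = ((K : ℝ) + 1)⁻¹ := by
  simp only [Nest.w, hx, gridX_of_le K (show m + 1 ≤ K + 1 by omega),
    gridX_of_le K (show m ≤ K + 1 by omega), lvl]
  push_cast; ring

lemma w_top (K : ℕ) {ι : Type} (N : Nest ι) (hx : N.x = gridX K) : N.w (K + 1) = 0 := by
  simp [Nest.w, hx, gridX_top K (le_refl _), gridX_top K (show K + 1 ≤ K + 1 + 1 by omega)]

lemma sum_w (K : ℕ) {ι : Type} (N : Nest ι) (hx : N.x = gridX K) :
    ∑ m ∈ range (K + 1 + 1), N.w m = 1 := by
  simp only [Nest.w]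
  rw [sum_range_sub, hx, gridX_top K (by omega)]
  simp [gridX, lvl]

lemma pathAmp_sq_sum (K : ℕ) {q : ℕ → ℝ} (hq : IsPath q) :
    ∀ m ≤ K, ∑ l ∈ range (m + 1), pathAmp K q l ^ 2 = q m
  | 0, _ => by simp [pathAmp, Real.sq_sqrt hq.2]
  | m + 1, hm => by
    rw [sum_range_succ, pathAmp_sq_sum K hq m (by omega), pathAmp, if_neg (by omega),
      if_neg (by omega), Real.sq_sqrt (sub_nonneg.2 (hq.1 (by omega))), Nat.add_sub_cancel]
    ring

lemma pathAmp_sq_total (K : ℕ) {q : ℕ → ℝ} (hq : IsPath q) (h1 : q K ≤ 1) :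
    ∑ l ∈ range (K + 1 + 1), pathAmp K q l ^ 2 = 1 := by
  rw [sum_range_succ, pathAmp_sq_sum K hq K le_rfl, pathAmp, if_neg (by omega), if_pos rfl,
    Real.sq_sqrt (sub_nonneg.2 h1)]
  ring

lemma pathAmp_nonneg (K : ℕ) (q : ℕ → ℝ) (l : ℕ) : 0 ≤ pathAmp K q l := by
  unfold pathAmp; split_ifs <;> exact Real.sqrt_nonneg _

lemma integral_gauss_unit (F : ℝ → ℝ) : ∫ z, F (z ()) ∂gauss Unit = ∫ x, F x ∂gaussianReal 0 1 :=
  (measurePreserving_funUnique (gaussianReal 0 1) Unit).integral_comp' F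

lemma oneLeaf_logZ (φ φ1 φ2 : ℝ → ℝ) (y : Unit → ℝ) :
    (oneLeaf φ φ1 φ2).logZ (Measure.dirac ()) y = φ (y ()) := by
  simp [Leaf.logZ, Leaf.ham, Leaf.loc]

lemma abs_heatTop_one (hφ : PhiGood φ φ1 φ2 B) (K : ℕ) (v : ℕ → ℝ) :
    |(oneNest K v).heatTop (oneLeaf φ φ1 φ2) (Measure.dirac ()) ()| ≤ 2 * B ^ 2 := by
  have hN := oneNest_good K v
  have hL := oneLeaf_good hφ
  have hb : ∀ y, |(oneNest K v).heat (oneLeaf φ φ1 φ2) (Measure.dirac ()) (oneNest K v).K () y|
      ≤ 2 * B ^ 2 := by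
    intro y
    rw [heat_top hN hL]
    refine abs_gibbs_le hL (measurable_of_finite _) fun ω => ?_
    simp only [Leaf.vec, Fintype.univ_punit, sum_singleton, one_pow, mul_one]
    have h1 := hφ.bound2 ((oneLeaf φ φ1 φ2).loc ω y ())
    have h2 : φ1 ((oneLeaf φ φ1 φ2).loc ω y ()) ^ 2 ≤ B ^ 2 := by
      rw [← sq_abs]; exact pow_le_pow_left₀ (abs_nonneg _) (hφ.bound1 _) 2
    have h3 : B ≤ B ^ 2 := le_self_pow₀ hφ.one_le two_ne_zero
    rw [abs_le] at h1 ⊢
    constructor <;> nlinarith [sq_nonneg (φ1 ((oneLeaf φ φ1 φ2).loc ω y ()))]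
  have ht := heat_tame (μ := Measure.dirac ()) hN hL (le_refl (oneNest K v).K) ()
  rw [Nest.heatTop, abs_le]
  constructor
  · refine le_trans (le_of_eq (mean_const hN hL le_rfl _).symm)
      (mean_mono hN hL le_rfl (tame_of_bdd continuous_const fun _ => le_rfl) ht
        fun y => (abs_le.1 (hb y)).1)
  · refine le_trans (mean_mono hN hL le_rfl ht (tame_of_bdd continuous_const fun _ => le_rfl)
      fun y => (abs_le.1 (hb y)).2) (le_of_eq (mean_const hN hL le_rfl _))

lemma sqGrad_one (hφ : PhiGood φ φ1 φ2 B) (K : ℕ) (v : ℕ → ℝ) {m : ℕ} (hm : m ≤ K + 1) :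
    0 ≤ (oneNest K v).sqGrad (oneLeaf φ φ1 φ2) (Measure.dirac ()) m () ∧
      (oneNest K v).sqGrad (oneLeaf φ φ1 φ2) (Measure.dirac ()) m () ≤ B ^ 2 := by
  have hN := oneNest_good K v
  have hL := oneLeaf_good hφ
  have hv : ∀ ω y, |(oneLeaf φ φ1 φ2).vec () ω y| ≤ B := fun ω y => by
    simpa [Leaf.vec] using hφ.bound1 _
  have hobs := vec_obs hN hL ()
  have hconst : ∀ c : ℝ, Obs fun (_ : Unit) (_ : Unit → ℝ) => c := fun c =>
    ⟨fun _ => measurable_const, fun _ => continuous_const, |c|, fun _ _ => le_rfl⟩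
  have hb : ∀ y, |(oneNest K v).grad (oneLeaf φ φ1 φ2) (Measure.dirac ()) m () y| ≤ B := by
    intro y
    rw [abs_le]
    constructor
    · rw [← node_const (μ := Measure.dirac ()) hN hL hm (-B) y]
      exact node_mono hN hL hm (hconst _) hobs (fun ω w => (abs_le.1 (hv ω w)).1) y
    · refine le_trans (node_mono hN hL hm hobs (hconst B) (fun ω w => (abs_le.1 (hv ω w)).2) y) ?_
      rw [node_const hN hL hm]
  have hb2 : ∀ y, (oneNest K v).grad (oneLeaf φ φ1 φ2) (Measure.dirac ()) m () y ^ 2 ≤ B ^ 2 :=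
    fun y => by rw [← sq_abs]; exact pow_le_pow_left₀ (abs_nonneg _) (hb y) 2
  have ht : Tame fun y => (oneNest K v).grad (oneLeaf φ φ1 φ2) (Measure.dirac ()) m () y ^ 2 :=
    tame_of_bdd ((grad_tame hN hL hm ()).1.pow 2) (C := B ^ 2) fun y => by
      rw [abs_of_nonneg (sq_nonneg _)]; exact hb2 y
  constructor
  · refine le_trans (le_of_eq (mean_const (l := m) hN hL hm 0).symm) (mean_mono hN hL hm
      (tame_of_bdd continuous_const fun _ => le_rfl) ht fun y => sq_nonneg _)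
  · refine le_trans (mean_mono hN hL hm ht (tame_of_bdd continuous_const fun _ => le_rfl) hb2)
      (le_of_eq (mean_const hN hL hm _))

/-- The derivative and continuity along interpolations for a single pattern. -/
lemma oneFree_deriv (hφ : PhiGood φ φ1 φ2 B) (K : ℕ) {α β : ℕ → ℝ} (hα : ∀ l, 0 ≤ α l)
    (hβ : ∀ l, 0 ≤ β l) {t : ℝ} (ht : t ∈ Set.Ioo (0 : ℝ) 1) :
    HasDerivAt (fun s => oneFree φ φ1 φ2 K fun l => Real.sqrt ((1 - s) * α l + s * β l))
      ((1 / 2) * ((∑ l ∈ range (K + 1 + 1), (β l - α l)) *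
          (oneNest K fun l => Real.sqrt ((1 - t) * α l + t * β l)).heatTop (oneLeaf φ φ1 φ2)
            (Measure.dirac ()) () -
        ∑ m ∈ range (K + 1 + 1), (oneNest K fun _ => 0).w m *
          (oneNest K fun l => Real.sqrt ((1 - t) * α l + t * β l)).sqGrad (oneLeaf φ φ1 φ2)
            (Measure.dirac ()) m () * ∑ l ∈ range (m + 1), (β l - α l))) t := by
  have h := free_deriv_sq (μ := Measure.dirac ()) (oneNest_good K fun _ => 0) (oneLeaf_good hφ)
    (A := fun s l _ => Real.sqrt ((1 - s) * α l + s * β l)) (Δ := fun l _ => β l - α l)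
    (fun l _ _ => Or.inr ⟨α l, β l, hα l, hβ l, fun _ => rfl, rfl⟩) ht
  rw [Fintype.univ_punit, sum_singleton] at h
  exact h

lemma oneFree_slope (hφ : PhiGood φ φ1 φ2 B) (K : ℕ) {α β : ℕ → ℝ} (hα : ∀ l, 0 ≤ α l)
    (hβ : ∀ l, 0 ≤ β l) : ∃ t ∈ Set.Ioo (0 : ℝ) 1,
      (oneFree φ φ1 φ2 K fun l => Real.sqrt (β l)) - (oneFree φ φ1 φ2 K fun l => Real.sqrt (α l)) =
      ((1 / 2) * ((∑ l ∈ range (K + 1 + 1), (β l - α l)) *
          (oneNest K fun l => Real.sqrt ((1 - t) * α l + t * β l)).heatTop (oneLeaf φ φ1 φ2)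
            (Measure.dirac ()) () -
        ∑ m ∈ range (K + 1 + 1), (oneNest K fun _ => 0).w m *
          (oneNest K fun l => Real.sqrt ((1 - t) * α l + t * β l)).sqGrad (oneLeaf φ φ1 φ2)
            (Measure.dirac ()) m () * ∑ l ∈ range (m + 1), (β l - α l))) := by
  have hc : Continuous fun s => oneFree φ φ1 φ2 K fun l => Real.sqrt ((1 - s) * α l + s * β l) :=
    continuous_free_sq (μ := Measure.dirac ()) (oneNest_good K fun _ => 0) (oneLeaf_good hφ)
      (A := fun s l _ => Real.sqrt ((1 - s) * α l + s * β l)) (Δ := fun l _ => β l - α l)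
      (fun l _ _ => Or.inr ⟨α l, β l, hα l, hβ l, fun _ => rfl, rfl⟩)
  obtain ⟨t, ht, h⟩ := exists_hasDerivAt_eq_slope _ _ zero_lt_one hc.continuousOn
    fun t ht => oneFree_deriv hφ K hα hβ ht
  refine ⟨t, ht, ?_⟩
  rw [h]
  simp

end Vale.Agent.P157.Parisi.ModelFacts

namespace Vale.Agent.P157.Parisi

open MeasureTheory ProbabilityTheory Finset ModelFacts

section

variable {Ω δ : Type} [MeasurableSpace Ω] [Fintype δ] [DecidableEq δ]
variable {φ φ1 φ2 : ℝ → ℝ} {spin : Ω → δ → ℝ} {μ : Measure Ω} [IsProbabilityMeasure μ] {R B : ℝ}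
variable (hφ : PhiGood φ φ1 φ2 B) (hs : SpinSys spin R)

include hφ hs

/-! ### D2: insertion of a pattern -/

private lemma insert_sqPath (K M : ℕ) (g : Fin M → δ → ℝ) (s : ℕ → δ → ℝ) (c : ℕ → Fin M → ℝ)
    (e : ℕ → ℝ) (q : ℕ → ℝ) (l : ℕ) (i : PIdx (M + 1) δ) :
    SqPath (fun t => (percNest K (insG M g t) s (insC K M c e q t)).amp)
      (fun l => Sum.elim
        (fun p => if l = 0 ∧ p.1 = Fin.last M then (Fintype.card δ : ℝ)⁻¹ else 0)
        (Sum.elim (fun _ => 0) fun a => if a = Fin.last M then -pathAmp K q l ^ 2 else 0)) l i := by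
  rcases i with ⟨a, k⟩ | k | a
  · induction a using Fin.lastCases with
    | last =>
      rcases Nat.eq_zero_or_pos l with rfl | hl
      · exact Or.inr ⟨0, (Fintype.card δ : ℝ)⁻¹, le_rfl, by positivity,
          fun t => by simp [percNest, percAmp, insG]; ring_nf, by simp⟩
      · exact Or.inl ⟨⟨0, fun t => by simp [percNest, percAmp, hl.ne']⟩, by simp [hl.ne']⟩
    | cast a =>
      exact Or.inl ⟨⟨if l = 0 then g a k else 0, fun t => by simp [percNest, percAmp, insG]⟩,
        by simp [Fin.castSucc_ne_last]⟩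
  · exact Or.inl ⟨⟨s l k, fun t => rfl⟩, rfl⟩
  · induction a using Fin.lastCases with
    | last =>
      refine Or.inr ⟨e l ^ 2 + pathAmp K q l ^ 2, e l ^ 2, by positivity, by positivity,
        fun t => ?_, by simp⟩
      simp only [percNest, percAmp, insC, Fin.snoc_last]
      congr 1; ring
    | cast a =>
      exact Or.inl ⟨⟨c l a, fun t => by simp [percNest, percAmp, insC]⟩,
        by simp [Fin.castSucc_ne_last]⟩

private lemma heatTop_last (K M : ℕ) (g : Fin (M + 1) → δ → ℝ) (s : ℕ → δ → ℝ)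
    (c : ℕ → Fin (M + 1) → ℝ) :
    ∑ k, (percNest K g s c).heatTop (percLeaf φ φ1 φ2 spin (M + 1)) μ (Sum.inl (Fin.last M, k)) =
      Fintype.card δ * (percNest K g s c).heatTop (percLeaf φ φ1 φ2 spin (M + 1)) μ
        (Sum.inr (Sum.inr (Fin.last M))) := by
  have hN := percNest_good hφ hs K (M + 1) g s c
  have hL := perc_good hφ hs (M + 1)
  set N := percNest K g s c
  set L := percLeaf φ φ1 φ2 spin (M + 1) with hLdef
  simp only [Nest.heatTop]
  rw [← mean_finsetSum hN hL le_rfl univ fun k _ => heat_tame hN hL le_rfl _,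
    ← mean_const_mul hN hL]
  congr 1
  funext y
  simp only [heat_top hN hL, Leaf.gibbs, mul_div_assoc', ← sum_div]
  congr 1
  set G : Ω → ℝ := fun ω => φ2 (L.loc ω y (Sum.inl (Fin.last M))) +
    φ1 (L.loc ω y (Sum.inl (Fin.last M))) ^ 2 with hG
  have hg : ∀ k ω, (∑ j, L.φ2 j (L.loc ω y j) * L.a ω j (Sum.inl (Fin.last M, k)) ^ 2) +
      L.vec (Sum.inl (Fin.last M, k)) ω y ^ 2 = spin ω k ^ 2 * G ω := by
    intro k ω
    rw [Leaf.vec, Fintype.sum_eq_single (Sum.inl (Fin.last M)),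
      Fintype.sum_eq_single (Sum.inl (Fin.last M))]
    · simp [hG, hLdef, percLeaf, percCoef]; ring
    all_goals
      intro j hj
      rcases j with a | _
      · have : a ≠ Fin.last M := fun h => hj (by rw [h])
        simp [hLdef, percLeaf, percCoef, this]
      · simp [hLdef, percLeaf, percCoef]
  have hc : ∀ ω, (∑ j, L.φ2 j (L.loc ω y j) * L.a ω j (Sum.inr (Sum.inr (Fin.last M))) ^ 2) +
      L.vec (Sum.inr (Sum.inr (Fin.last M))) ω y ^ 2 = G ω := by
    intro ω
    rw [Leaf.vec, Fintype.sum_eq_single (Sum.inl (Fin.last M)),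
      Fintype.sum_eq_single (Sum.inl (Fin.last M))]
    · simp [hG, hLdef, percLeaf, percCoef]
    all_goals
      intro j hj
      rcases j with a | _
      · have : a ≠ Fin.last M := fun h => hj (by rw [h])
        simp [hLdef, percLeaf, percCoef, this]
      · simp [hLdef, percLeaf, percCoef]
  simp only [hg, hc]
  have hmG : Measurable G := by
    have h2 : Measurable φ2 := hφ.cont2.measurable
    have h1 : Measurable φ1 :=
      (continuous_iff_continuousAt.2 fun z => (hφ.deriv2 z).continuousAt).measurable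
    exact (h2.comp (measurable_loc hL y _)).add ((h1.comp (measurable_loc hL y _)).pow_const 2)
  have hint : ∀ k, Integrable (fun ω => Real.exp (L.ham ω y) * (spin ω k ^ 2 * G ω)) μ := fun k =>
    integrable_exp_ham_mul hL μ y (((hs.meas k).pow_const 2).mul hmG) (C := R ^ 2 * (B + B ^ 2))
      fun ω => ?_
  · rw [← integral_finsetSum univ fun k _ => hint k, ← integral_const_mul]
    refine integral_congr_ae (.of_forall fun ω => ?_)
    simp only [← mul_sum, ← sum_mul, hs.norm_sq ω]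
    ring
  · simp only [hG]
    rw [abs_mul, abs_of_nonneg (sq_nonneg _), ← sq_abs (spin ω k)]
    have hB : 0 ≤ B := zero_le_one.trans hφ.one_le
    refine mul_le_mul (pow_le_pow_left₀ (abs_nonneg _) (hs.bound ω k) 2)
      ((abs_add_le _ _).trans (add_le_add (hφ.bound2 _) ?_)) (abs_nonneg _) (sq_nonneg _)
    rw [abs_pow]
    exact pow_le_pow_left₀ (abs_nonneg _) (hφ.bound1 _) 2

theorem insert_deriv [Nonempty δ] (K M : ℕ) (g : Fin M → δ → ℝ) (s : ℕ → δ → ℝ)
    (c : ℕ → Fin M → ℝ) (e : ℕ → ℝ) {q : ℕ → ℝ} (hq : IsPath q) (hq1 : q K ≤ 1) {t : ℝ}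
    (ht : t ∈ Set.Ioo (0 : ℝ) 1) :
    HasDerivAt (fun t => (percNest K (insG M g t) s (insC K M c e q t)).free
        (percLeaf φ φ1 φ2 spin (M + 1)) μ)
      (-(1 / 2) * ∑ m ∈ range (K + 1), (percNest K (insG M g t) s (insC K M c e q t)).w m *
        ((∑ i, (percNest K (insG M g t) s (insC K M c e q t)).sqGrad
            (percLeaf φ φ1 φ2 spin (M + 1)) μ m (Sum.inl (Fin.last M, i))) / Fintype.card δ -
          q m * (percNest K (insG M g t) s (insC K M c e q t)).sqGrad
            (percLeaf φ φ1 φ2 spin (M + 1)) μ m (Sum.inr (Sum.inr (Fin.last M))))) t := by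
  have h := free_deriv_sq (N := percNest K (insG M g t) s (insC K M c e q t)) (μ := μ)
    (percNest_good hφ hs _ _ _ _ _) (perc_good hφ hs (M + 1))
    (A := fun t => (percNest K (insG M g t) s (insC K M c e q t)).amp)
    (fun l _ i => insert_sqPath hφ hs K M g s c e q l i) ht
  refine HasDerivAt.congr_deriv (f := fun t => _) h ?_
  change _ * ∑ i, (_ * (percNest K (insG M g t) s (insC K M c e q t)).heatTop _ μ i -
    ∑ m ∈ range (K + 1 + 1), _ * (percNest K (insG M g t) s (insC K M c e q t)).sqGrad _ μ m i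
      * _) = _
  set N := percNest K (insG M g t) s (insC K M c e q t) with hNdef
  set L := percLeaf φ φ1 φ2 spin (M + 1)
  have hD : (Fintype.card δ : ℝ) ≠ 0 := Nat.cast_ne_zero.2 Fintype.card_ne_zero
  have h0 : ∀ m, ∑ l ∈ range (m + 1), (if l = 0 then (Fintype.card δ : ℝ)⁻¹ else 0)
      = (Fintype.card δ : ℝ)⁻¹ := fun m => by simp
  have hwK : N.w (K + 1) = 0 := w_top K N rfl
  have e1 : ∑ k, ∑ m ∈ range (K + 1 + 1),
      N.w m * N.sqGrad L μ m (Sum.inl (Fin.last M, k)) * (Fintype.card δ : ℝ)⁻¹ =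
      ∑ m ∈ range (K + 1),
        N.w m * ((∑ k, N.sqGrad L μ m (Sum.inl (Fin.last M, k))) / Fintype.card δ) := by
    rw [sum_comm, sum_range_succ]
    simp only [hwK, zero_mul, sum_const_zero, add_zero]
    refine sum_congr rfl fun m _ => ?_
    rw [sum_div, mul_sum]
    exact sum_congr rfl fun k _ => by ring
  have e2 : ∑ m ∈ range (K + 1 + 1), N.w m * N.sqGrad L μ m (Sum.inr (Sum.inr (Fin.last M))) *
      -(∑ l ∈ range (m + 1), pathAmp K q l ^ 2) =
      -∑ m ∈ range (K + 1), N.w m * (q m * N.sqGrad L μ m (Sum.inr (Sum.inr (Fin.last M)))) := by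
    rw [sum_range_succ, hwK, zero_mul, zero_mul, add_zero, ← sum_neg_distrib]
    refine sum_congr rfl fun m hm => ?_
    rw [pathAmp_sq_sum K hq m (by simp at hm; omega)]
    ring
  rw [Fintype.sum_sum_type, Fintype.sum_sum_type, Fintype.sum_prod_type, Fin.sum_univ_castSucc,
    Fin.sum_univ_castSucc]
  simp only [Sum.elim_inl, Sum.elim_inr, Fin.castSucc_ne_last, and_false, and_true, if_false,
    if_true, sum_const_zero, zero_mul, mul_zero, sub_zero, zero_add, sum_neg_distrib]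
  rw [show (range (N.K + 1)) = range (K + 1 + 1) from rfl, pathAmp_sq_total K hq hq1]
  simp only [h0, sum_sub_distrib, ← mul_sum]
  rw [heatTop_last hφ hs, ← mul_assoc ((Fintype.card δ : ℝ)⁻¹), inv_mul_cancel₀ hD, e1, e2]
  simp only [mul_sub, sum_sub_distrib]
  ring

theorem insert_continuous [Nonempty δ] (K M : ℕ) (g : Fin M → δ → ℝ) (s : ℕ → δ → ℝ)
    (c : ℕ → Fin M → ℝ) (e : ℕ → ℝ) {q : ℕ → ℝ} (hq : IsPath q) (hq1 : q K ≤ 1) :
    ContinuousOn (fun t => (percNest K (insG M g t) s (insC K M c e q t)).free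
      (percLeaf φ φ1 φ2 spin (M + 1)) μ) (Set.Icc 0 1) :=
  (continuous_free_sq (N := percNest K (insG M g 0) s (insC K M c e q 0)) (μ := μ)
    (percNest_good hφ hs _ _ _ _ _) (perc_good hφ hs (M + 1))
    (A := fun t => (percNest K (insG M g t) s (insC K M c e q t)).amp)
    (fun l _ i => insert_sqPath hφ hs K M g s c e q l i)).continuousOn

theorem insert_zero [Nonempty δ] (K M : ℕ) (g : Fin M → δ → ℝ) (s : ℕ → δ → ℝ)
    (c : ℕ → Fin M → ℝ) (e : ℕ → ℝ) (q : ℕ → ℝ) :
    (percNest K (insG M g 0) s (insC K M c e q 0)).free (percLeaf φ φ1 φ2 spin (M + 1)) μ =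
      (percNest K g s c).free (percLeaf φ φ1 φ2 spin M) μ +
        oneFree φ φ1 φ2 K (fun l => Real.sqrt (e l ^ 2 + pathAmp K q l ^ 2)) := by
  let e₁ : PIdx M δ ↪ PIdx (M + 1) δ :=
    ⟨Sum.map (Prod.map Fin.castSucc id) (Sum.map id Fin.castSucc),
      (Fin.castSucc_injective M).prodMap Function.injective_id |>.sumMap
        (Function.injective_id.sumMap (Fin.castSucc_injective M))⟩
  let e₂ : Unit ↪ PIdx (M + 1) δ :=
    ⟨fun _ => Sum.inr (Sum.inr (Fin.last M)), fun _ _ _ => rfl⟩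
  have hN := percNest_good hφ hs K (M + 1) (insG M g 0) s (insC K M c e q 0)
  refine free_add (N₁ := percNest K g s c)
    (N₂ := oneNest K fun l => Real.sqrt (e l ^ 2 + pathAmp K q l ^ 2))
    (L₁ := percLeaf φ φ1 φ2 spin M) (L₂ := oneLeaf φ φ1 φ2) (μ₁ := μ) (μ₂ := Measure.dirac ())
    hN (perc_good hφ hs (M + 1)) (perc_good hφ hs M) (oneLeaf_good hφ) e₁ e₂
    ?_ rfl rfl rfl rfl ?_ ?_ ?_
  · intro i j
    show Sum.map (Prod.map Fin.castSucc id) (Sum.map id Fin.castSucc) i ≠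
      Sum.inr (Sum.inr (Fin.last M))
    rcases i with ⟨a, k⟩ | k | a <;> simp [Fin.castSucc_ne_last]
  · intro l i
    rcases i with ⟨a, k⟩ | k | a <;> simp [e₁, percNest, percAmp, insG, insC]
  · intro l i
    show (percNest K (insG M g 0) s (insC K M c e q 0)).amp l (Sum.inr (Sum.inr (Fin.last M))) = _
    simp [percNest, percAmp, insC]
  · intro y hy
    have hnew : ∀ k, y (Sum.inl (Fin.last M, k)) = 0 := fun k =>
      hy _ fun l _ => by simp [percNest, percAmp, insG]
    rw [oneLeaf_logZ]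
    have hham : ∀ ω, (percLeaf φ φ1 φ2 spin (M + 1)).ham ω y =
        (percLeaf φ φ1 φ2 spin M).ham ω (fun i => y (e₁ i)) +
          φ (y (Sum.inr (Sum.inr (Fin.last M)))) := by
      intro ω
      simp only [Leaf.ham, Leaf.loc, Fintype.sum_sum_type, Fintype.sum_prod_type,
        Fin.sum_univ_castSucc, percLeaf, percCoef, e₁, Function.Embedding.coeFn_mk, Sum.map_inl,
        Sum.map_inr, Prod.map_apply, id_eq, Sum.elim_inl, Sum.elim_inr, hnew, mul_zero,
        sum_const_zero, add_zero, zero_add, zero_mul, Fin.castSucc_inj,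
        Fin.castSucc_ne_last, (Fin.castSucc_ne_last _).symm, if_false, if_true, one_mul]
      ring
    simp only [Leaf.logZ, hham, Real.exp_add, integral_mul_const]
    rw [Real.log_mul (integral_exp_pos (integrable_exp_ham (perc_good hφ hs M) μ _)).ne'
      (Real.exp_pos _).ne', Real.log_exp]
    rfl

end

/-! ### D3: bridges to the formula -/

theorem oneFree_path {φ φ1 φ2 : ℝ → ℝ} {B : ℝ} (hφ : PhiGood φ φ1 φ2 B) (K : ℕ) {q : ℕ → ℝ}
    (hq : IsPath q) (hq1 : q K ≤ 1) : oneFree φ φ1 φ2 K (pathAmp K q) = energy φ K q := by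
  set base := fun y => Real.log (∫ z, Real.exp (φ (y + Real.sqrt (1 - q K) * z)) ∂gaussianReal 0 1)
    with hbase
  set N := oneNest K (pathAmp K q)
  set U := (oneLeaf φ φ1 φ2).logZ (Measure.dirac ())
  have key : ∀ d ≤ K, ∀ y, N.uUp U (d + 1) y = descend K q base d (y ()) := by
    intro d hd
    induction d with
    | zero =>
      intro y
      simp only [Nest.uUp, stepLog, descend, Nat.sub_zero, move, N, U, oneLeaf_logZ,
        gridX_top K (le_refl _), inv_one, one_mul, hbase]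
      rw [integral_gauss_unit (fun z => Real.exp (φ (y () + pathAmp K q (K + 1) * z)))]
      simp [pathAmp]
    | succ d ih =>
      intro y
      have hk : N.K - (d + 1) = K - d := by
        show K + 1 - (d + 1) = K - d
        omega
      rw [Nest.uUp, stepLog, descend, gaussStep, hk]
      simp only [ih (by omega)]
      rw [show N.x (K - d) = lvl K (K - d) from gridX_of_le K (by omega),
        ← integral_gauss_unit (fun z => Real.exp (lvl K (K - d) * descend K q base d
          (y () + Real.sqrt (q (K - d) - q (K - d - 1)) * z)))]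
      have ha : N.amp (K - d) () = Real.sqrt (q (K - d) - q (K - d - 1)) := by
        show pathAmp K q (K - d) = _
        rw [pathAmp, if_neg (by omega), if_neg (by omega)]
      simp [move, ha]
  show ∫ z, N.u U 0 (fun i => N.amp 0 i * z i) ∂gauss Unit = _
  have h0 : ∀ y, N.u U 0 y = descend K q base K (y ()) := fun y => key K le_rfl y
  simp only [h0]
  rw [integral_gauss_unit (fun z => descend K q base K (N.amp 0 () * z))]
  simp [energy, cascade, N, pathAmp, hbase]

theorem oneFree_perturb {φ φ1 φ2 : ℝ → ℝ} {B : ℝ} (hφ : PhiGood φ φ1 φ2 B) (K : ℕ)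
    (v e : ℕ → ℝ) :
    |oneFree φ φ1 φ2 K (fun l => Real.sqrt (e l ^ 2 + v l ^ 2)) -
        oneFree φ φ1 φ2 K (fun l => |v l|)| ≤
      3 * B ^ 2 * ∑ l ∈ range (K + 2), e l ^ 2 := by
  obtain ⟨t, -, h⟩ := oneFree_slope hφ K (α := fun l => v l ^ 2) (β := fun l => e l ^ 2 + v l ^ 2)
    (fun l => sq_nonneg _) (fun l => by positivity)
  simp only [Real.sqrt_sq_eq_abs, add_sub_cancel_right] at h
  rw [h]
  set N := oneNest K fun l => Real.sqrt ((1 - t) * v l ^ 2 + t * (e l ^ 2 + v l ^ 2))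
  set E := ∑ l ∈ range (K + 1 + 1), e l ^ 2 with hE
  have hE0 : 0 ≤ E := sum_nonneg fun l _ => sq_nonneg _
  have hN0 := oneNest_good K fun _ => (0:ℝ)
  have hw : ∀ m ∈ range (K + 1 + 1), 0 ≤ (oneNest K fun _ => (0:ℝ)).w m := fun m hm =>
    sub_nonneg.2 (hN0.x_mono m (by simp at hm; show m ≤ K + 1; omega))
  set S := ∑ m ∈ range (K + 1 + 1), (oneNest K fun _ => (0:ℝ)).w m *
      N.sqGrad (oneLeaf φ φ1 φ2) (Measure.dirac ()) m () * ∑ l ∈ range (m + 1), e l ^ 2
  have hS : 0 ≤ S ∧ S ≤ B ^ 2 * E := by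
    refine ⟨sum_nonneg fun m hm => mul_nonneg (mul_nonneg (hw m hm)
      (sqGrad_one hφ K _ (by simp at hm; omega)).1) (sum_nonneg fun l _ => sq_nonneg _), ?_⟩
    calc S ≤ ∑ m ∈ range (K + 1 + 1), (oneNest K fun _ => (0:ℝ)).w m * B ^ 2 * E :=
          sum_le_sum fun m hm => mul_le_mul
            (mul_le_mul_of_nonneg_left (sqGrad_one hφ K _ (by simp at hm; omega)).2 (hw m hm))
            (sum_le_sum_of_subset_of_nonneg (range_mono (by simp at hm; omega))
              fun l _ _ => sq_nonneg _)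
            (sum_nonneg fun l _ => sq_nonneg _) (mul_nonneg (hw m hm) (sq_nonneg _))
      _ = _ := by rw [← sum_mul, ← sum_mul, sum_w K _ rfl, one_mul]
  have hH := abs_heatTop_one hφ K fun l => Real.sqrt ((1 - t) * v l ^ 2 + t * (e l ^ 2 + v l ^ 2))
  rw [abs_le] at hH
  have h1 := mul_le_mul_of_nonneg_left hH.1 hE0
  have h2 := mul_le_mul_of_nonneg_left hH.2 hE0
  have h3 := mul_nonneg (sq_nonneg B) hE0
  rw [abs_le]
  constructor <;> linarith [hS.1, hS.2]

/-- Monotonicity in the tail order and Lipschitz continuity of the energy. -/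
theorem energy_tail_bound {φ φ1 φ2 : ℝ → ℝ} {B : ℝ} (hφ : PhiGood φ φ1 φ2 B) (K : ℕ)
    {p q : ℕ → ℝ} (hp : IsPath p) (hp1 : p K ≤ 1) (hq : IsPath q) (hq1 : q K ≤ 1) {η : ℝ}
    (hη : 0 ≤ η) (h : ∀ l ≤ K, -η ≤ ∑ m ∈ Icc l K, (p m - q m) / ((K : ℝ) + 1)) :
    energy φ K p ≤ energy φ K q + B ^ 2 * η := by
  obtain ⟨t, -, hd⟩ := oneFree_slope hφ K (α := fun l => pathAmp K q l ^ 2)
    (β := fun l => pathAmp K p l ^ 2) (fun l => sq_nonneg _) (fun l => sq_nonneg _)
  simp only [Real.sqrt_sq (pathAmp_nonneg K _ _), oneFree_path hφ K hp hp1, oneFree_path hφ K hq hq1,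
    sum_sub_distrib, pathAmp_sq_total K hp hp1, pathAmp_sq_total K hq hq1, sub_self, zero_mul,
    zero_sub] at hd
  set v := fun l => Real.sqrt ((1 - t) * pathAmp K q l ^ 2 + t * pathAmp K p l ^ 2)
  set P := fun m => (oneNest K v).sqGrad (oneLeaf φ φ1 φ2) (Measure.dirac ()) m ()
  have hsum : ∑ m ∈ range (K + 1 + 1), (oneNest K fun _ => (0:ℝ)).w m * P m *
      (∑ l ∈ range (m + 1), pathAmp K p l ^ 2 - ∑ l ∈ range (m + 1), pathAmp K q l ^ 2) =
      ∑ m ∈ range (K + 1), (p m - q m) / ((K : ℝ) + 1) * P m := by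
    rw [sum_range_succ, w_top K _ rfl, zero_mul, zero_mul, add_zero]
    refine sum_congr rfl fun m hm => ?_
    have hm' : m ≤ K := by simp at hm; omega
    rw [w_of_le K _ rfl hm', pathAmp_sq_sum K hp m hm', pathAmp_sq_sum K hq m hm']
    ring
  -- summation by parts
  let dP : ℕ → ℝ := fun l => P l - if l = 0 then 0 else P (l - 1)
  have hP : ∀ m, ∑ l ∈ range (m + 1), dP l = P m := by
    intro m
    induction m with
    | zero => simp [dP]
    | succ m ih => rw [sum_range_succ, ih]; simp [dP]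
  have hdP : ∀ l ≤ K, 0 ≤ dP l := by
    intro l hl
    rcases Nat.eq_zero_or_pos l with rfl | hl0
    · simpa [dP] using (sqGrad_one hφ K v (Nat.zero_le _)).1
    · simp only [dP, hl0.ne', if_false, sub_nonneg]
      exact sqGrad_mono (oneNest_good K v) (oneLeaf_good hφ) (Nat.sub_le l 1)
        (show l ≤ K + 1 by omega) ()
  have hkey : -(η * B ^ 2) ≤ ∑ m ∈ range (K + 1), (p m - q m) / ((K : ℝ) + 1) * P m := by
    rw [show ∑ m ∈ range (K + 1), (p m - q m) / ((K : ℝ) + 1) * P m =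
      ∑ l ∈ range (K + 1), dP l * ∑ m ∈ Icc l K, (p m - q m) / ((K : ℝ) + 1) by
        rw [sum_swap_tail]; simp only [hP]]
    calc -(η * B ^ 2) ≤ -(η * P K) := by
          have := mul_le_mul_of_nonneg_left (sqGrad_one hφ K v (Nat.le_succ K)).2 hη
          linarith
      _ = ∑ l ∈ range (K + 1), dP l * -η := by rw [← sum_mul, hP]; ring
      _ ≤ _ := sum_le_sum fun l hl =>
          mul_le_mul_of_nonneg_left (h l (by simp at hl; omega)) (hdP l (by simp at hl; omega))
  rw [hsum] at hd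
  nlinarith [mul_nonneg hη (sq_nonneg B)]

end Vale.Agent.P157.Parisi
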