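import Mathlib
import Vale.Agent.P157.Parisi.Formula

/-!
Elementary facts used in the lower bound: tails of paths, probe levels, and the comparison of the
derivatives of two semiconvex functions which are close.
-/

namespace Vale.Agent.P157.Parisi

open MeasureTheory Finset Set

/-- The tail `∑_{m ≥ l} q m / (K + 1)`. -/
noncomputable def pTail (K : ℕ) (q : ℕ → ℝ) (l : ℕ) : ℝ :=
  ∑ m ∈ Finset.Icc l K, q m / ((K : ℝ) + 1)

/-- Increments of a path. -/
def pInc (h : ℕ → ℝ) (l : ℕ) : ℝ := if l = 0 then h 0 else h l - h (l - 1)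

lemma pInc_nonneg {h : ℕ → ℝ} (hh : IsPath h) (l : ℕ) : 0 ≤ pInc h l := by
  unfold pInc
  split_ifs with hl
  · exact hh.2
  · exact sub_nonneg.2 (hh.1 (Nat.sub_le l 1))

lemma sum_pInc (h : ℕ → ℝ) (l : ℕ) : ∑ i ∈ Finset.range (l + 1), pInc h i = h l := by
  induction l with
  | zero => simp [pInc]
  | succ l ih => rw [Finset.sum_range_succ, ih]; simp [pInc]

lemma pairing_eq_tail (K : ℕ) (h q : ℕ → ℝ) :
    (∑ l ∈ Finset.range (K + 1), h l * q l) / ((K : ℝ) + 1) =
      ∑ l ∈ Finset.range (K + 1), pInc h l * pTail K q l := by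
  simp only [pTail, Finset.mul_sum]
  rw [Finset.sum_div, Finset.sum_comm' (t' := Finset.range (K + 1))
    (s' := fun m => Finset.range (m + 1))]
  · refine Finset.sum_congr rfl fun m _ => ?_
    rw [← Finset.sum_mul, sum_pInc, mul_div_assoc]
  · intro l m
    simp only [Finset.mem_range, Finset.mem_Icc]
    omega

lemma pTail_succ {K l : ℕ} (q : ℕ → ℝ) (hl : l ≤ K) :
    pTail K q l = q l / ((K : ℝ) + 1) + pTail K q (l + 1) := by
  unfold pTail
  rw [← Finset.insert_Icc_succ_left_eq_Icc hl, Finset.sum_insert (by simp), Order.succ_eq_add_one]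

lemma pTail_nonneg {K : ℕ} {q : ℕ → ℝ} (hq : ∀ l ≤ K, 0 ≤ q l) (l : ℕ) : 0 ≤ pTail K q l :=
  Finset.sum_nonneg fun m hm => div_nonneg (hq m (Finset.mem_Icc.1 hm).2) (by positivity)

lemma pairing_close {K : ℕ} {h p q : ℕ → ℝ} (hh : IsPath h) {η : ℝ}
    (hη : ∀ l ≤ K, |pTail K p l - pTail K q l| ≤ η) :
    |(∑ l ∈ Finset.range (K + 1), h l * p l) / ((K : ℝ) + 1) -
      (∑ l ∈ Finset.range (K + 1), h l * q l) / ((K : ℝ) + 1)| ≤ h K * η := by
  rw [pairing_eq_tail, pairing_eq_tail, ← Finset.sum_sub_distrib]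
  refine (Finset.abs_sum_le_sum_abs _ _).trans ?_
  rw [← sum_pInc h K, Finset.sum_mul]
  refine Finset.sum_le_sum fun l hl => ?_
  rw [← mul_sub, abs_mul, abs_of_nonneg (pInc_nonneg hh l)]
  exact mul_le_mul_of_nonneg_left (hη l (Nat.lt_succ_iff.1 (Finset.mem_range.1 hl)))
    (pInc_nonneg hh l)

lemma pTail_sub_le {K : ℕ} {q : ℕ → ℝ} (h0 : ∀ m ≤ K, 0 ≤ q m) (h1 : ∀ m ≤ K, q m ≤ 1) {l l' : ℕ}
    (hll : l ≤ l') :
    0 ≤ pTail K q l - pTail K q l' ∧
      pTail K q l - pTail K q l' ≤ ((l' : ℝ) - l) / ((K : ℝ) + 1) := by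
  unfold pTail
  have hsub : Finset.Icc l' K ⊆ Finset.Icc l K := Finset.Icc_subset_Icc_left hll
  rw [← Finset.sum_sdiff_eq_sub hsub]
  refine ⟨Finset.sum_nonneg fun m hm => div_nonneg
    (h0 m (Finset.mem_Icc.1 (Finset.mem_sdiff.1 hm).1).2) (by positivity), ?_⟩
  calc ∑ m ∈ Finset.Icc l K \ Finset.Icc l' K, q m / ((K : ℝ) + 1)
      ≤ ∑ _m ∈ Finset.Icc l K \ Finset.Icc l' K, 1 / ((K : ℝ) + 1) :=
        Finset.sum_le_sum fun m hm => by
          have := h1 m (Finset.mem_Icc.1 (Finset.mem_sdiff.1 hm).1).2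
          gcongr
    _ ≤ ∑ _m ∈ Finset.Ico l l', 1 / ((K : ℝ) + 1) := by
        refine Finset.sum_le_sum_of_subset_of_nonneg ?_ fun _ _ _ => by positivity
        intro m hm
        simp only [Finset.mem_sdiff, Finset.mem_Icc, Finset.mem_Ico] at hm ⊢
        omega
    _ = ((l' : ℝ) - l) / ((K : ℝ) + 1) := by
        rw [Finset.sum_const, Nat.card_Ico, nsmul_eq_mul, Nat.cast_sub hll]
        ring

/-- The probe levels. -/
def probe (K J j : ℕ) : ℕ := j * (K + 1) / J

lemma probe_le {K J j : ℕ} (hj : j < J) : probe K J j ≤ K := by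
  unfold probe
  rw [← Nat.lt_succ_iff, Nat.div_lt_iff_lt_mul (by omega)]
  calc j * (K + 1) < J * (K + 1) := Nat.mul_lt_mul_of_pos_right hj (by omega)
    _ = (K + 1) * J := by ring

lemma exists_probe {K J l : ℕ} (hJ : 0 < J) (hl : l ≤ K) :
    ∃ j < J, probe K J j ≤ l ∧ ((l : ℝ) - probe K J j) / ((K : ℝ) + 1) ≤
      1 / (J : ℝ) + 1 / ((K : ℝ) + 1) := by
  refine ⟨l * J / (K + 1), ?_, ?_, ?_⟩
  · rw [Nat.div_lt_iff_lt_mul (by omega)]
    calc l * J < (K + 1) * J := Nat.mul_lt_mul_of_pos_right (by omega) hJ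
      _ = J * (K + 1) := by ring
  · unfold probe
    calc l * J / (K + 1) * (K + 1) / J ≤ l * J / J :=
          Nat.div_le_div_right (Nat.div_mul_le_self _ _)
      _ = l := Nat.mul_div_cancel _ hJ
  · set j := l * J / (K + 1) with hj
    have h1 : l * J < (j + 1) * (K + 1) := by
      rw [hj, ← Nat.div_lt_iff_lt_mul (by omega)]; omega
    have h2 : j * (K + 1) < (probe K J j + 1) * J := by
      unfold probe
      rw [← Nat.div_lt_iff_lt_mul hJ]; omega
    have h3 : ((l : ℝ) - probe K J j) * J ≤ ((K : ℝ) + 1) + J := by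
      have h1' : (l : ℝ) * J < ((j : ℝ) + 1) * ((K : ℝ) + 1) := by exact_mod_cast h1
      have h2' : (j : ℝ) * ((K : ℝ) + 1) < ((probe K J j : ℝ) + 1) * J := by exact_mod_cast h2
      nlinarith
    have hJ' : (0 : ℝ) < J := by exact_mod_cast hJ
    rw [div_le_iff₀ (by positivity)]
    calc ((l : ℝ) - probe K J j) ≤ (((K : ℝ) + 1) + J) / J := by rwa [le_div_iff₀ hJ']
      _ = (1 / (J : ℝ) + 1 / ((K : ℝ) + 1)) * ((K : ℝ) + 1) := by field_simp

/-- Two semiconvex functions which are close have close derivatives, on average. -/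
lemma integral_abs_deriv_sub_le {f g f' g' : ℝ → ℝ} {a b d c G C : ℝ} (hd : 0 < d) (hab : a ≤ b)
    (hc : 0 ≤ c) (hC : 0 ≤ C)
    (hf : ∀ x ∈ Icc (a - d) (b + d), HasDerivAt f (f' x) x)
    (hg : ∀ x ∈ Icc (a - d) (b + d), HasDerivAt g (g' x) x)
    (hf'c : ContinuousOn f' (Icc (a - d) (b + d))) (hg'c : ContinuousOn g' (Icc (a - d) (b + d)))
    (hfm : MonotoneOn (fun x => f' x + c * x) (Icc (a - d) (b + d)))
    (hgm : MonotoneOn (fun x => g' x + c * x) (Icc (a - d) (b + d)))
    (hfG : ∀ x ∈ Icc (a - d) (b + d), |f' x| ≤ G) (hgG : ∀ x ∈ Icc (a - d) (b + d), |g' x| ≤ G)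
    (hfg : ∀ x ∈ Icc (a - d) (b + d), |f x - g x| ≤ C) :
    ∫ x in a..b, |f' x - g' x| ≤ (b - a) * (4 * C / d + 6 * c * d) + 4 * G * d := by
  have fwd : ∀ (u u' : ℝ → ℝ), (∀ x ∈ Icc (a - d) (b + d), HasDerivAt u (u' x) x) →
      MonotoneOn (fun x => u' x + c * x) (Icc (a - d) (b + d)) → ∀ x ∈ Icc a b,
      u' x ≤ (u (x + d) - u x) / d + c * d ∧ (u x - u (x - d)) / d - c * d ≤ u' x := by
    intro u u' hu hm x hx
    have hcont : ∀ y ∈ Icc (a - d) (b + d), ContinuousWithinAt u (Icc (a - d) (b + d)) y :=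
      fun y hy => (hu y hy).continuousAt.continuousWithinAt
    refine ⟨?_, ?_⟩
    · obtain ⟨y, hy, hyeq⟩ := exists_hasDerivAt_eq_slope u u' (show x < x + d by linarith)
        (ContinuousOn.mono hcont (Icc_subset_Icc (by linarith [hx.1]) (by linarith [hx.2])))
        (fun y hy => hu y ⟨by linarith [hy.1, hx.1], by linarith [hy.2, hx.2]⟩)
      have hxm : x ∈ Icc (a - d) (b + d) := ⟨by linarith [hx.1], by linarith [hx.2]⟩
      have := hm hxm ⟨by linarith [hy.1, hx.1], by linarith [hy.2, hx.2]⟩ hy.1.le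
      rw [add_sub_cancel_left] at hyeq
      simp only at this
      nlinarith [hy.2]
    · obtain ⟨y, hy, hyeq⟩ := exists_hasDerivAt_eq_slope u u' (show x - d < x by linarith)
        (ContinuousOn.mono hcont (Icc_subset_Icc (by linarith [hx.1]) (by linarith [hx.2])))
        (fun y hy => hu y ⟨by linarith [hy.1, hx.1], by linarith [hy.2, hx.2]⟩)
      have hxm : x ∈ Icc (a - d) (b + d) := ⟨by linarith [hx.1], by linarith [hx.2]⟩
      have := hm ⟨by linarith [hy.1, hx.1], by linarith [hy.2, hx.2]⟩ hxm hy.2.le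
      rw [sub_sub_cancel] at hyeq
      simp only at this
      nlinarith [hy.1]
  have tele : ∀ (u u' : ℝ → ℝ), (∀ x ∈ Icc (a - d) (b + d), HasDerivAt u (u' x) x) →
      (∀ x ∈ Icc (a - d) (b + d), |u' x| ≤ G) →
      IntervalIntegrable (fun x => u (x + d) + u (x - d) - 2 * u x) volume a b ∧
      ∫ x in a..b, (u (x + d) + u (x - d) - 2 * u x) ≤ 2 * G * d ^ 2 := by
    intro u u' hu hG
    have hcont : ContinuousOn u (Icc (a - d) (b + d)) :=
      fun y hy => (hu y hy).continuousAt.continuousWithinAt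
    set h := fun x => u (x + d) - u x with hh
    have hhc : ContinuousOn h (Icc (a - d) b) := by
      refine ContinuousOn.sub (hcont.comp (continuous_add_const d).continuousOn ?_)
        (hcont.mono (Icc_subset_Icc le_rfl (by linarith)))
      intro y hy
      exact ⟨by linarith [hy.1], by linarith [hy.2]⟩
    have hbound : ∀ x ∈ Icc (a - d) b, |h x| ≤ G * d := by
      intro x hx
      obtain ⟨y, hy, hyeq⟩ := exists_hasDerivAt_eq_slope u u' (show x < x + d by linarith)
        (hcont.mono (Icc_subset_Icc hx.1 (by linarith [hx.2])))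
        (fun y hy => hu y ⟨by linarith [hy.1, hx.1], by linarith [hy.2, hx.2]⟩)
      rw [add_sub_cancel_left, eq_div_iff hd.ne'] at hyeq
      rw [hh]
      simp only
      rw [← hyeq, abs_mul, abs_of_pos hd]
      exact mul_le_mul_of_nonneg_right
        (hG y ⟨by linarith [hy.1, hx.1], by linarith [hy.2, hx.2]⟩) hd.le
    have ii : ∀ p q : ℝ, a - d ≤ p → p ≤ b → a - d ≤ q → q ≤ b →
        IntervalIntegrable h volume p q := fun p q hp hp' hq hq' =>
      (hhc.mono (uIcc_subset_Icc ⟨hp, hp'⟩ ⟨hq, hq'⟩)).intervalIntegrable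
    have i1 := ii a b (by linarith) hab (by linarith) le_rfl
    have i2 : IntervalIntegrable (fun x => h (x - d)) volume a b := by
      refine ContinuousOn.intervalIntegrable (hhc.comp (continuous_sub_right d).continuousOn ?_)
      intro y hy
      rw [uIcc_of_le hab] at hy
      exact ⟨by linarith [hy.1], by linarith [hy.2]⟩
    have heq : ∀ x, u (x + d) + u (x - d) - 2 * u x = h x - h (x - d) := fun x => by
      simp only [hh, sub_add_cancel]; ring
    refine ⟨(i1.sub i2).congr (fun x _ => (heq x).symm), ?_⟩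
    simp only [heq]
    rw [intervalIntegral.integral_sub i1 i2, intervalIntegral.integral_comp_sub_right h d,
      intervalIntegral.integral_interval_sub_interval_comm i1
        (ii (a - d) (b - d) le_rfl (by linarith) (by linarith) (by linarith))
        (ii a (a - d) (by linarith) hab le_rfl (by linarith))]
    have e1 : |∫ x in a..(a - d), h x| ≤ G * d * |a - d - a| :=
      intervalIntegral.norm_integral_le_of_norm_le_const (f := h) fun x hx => by
        rw [uIoc_of_ge (by linarith : a - d ≤ a)] at hx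
        exact hbound x ⟨hx.1.le, by linarith [hx.2]⟩
    have e2 : |∫ x in b..(b - d), h x| ≤ G * d * |b - d - b| :=
      intervalIntegral.norm_integral_le_of_norm_le_const (f := h) fun x hx => by
        rw [uIoc_of_ge (by linarith : b - d ≤ b)] at hx
        exact hbound x ⟨by linarith [hx.1], hx.2⟩
    rw [sub_sub_cancel_left, abs_neg, abs_of_pos hd] at e1 e2
    nlinarith [abs_le.1 e1, abs_le.1 e2]
  have pt : ∀ x ∈ Icc a b, |f' x - g' x| ≤ (2 * C / d + 6 * c * d) +
      ((f (x + d) + f (x - d) - 2 * f x) / d + (g (x + d) + g (x - d) - 2 * g x) / d) := by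
    intro x hx
    obtain ⟨f1, f2⟩ := fwd f f' hf hfm x hx
    obtain ⟨g1, g2⟩ := fwd g g' hg hgm x hx
    have hm : x ∈ Icc (a - d) (b + d) := ⟨by linarith [hx.1], by linarith [hx.2]⟩
    have hp : x + d ∈ Icc (a - d) (b + d) := ⟨by linarith [hx.1], by linarith [hx.2]⟩
    have hn : x - d ∈ Icc (a - d) (b + d) := ⟨by linarith [hx.1], by linarith [hx.2]⟩
    have hF : ∀ u : ℝ → ℝ, (u (x + d) + u (x - d) - 2 * u x) / d =
        (u (x + d) - u x) / d - (u x - u (x - d)) / d := fun u => by ring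
    have b0 := abs_le.1 (hfg x hm)
    have b1 := abs_le.1 (hfg (x + d) hp)
    have b2 := abs_le.1 (hfg (x - d) hn)
    rw [hF f, hF g, abs_le]
    have c1 : (f (x + d) - f x) / d - (g (x + d) - g x) / d ≤ 2 * C / d ∧
        (g (x + d) - g x) / d - (f (x + d) - f x) / d ≤ 2 * C / d := by
      constructor <;> rw [← sub_div] <;> gcongr <;> linarith
    have hcd : 0 ≤ c * d := mul_nonneg hc hd.le
    constructor <;> linarith
  obtain ⟨if1, if2⟩ := tele f f' hf hfG
  obtain ⟨ig1, ig2⟩ := tele g g' hg hgG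
  have hl : IntervalIntegrable (fun x => |f' x - g' x|) volume a b := by
    refine (ContinuousOn.mono (hf'c.sub hg'c).abs ?_).intervalIntegrable
    rw [uIcc_of_le hab]
    exact Icc_subset_Icc (by linarith) (by linarith)
  have hr := (if1.div_const d).add (ig1.div_const d)
  refine (intervalIntegral.integral_mono_on hab hl
    ((intervalIntegrable_const).add hr) pt).trans ?_
  rw [intervalIntegral.integral_add intervalIntegrable_const hr,
    intervalIntegral.integral_add (if1.div_const d) (ig1.div_const d),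
    intervalIntegral.integral_div, intervalIntegral.integral_div, intervalIntegral.integral_const,
    smul_eq_mul]
  have k : ∀ {z : ℝ}, z ≤ 2 * G * d ^ 2 → z / d ≤ 2 * G * d := fun hz => by
    rw [div_le_iff₀ hd]; linarith
  have hba : 0 ≤ b - a := by linarith
  have : 0 ≤ C / d := by positivity
  have h4 : 4 * C / d = 2 * C / d + 2 * (C / d) := by ring
  nlinarith [k if2, k ig2]

end Vale.Agent.P157.Parisi
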