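import Vale.Agent.P157.Parisi.Formula

/-!
The energy term: a priori bound and stability in `L¹` of the standard Gaussian law.
-/

namespace Vale.Agent.P157.Parisi

open MeasureTheory ProbabilityTheory Finset

/-- The Gaussian average of `g` at variance `v` around `y`. -/
noncomputable def gaussMean (g : ℝ → ℝ) (v y : ℝ) : ℝ :=
  ∫ z, g (y + Real.sqrt v * z) ∂gaussianReal 0 1

lemma gauss_map_sqrt {v : ℝ} (hv : 0 ≤ v) :
    (gaussianReal 0 1).map (fun z => Real.sqrt v * z) = gaussianReal 0 v.toNNReal := by
  rw [gaussianReal_map_const_mul]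
  simp [Real.sq_sqrt hv, Real.toNNReal, max_eq_left hv]

lemma integrable_of_abs_le {α : Type} [MeasurableSpace α] {μ : Measure α} [IsFiniteMeasure μ]
    {g : α → ℝ} (hg : Measurable g) {C : ℝ} (hC : ∀ x, |g x| ≤ C) : Integrable g μ :=
  Integrable.of_bound hg.aestronglyMeasurable C
    (.of_forall fun x => by simpa [Real.norm_eq_abs] using hC x)

lemma measurable_gaussMean {g : ℝ → ℝ} (hg : Measurable g) (v : ℝ) :
    Measurable (gaussMean g v) := by
  have h : Measurable fun p : ℝ × ℝ => g (p.1 + Real.sqrt v * p.2) := hg.comp (by fun_prop)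
  exact h.stronglyMeasurable.integral_prod_right'.measurable

lemma abs_gaussMean_le {g : ℝ → ℝ} (hg : Measurable g) {C : ℝ} (hC : ∀ x, |g x| ≤ C) (v y : ℝ) :
    |gaussMean g v y| ≤ C := by
  have hm : Measurable fun z => g (y + Real.sqrt v * z) := hg.comp (by fun_prop)
  have := norm_integral_le_of_norm_le_const (μ := gaussianReal 0 1)
    (f := fun z => g (y + Real.sqrt v * z)) (C := C)
    (.of_forall fun z => by simpa [Real.norm_eq_abs] using hC _)
  simpa [gaussMean, Real.norm_eq_abs] using this

/-- Gaussian averages compose by adding the variances. -/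
lemma gaussMean_gaussMean {g : ℝ → ℝ} (hg : Measurable g) {C : ℝ} (hC : ∀ x, |g x| ≤ C) {v w : ℝ}
    (hv : 0 ≤ v) (hw : 0 ≤ w) (y : ℝ) :
    gaussMean (gaussMean g w) v y = gaussMean g (v + w) y := by
  have hgy : Measurable fun x => g (y + x) := hg.comp (measurable_const_add y)
  have hi : Integrable (fun x => g (y + x))
      ((gaussianReal 0 v.toNNReal) ∗ (gaussianReal 0 w.toNNReal)) := by
    rw [gaussianReal_conv_gaussianReal]
    exact integrable_of_abs_le hgy fun x => hC _
  have h := integral_conv hi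
  rw [gaussianReal_conv_gaussianReal, add_zero, ← Real.toNNReal_add hv hw,
    ← gauss_map_sqrt (add_nonneg hv hw), ← gauss_map_sqrt hv, ← gauss_map_sqrt hw] at h
  rw [integral_map (by fun_prop) hgy.aestronglyMeasurable] at h
  have hin : ∀ x, ∫ z, g (y + (x + z)) ∂((gaussianReal 0 1).map fun z => Real.sqrt w * z) =
      gaussMean g w (y + x) := by
    intro x
    have hx : Measurable fun z => g (y + (x + z)) := hg.comp (by fun_prop)
    rw [integral_map (by fun_prop) hx.aestronglyMeasurable]
    simp only [gaussMean, add_assoc]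
  simp only [hin] at h
  have hm : Measurable fun x => gaussMean g w (y + x) :=
    (measurable_gaussMean hg w).comp (measurable_const_add y)
  rw [integral_map (by fun_prop) hm.aestronglyMeasurable] at h
  exact h.symm

lemma measurable_gaussStep {m v : ℝ} {u : ℝ → ℝ} (hu : Measurable u) :
    Measurable (gaussStep m v u) := by
  have h : Measurable fun p : ℝ × ℝ => Real.exp (m * u (p.1 + Real.sqrt v * p.2)) :=
    ((hu.comp (by fun_prop)).const_mul m).exp
  exact (Real.measurable_log.comp h.stronglyMeasurable.integral_prod_right'.measurable).const_mul _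

lemma measurable_descend (K : ℕ) (q : ℕ → ℝ) {u : ℝ → ℝ} (hu : Measurable u) :
    ∀ d, Measurable (descend K q u d)
  | 0 => hu
  | d + 1 => measurable_gaussStep (measurable_descend K q hu d)

lemma log_expMean_le {α : Type} [MeasurableSpace α] {μ : Measure α} [IsProbabilityMeasure μ]
    {g : α → ℝ} (hg : Measurable g) {C : ℝ} (hC : ∀ x, |g x| ≤ C) :
    Real.exp (-C) ≤ ∫ x, Real.exp (g x) ∂μ ∧ ∫ x, Real.exp (g x) ∂μ ≤ Real.exp C ∧
      |Real.log (∫ x, Real.exp (g x) ∂μ)| ≤ C := by
  have hi : Integrable (fun x => Real.exp (g x)) μ :=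
    integrable_of_abs_le hg.exp (C := Real.exp C) fun x => by
      rw [abs_of_pos (Real.exp_pos _)]
      exact Real.exp_le_exp.2 ((abs_le.1 (hC x)).2)
  have h1 : Real.exp (-C) ≤ ∫ x, Real.exp (g x) ∂μ := by
    have := integral_mono (μ := μ) (integrable_const _) hi
      fun x => Real.exp_le_exp.2 ((abs_le.1 (hC x)).1)
    simpa using this
  have h2 : ∫ x, Real.exp (g x) ∂μ ≤ Real.exp C := by
    have := integral_mono (μ := μ) hi (integrable_const _)
      fun x => Real.exp_le_exp.2 ((abs_le.1 (hC x)).2)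
    simpa using this
  have hpos := lt_of_lt_of_le (Real.exp_pos _) h1
  exact ⟨h1, h2, abs_le.2 ⟨(Real.le_log_iff_exp_le hpos).2 h1, (Real.log_le_iff_le_exp hpos).2 h2⟩⟩

lemma abs_gaussStep_le {m v : ℝ} (hm : 0 < m) {u : ℝ → ℝ} (hu : Measurable u) {C : ℝ}
    (hC : ∀ x, |u x| ≤ C) (y : ℝ) : |gaussStep m v u y| ≤ C := by
  have h := (log_expMean_le (μ := gaussianReal 0 1) (g := fun z => m * u (y + Real.sqrt v * z))
    ((hu.comp (by fun_prop)).const_mul m) (C := m * C) fun z => by
      rw [abs_mul, abs_of_pos hm]; exact mul_le_mul_of_nonneg_left (hC _) hm.le).2.2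
  rw [gaussStep, abs_mul, abs_of_pos (inv_pos.2 hm)]
  calc m⁻¹ * _ ≤ m⁻¹ * (m * C) := mul_le_mul_of_nonneg_left h (inv_pos.2 hm).le
    _ = C := by field_simp

lemma lvl_pos {K d : ℕ} (hd : d < K) : 0 < lvl K (K - d) := by
  have : (0 : ℝ) < ((K - d : ℕ) : ℝ) := by exact_mod_cast (by omega : 0 < K - d)
  unfold lvl; positivity

lemma abs_descend_le (K : ℕ) (q : ℕ → ℝ) {u : ℝ → ℝ} (hu : Measurable u) {C : ℝ}
    (hC : ∀ x, |u x| ≤ C) : ∀ {d}, d ≤ K → ∀ y, |descend K q u d y| ≤ C := by
  intro d
  induction d with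
  | zero => exact fun _ y => hC y
  | succ d ih =>
    intro hd y
    exact abs_gaussStep_le (lvl_pos hd) (measurable_descend K q hu d)
      (fun x => ih (by omega) x) y

/-- The function at the last level. -/
noncomputable def topFun (f : ℝ → ℝ) (v : ℝ) (y : ℝ) : ℝ :=
  Real.log (∫ z, Real.exp (f (y + Real.sqrt v * z)) ∂gaussianReal 0 1)

lemma measurable_topFun {f : ℝ → ℝ} (hf : Measurable f) (v : ℝ) : Measurable (topFun f v) := by
  have h : Measurable fun p : ℝ × ℝ => Real.exp (f (p.1 + Real.sqrt v * p.2)) :=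
    (hf.comp (by fun_prop)).exp
  exact Real.measurable_log.comp h.stronglyMeasurable.integral_prod_right'.measurable

lemma abs_topFun_le {f : ℝ → ℝ} (hf : Measurable f) {C : ℝ} (hC : ∀ x, |f x| ≤ C) (v y : ℝ) :
    |topFun f v y| ≤ C :=
  (log_expMean_le (hf.comp (by fun_prop)) fun z => hC _).2.2

lemma energy_eq (f : ℝ → ℝ) (K : ℕ) (q : ℕ → ℝ) :
    energy f K q = cascade K q (topFun f (1 - q K)) := rfl

lemma abs_energy_le {f : ℝ → ℝ} (hf : Measurable f) {C : ℝ} (hfC : ∀ x, |f x| ≤ C) (K : ℕ)
    (q : ℕ → ℝ) : |energy f K q| ≤ C := by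
  rw [energy_eq, cascade]
  have hb := abs_descend_le K q (measurable_topFun hf _) (abs_topFun_le hf hfC (1 - q K))
    (le_refl K)
  have := norm_integral_le_of_norm_le_const (μ := gaussianReal 0 1)
    (f := fun z => descend K q (topFun f (1 - q K)) K (Real.sqrt (q 0) * z)) (C := C)
    (.of_forall fun z => by simpa [Real.norm_eq_abs] using hb _)
  simpa [Real.norm_eq_abs] using this

theorem energy_bound {f : ℝ → ℝ} (hf : Measurable f) {C : ℝ} (hfC : ∀ x, |f x| ≤ C) (K : ℕ)
    {q : ℕ → ℝ} (_hq : IsPath q) (_h1 : q K ≤ 1) : |energy f K q| ≤ C := abs_energy_le hf hfC K q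

/-- One step is monotone up to the tilted average of the difference. -/
lemma gaussStep_sub_le {m v : ℝ} (hm : 0 < m) {u u' b : ℝ → ℝ} (hu : Measurable u)
    (hu' : Measurable u') (hb : Measurable b) {C : ℝ} (hC : ∀ x, |u x| ≤ C)
    (hC' : ∀ x, |u' x| ≤ C) {C₂ : ℝ} (hbC : ∀ x, |b x| ≤ C₂) (h : ∀ x, u x - u' x ≤ b x) (y : ℝ) :
    gaussStep m v u y - gaussStep m v u' y ≤
      (∫ z, Real.exp (m * u (y + Real.sqrt v * z)) * b (y + Real.sqrt v * z) ∂gaussianReal 0 1) /
        ∫ z, Real.exp (m * u (y + Real.sqrt v * z)) ∂gaussianReal 0 1 := by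
  set x : ℝ → ℝ := fun z => y + Real.sqrt v * z with hx
  have hxm : Measurable x := by fun_prop
  have hmC : ∀ (g : ℝ → ℝ), (∀ t, |g t| ≤ C) → ∀ z, |m * g (x z)| ≤ m * C := fun g hg z => by
    rw [abs_mul, abs_of_pos hm]; exact mul_le_mul_of_nonneg_left (hg _) hm.le
  obtain ⟨hA1, -, -⟩ := log_expMean_le (μ := gaussianReal 0 1)
    ((hu.comp hxm).const_mul m) (hmC u hC)
  obtain ⟨hB1, -, -⟩ := log_expMean_le (μ := gaussianReal 0 1)
    ((hu'.comp hxm).const_mul m) (hmC u' hC')
  simp only [Function.comp_def] at hA1 hB1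
  set A := ∫ z, Real.exp (m * u (x z)) ∂gaussianReal 0 1 with hA
  set B := ∫ z, Real.exp (m * u' (x z)) ∂gaussianReal 0 1 with hB
  set T := (∫ z, Real.exp (m * u (x z)) * b (x z) ∂gaussianReal 0 1) / A with hT
  have hApos : 0 < A := lt_of_lt_of_le (Real.exp_pos _) hA1
  have hBpos : 0 < B := lt_of_lt_of_le (Real.exp_pos _) hB1
  have hib : Integrable (fun z => Real.exp (m * u (x z))) (gaussianReal 0 1) :=
    integrable_of_abs_le ((hu.comp hxm).const_mul m).exp fun z => by
      rw [abs_of_pos (Real.exp_pos _)]; exact Real.exp_le_exp.2 (abs_le.1 (hmC u hC z)).2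
  have hib' : Integrable (fun z => Real.exp (m * u' (x z))) (gaussianReal 0 1) :=
    integrable_of_abs_le ((hu'.comp hxm).const_mul m).exp fun z => by
      rw [abs_of_pos (Real.exp_pos _)]; exact Real.exp_le_exp.2 (abs_le.1 (hmC u' hC' z)).2
  have hiu : Integrable (fun z => Real.exp (m * u (x z)) * b (x z)) (gaussianReal 0 1) :=
    integrable_of_abs_le (((hu.comp hxm).const_mul m).exp.mul (hb.comp hxm))
      (C := Real.exp (m * C) * C₂) fun z => by
      rw [abs_mul, abs_of_pos (Real.exp_pos _)]
      exact mul_le_mul (Real.exp_le_exp.2 (abs_le.1 (hmC u hC z)).2) (hbC _) (abs_nonneg _)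
        (Real.exp_pos _).le
  have key : Real.exp (-(m * T)) * A ≤ B := by
    have hpt : ∀ z, Real.exp (-(m * T)) *
        ((1 + m * T) * Real.exp (m * u (x z)) - m * (Real.exp (m * u (x z)) * b (x z))) ≤
        Real.exp (m * u' (x z)) := by
      intro z
      have h1 : Real.exp (m * u (x z) + -(m * b (x z))) ≤ Real.exp (m * u' (x z)) :=
        Real.exp_le_exp.2 (by nlinarith [h (x z)])
      refine le_trans ?_ h1
      have h2 := Real.add_one_le_exp (m * T - m * b (x z))
      calc Real.exp (-(m * T)) *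
            ((1 + m * T) * Real.exp (m * u (x z)) - m * (Real.exp (m * u (x z)) * b (x z)))
          = Real.exp (-(m * T)) * Real.exp (m * u (x z)) * (m * T - m * b (x z) + 1) := by ring
        _ ≤ Real.exp (-(m * T)) * Real.exp (m * u (x z)) * Real.exp (m * T - m * b (x z)) :=
          mul_le_mul_of_nonneg_left h2 (by positivity)
        _ = Real.exp (m * u (x z) + -(m * b (x z))) := by
          rw [← Real.exp_add, ← Real.exp_add]; congr 1; ring
    have h3 := integral_mono (μ := gaussianReal 0 1)
      (((hib.const_mul (1 + m * T)).sub (hiu.const_mul m)).const_mul (Real.exp (-(m * T)))) hib' hpt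
    rw [integral_const_mul, integral_sub' (hib.const_mul _) (hiu.const_mul _),
      integral_const_mul, integral_const_mul] at h3
    have hTA : ∫ z, Real.exp (m * u (x z)) * b (x z) ∂gaussianReal 0 1 = T * A := by
      rw [hT]; field_simp
    rw [hTA] at h3
    calc Real.exp (-(m * T)) * A = Real.exp (-(m * T)) * ((1 + m * T) * A - m * (T * A)) := by ring
      _ ≤ B := h3
  have hlog := Real.log_le_log (by positivity) key
  rw [Real.log_mul (Real.exp_pos _).ne' hApos.ne', Real.log_exp] at hlog
  show m⁻¹ * Real.log A - m⁻¹ * Real.log B ≤ T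
  rw [← mul_sub, inv_mul_le_iff₀ hm]
  linarith

/-- The difference of two recursions, with the tilt of the first. -/
lemma descend_sub_le {f φ : ℝ → ℝ} (hf : Measurable f) (hφ : Measurable φ) {C : ℝ}
    (hfC : ∀ x, |f x| ≤ C) (hφC : ∀ x, |φ x| ≤ C) (K : ℕ) {q : ℕ → ℝ} (hq : Monotone q)
    (h1 : q K ≤ 1) : ∀ {d}, d ≤ K → ∀ y,
    descend K q (topFun f (1 - q K)) d y - descend K q (topFun φ (1 - q K)) d y ≤
      Real.exp (3 * C + C * (1 - lvl K (K + 1 - d)) -
          lvl K (K + 1 - d) * descend K q (topFun f (1 - q K)) d y) *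
        gaussMean (fun x => |f x - φ x|) (1 - q (K - d)) y := by
  have hC0 : 0 ≤ C := (abs_nonneg _).trans (hfC 0)
  set g : ℝ → ℝ := fun x => |f x - φ x| with hg
  have hgm : Measurable g := (hf.sub hφ).abs
  have hgC : ∀ x, |g x| ≤ 2 * C := fun x => by
    rw [hg, abs_abs]
    linarith [abs_sub (f x) (φ x), hfC x, hφC x]
  intro d
  induction d with
  | zero =>
    intro _ y
    have hlast : lvl K (K + 1 - 0) = 1 := by
      simp only [lvl, Nat.sub_zero]; push_cast; field_simp
    rw [hlast]
    simp only [descend, sub_self, mul_zero, add_zero, one_mul, Nat.sub_zero]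
    set v := 1 - q K
    set x : ℝ → ℝ := fun z => y + Real.sqrt v * z with hx
    have hxm : Measurable x := by fun_prop
    obtain ⟨hA1, -, hAC⟩ := log_expMean_le (μ := gaussianReal 0 1) (hf.comp hxm) (fun z => hfC _)
    obtain ⟨hB1, -, -⟩ := log_expMean_le (μ := gaussianReal 0 1) (hφ.comp hxm) (fun z => hφC _)
    simp only [Function.comp_def] at hA1 hB1 hAC
    set A := ∫ z, Real.exp (f (x z)) ∂gaussianReal 0 1
    set B := ∫ z, Real.exp (φ (x z)) ∂gaussianReal 0 1
    have hApos : 0 < A := lt_of_lt_of_le (Real.exp_pos _) hA1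
    have hBpos : 0 < B := lt_of_lt_of_le (Real.exp_pos _) hB1
    have hiA : Integrable (fun z => Real.exp (f (x z))) (gaussianReal 0 1) :=
      integrable_of_abs_le (hf.comp hxm).exp fun z => by
        rw [abs_of_pos (Real.exp_pos _)]; exact Real.exp_le_exp.2 (abs_le.1 (hfC _)).2
    have hiB : Integrable (fun z => Real.exp (φ (x z))) (gaussianReal 0 1) :=
      integrable_of_abs_le (hφ.comp hxm).exp fun z => by
        rw [abs_of_pos (Real.exp_pos _)]; exact Real.exp_le_exp.2 (abs_le.1 (hφC _)).2
    have hdiff : A - B ≤ Real.exp C * gaussMean g v y := by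
      have := integral_mono (μ := gaussianReal 0 1) (hiA.sub hiB)
        ((integrable_of_abs_le (hgm.comp hxm) fun z => hgC _).const_mul (Real.exp C)) fun z => by
          show Real.exp (f (x z)) - Real.exp (φ (x z)) ≤ Real.exp C * |f (x z) - φ (x z)|
          rcases le_total (f (x z)) (φ (x z)) with h | h
          · exact le_trans (sub_nonpos.2 (Real.exp_le_exp.2 h)) (by positivity)
          · have h2 := Real.add_one_le_exp (φ (x z) - f (x z))
            have h3 : Real.exp (φ (x z)) =
                Real.exp (f (x z)) * Real.exp (φ (x z) - f (x z)) := by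
              rw [← Real.exp_add]; congr 1; ring
            rw [abs_of_nonneg (by linarith), h3]
            have h4 : Real.exp (f (x z)) ≤ Real.exp C := Real.exp_le_exp.2 (abs_le.1 (hfC _)).2
            nlinarith [Real.exp_pos (f (x z))]
      rw [integral_sub' hiA hiB, integral_const_mul] at this
      exact this
    have hgn : 0 ≤ gaussMean g v y := integral_nonneg fun z => abs_nonneg _
    have hlog : Real.log A - Real.log B ≤ (A - B) / B := by
      rw [← Real.log_div hApos.ne' hBpos.ne', sub_div, div_self hBpos.ne']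
      exact Real.log_le_sub_one_of_pos (by positivity)
    have hB1' : B⁻¹ ≤ Real.exp C := by
      rw [← neg_neg C, Real.exp_neg]
      exact inv_anti₀ (Real.exp_pos _) hB1
    show Real.log A - Real.log B ≤ Real.exp (3 * C - Real.log A) * gaussMean g v y
    calc Real.log A - Real.log B ≤ (A - B) / B := hlog
      _ ≤ Real.exp C * gaussMean g v y * B⁻¹ := by
          rw [div_eq_mul_inv]; exact mul_le_mul_of_nonneg_right hdiff (by positivity)
      _ ≤ Real.exp C * gaussMean g v y * Real.exp C :=
          mul_le_mul_of_nonneg_left hB1' (by positivity)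
      _ = Real.exp (C + C) * gaussMean g v y := by rw [Real.exp_add]; ring
      _ ≤ _ := mul_le_mul_of_nonneg_right
          (Real.exp_le_exp.2 (by linarith [(abs_le.1 hAC).2])) hgn
  | succ d ih =>
    intro hd y
    have ih' := ih (by omega)
    set U := descend K q (topFun f (1 - q K)) d
    set U' := descend K q (topFun φ (1 - q K)) d
    set m := lvl K (K - d)
    set m' := lvl K (K + 1 - d)
    set v := q (K - d) - q (K - d - 1)
    have hm : 0 < m := lvl_pos hd
    have hmm : m ≤ m' := by
      have : ((K - d : ℕ) : ℝ) ≤ ((K + 1 - d : ℕ) : ℝ) := by exact_mod_cast (by omega)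
      exact div_le_div_of_nonneg_right this (by positivity)
    have hm0' : 0 ≤ m' := hm.le.trans hmm
    have hm1' : m' ≤ 1 := by
      simp only [m', lvl]
      rw [div_le_one (by positivity)]
      exact_mod_cast (by omega : K + 1 - d ≤ K + 1)
    have hv : 0 ≤ v := sub_nonneg.2 (hq (by omega))
    have hw : 0 ≤ 1 - q (K - d) := sub_nonneg.2 ((hq (by omega)).trans h1)
    have hU : Measurable U := measurable_descend K q (measurable_topFun hf _) d
    have hU' : Measurable U' := measurable_descend K q (measurable_topFun hφ _) d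
    have hUC : ∀ x, |U x| ≤ C :=
      abs_descend_le K q (measurable_topFun hf _) (abs_topFun_le hf hfC _) (by omega : d ≤ K)
    have hU'C : ∀ x, |U' x| ≤ C :=
      abs_descend_le K q (measurable_topFun hφ _) (abs_topFun_le hφ hφC _) (by omega : d ≤ K)
    set b : ℝ → ℝ := fun x => Real.exp (3 * C + C * (1 - m') - m' * U x) *
      gaussMean g (1 - q (K - d)) x with hb
    have hbm : Measurable b :=
      ((hU.const_mul m').const_sub _).exp.mul (measurable_gaussMean hgm _)
    have hbC : ∀ x, |b x| ≤ Real.exp (4 * C) * (2 * C) := fun x => by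
      rw [hb, abs_mul, abs_of_pos (Real.exp_pos _)]
      refine mul_le_mul (Real.exp_le_exp.2 ?_) (abs_gaussMean_le hgm hgC _ _) (abs_nonneg _)
        (Real.exp_pos _).le
      nlinarith [(abs_le.1 (hUC x)).1]
    have hstep := gaussStep_sub_le (v := v) hm hU hU' hbm hUC hU'C hbC (fun x => ih' x) y
    have hidx : K + 1 - (d + 1) = K - d := by omega
    have hidx2 : K - (d + 1) = K - d - 1 := by omega
    rw [hidx, hidx2]
    refine le_trans hstep ?_
    set x : ℝ → ℝ := fun z => y + Real.sqrt v * z with hx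
    have hxm : Measurable x := by fun_prop
    set A := ∫ z, Real.exp (m * U (x z)) ∂gaussianReal 0 1 with hA
    have hApos : 0 < A := lt_of_lt_of_le (Real.exp_pos _)
      (log_expMean_le (g := fun z => m * U (x z)) ((hU.comp hxm).const_mul m) (C := m * C)
        fun z => by rw [abs_mul, abs_of_pos hm]; exact mul_le_mul_of_nonneg_left (hUC _) hm.le).1
    have hUd : descend K q (topFun f (1 - q K)) (d + 1) y = m⁻¹ * Real.log A := rfl
    rw [hUd, div_le_iff₀ hApos]
    have hexp : Real.exp (3 * C + C * (1 - m) - m * (m⁻¹ * Real.log A)) * A =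
        Real.exp (3 * C + C * (1 - m)) := by
      rw [← mul_assoc, mul_inv_cancel₀ hm.ne', one_mul, Real.exp_sub, Real.exp_log hApos]
      field_simp
    have hcomp : gaussMean (gaussMean g (1 - q (K - d))) v y =
        gaussMean g (1 - q (K - d - 1)) y := by
      rw [gaussMean_gaussMean hgm hgC hv hw]; congr 1; simp [v]
    calc ∫ z, Real.exp (m * U (x z)) * b (x z) ∂gaussianReal 0 1
        ≤ ∫ z, Real.exp (3 * C + C * (1 - m)) * gaussMean g (1 - q (K - d)) (x z)
            ∂gaussianReal 0 1 := by
          refine integral_mono ?_ ?_ fun z => ?_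
          · exact integrable_of_abs_le (((hU.comp hxm).const_mul m).exp.mul (hbm.comp hxm))
              (C := Real.exp C * (Real.exp (4 * C) * (2 * C))) fun z => by
                rw [abs_mul, abs_of_pos (Real.exp_pos _)]
                refine mul_le_mul (Real.exp_le_exp.2 ?_) (hbC _) (abs_nonneg _) (Real.exp_pos _).le
                show m * U (x z) ≤ C
                nlinarith [(abs_le.1 (hUC (x z))).2]
          · exact (integrable_of_abs_le ((measurable_gaussMean hgm _).comp hxm)
              fun z => abs_gaussMean_le hgm hgC _ _).const_mul _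
          · simp only [hb]
            rw [← mul_assoc, ← Real.exp_add]
            refine mul_le_mul_of_nonneg_right (Real.exp_le_exp.2 ?_)
              (integral_nonneg fun _ => abs_nonneg _)
            nlinarith [(abs_le.1 (hUC (x z))).1]
      _ = _ := by
          rw [integral_const_mul, mul_right_comm, hexp, ← hcomp]
          rfl

/-- Stability of the energy in `L¹` of the Gaussian law, one side. -/
lemma energy_sub_le {f φ : ℝ → ℝ} (hf : Measurable f) (hφ : Measurable φ) {C : ℝ}
    (hfC : ∀ x, |f x| ≤ C) (hφC : ∀ x, |φ x| ≤ C) (K : ℕ) {q : ℕ → ℝ} (hq : IsPath q)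
    (h1 : q K ≤ 1) :
    energy f K q - energy φ K q ≤ Real.exp (4 * C) * ∫ x, |f x - φ x| ∂gaussianReal 0 1 := by
  set g : ℝ → ℝ := fun x => |f x - φ x| with hg
  have hgm : Measurable g := (hf.sub hφ).abs
  have hgC : ∀ x, |g x| ≤ 2 * C := fun x => by
    rw [hg, abs_abs]
    linarith [abs_sub (f x) (φ x), hfC x, hφC x]
  have hx1 : (0 : ℝ) ≤ lvl K (K + 1 - K) := by unfold lvl; positivity
  have hmf := (measurable_descend K q (measurable_topFun hf (1 - q K)) K).comp
    (measurable_const_mul (Real.sqrt (q 0)))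
  have hmφ := (measurable_descend K q (measurable_topFun hφ (1 - q K)) K).comp
    (measurable_const_mul (Real.sqrt (q 0)))
  have hbf := abs_descend_le K q (measurable_topFun hf _) (abs_topFun_le hf hfC (1 - q K))
    (le_refl K)
  have hbφ := abs_descend_le K q (measurable_topFun hφ _) (abs_topFun_le hφ hφC (1 - q K))
    (le_refl K)
  have hi1 : Integrable (fun z => descend K q (topFun f (1 - q K)) K (Real.sqrt (q 0) * z))
      (gaussianReal 0 1) := integrable_of_abs_le hmf fun z => hbf _
  have hi2 : Integrable (fun z => descend K q (topFun φ (1 - q K)) K (Real.sqrt (q 0) * z))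
      (gaussianReal 0 1) := integrable_of_abs_le hmφ fun z => hbφ _
  rw [energy_eq, energy_eq, cascade, cascade, ← integral_sub hi1 hi2]
  have hm : Measurable fun z => gaussMean g (1 - q 0) (Real.sqrt (q 0) * z) :=
    (measurable_gaussMean hgm _).comp (measurable_const_mul _)
  calc ∫ z, (descend K q (topFun f (1 - q K)) K (Real.sqrt (q 0) * z) -
        descend K q (topFun φ (1 - q K)) K (Real.sqrt (q 0) * z)) ∂gaussianReal 0 1
      ≤ ∫ z, Real.exp (4 * C) * gaussMean g (1 - q 0) (Real.sqrt (q 0) * z)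
          ∂gaussianReal 0 1 := by
        refine integral_mono (hi1.sub hi2)
          ((integrable_of_abs_le hm fun z => abs_gaussMean_le hgm hgC _ _).const_mul _) fun z => ?_
        refine le_trans (descend_sub_le hf hφ hfC hφC K hq.1 h1 le_rfl _) ?_
        rw [Nat.sub_self]
        refine mul_le_mul_of_nonneg_right (Real.exp_le_exp.2 ?_)
          (integral_nonneg fun _ => abs_nonneg _)
        have := mul_le_mul_of_nonneg_left (abs_le.1 (hbf (Real.sqrt (q 0) * z))).1 hx1
        linarith
    _ = Real.exp (4 * C) * gaussMean (gaussMean g (1 - q 0)) (q 0) 0 := by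
        rw [integral_const_mul]; simp [gaussMean]
    _ = Real.exp (4 * C) * ∫ x, g x ∂gaussianReal 0 1 := by
        rw [gaussMean_gaussMean hgm hgC hq.2 (sub_nonneg.2 ((hq.1 (Nat.zero_le K)).trans h1))]
        simp [gaussMean]

/-- Stability of the energy in `L¹` of the Gaussian law. -/
theorem energy_close {f φ : ℝ → ℝ} (hf : Measurable f) (hφ : Measurable φ) {C : ℝ}
    (hfC : ∀ x, |f x| ≤ C) (hφC : ∀ x, |φ x| ≤ C) (K : ℕ) {q : ℕ → ℝ} (hq : IsPath q)
    (h1 : q K ≤ 1) :
    |energy f K q - energy φ K q| ≤ Real.exp (4 * C) * ∫ x, |f x - φ x| ∂gaussianReal 0 1 := by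
  have h2 := energy_sub_le hφ hf hφC hfC K hq h1
  simp only [abs_sub_comm (φ _) (f _)] at h2
  exact abs_le.2 ⟨by linarith, energy_sub_le hf hφ hfC hφC K hq h1⟩

end Vale.Agent.P157.Parisi
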