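import Vale.Agent.P157.Parisi.Quant

/-!
Gaussian integrals of functions of exponential growth: integrability, continuity, differentiation
and integration by parts.
-/

set_option linter.unusedSectionVars false

namespace Vale.Agent.P157.Parisi

open MeasureTheory ProbabilityTheory Finset Filter Topology

variable {ι : Type} [Fintype ι]

/-- The `ℓ¹` norm. -/
def l1 (y : ι → ℝ) : ℝ := ∑ i, |y i|

lemma l1_nonneg (y : ι → ℝ) : 0 ≤ l1 y := sum_nonneg fun _ _ => abs_nonneg _

lemma continuous_l1 : Continuous (l1 : (ι → ℝ) → ℝ) := by unfold l1; fun_prop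

lemma l1_add_le (y z : ι → ℝ) : l1 (fun i => y i + z i) ≤ l1 y + l1 z := by
  simp only [l1, ← sum_add_distrib]
  exact sum_le_sum fun i _ => abs_add_le _ _

lemma l1_smul (t : ℝ) (v : ι → ℝ) : l1 (fun i => t * v i) = |t| * l1 v := by
  simp only [l1, abs_mul, ← mul_sum]

lemma l1_scale_le (s z : ι → ℝ) : l1 (fun i => s i * z i) ≤ l1 s * l1 z := by
  simp only [l1, abs_mul]
  rw [sum_mul]
  refine sum_le_sum fun i hi => mul_le_mul_of_nonneg_left ?_ (abs_nonneg _)
  exact single_le_sum (f := fun i => |z i|) (fun _ _ => abs_nonneg _) hi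

lemma abs_le_l1 (y : ι → ℝ) (i : ι) : |y i| ≤ l1 y :=
  single_le_sum (f := fun i => |y i|) (fun _ _ => abs_nonneg _) (mem_univ i)

lemma abs_le_exp_l1 (y : ι → ℝ) (i : ι) : |y i| ≤ Real.exp (l1 y) :=
  (abs_le_l1 y i).trans (by linarith [Real.add_one_le_exp (l1 y)])

lemma integrable_exp_l1 (k : ℝ) : Integrable (fun z => Real.exp (k * l1 z)) (gauss ι) := by
  have h1 : Integrable (fun x : ℝ => Real.exp (k * |x|)) (gaussianReal 0 1) := by
    refine ((integrable_exp_mul_gaussianReal k).add (integrable_exp_mul_gaussianReal (-k))).mono'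
      (by fun_prop) (.of_forall fun x => ?_)
    rw [Real.norm_eq_abs, abs_of_pos (Real.exp_pos _)]
    simp only [Pi.add_apply, neg_mul]
    rcases le_total 0 x with hx | hx
    · rw [abs_of_nonneg hx]; linarith [Real.exp_pos (-(k * x))]
    · rw [abs_of_nonpos hx, mul_neg]; linarith [Real.exp_pos (k * x)]
  have e : (fun z : ι → ℝ => Real.exp (k * l1 z)) = fun z => ∏ i, Real.exp (k * |z i|) := by
    funext z
    rw [l1, mul_sum, Real.exp_sum]
  rw [e]
  exact Integrable.fintype_prod fun _ => h1

/-- A bound of exponential growth with nonnegative constants. -/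
lemma Tame.bound {f : (ι → ℝ) → ℝ} (hf : Tame f) :
    ∃ C k : ℝ, 0 ≤ C ∧ 0 ≤ k ∧ ∀ y, |f y| ≤ C * Real.exp (k * l1 y) := by
  obtain ⟨-, C, k, h⟩ := hf
  refine ⟨max C 0, max k 0, le_max_right _ _, le_max_right _ _, fun y => (h y).trans ?_⟩
  refine mul_le_mul (le_max_left _ _) (Real.exp_le_exp.2 ?_) (Real.exp_pos _).le (le_max_right _ _)
  exact mul_le_mul_of_nonneg_right (le_max_left _ _) (l1_nonneg y)

lemma tame_of_bound {f : (ι → ℝ) → ℝ} (hc : Continuous f) {C k : ℝ}
    (h : ∀ y, |f y| ≤ C * Real.exp (k * l1 y)) : Tame f :=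
  ⟨hc, C, k, h⟩

lemma tame_of_bounded {f : (ι → ℝ) → ℝ} (hc : Continuous f) {C : ℝ} (h : ∀ y, |f y| ≤ C) :
    Tame f :=
  tame_of_bound hc (C := C) (k := 0) fun y => by simpa using h y

lemma Tame.add {f g : (ι → ℝ) → ℝ} (hf : Tame f) (hg : Tame g) : Tame fun y => f y + g y := by
  obtain ⟨C, k, hC, hk, hb⟩ := hf.bound
  obtain ⟨D, l, hD, hl, hd⟩ := hg.bound
  refine tame_of_bound (hf.1.add hg.1) (C := C + D) (k := k + l) fun y => ?_
  refine (abs_add_le _ _).trans ?_
  rw [add_mul]
  have := l1_nonneg y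
  exact add_le_add ((hb y).trans (mul_le_mul_of_nonneg_left (Real.exp_le_exp.2 (by nlinarith)) hC))
    ((hd y).trans (mul_le_mul_of_nonneg_left (Real.exp_le_exp.2 (by nlinarith)) hD))

lemma Tame.mul {f g : (ι → ℝ) → ℝ} (hf : Tame f) (hg : Tame g) : Tame fun y => f y * g y := by
  obtain ⟨C, k, hC, hk, hb⟩ := hf.bound
  obtain ⟨D, l, hD, hl, hd⟩ := hg.bound
  refine tame_of_bound (hf.1.mul hg.1) (C := C * D) (k := k + l) fun y => ?_
  rw [abs_mul, add_mul, Real.exp_add, mul_mul_mul_comm]
  exact mul_le_mul (hb y) (hd y) (abs_nonneg _) (by positivity)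

lemma tame_const (c : ℝ) : Tame fun _ : ι → ℝ => c :=
  tame_of_bounded continuous_const (fun _ => le_rfl)

lemma Tame.const_mul {f : (ι → ℝ) → ℝ} (hf : Tame f) (c : ℝ) : Tame fun y => c * f y :=
  (tame_const c).mul hf

lemma Tame.sub {f g : (ι → ℝ) → ℝ} (hf : Tame f) (hg : Tame g) : Tame fun y => f y - g y := by
  simpa [sub_eq_add_neg] using hf.add (hg.const_mul (-1))

lemma Tame.sq {f : (ι → ℝ) → ℝ} (hf : Tame f) : Tame fun y => f y ^ 2 := by
  simpa [pow_two] using hf.mul hf

lemma tame_sum {β : Type*} (T : Finset β) {f : β → (ι → ℝ) → ℝ} (hf : ∀ b ∈ T, Tame (f b)) :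
    Tame fun y => ∑ b ∈ T, f b y := by
  classical
  induction T using Finset.induction with
  | empty => simpa using tame_const (ι := ι) 0
  | insert a T ha ih =>
    simp only [sum_insert ha]
    exact (hf a (mem_insert_self a T)).add (ih fun b hb => hf b (mem_insert_of_mem hb))

lemma tame_coord (i : ι) : Tame fun y : ι → ℝ => y i :=
  tame_of_bound (continuous_apply i) (C := 1) (k := 1) fun y => by simpa using abs_le_exp_l1 y i

lemma Tame.abs {f : (ι → ℝ) → ℝ} (hf : Tame f) : Tame fun y => |f y| := by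
  obtain ⟨C, k, -, -, h⟩ := hf.bound
  exact tame_of_bound hf.1.abs fun y => by simpa [abs_abs] using h y

lemma l1_move_le (s y z : ι → ℝ) : l1 (move s y z) ≤ l1 y + l1 s * l1 z :=
  (l1_add_le y fun i => s i * z i).trans (by linarith [l1_scale_le s z])

omit [Fintype ι] in
lemma continuous_move (s : ι → ℝ) :
    Continuous fun p : (ι → ℝ) × (ι → ℝ) => move s p.1 p.2 := by unfold move; fun_prop

lemma continuous_move_left (s z : ι → ℝ) : Continuous fun y => move s y z :=
  (continuous_move s).comp (continuous_id.prodMk continuous_const)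

lemma continuous_move_right (s y : ι → ℝ) : Continuous fun z => move s y z :=
  (continuous_move s).comp (continuous_const.prodMk continuous_id)

omit [Fintype ι] in
lemma move_add_smul (s y z v : ι → ℝ) (t : ℝ) :
    move s (fun i => y i + t * v i) z = fun i => move s y z i + t * v i := by
  funext i; simp only [move]; ring

lemma Tame.comp_move {f : (ι → ℝ) → ℝ} (hf : Tame f) (s y : ι → ℝ) :
    Tame fun z => f (move s y z) := by
  obtain ⟨C, k, hC, hk, h⟩ := hf.bound
  refine tame_of_bound (hf.1.comp (continuous_move_right s y))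
    (C := C * Real.exp (k * l1 y)) (k := k * l1 s) fun z => (h _).trans ?_
  rw [mul_assoc C, ← Real.exp_add]
  refine mul_le_mul_of_nonneg_left (Real.exp_le_exp.2 ?_) hC
  have := mul_le_mul_of_nonneg_left (l1_move_le s y z) hk
  linarith

lemma Tame.integrable {f : (ι → ℝ) → ℝ} (hf : Tame f) : Integrable f (gauss ι) := by
  obtain ⟨C, k, -, -, h⟩ := hf.bound
  exact ((integrable_exp_l1 k).const_mul C).mono' hf.1.aestronglyMeasurable
    (.of_forall fun z => by simpa [Real.norm_eq_abs] using h z)

lemma Tame.memLp_two {f : (ι → ℝ) → ℝ} (hf : Tame f) : MemLp f 2 (gauss ι) :=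
  (memLp_two_iff_integrable_sq hf.1.aestronglyMeasurable).2 hf.sq.integrable

/-- Differentiation under a Gaussian integral with exponential domination. -/
theorem hasDerivAt_gauss_integral {ι : Type} [Fintype ι] {F F' : ℝ → (ι → ℝ) → ℝ} {t₀ r C k : ℝ}
    (hr : 0 < r) (hF : ∀ t, |t - t₀| < r → Continuous (F t))
    (hF' : Continuous (F' t₀))
    (hd : ∀ t, |t - t₀| < r → ∀ z, HasDerivAt (fun t => F t z) (F' t z) t)
    (hb : ∀ z, |F t₀ z| ≤ C * Real.exp (k * ∑ i, |z i|))
    (hb' : ∀ t, |t - t₀| < r → ∀ z, |F' t z| ≤ C * Real.exp (k * ∑ i, |z i|)) :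
    HasDerivAt (fun t => ∫ z, F t z ∂gauss ι) (∫ z, F' t₀ z ∂gauss ι) t₀ := by
  have hs : Metric.ball t₀ r ∈ 𝓝 t₀ := Metric.ball_mem_nhds t₀ hr
  have hmem : ∀ t, t ∈ Metric.ball t₀ r → |t - t₀| < r := fun t ht => by
    simpa [Real.dist_eq] using ht
  have h0 : |t₀ - t₀| < r := by simpa using hr
  refine (hasDerivAt_integral_of_dominated_loc_of_deriv_le (bound := fun z => C * Real.exp (k * l1 z))
    hs ?_ ?_ hF'.aestronglyMeasurable (.of_forall fun z t ht => ?_)
    ((integrable_exp_l1 k).const_mul C) (.of_forall fun z t ht => hd t (hmem t ht) z)).2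
  · filter_upwards [hs] with t ht using (hF t (hmem t ht)).aestronglyMeasurable
  · exact (tame_of_bound (hF t₀ h0) hb).integrable
  · simpa [Real.norm_eq_abs, l1] using hb' t (hmem t ht) z

lemma continuous_gauss_integral {f : (ι → ℝ) → ℝ} (hf : Tame f) (s : ι → ℝ) :
    Continuous fun y => ∫ z, f (move s y z) ∂gauss ι := by
  obtain ⟨C, k, hC, hk, h⟩ := hf.bound
  refine continuous_iff_continuousAt.2 fun y₀ => ?_
  refine continuousAt_of_dominated
    (bound := fun z => C * Real.exp (k * (l1 y₀ + 1)) * Real.exp (k * l1 s * l1 z))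
    (.of_forall fun y => (hf.1.comp (continuous_move_right s y)).aestronglyMeasurable) ?_
    ((integrable_exp_l1 _).const_mul _)
    (.of_forall fun z => (hf.1.comp (continuous_move_left s z)).continuousAt)
  have : ∀ᶠ y in 𝓝 y₀, l1 y < l1 y₀ + 1 :=
    (continuous_l1.tendsto y₀).eventually (eventually_lt_nhds (by linarith))
  filter_upwards [this] with y hy
  refine .of_forall fun z => ?_
  rw [Real.norm_eq_abs, mul_assoc C, ← Real.exp_add]
  refine (h _).trans (mul_le_mul_of_nonneg_left (Real.exp_le_exp.2 ?_) hC)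
  have := mul_le_mul_of_nonneg_left (l1_move_le s y z) hk
  have := mul_le_mul_of_nonneg_left hy.le hk
  linarith

lemma Tame.gauss_step {f : (ι → ℝ) → ℝ} (hf : Tame f) (s : ι → ℝ) :
    Tame fun y => ∫ z, f (move s y z) ∂gauss ι := by
  obtain ⟨C, k, hC, hk, h⟩ := hf.bound
  refine tame_of_bound (continuous_gauss_integral hf s)
    (C := C * ∫ z, Real.exp (k * l1 s * l1 z) ∂gauss ι) (k := k) fun y => ?_
  have hb : ∀ z, ‖f (move s y z)‖ ≤ C * Real.exp (k * l1 y) * Real.exp (k * l1 s * l1 z) := by
    intro z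
    rw [Real.norm_eq_abs, mul_assoc C, ← Real.exp_add]
    refine (h _).trans (mul_le_mul_of_nonneg_left (Real.exp_le_exp.2 ?_) hC)
    have := mul_le_mul_of_nonneg_left (l1_move_le s y z) hk
    linarith
  have := norm_integral_le_of_norm_le ((integrable_exp_l1 (k * l1 s)).const_mul _) (.of_forall hb)
  rw [Real.norm_eq_abs, integral_const_mul] at this
  linarith

/-- `g` is the gradient of `u`, in the sense of directional derivatives. -/
def GradOf (u : (ι → ℝ) → ℝ) (g : ι → (ι → ℝ) → ℝ) : Prop :=
  ∀ y v : ι → ℝ, HasDerivAt (fun t : ℝ => u fun i => y i + t * v i) (∑ i, v i * g i y) 0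

lemma GradOf.line {u : (ι → ℝ) → ℝ} {g : ι → (ι → ℝ) → ℝ} (h : GradOf u g) (y v : ι → ℝ) (t : ℝ) :
    HasDerivAt (fun t : ℝ => u fun i => y i + t * v i)
      (∑ i, v i * g i fun i => y i + t * v i) t := by
  have := HasDerivAt.comp_sub_const t t (by rw [sub_self]; exact h (fun i => y i + t * v i) v)
  refine this.congr_of_eventuallyEq (.of_forall fun w => ?_)
  refine congrArg u (funext fun i => ?_)
  ring

lemma GradOf.mul {u v : (ι → ℝ) → ℝ} {g h : ι → (ι → ℝ) → ℝ} (hu : GradOf u g) (hv : GradOf v h) :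
    GradOf (fun y => u y * v y) fun i y => g i y * v y + u y * h i y := by
  intro y w
  have := (hu y w).fun_mul (hv y w)
  simp only [zero_mul, add_zero] at this
  refine this.congr_deriv ?_
  simp only [sum_mul, mul_sum, ← sum_add_distrib]
  exact sum_congr rfl fun i _ => by ring

lemma GradOf.exp {u : (ι → ℝ) → ℝ} {g : ι → (ι → ℝ) → ℝ} (hu : GradOf u g) (m : ℝ) :
    GradOf (fun y => Real.exp (m * u y)) fun i y => Real.exp (m * u y) * (m * g i y) := by
  intro y w
  have := ((hu y w).const_mul m).exp
  simp only [zero_mul, add_zero] at this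
  refine this.congr_deriv ?_
  simp only [mul_sum]
  exact sum_congr rfl fun i _ => by ring

/-- The Gaussian average over one increment commutes with the gradient. -/
lemma GradOf.gauss_step {F : (ι → ℝ) → ℝ} {G : ι → (ι → ℝ) → ℝ} (hF : Tame F)
    (hG : ∀ i, Tame (G i)) (h : GradOf F G) (s : ι → ℝ) :
    GradOf (fun y => ∫ z, F (move s y z) ∂gauss ι)
      fun i y => ∫ z, G i (move s y z) ∂gauss ι := by
  intro y v
  have hD : Tame fun y => ∑ i, v i * G i y := tame_sum _ fun i _ => (hG i).const_mul _
  obtain ⟨C, k, hC, hk, hb⟩ := hF.bound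
  obtain ⟨D, l, hD0, hl, hd⟩ := hD.bound
  set R := l1 y + l1 v with hR
  have hR0 : 0 ≤ R := by have := l1_nonneg y; have := l1_nonneg v; linarith
  have hmove : ∀ t : ℝ, |t - 0| < 1 → ∀ z,
      l1 (fun i => move s y z i + t * v i) ≤ R + l1 s * l1 z := by
    intro t ht z
    refine (l1_add_le _ _).trans ?_
    rw [l1_smul, sub_zero] at *
    have := l1_move_le s y z
    have := mul_le_mul_of_nonneg_right ht.le (l1_nonneg v)
    linarith
  have key : ∀ z : ι → ℝ, C * Real.exp (k * (R + l1 s * l1 z)) ≤
      (C * Real.exp (k * R) + D * Real.exp (l * R)) * Real.exp ((k + l) * l1 s * l1 z) ∧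
      D * Real.exp (l * (R + l1 s * l1 z)) ≤
      (C * Real.exp (k * R) + D * Real.exp (l * R)) * Real.exp ((k + l) * l1 s * l1 z) := by
    intro z
    have h1 : 0 ≤ l1 s * l1 z := mul_nonneg (l1_nonneg s) (l1_nonneg z)
    constructor <;>
    · rw [mul_add, Real.exp_add, ← mul_assoc]
      refine mul_le_mul ?_ (Real.exp_le_exp.2 (by nlinarith)) (Real.exp_pos _).le (by positivity)
      have : 0 ≤ C * Real.exp (k * R) := by positivity
      have : 0 ≤ D * Real.exp (l * R) := by positivity
      linarith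
  have hd' := hasDerivAt_gauss_integral
    (F := fun t z => F (move s (fun i => y i + t * v i) z))
    (F' := fun t z => ∑ i, v i * G i (move s (fun i => y i + t * v i) z))
    (t₀ := 0) (C := C * Real.exp (k * R) + D * Real.exp (l * R)) (k := (k + l) * l1 s) one_pos
    (fun t _ => hF.1.comp (continuous_move_right s _)) (hD.1.comp (continuous_move_right s _))
    (fun t _ z => by simpa [move_add_smul] using h.line (move s y z) v t)
    (fun z => by
      simp only [move_add_smul]
      refine (hb _).trans ?_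
      refine le_trans ?_ (key z).1
      exact mul_le_mul_of_nonneg_left (Real.exp_le_exp.2
        (mul_le_mul_of_nonneg_left (hmove 0 (by simp) z) hk)) hC)
    (fun t ht z => by
      simp only [move_add_smul]
      refine (hd _).trans ?_
      refine le_trans ?_ (key z).2
      exact mul_le_mul_of_nonneg_left (Real.exp_le_exp.2
        (mul_le_mul_of_nonneg_left (hmove t ht z) hl)) hD0)
  refine hd'.congr_deriv ?_
  simp only [zero_mul, add_zero]
  rw [integral_finsetSum _ fun i _ => ((hG i).comp_move s y).integrable.const_mul _]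
  simp [integral_const_mul]

/-- Replacing one coordinate by an independent standard Gaussian preserves the law. -/
lemma measurePreserving_update [DecidableEq ι] (k : ι) :
    MeasurePreserving (fun p : (ι → ℝ) × ℝ => Function.update p.1 k p.2)
      ((gauss ι).prod (gaussianReal 0 1)) (gauss ι) := by
  have hm : Measurable fun p : (ι → ℝ) × ℝ => Function.update p.1 k p.2 := by
    refine measurable_pi_lambda _ fun i => ?_
    by_cases hik : i = k
    · subst hik; simpa using measurable_snd
    · simp only [Function.update_of_ne hik]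
      exact (measurable_pi_apply i).comp measurable_fst
  refine ⟨hm, (Measure.pi_eq fun t ht => ?_).symm⟩
  rw [Measure.map_apply hm (MeasurableSet.univ_pi ht)]
  have e : (fun p : (ι → ℝ) × ℝ => Function.update p.1 k p.2) ⁻¹' Set.pi Set.univ t =
      (Set.pi Set.univ (Function.update t k Set.univ)) ×ˢ t k := by
    ext p
    simp only [Set.mem_preimage, Set.mem_pi, Set.mem_univ, true_implies, Set.mem_prod]
    constructor
    · refine fun h => ⟨fun i => ?_, by simpa using h k⟩
      by_cases hik : i = k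
      · subst hik; simp
      · simpa [Function.update_of_ne hik] using h i
    · rintro ⟨h, hk⟩ i
      by_cases hik : i = k
      · subst hik; simpa using hk
      · simpa [Function.update_of_ne hik] using h i
  rw [e, Measure.prod_prod, gauss, Measure.pi_pi,
    ← mul_prod_erase univ _ (mem_univ k), ← mul_prod_erase univ (fun i => gaussianReal 0 1 (t i))
      (mem_univ k)]
  simp only [Function.update_self, measure_univ, one_mul]
  rw [mul_comm]
  congr 1
  exact prod_congr rfl fun i hi => by rw [Function.update_of_ne (ne_of_mem_erase hi)]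

/-- Integration by parts on the line. -/
lemma gaussianReal_ibp {F F' : ℝ → ℝ} (hd : ∀ x, HasDerivAt F (F' x) x)
    (hF : Integrable F (gaussianReal 0 1)) (hxF : Integrable (fun x => x * F x) (gaussianReal 0 1))
    (hF' : Integrable F' (gaussianReal 0 1)) :
    ∫ x, x * F x ∂gaussianReal 0 1 = ∫ x, F' x ∂gaussianReal 0 1 := by
  have key : ∀ g : ℝ → ℝ, Integrable g (gaussianReal 0 1) →
      Integrable fun x => gaussianPDFReal 0 1 x * g x := by
    intro g hg
    rw [gaussianReal_of_var_ne_zero 0 one_ne_zero] at hg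
    have := (integrable_withDensity_iff_integrable_smul' (measurable_gaussianPDF 0 1)
      (.of_forall fun x => ENNReal.ofReal_lt_top)).1 hg
    simpa [toReal_gaussianPDF] using this
  rw [integral_gaussianReal_eq_integral_smul one_ne_zero,
    integral_gaussianReal_eq_integral_smul one_ne_zero]
  simp only [smul_eq_mul]
  have hp : ∀ x, HasDerivAt (gaussianPDFReal 0 1) (-(x * gaussianPDFReal 0 1 x)) x := by
    intro x
    have := (((hasDerivAt_id x).pow 2).neg.div_const 2).exp.const_mul
      (Real.sqrt (2 * Real.pi))⁻¹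
    simp only [gaussianPDFReal_def, NNReal.coe_one, mul_one, sub_zero]
    refine this.congr_deriv ?_
    simp
    ring
  have i1 : Integrable (F * fun x => -(x * gaussianPDFReal 0 1 x)) := by
    refine ((key _ hxF).neg).congr (.of_forall fun x => ?_)
    simp only [Pi.neg_apply, Pi.mul_apply]; ring
  have i2 : Integrable (F' * gaussianPDFReal 0 1) :=
    (key _ hF').congr (.of_forall fun x => by simp only [Pi.mul_apply]; ring)
  have i3 : Integrable (F * gaussianPDFReal 0 1) :=
    (key _ hF).congr (.of_forall fun x => by simp only [Pi.mul_apply]; ring)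
  have := integral_mul_deriv_eq_deriv_mul_of_integrable (fun x _ => hd x) (fun x _ => hp x) i1 i2 i3
  have e : (fun x => F x * -(x * gaussianPDFReal 0 1 x)) =
      fun x => -(gaussianPDFReal 0 1 x * (x * F x)) := by funext x; ring
  rw [e, integral_neg, neg_inj] at this
  rw [this]
  exact integral_congr_ae (.of_forall fun x => mul_comm _ _)

omit [Fintype ι] in
lemma update_eq_shift [DecidableEq ι] (z : ι → ℝ) (k : ι) (t : ℝ) :
    Function.update z k t = fun i => Function.update z k 0 i + t * (Pi.single k (1 : ℝ) : ι → ℝ) i := by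
  funext i
  by_cases hik : i = k
  · subst hik; simp
  · simp [hik]

/-- Integration by parts in one coordinate. -/
lemma gauss_ibp {F : (ι → ℝ) → ℝ} {G : ι → (ι → ℝ) → ℝ} (hF : Tame F) (hG : ∀ i, Tame (G i))
    (h : GradOf F G) (k : ι) :
    ∫ z, z k * F z ∂gauss ι = ∫ z, G k z ∂gauss ι := by
  classical
  have mp := measurePreserving_update k
  have key : ∀ H : (ι → ℝ) → ℝ, Tame H →
      Integrable (fun p : (ι → ℝ) × ℝ => H (Function.update p.1 k p.2))
        ((gauss ι).prod (gaussianReal 0 1)) ∧
      ∫ z, H z ∂gauss ι = ∫ z, ∫ t, H (Function.update z k t) ∂gaussianReal 0 1 ∂gauss ι := by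
    intro H hH
    have hi := mp.integrable_comp_of_integrable hH.integrable
    refine ⟨hi, ?_⟩
    have hmap := integral_map (f := H) mp.measurable.aemeasurable
      (by rw [mp.map_eq]; exact hH.integrable.aestronglyMeasurable)
    rw [mp.map_eq] at hmap
    rw [hmap]
    exact integral_prod _ hi
  obtain ⟨iF, -⟩ := key F hF
  obtain ⟨iz, ez⟩ := key _ ((tame_coord k).mul hF)
  obtain ⟨iG, eG⟩ := key _ (hG k)
  rw [ez, eG]
  refine integral_congr_ae ?_
  filter_upwards [iF.prod_right_ae, iz.prod_right_ae, iG.prod_right_ae] with z h1 h2 h3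
  simp only [Function.update_self] at h2 ⊢
  refine gaussianReal_ibp (fun t => ?_) h1 h2 h3
  have := h.line (Function.update z k 0) (Pi.single k 1) t
  simp only [← update_eq_shift] at this
  simpa [Pi.single_apply] using this

end Vale.Agent.P157.Parisi
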