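import Vale.Agent.P157.Parisi.CalcAmp

/-!
The free energy is convex in the amplitudes of a set of coordinates in which the Hamiltonian has
nonnegative curvature.
-/

namespace Vale.Agent.P157.Parisi

open MeasureTheory ProbabilityTheory Finset

/-- Convexity of the logarithm of an integral of exponentials. -/
lemma log_integral_exp_convex {X : Type} [MeasurableSpace X] {ν : Measure X} [NeZero ν]
    {f g h : X → ℝ} {p q : ℝ} (hp : 0 ≤ p) (hq : 0 ≤ q) (hpq : p + q = 1)
    (hf : Integrable (fun x => Real.exp (f x)) ν) (hg : Integrable (fun x => Real.exp (g x)) ν)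
    (hh : AEStronglyMeasurable (fun x => Real.exp (h x)) ν)
    (hle : ∀ x, h x ≤ p * f x + q * g x) :
    Real.log (∫ x, Real.exp (h x) ∂ν) ≤
      p * Real.log (∫ x, Real.exp (f x) ∂ν) + q * Real.log (∫ x, Real.exp (g x) ∂ν) := by
  set A := ∫ x, Real.exp (f x) ∂ν with hA
  set B := ∫ x, Real.exp (g x) ∂ν with hB
  have hA0 : 0 < A := integral_exp_pos hf
  have hB0 : 0 < B := integral_exp_pos hg
  set R := Real.exp (p * Real.log A + q * Real.log B) with hR
  have hb : ∀ x, Real.exp (h x) ≤ R * (p * (Real.exp (f x) / A) + q * (Real.exp (g x) / B)) := by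
    intro x
    have h2 := convexOn_exp.2 (Set.mem_univ (f x - Real.log A)) (Set.mem_univ (g x - Real.log B))
      hp hq hpq
    simp only [smul_eq_mul, Real.exp_sub, Real.exp_log hA0, Real.exp_log hB0] at h2
    calc Real.exp (h x) ≤ Real.exp (p * f x + q * g x) := Real.exp_le_exp.2 (hle x)
      _ = R * Real.exp (p * (f x - Real.log A) + q * (g x - Real.log B)) := by
        rw [hR, ← Real.exp_add]; congr 1; ring
      _ ≤ _ := mul_le_mul_of_nonneg_left h2 (Real.exp_pos _).le
  have hI : Integrable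
      (fun x => R * (p * (Real.exp (f x) / A) + q * (Real.exp (g x) / B))) ν :=
    (((hf.div_const A).const_mul p).add ((hg.div_const B).const_mul q)).const_mul R
  have hint : Integrable (fun x => Real.exp (h x)) ν :=
    hI.mono' hh (.of_forall fun x => by rw [Real.norm_eq_abs, Real.abs_exp]; exact hb x)
  rw [Real.log_le_iff_le_exp (integral_exp_pos hint)]
  refine (integral_mono hint hI hb).trans (le_of_eq ?_)
  rw [integral_const_mul, integral_add ((hf.div_const A).const_mul p) ((hg.div_const B).const_mul q),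
    integral_const_mul, integral_const_mul, integral_div, integral_div, ← hA, ← hB,
    div_self hA0.ne', div_self hB0.ne', mul_one, mul_one, hpq, mul_one]

variable {ι : Type} [Fintype ι] {Ω κ : Type} [Fintype κ] [MeasurableSpace Ω]

/-- Equality outside a set. -/
def AgreeOff (T : Finset ι) (y y' : ι → ℝ) : Prop := ∀ i, i ∉ T → y i = y' i

omit [Fintype ι] in
lemma AgreeOff.move {T : Finset ι} {y y' s s' : ι → ℝ} (hy : AgreeOff T y y')
    (hs : AgreeOff T s s') (z : ι → ℝ) : AgreeOff T (move s y z) (move s' y' z) :=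
  fun i hi => by simp [Parisi.move, hy i hi, hs i hi]

/-- Mixing two states. -/
def mixVec (p q : ℝ) (y y' : ι → ℝ) : ι → ℝ := fun i => p * y i + q * y' i

omit [Fintype ι] in
lemma move_mixVec (p q : ℝ) (s s' y y' z : ι → ℝ) :
    move (mixVec p q s s') (mixVec p q y y') z = mixVec p q (move s y z) (move s' y' z) := by
  funext i; simp only [move, mixVec]; ring

lemma integrable_exp_abs_gauss (k : ℝ) :
    Integrable (fun z : ι → ℝ => Real.exp (k * ∑ i, |z i|)) (gauss ι) := by
  have h1 : Integrable (fun x : ℝ => Real.exp (k * |x|)) (gaussianReal 0 1) := by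
    refine Integrable.mono' ((integrable_exp_mul_gaussianReal k).add
      (integrable_exp_mul_gaussianReal (-k))) (by fun_prop) (.of_forall fun x => ?_)
    rw [Real.norm_eq_abs, Real.abs_exp, Pi.add_apply]
    rcases abs_cases x with ⟨h, _⟩ | ⟨h, _⟩ <;> rw [h]
    · exact le_add_of_nonneg_right (Real.exp_pos _).le
    · rw [mul_neg, ← neg_mul]; exact le_add_of_nonneg_left (Real.exp_pos _).le
  have := Integrable.fintype_prod (μ := fun _ : ι => gaussianReal 0 1)
    (f := fun _ x => Real.exp (k * |x|)) (fun _ => h1)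
  simpa [mul_sum, Real.exp_sum, gauss] using this

section

variable {N : Nest ι} {L : Leaf Ω κ ι} {μ : Measure Ω} [IsProbabilityMeasure μ] {B : ℝ}

lemma grad_abs_le (hN : N.Good) (hL : L.Good B) {l : ℕ} (hl : l ≤ N.K) (i : ι) (y : ι → ℝ) :
    |N.grad L μ l i y| ≤ Fintype.card κ * B * B := by
  have hv : ∀ ω v, |L.vec i ω v| ≤ Fintype.card κ * B * B := by
    intro ω v
    refine (abs_sum_le_sum_abs _ _).trans ((sum_le_sum fun j _ => (?_ : _ ≤ B * B)).trans_eq ?_)
    · rw [abs_mul]
      exact mul_le_mul (hL.bound1 j _) (hL.bound ω j i) (abs_nonneg _) hL.nonneg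
    · rw [sum_const, card_univ, nsmul_eq_mul, mul_assoc]
  have ho : ∀ c : ℝ, Obs (fun (_ : Ω) (_ : ι → ℝ) => c) := fun c =>
    ⟨fun _ => measurable_const, fun _ => continuous_const, |c|, fun _ _ => le_rfl⟩
  exact abs_le.2 ⟨(node_const (μ := μ) hN hL hl _ y).symm.trans_le
      (node_mono hN hL hl (ho _) (vec_obs hN hL i) (fun ω v => (abs_le.1 (hv ω v)).1) y),
    (node_mono hN hL hl (vec_obs hN hL i) (ho _) (fun ω v => (abs_le.1 (hv ω v)).2) y).trans_eq
      (node_const hN hL hl _ y)⟩

lemma u_linear_growth (hN : N.Good) (hL : L.Good B) {l : ℕ} (hl : l ≤ N.K) (y : ι → ℝ) :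
    |N.u (L.logZ μ) l y| ≤
      |N.u (L.logZ μ) l 0| + Fintype.card κ * B * B * ∑ i, |y i| := by
  have hd : ∀ t : ℝ, HasDerivAt (fun t : ℝ => N.u (L.logZ μ) l fun i => t * y i)
      (∑ i, y i * N.grad L μ l i fun j => t * y j) t := by
    intro t
    have h := hasDerivAt_u (μ := μ) hN hL hl (fun i => t * y i) y
    rw [← sub_self t] at h
    refine (h.comp_sub_const t t).congr_of_eventuallyEq (.of_forall fun s => ?_)
    show _ = N.u (L.logZ μ) l fun i => t * y i + (s - t) * y i
    simp only; congr 1; funext i; ring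
  have hC : ∀ t : ℝ, |∑ i, y i * N.grad L μ l i fun j => t * y j| ≤
      Fintype.card κ * B * B * ∑ i, |y i| := fun t => by
    refine (abs_sum_le_sum_abs _ _).trans ?_
    rw [mul_sum]
    refine sum_le_sum fun i _ => ?_
    rw [abs_mul, mul_comm]
    exact mul_le_mul_of_nonneg_right (grad_abs_le hN hL hl i _) (abs_nonneg _)
  have h := (convex_univ (𝕜 := ℝ) (E := ℝ)).norm_image_sub_le_of_norm_hasDerivWithin_le
    (fun t _ => (hd t).hasDerivWithinAt) (fun t _ => hC t) (Set.mem_univ 0) (Set.mem_univ 1)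
  have e0 : (fun i => (0:ℝ) * y i) = (0 : ι → ℝ) := by funext i; simp
  simp only [Real.norm_eq_abs, e0, one_mul, sub_zero, abs_one, mul_one] at h
  linarith [abs_sub_abs_le_abs_sub (N.u (L.logZ μ) l y) (N.u (L.logZ μ) l 0)]

lemma integrable_exp_step (hN : N.Good) (hL : L.Good B) {l : ℕ} (hl : l ≤ N.K) (m : ℝ)
    (s y : ι → ℝ) :
    Integrable (fun z => Real.exp (m * N.u (L.logZ μ) l (move s y z))) (gauss ι) := by
  set C := |N.u (L.logZ μ) l 0| with hC
  set k := (Fintype.card κ : ℝ) * B * B with hk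
  have hk0 : 0 ≤ k := by have := hL.nonneg; positivity
  have hcont : Continuous fun z => Real.exp (m * N.u (L.logZ μ) l (move s y z)) :=
    Real.continuous_exp.comp (continuous_const.mul ((u_tame hN hL l).1.comp
      (by unfold move; fun_prop)))
  refine ((integrable_exp_abs_gauss (|m| * k * ∑ i, |s i|)).const_mul
    (Real.exp (|m| * (C + k * ∑ i, |y i|)))).mono' hcont.aestronglyMeasurable
    (.of_forall fun z => ?_)
  rw [Real.norm_eq_abs, Real.abs_exp, ← Real.exp_add]
  refine Real.exp_le_exp.2 ((le_abs_self _).trans ?_)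
  rw [abs_mul]
  have h1 : ∑ i, |move s y z i| ≤ (∑ i, |y i|) + (∑ i, |s i|) * ∑ i, |z i| := by
    rw [mul_sum, ← sum_add_distrib]
    refine sum_le_sum fun i _ => (abs_add_le _ _).trans ?_
    rw [abs_mul]
    gcongr
    exact single_le_sum (fun j _ => abs_nonneg (s j)) (mem_univ i)
  calc |m| * |N.u (L.logZ μ) l (move s y z)|
      ≤ |m| * (C + k * ((∑ i, |y i|) + (∑ i, |s i|) * ∑ i, |z i|)) := by
        refine mul_le_mul_of_nonneg_left ((u_linear_growth hN hL hl _).trans ?_) (abs_nonneg m)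
        rw [← hC, ← hk]; gcongr
    _ = _ := by ring

/-- The mixture of two amplitude families. -/
def mixAmp (p q : ℝ) (A A' : ℕ → ι → ℝ) : ℕ → ι → ℝ := fun l => mixVec p q (A l) (A' l)

/-- Convexity of the recursion in the state and the amplitudes. -/
theorem uUp_convex (hN : N.Good) (hL : L.Good B) {T : Finset ι} {p q : ℝ} (hp : 0 ≤ p) (hq : 0 ≤ q)
    (hpq : p + q = 1)
    (hU : ∀ y y', AgreeOff T y y' →
      L.logZ μ (mixVec p q y y') ≤ p * L.logZ μ y + q * L.logZ μ y')
    {A A' : ℕ → ι → ℝ} (hA : ∀ l, AgreeOff T (A l) (A' l)) :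
    ∀ d ≤ N.K, ∀ y y', AgreeOff T y y' →
      (N.setAmp (mixAmp p q A A')).uUp (L.logZ μ) d (mixVec p q y y') ≤
        p * (N.setAmp A).uUp (L.logZ μ) d y + q * (N.setAmp A').uUp (L.logZ μ) d y' := by
  intro d
  induction d with
  | zero => exact fun _ => hU
  | succ d ih =>
    intro hd y y' hy
    have hG : ∀ A₀ : ℕ → ι → ℝ, (N.setAmp A₀).Good := fun _ =>
      ⟨hN.x_zero, hN.x_last, hN.x_pos, hN.x_mono⟩
    have hu : ∀ A₀ : ℕ → ι → ℝ, (N.setAmp A₀).uUp (L.logZ μ) d =
        (N.setAmp A₀).u (L.logZ μ) (N.K - d) := fun A₀ => by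
      show _ = (N.setAmp A₀).uUp (L.logZ μ) (N.K - (N.K - d))
      rw [show N.K - (N.K - d) = d by omega]
    have hint : ∀ A₀ : ℕ → ι → ℝ, ∀ s v, Integrable
        (fun z => Real.exp (N.x (N.K - d) * (N.setAmp A₀).uUp (L.logZ μ) d (move s v z)))
        (gauss ι) := fun A₀ s v => by
      rw [hu]
      exact integrable_exp_step (hG A₀) hL (show N.K - d ≤ (N.setAmp A₀).K from Nat.sub_le _ _) _ s v
    set m := N.x (N.K - d) with hm
    have hm0 : 0 < m := hN.x_pos _ (by omega) (Nat.sub_le _ _)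
    simp only [Nest.uUp, stepLog]
    show m⁻¹ * _ ≤ p * (m⁻¹ * _) + q * (m⁻¹ * _)
    rw [← mul_assoc, ← mul_assoc, mul_comm p, mul_comm q, mul_assoc, mul_assoc, ← mul_add]
    refine mul_le_mul_of_nonneg_left ?_ (inv_nonneg.2 hm0.le)
    refine log_integral_exp_convex hp hq hpq (hint A _ y) (hint A' _ y')
      (hint (mixAmp p q A A') _ (mixVec p q y y')).aestronglyMeasurable fun z => ?_
    show m * _ ≤ p * (m * _) + q * (m * _)
    have h := ih (by omega) (move (A (N.K - d)) y z) (move (A' (N.K - d)) y' z)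
      (hy.move (hA _) z)
    rw [← move_mixVec] at h
    calc m * _ ≤ m * (p * (N.setAmp A).uUp (L.logZ μ) d (move (A (N.K - d)) y z) +
          q * (N.setAmp A').uUp (L.logZ μ) d (move (A' (N.K - d)) y' z)) :=
          mul_le_mul_of_nonneg_left h hm0.le
      _ = _ := by show _ = p * (m * _) + q * (m * _); simp only [Nest.setAmp]; ring

/-- Convexity of the free energy in the amplitudes of `T`. -/
theorem free_convex (hN : N.Good) (hL : L.Good B) {T : Finset ι} {p q : ℝ} (hp : 0 ≤ p) (hq : 0 ≤ q)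
    (hpq : p + q = 1)
    (hU : ∀ y y', AgreeOff T y y' →
      L.logZ μ (mixVec p q y y') ≤ p * L.logZ μ y + q * L.logZ μ y')
    {A A' : ℕ → ι → ℝ} (hA : ∀ l, AgreeOff T (A l) (A' l)) :
    (N.setAmp (mixAmp p q A A')).free L μ ≤
      p * (N.setAmp A).free L μ + q * (N.setAmp A').free L μ := by
  have hG : ∀ A₀ : ℕ → ι → ℝ, (N.setAmp A₀).Good := fun _ =>
    ⟨hN.x_zero, hN.x_last, hN.x_pos, hN.x_mono⟩
  have hint : ∀ A₀ : ℕ → ι → ℝ, Integrable
      (fun z => (N.setAmp A₀).uUp (L.logZ μ) N.K fun i => A₀ 0 i * z i) (gauss ι) := by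
    intro A₀
    have hu : ∀ v, |(N.setAmp A₀).uUp (L.logZ μ) N.K v| ≤
        |(N.setAmp A₀).uUp (L.logZ μ) N.K 0| + Fintype.card κ * B * B * ∑ i, |v i| := fun v => by
      have := u_linear_growth (μ := μ) (hG A₀) hL (Nat.zero_le (N.setAmp A₀).K) v
      simpa [Nest.u, Nest.setAmp] using this
    have hc : Continuous ((N.setAmp A₀).uUp (L.logZ μ) N.K) := by
      have := (u_tame (μ := μ) (hG A₀) hL 0).1
      simpa [Nest.u, Nest.setAmp] using this
    set C := |(N.setAmp A₀).uUp (L.logZ μ) N.K 0|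
    set k := (Fintype.card κ : ℝ) * B * B
    have hk : 0 ≤ k := by have := hL.nonneg; positivity
    refine ((integrable_exp_abs_gauss 1).const_mul (C + k * ∑ i, |A₀ 0 i|)).mono'
      (hc.comp (by fun_prop)).aestronglyMeasurable (.of_forall fun z => ?_)
    rw [Real.norm_eq_abs, one_mul]
    refine (hu _).trans ?_
    have h1 : ∑ i, |A₀ 0 i * z i| ≤ (∑ i, |A₀ 0 i|) * ∑ i, |z i| := by
      rw [mul_sum]
      refine sum_le_sum fun i _ => ?_
      rw [abs_mul]
      gcongr
      exact single_le_sum (fun j _ => abs_nonneg (A₀ 0 j)) (mem_univ i)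
    have h2 := Real.add_one_le_exp (∑ i, |z i|)
    have h3 := mul_le_mul_of_nonneg_left h1 hk
    have h4 : 0 ≤ ∑ i, |z i| := sum_nonneg fun i _ => abs_nonneg _
    have h5 : 0 ≤ k * ∑ i, |A₀ 0 i| := mul_nonneg hk (sum_nonneg fun i _ => abs_nonneg _)
    nlinarith [abs_nonneg ((N.setAmp A₀).uUp (L.logZ μ) N.K 0)]
  simp only [Nest.free, Nest.mean, Nest.u, Nat.sub_zero]
  show ∫ z, (N.setAmp (mixAmp p q A A')).uUp (L.logZ μ) N.K (fun i => mixAmp p q A A' 0 i * z i)
      ∂gauss ι ≤
    p * ∫ z, (N.setAmp A).uUp (L.logZ μ) N.K (fun i => A 0 i * z i) ∂gauss ι +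
      q * ∫ z, (N.setAmp A').uUp (L.logZ μ) N.K (fun i => A' 0 i * z i) ∂gauss ι
  rw [← integral_const_mul, ← integral_const_mul,
    ← integral_add ((hint A).const_mul p) ((hint A').const_mul q)]
  refine integral_mono (hint _) (((hint A).const_mul p).add ((hint A').const_mul q)) fun z => ?_
  have h := uUp_convex hN hL hp hq hpq hU hA N.K le_rfl (fun i => A 0 i * z i)
    (fun i => A' 0 i * z i) fun i hi => by simp [hA 0 i hi]
  have e : mixVec p q (fun i => A 0 i * z i) (fun i => A' 0 i * z i) =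
      fun i => mixAmp p q A A' 0 i * z i := by
    funext i; simp only [mixVec, mixAmp]; ring
  rw [e] at h
  exact h

/-- The log-partition function inherits convexity from the Hamiltonian. -/
theorem logZ_convex (hL : L.Good B) {p q : ℝ} (hp : 0 ≤ p) (hq : 0 ≤ q)
    (hpq : p + q = 1) {y y' : ι → ℝ}
    (haff : ∀ ω, L.ham ω (mixVec p q y y') ≤ p * L.ham ω y + q * L.ham ω y') :
    L.logZ μ (mixVec p q y y') ≤ p * L.logZ μ y + q * L.logZ μ y' := by
  have hc : ∀ j, Continuous (L.φ j) := fun j =>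
    continuous_iff_continuousAt.2 fun z => (hL.deriv1 j z).continuousAt
  have hm : ∀ v, Measurable fun ω => L.ham ω v := fun v =>
    Finset.measurable_sum _ fun j _ => (hc j).measurable.comp
      (Finset.measurable_sum _ fun i _ => (hL.meas j i).mul_const _)
  have hint : ∀ v, Integrable (fun ω => Real.exp (L.ham ω v)) μ := by
    intro v
    set R := B * ∑ i, |v i|
    choose C hC using fun j => (isCompact_Icc (a := -R) (b := R)).exists_bound_of_continuousOn
      (hc j).continuousOn
    refine Integrable.of_bound (hm v).exp.aestronglyMeasurable (Real.exp (∑ j, C j))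
      (.of_forall fun ω => ?_)
    rw [Real.norm_eq_abs, Real.abs_exp, Real.exp_le_exp]
    refine Finset.sum_le_sum fun j _ => (le_abs_self _).trans (hC j _ ?_)
    rw [Set.mem_Icc, ← abs_le]
    calc |L.loc ω v j| ≤ ∑ i, |L.a ω j i * v i| := Finset.abs_sum_le_sum_abs _ _
      _ ≤ R := by
        simp only [R, Finset.mul_sum, abs_mul]
        exact Finset.sum_le_sum fun i _ =>
          mul_le_mul_of_nonneg_right (hL.bound ω j i) (abs_nonneg _)
  exact log_integral_exp_convex hp hq hpq (hint y) (hint y') (hm _).exp.aestronglyMeasurable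
    haff

/-- A Hamiltonian without negative curvature on `S` is convex along states which agree off `S`. -/
theorem ham_convex_of_curv (hL : L.Good B) {S : Finset ι} (hS : L.CurvLower S 0) {p q : ℝ}
    (hp : 0 ≤ p) (hq : 0 ≤ q) (hpq : p + q = 1) {y y' : ι → ℝ} (hy : AgreeOff S y y') (ω : Ω) :
    L.ham ω (mixVec p q y y') ≤ p * L.ham ω y + q * L.ham ω y' := by
  let v : ι → ℝ := fun i => y' i - y i
  let c : κ → ℝ := fun j => ∑ i, L.a ω j i * v i
  let g : ℝ → ℝ := fun t => ∑ j, L.φ j (L.loc ω y j + t * c j)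
  have hd : ∀ j t, HasDerivAt (fun t : ℝ => L.loc ω y j + t * c j) (c j) t := fun j t => by
    simpa using ((hasDerivAt_id t).mul_const (c j)).const_add (L.loc ω y j)
  have h1 : ∀ t, HasDerivAt g (∑ j, L.φ1 j (L.loc ω y j + t * c j) * c j) t := fun t =>
    HasDerivAt.fun_sum fun j _ => (hL.deriv1 j _).comp t (hd j t)
  have h2 : ∀ t, HasDerivAt (fun t => ∑ j, L.φ1 j (L.loc ω y j + t * c j) * c j)
      (∑ j, L.φ2 j (L.loc ω y j + t * c j) * c j ^ 2) t := fun t =>
    HasDerivAt.fun_sum fun j _ => (((hL.deriv2 j _).comp t (hd j t)).mul_const (c j)).congr_deriv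
      (by ring)
  have hloc : ∀ t j, L.loc ω (fun i => y i + t * v i) j = L.loc ω y j + t * c j := fun t j => by
    simp only [Leaf.loc, c, mul_sum, ← sum_add_distrib]
    exact sum_congr rfl fun i _ => by ring
  have hconv : ConvexOn ℝ Set.univ g := by
    refine convexOn_of_hasDerivWithinAt2_nonneg convex_univ
      (continuous_iff_continuousAt.2 fun t => (h1 t).continuousAt).continuousOn
      (fun t _ => (h1 t).hasDerivWithinAt) (fun t _ => (h2 t).hasDerivWithinAt) fun t _ => ?_
    have h := hS.2 ω (fun i => y i + t * v i) v fun i hi => by simp [v, hy i hi]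
    simp only [zero_mul, neg_zero, hloc] at h
    exact h
  have hg : ∀ t, g t = L.ham ω (fun i => y i + t * v i) := fun t => by
    simp only [g, Leaf.ham, hloc]
  have h := hconv.2 (Set.mem_univ (0:ℝ)) (Set.mem_univ (1:ℝ)) hp hq hpq
  simp only [smul_eq_mul, mul_zero, zero_add, mul_one, hg] at h
  have e : mixVec p q y y' = fun i => y i + q * v i := by
    funext i; simp only [mixVec, v]; linear_combination y i * hpq
  simpa [e, v] using h

/-- The log-partition function is convex on `S` when the curvature is nonnegative there. -/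
theorem logZ_convex_of_curv (hL : L.Good B) {S : Finset ι} (hS : L.CurvLower S 0) {p q : ℝ}
    (hp : 0 ≤ p) (hq : 0 ≤ q) (hpq : p + q = 1) {y y' : ι → ℝ} (hy : AgreeOff S y y') :
    L.logZ μ (mixVec p q y y') ≤ p * L.logZ μ y + q * L.logZ μ y' :=
  logZ_convex hL hp hq hpq fun ω => ham_convex_of_curv hL hS hp hq hpq hy ω

/-- Joint convexity of the free energy in amplitudes which differ only on `S`. -/
theorem free_convexOn (hN : N.Good) (hL : L.Good B) {S : Finset ι} (hS : L.CurvLower S 0)
    {E : Type} [AddCommGroup E] [Module ℝ E] {A : E → ℕ → ι → ℝ}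
    (haff : ∀ p q : ℝ, p + q = 1 → ∀ v w l i,
      A (p • v + q • w) l i = p * A v l i + q * A w l i)
    (hoff : ∀ v w l, AgreeOff S (A v l) (A w l)) :
    ConvexOn ℝ Set.univ fun v => (N.setAmp (A v)).free L μ := by
  refine ⟨convex_univ, fun v _ w _ p q hp hq hpq => ?_⟩
  simp only [smul_eq_mul]
  have e : A (p • v + q • w) = mixAmp p q (A v) (A w) := by
    funext l i; exact haff p q hpq v w l i
  rw [e]
  exact free_convex hN hL hp hq hpq (fun y y' hy => logZ_convex_of_curv hL hS hp hq hpq hy)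
    fun l => hoff v w l

/-- Convexity in the amplitude of one level on `S`. -/
theorem free_convexOn_withAmp [DecidableEq ι] (hN : N.Good) (hL : L.Good B) {S : Finset ι}
    (hS : L.CurvLower S 0) (l : ℕ) :
    ConvexOn ℝ Set.univ fun s : ℝ => (N.withAmp S l s).free L μ := by
  refine free_convexOn (A := fun s m i => if m = l ∧ i ∈ S then s else N.amp m i) hN hL hS
    (fun p q hpq v w m i => ?_) (fun v w m i hi => ?_)
  · simp only [smul_eq_mul]
    split_ifs
    · rfl
    · linear_combination -(N.amp m i) * hpq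
  · simp [hi]

end

end Vale.Agent.P157.Parisi
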