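import Vale.Agent.P157.Parisi.Model
import Vale.Agent.P157.Parisi.EnergyApprox
import Vale.Agent.P157.GaussLaw
import Mathlib.Analysis.Normed.Lp.SmoothApprox

/-!
Approximation of a bounded Borel potential by smooth ones, and stability of the pressure.
-/

namespace Vale.Agent.P157.Parisi

open MeasureTheory ProbabilityTheory Finset

/-- Smooth bounded approximation in `L¹` of the standard Gaussian law. -/
theorem exists_smooth_approx_aux {f : ℝ → ℝ} (hf : Measurable f) {C : ℝ} (hC : ∀ x, |f x| ≤ C)
    {ε : ℝ} (hε : 0 < ε) :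
    ∃ φ φ1 φ2 : ℝ → ℝ, ∃ B, 1 ≤ B ∧ (∀ z, HasDerivAt φ (φ1 z) z) ∧
      (∀ z, HasDerivAt φ1 (φ2 z) z) ∧ Continuous φ2 ∧ (∀ z, |φ z| ≤ B) ∧ (∀ z, |φ1 z| ≤ B) ∧
      (∀ z, |φ2 z| ≤ B) ∧ (∀ x, |φ x| ≤ C + 1) ∧
      (∀ x y, |φ x - φ y| ≤ B * |x - y|) ∧ ∫ x, |f x - φ x| ∂gaussianReal 0 1 ≤ ε := by
  have hC0 : 0 ≤ C := (abs_nonneg _).trans (hC 0)
  have hmem : MemLp f 1 (gaussianReal 0 1) := memLp_one_iff_integrable.2 (integrable_of_abs_le hf hC)
  obtain ⟨g, hgs, hgε, hgc, hgm⟩ := hmem.exists_hasCompactSupport_eLpNorm_sub_le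
    ENNReal.one_ne_top (ε := ENNReal.ofReal (ε / 2)) (by simp [hε])
  set g' : ℝ → ℝ := fun x => max (-C) (min C (g x)) with hg'
  have hg'c : Continuous g' := by fun_prop
  have hg's : HasCompactSupport g' := by
    refine hgs.mono fun x hx => ?_
    contrapose! hx
    simp only [Function.mem_support, ne_eq, not_not] at hx ⊢
    simp [g', hx, hC0]
  have hg'C : ∀ x, |g' x| ≤ C := fun x =>
    abs_le.2 ⟨le_max_left _ _, max_le (by linarith) (min_le_left _ _)⟩
  set δ := min 1 (ε / 2) with hδ
  obtain ⟨φ, hφd, hφg, hφs⟩ := hg'c.exists_contDiff_approx (2 : ℕ∞) (ε := fun _ => δ)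
    continuous_const fun _ => lt_min one_pos (by linarith)
  have hφd' : ContDiff ℝ (1 + 1) φ := hφd
  have hd1 : ContDiff ℝ 1 (deriv φ) := (contDiff_succ_iff_deriv.1 hφd').2.2
  have hdiff : Differentiable ℝ φ := hφd'.differentiable (by norm_num)
  have hdiff1 : Differentiable ℝ (deriv φ) := hd1.differentiable (by norm_num)
  have hc2 : Continuous (deriv (deriv φ)) := hd1.continuous_deriv le_rfl
  have hs : HasCompactSupport φ := hg's.mono hφs
  obtain ⟨B1, hB1⟩ := hd1.continuous.bounded_above_of_compact_support hs.deriv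
  obtain ⟨B2, hB2⟩ := hc2.bounded_above_of_compact_support hs.deriv.deriv
  simp only [Real.norm_eq_abs] at hB1 hB2
  have hφC : ∀ x, |φ x| ≤ C + 1 := fun x => by
    have h1 := hφg x
    rw [Real.dist_eq] at h1
    have h2 := abs_sub_abs_le_abs_sub (φ x) (g' x)
    have := min_le_left (1 : ℝ) (ε / 2)
    linarith [hg'C x]
  set B := max (max 1 (C + 1)) (max B1 B2)
  have hB1' : B1 ≤ B := le_max_of_le_right (le_max_left _ _)
  have hB2' : B2 ≤ B := le_max_of_le_right (le_max_right _ _)
  refine ⟨φ, deriv φ, deriv (deriv φ), B, le_max_of_le_left (le_max_left _ _),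
    fun z => (hdiff z).hasDerivAt, fun z => (hdiff1 z).hasDerivAt, hc2,
    fun z => (hφC z).trans (le_max_of_le_left (le_max_right _ _)), fun z => (hB1 z).trans hB1',
    fun z => (hB2 z).trans hB2', hφC, fun x y => ?_, ?_⟩
  · have := Convex.norm_image_sub_le_of_norm_deriv_le (s := Set.univ) (f := φ) (C := B)
      (fun z _ => hdiff z) (fun z _ => by rw [Real.norm_eq_abs]; exact (hB1 z).trans hB1')
      convex_univ (Set.mem_univ y) (Set.mem_univ x)
    simpa [Real.norm_eq_abs] using this
  · have hfg : Integrable (fun x => |f x - g x|) (gaussianReal 0 1) :=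
      ((integrable_of_abs_le hf hC).sub (memLp_one_iff_integrable.1 hgm)).abs
    have h1 : ∫ x, |f x - g x| ∂gaussianReal 0 1 ≤ ε / 2 := by
      have h : ENNReal.ofReal (∫ x, |f x - g x| ∂gaussianReal 0 1) ≤ ENNReal.ofReal (ε / 2) := by
        refine le_trans (le_of_eq ?_) hgε
        rw [eLpNorm_one_eq_lintegral_enorm, ofReal_integral_eq_lintegral_ofReal hfg
          (.of_forall fun x => abs_nonneg _)]
        refine lintegral_congr fun x => ?_
        rw [Pi.sub_apply, Real.enorm_eq_ofReal_abs]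
      exact (ENNReal.ofReal_le_ofReal_iff (by linarith)).1 h
    have hi : Integrable (fun x => |f x - φ x|) (gaussianReal 0 1) :=
      ((integrable_of_abs_le hf hC).sub
        (integrable_of_abs_le hdiff.continuous.measurable hφC)).abs
    calc ∫ x, |f x - φ x| ∂gaussianReal 0 1
        ≤ ∫ x, (|f x - g x| + δ) ∂gaussianReal 0 1 := by
          refine integral_mono hi (hfg.add (integrable_const _)) fun x => ?_
          have h2 := hφg x
          rw [Real.dist_eq, abs_sub_comm] at h2
          have h3 : |f x - g' x| ≤ |f x - g x| := by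
            have e : f x = max (-C) (min C (f x)) := by
              rw [min_eq_right (abs_le.1 (hC x)).2, max_eq_right (abs_le.1 (hC x)).1]
            conv_lhs => rw [e]
            refine le_trans (abs_max_sub_max_le_max _ _ _ _) ?_
            refine max_le (by simp) (le_trans (abs_min_sub_min_le_max _ _ _ _) ?_)
            exact max_le (by simp) le_rfl
          have := abs_sub_le (f x) (g' x) (φ x)
          linarith
      _ ≤ ε := by
          rw [integral_add hfg (integrable_const _)]
          simp only [integral_const, probReal_univ, one_smul]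
          linarith [min_le_right (1 : ℝ) (ε / 2)]

lemma abs_exp_sub_exp_le {C a b : ℝ} (ha : a ≤ C) (hb : b ≤ C) :
    |Real.exp a - Real.exp b| ≤ Real.exp C * |a - b| := by
  have := Convex.norm_image_sub_le_of_norm_deriv_le (s := Set.Iic C) (f := Real.exp)
    (C := Real.exp C) (fun z _ => Real.differentiableAt_exp)
    (fun z hz => by
      rw [Real.deriv_exp, Real.norm_eq_abs, abs_of_pos (Real.exp_pos _)]
      exact Real.exp_le_exp.2 hz)
    (convex_Iic C) hb ha
  simpa [Real.norm_eq_abs] using this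

variable {δ : Type} [Fintype δ]

/-- The log-partition function of `M` patterns with an additional weight `exp W`. -/
noncomputable def patLog (W : (δ → ℝ) → ℝ) (f : ℝ → ℝ) {M : ℕ} (ν : Measure (δ → ℝ))
    (G : Fin M → δ → ℝ) : ℝ :=
  Real.log (∫ x, Real.exp (W x + ∑ a, f ((∑ i, G a i * x i) / Real.sqrt (Fintype.card δ))) ∂ν)

lemma priorPressure_eq_patLog (f : ℝ → ℝ) (M : ℕ) (ν : Measure (δ → ℝ)) :
    priorPressure f M ν =
      (∫ G, patLog (fun _ => 0) f ν G ∂Measure.pi fun _ : Fin M => gauss δ) / Fintype.card δ := by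
  simp [priorPressure, patLog]

variable {ν : Measure (δ → ℝ)} [IsProbabilityMeasure ν] {W : (δ → ℝ) → ℝ} {f : ℝ → ℝ} {C CW : ℝ}

lemma abs_patWeight_le (hW : ∀ x, |W x| ≤ CW) (hf : ∀ x, |f x| ≤ C) {M : ℕ}
    (G : Fin M → δ → ℝ) (x : δ → ℝ) :
    |W x + ∑ a, f ((∑ i, G a i * x i) / Real.sqrt (Fintype.card δ))| ≤ CW + M * C := by
  refine (abs_add_le _ _).trans (add_le_add (hW x) ((abs_sum_le_sum_abs _ _).trans ?_))
  refine (sum_le_sum fun a _ => hf _).trans ?_
  simp

lemma measurable_patWeight (hW : Measurable W) (hf : Measurable f) (M : ℕ) :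
    Measurable fun p : (Fin M → δ → ℝ) × (δ → ℝ) =>
      W p.2 + ∑ a, f ((∑ i, p.1 a i * p.2 i) / Real.sqrt (Fintype.card δ)) :=
  (hW.comp measurable_snd).add (Finset.measurable_sum _ fun a _ => hf.comp (by fun_prop))

lemma measurable_patLog (hW : Measurable W) (hf : Measurable f) (M : ℕ) :
    Measurable fun G : Fin M → δ → ℝ => patLog W f ν G :=
  Real.measurable_log.comp
    (measurable_patWeight hW hf M).exp.stronglyMeasurable.integral_prod_right'.measurable

lemma abs_patLog_le (hW : Measurable W) (hf : Measurable f) (hWC : ∀ x, |W x| ≤ CW)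
    (hfC : ∀ x, |f x| ≤ C) {M : ℕ} (G : Fin M → δ → ℝ) :
    |patLog W f ν G| ≤ CW + M * C :=
  (log_expMean_le ((measurable_patWeight hW hf M).comp measurable_prodMk_left)
    fun x => abs_patWeight_le hWC hfC G x).2.2

/-- The new pattern carried by the weight. -/
noncomputable def addPat (W : (δ → ℝ) → ℝ) (f : ℝ → ℝ) (g : δ → ℝ) (x : δ → ℝ) : ℝ :=
  W x + f ((∑ i, g i * x i) / Real.sqrt (Fintype.card δ))

lemma patLog_cons (W : (δ → ℝ) → ℝ) (f : ℝ → ℝ) {M : ℕ} (ν : Measure (δ → ℝ)) (g : δ → ℝ)
    (G : Fin M → δ → ℝ) :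
    patLog W f ν (Fin.cons g G : Fin (M + 1) → δ → ℝ) = patLog (addPat W f g) f ν G := by
  simp only [patLog, addPat, Fin.sum_univ_succ, Fin.cons_zero, Fin.cons_succ, add_assoc]

lemma integral_patterns_succ (M : ℕ) {F : (Fin (M + 1) → δ → ℝ) → ℝ} (hF : Measurable F) {B : ℝ}
    (hB : ∀ G, |F G| ≤ B) :
    ∫ G, F G ∂(Measure.pi fun _ : Fin (M + 1) => gauss δ) =
        ∫ g, ∫ G, F (Fin.cons g G) ∂(Measure.pi fun _ : Fin M => gauss δ) ∂gauss δ ∧
      Integrable (fun p : (δ → ℝ) × (Fin M → δ → ℝ) => F (Fin.cons p.1 p.2))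
        ((gauss δ).prod (Measure.pi fun _ : Fin M => gauss δ)) := by
  have hmp := (measurePreserving_piFinSuccAbove (fun _ : Fin (M + 1) => gauss δ) 0).symm
  have hm : Measurable fun p : (δ → ℝ) × (Fin M → δ → ℝ) =>
      (Fin.cons p.1 p.2 : Fin (M + 1) → δ → ℝ) := by
    refine measurable_pi_iff.2 fun i => ?_
    refine Fin.cases ?_ (fun j => ?_) i
    · simpa using measurable_fst
    · simp only [Fin.cons_succ]
      exact (measurable_pi_apply j).comp measurable_snd
  have hi : Integrable (fun p : (δ → ℝ) × (Fin M → δ → ℝ) => F (Fin.cons p.1 p.2))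
      ((gauss δ).prod (Measure.pi fun _ : Fin M => gauss δ)) :=
    integrable_of_abs_le (hF.comp hm) fun p => hB _
  refine ⟨?_, hi⟩
  rw [← hmp.integral_comp' F]
  simp only [MeasurableEquiv.piFinSuccAbove_symm_apply, Fin.insertNthEquiv, Equiv.coe_fn_mk,
    Fin.insertNth_zero]
  exact integral_prod _ hi

/-- One more pattern changes the averaged log-partition function by at most `C`. -/
lemma patLog_succ_close (hW : Measurable W) (hf : Measurable f) (hWC : ∀ x, |W x| ≤ CW)
    (hfC : ∀ x, |f x| ≤ C) (M : ℕ) :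
    |∫ G, patLog W f ν G ∂(Measure.pi fun _ : Fin (M + 1) => gauss δ) -
      ∫ G, patLog W f ν G ∂(Measure.pi fun _ : Fin M => gauss δ)| ≤ C := by
  obtain ⟨he, hi⟩ := integral_patterns_succ M
    (measurable_patLog (ν := ν) hW hf (M + 1)) fun G => abs_patLog_le hW hf hWC hfC G
  rw [he, ← integral_prod _ hi]
  have hi2 : Integrable (fun p : (δ → ℝ) × (Fin M → δ → ℝ) => patLog W f ν p.2)
      ((gauss δ).prod (Measure.pi fun _ : Fin M => gauss δ)) :=
    integrable_of_abs_le ((measurable_patLog hW hf M).comp measurable_snd)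
      fun p => abs_patLog_le hW hf hWC hfC _
  have h2 : ∫ G, patLog W f ν G ∂(Measure.pi fun _ : Fin M => gauss δ) =
      ∫ p, patLog W f ν p.2 ∂((gauss δ).prod (Measure.pi fun _ : Fin M => gauss δ)) := by
    rw [integral_fun_snd]
    simp
  rw [h2, ← integral_sub hi hi2]
  have := norm_integral_le_of_norm_le_const
    (μ := (gauss δ).prod (Measure.pi fun _ : Fin M => gauss δ))
    (f := fun p => patLog W f ν (Fin.cons p.1 p.2 : Fin (M + 1) → δ → ℝ) - patLog W f ν p.2)
    (C := C) (.of_forall fun p => ?_)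
  · simpa [Real.norm_eq_abs] using this
  rw [Real.norm_eq_abs, patLog_cons]
  simp only [patLog, addPat, add_right_comm (W _) (f _)]
  set h : (δ → ℝ) → ℝ := fun x =>
    W x + ∑ a, f ((∑ i, p.2 a i * x i) / Real.sqrt (Fintype.card δ)) with hh
  set u : (δ → ℝ) → ℝ := fun x => f ((∑ i, p.1 i * x i) / Real.sqrt (Fintype.card δ)) with hu
  have hhm : Measurable h := (measurable_patWeight hW hf M).comp measurable_prodMk_left
  have hum : Measurable u := hf.comp (by fun_prop)
  have hhC : ∀ x, |h x| ≤ CW + M * C := fun x => abs_patWeight_le hWC hfC p.2 x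
  have hC0 : 0 ≤ C := (abs_nonneg _).trans (hfC 0)
  have hi' : Integrable (fun x => Real.exp (h x + u x)) ν :=
    integrable_of_abs_le (hhm.add hum).exp (C := Real.exp (CW + M * C + C)) fun x => by
      show |Real.exp (h x + u x)| ≤ _
      rw [abs_of_pos (Real.exp_pos _)]
      exact Real.exp_le_exp.2 (add_le_add (abs_le.1 (hhC x)).2 (abs_le.1 (hfC _)).2)
  have hi'' : Integrable (fun x => Real.exp (h x)) ν :=
    integrable_of_abs_le hhm.exp fun x => by
      rw [abs_of_pos (Real.exp_pos _)]; exact Real.exp_le_exp.2 (abs_le.1 (hhC x)).2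
  have hp := lt_of_lt_of_le (Real.exp_pos _) (log_expMean_le (μ := ν) hhm hhC).1
  have hlow : Real.exp (-C) * ∫ x, Real.exp (h x) ∂ν ≤ ∫ x, Real.exp (h x + u x) ∂ν := by
    rw [← integral_const_mul]
    exact integral_mono (hi''.const_mul _) hi' fun x => by
      show Real.exp (-C) * Real.exp (h x) ≤ _
      rw [← Real.exp_add]; exact Real.exp_le_exp.2 (by linarith [(abs_le.1 (hfC ((∑ i,
        p.1 i * x i) / Real.sqrt (Fintype.card δ)))).1])
  have hup : ∫ x, Real.exp (h x + u x) ∂ν ≤ Real.exp C * ∫ x, Real.exp (h x) ∂ν := by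
    rw [← integral_const_mul]
    exact integral_mono hi' (hi''.const_mul _) fun x => by
      show _ ≤ Real.exp C * Real.exp (h x)
      rw [← Real.exp_add]; exact Real.exp_le_exp.2 (by linarith [(abs_le.1 (hfC ((∑ i,
        p.1 i * x i) / Real.sqrt (Fintype.card δ)))).2])
  have hq : 0 < ∫ x, Real.exp (h x + u x) ∂ν := lt_of_lt_of_le (by positivity) hlow
  have l1 := Real.log_le_log (by positivity) hlow
  have l2 := Real.log_le_log hq hup
  rw [Real.log_mul (Real.exp_pos _).ne' hp.ne', Real.log_exp] at l1 l2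
  exact abs_le.2 ⟨by linarith, by linarith⟩

/-- Stability of the pressure in the number of patterns. -/
theorem priorPressure_lipschitz [Nonempty δ] {f : ℝ → ℝ} (hf : Measurable f) {C : ℝ}
    (hfC : ∀ x, |f x| ≤ C) (M M' : ℕ) (ν : Measure (δ → ℝ)) [IsProbabilityMeasure ν] :
    |priorPressure f M ν - priorPressure f M' ν| ≤
      C * |(M : ℝ) - M'| / Fintype.card δ := by
  have hD : (0 : ℝ) < Fintype.card δ := by exact_mod_cast Fintype.card_pos
  suffices h : ∀ M k : ℕ, |priorPressure f (M + k) ν - priorPressure f M ν| ≤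
      C * k / Fintype.card δ by
    rcases le_total M' M with hle | hle
    · obtain ⟨k, rfl⟩ := Nat.exists_eq_add_of_le hle
      simpa using h M' k
    · obtain ⟨k, rfl⟩ := Nat.exists_eq_add_of_le hle
      rw [abs_sub_comm]
      simpa [abs_sub_comm] using h M k
  intro M k
  induction k with
  | zero => simp
  | succ k ih =>
    have hstep : |priorPressure f (M + (k + 1)) ν - priorPressure f (M + k) ν| ≤
        C / Fintype.card δ := by
      rw [priorPressure_eq_patLog, priorPressure_eq_patLog, ← sub_div, abs_div, abs_of_pos hD]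
      exact div_le_div_of_nonneg_right
        (patLog_succ_close measurable_const hf (CW := 0) (by simp) hfC _) hD.le
    calc _ ≤ |priorPressure f (M + (k + 1)) ν - priorPressure f (M + k) ν| +
          |priorPressure f (M + k) ν - priorPressure f M ν| := abs_sub_le _ _ _
      _ ≤ C / Fintype.card δ + C * k / Fintype.card δ := add_le_add hstep ih
      _ = _ := by push_cast; ring

/-- The effect of one pattern, averaged over that pattern. -/
lemma one_pattern_close [Nonempty δ] {φ : ℝ → ℝ} (hW : Measurable W) (hf : Measurable f)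
    (hφ : Measurable φ) (hWC : ∀ x, |W x| ≤ CW) (hfC : ∀ x, |f x| ≤ C) (hφC : ∀ x, |φ x| ≤ C)
    (hν : ∀ᵐ x ∂ν, ∑ i, x i ^ 2 = (Fintype.card δ : ℝ)) :
    ∫ g, |Real.log (∫ x, Real.exp (addPat W f g x) ∂ν) -
        Real.log (∫ x, Real.exp (addPat W φ g x) ∂ν)| ∂gauss δ ≤
      Real.exp (2 * C) * ∫ z, |f z - φ z| ∂gaussianReal 0 1 := by
  set s := Real.sqrt (Fintype.card δ) with hs
  have hs0 : 0 < s := Real.sqrt_pos.2 (by exact_mod_cast Fintype.card_pos)
  have hWi : Integrable (fun x => Real.exp (W x)) ν :=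
    integrable_of_abs_le hW.exp fun x => by
      rw [abs_of_pos (Real.exp_pos _)]; exact Real.exp_le_exp.2 (abs_le.1 (hWC x)).2
  set Z := ∫ x, Real.exp (W x) ∂ν with hZ
  have hZpos : 0 < Z := lt_of_lt_of_le (Real.exp_pos _) (log_expMean_le (μ := ν) hW hWC).1
  set d : ℝ → ℝ := fun z => |f z - φ z| with hd
  have hdm : Measurable d := (hf.sub hφ).abs
  have hdC : ∀ z, |d z| ≤ 2 * C := fun z => by
    rw [hd, abs_abs]
    linarith [abs_sub (f z) (φ z), hfC z, hφC z]
  set T : (δ → ℝ) × (δ → ℝ) → ℝ := fun p =>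
    Real.exp (2 * C) / Z * (Real.exp (W p.2) * d ((∑ i, p.1 i * p.2 i) / s)) with hT
  have hTm : Measurable T :=
    ((hW.comp measurable_snd).exp.mul (hdm.comp (by fun_prop))).const_mul _
  have hTC : ∀ p, |T p| ≤ Real.exp (2 * C) / Z * (Real.exp CW * (2 * C)) := fun p => by
    rw [hT, abs_mul, abs_of_pos (by positivity), abs_mul, abs_of_pos (Real.exp_pos _)]
    exact mul_le_mul_of_nonneg_left (mul_le_mul (Real.exp_le_exp.2 (abs_le.1 (hWC _)).2) (hdC _)
      (abs_nonneg _) (Real.exp_pos _).le) (by positivity)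
  have hTi : Integrable T ((gauss δ).prod ν) := integrable_of_abs_le hTm hTC
  have hfib : ∀ᵐ x ∂ν, ∫ g, d ((∑ i, g i * x i) / s) ∂gauss δ =
      ∫ z, d z ∂gaussianReal 0 1 := hν.mono fun x hx => by
    have ha : ∑ i, (x i / s) ^ 2 = 1 := by
      simp_rw [div_pow]
      rw [← sum_div, hx, hs, Real.sq_sqrt (by positivity), div_self]
      exact_mod_cast Fintype.card_ne_zero
    rw [← integral_field ha hdm]
    refine integral_congr_ae (.of_forall fun g => ?_)
    simp only [sum_div, mul_div_assoc]
  have hpt : ∀ g, |Real.log (∫ x, Real.exp (addPat W f g x) ∂ν) -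
      Real.log (∫ x, Real.exp (addPat W φ g x) ∂ν)| ≤ ∫ x, T (g, x) ∂ν := by
    intro g
    have hb : ∀ (h : ℝ → ℝ), Measurable h → (∀ z, |h z| ≤ C) →
        Integrable (fun x => Real.exp (addPat W h g x)) ν ∧
          Real.exp (-C) * Z ≤ ∫ x, Real.exp (addPat W h g x) ∂ν := by
      intro h hh hhC
      have hm : Measurable (addPat W h g) := hW.add (hh.comp (by fun_prop))
      have hi : Integrable (fun x => Real.exp (addPat W h g x)) ν :=
        integrable_of_abs_le hm.exp (C := Real.exp (CW + C)) fun x => by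
          rw [abs_of_pos (Real.exp_pos _)]
          exact Real.exp_le_exp.2 (add_le_add (abs_le.1 (hWC x)).2 (abs_le.1 (hhC _)).2)
      refine ⟨hi, ?_⟩
      rw [hZ, ← integral_const_mul]
      refine integral_mono (hWi.const_mul _) hi fun x => ?_
      show Real.exp (-C) * Real.exp (W x) ≤ _
      rw [← Real.exp_add]
      exact Real.exp_le_exp.2 (by
        have := (abs_le.1 (hhC ((∑ i, g i * x i) / s))).1
        simp only [addPat]; linarith)
    obtain ⟨hiA, hA⟩ := hb f hf hfC
    obtain ⟨hiB, hB⟩ := hb φ hφ hφC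
    set A := ∫ x, Real.exp (addPat W f g x) ∂ν
    set B := ∫ x, Real.exp (addPat W φ g x) ∂ν
    have hc : 0 < Real.exp (-C) * Z := by positivity
    have hlog : |Real.log A - Real.log B| ≤ |A - B| / (Real.exp (-C) * Z) := by
      have key : ∀ a b : ℝ, Real.exp (-C) * Z ≤ a → Real.exp (-C) * Z ≤ b →
          Real.log a - Real.log b ≤ |a - b| / (Real.exp (-C) * Z) := by
        intro a b ha hb
        have ha' := hc.trans_le ha
        have hb' := hc.trans_le hb
        calc Real.log a - Real.log b = Real.log (a / b) := (Real.log_div ha'.ne' hb'.ne').symm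
          _ ≤ a / b - 1 := Real.log_le_sub_one_of_pos (by positivity)
          _ = (a - b) / b := by rw [sub_div, div_self hb'.ne']
          _ ≤ |a - b| / b := div_le_div_of_nonneg_right (le_abs_self _) hb'.le
          _ ≤ _ := div_le_div_of_nonneg_left (abs_nonneg _) hc hb
      refine abs_le.2 ⟨?_, key A B hA hB⟩
      have := key B A hB hA
      rw [abs_sub_comm] at this
      linarith
    refine hlog.trans ?_
    rw [div_le_iff₀ hc]
    have hd' : Integrable (fun x => Real.exp (W x) * (Real.exp C * d ((∑ i, g i * x i) / s))) ν :=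
      integrable_of_abs_le (hW.exp.mul ((hdm.comp (by fun_prop)).const_mul _))
        (C := Real.exp CW * (Real.exp C * (2 * C))) fun x => by
        rw [abs_mul, abs_of_pos (Real.exp_pos _), abs_mul, abs_of_pos (Real.exp_pos _)]
        exact mul_le_mul (Real.exp_le_exp.2 (abs_le.1 (hWC x)).2)
          (mul_le_mul_of_nonneg_left (hdC _) (Real.exp_pos _).le) (by positivity)
          (Real.exp_pos _).le
    calc |A - B| ≤ ∫ x, |Real.exp (addPat W f g x) - Real.exp (addPat W φ g x)| ∂ν := by
          rw [← integral_sub hiA hiB]; exact abs_integral_le_integral_abs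
      _ ≤ ∫ x, Real.exp (W x) * (Real.exp C * d ((∑ i, g i * x i) / s)) ∂ν := by
          refine integral_mono (hiA.sub hiB).abs hd' fun x => ?_
          simp only [addPat, Real.exp_add, ← mul_sub, abs_mul, abs_of_pos (Real.exp_pos _)]
          refine mul_le_mul_of_nonneg_left ?_ (Real.exp_pos _).le
          exact abs_exp_sub_exp_le (abs_le.1 (hfC _)).2 (abs_le.1 (hφC _)).2
      _ = _ := by
          simp only [hT]
          rw [integral_const_mul]
          have e : Real.exp (-C) * Real.exp (2 * C) = Real.exp C := by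
            rw [← Real.exp_add]; congr 1; ring
          simp only [← mul_assoc, mul_comm (Real.exp (W _)) (Real.exp C)]
          simp only [mul_assoc]
          rw [integral_const_mul]
          field_simp
          linear_combination (- ∫ x, Real.exp (W x) * d ((∑ i, g i * x i) / s) ∂ν) * e
  calc _ ≤ ∫ g, ∫ x, T (g, x) ∂ν ∂gauss δ :=
        integral_mono_of_nonneg (.of_forall fun g => abs_nonneg _) hTi.integral_prod_left
          (.of_forall hpt)
    _ = ∫ x, ∫ g, T (g, x) ∂gauss δ ∂ν := integral_integral_swap hTi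
    _ = ∫ x, Real.exp (2 * C) / Z * (∫ z, d z ∂gaussianReal 0 1) * Real.exp (W x) ∂ν := by
        refine integral_congr_ae (hfib.mono fun x hx => ?_)
        simp only [hT]
        rw [integral_const_mul, integral_const_mul, hx]; ring
    _ = _ := by rw [integral_const_mul, ← hZ]; field_simp

/-- Stability of the averaged log-partition function in `L¹` of the Gaussian law. -/
lemma patLog_close [Nonempty δ] {φ : ℝ → ℝ} (hf : Measurable f) (hφ : Measurable φ)
    (hfC : ∀ x, |f x| ≤ C) (hφC : ∀ x, |φ x| ≤ C)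
    (hν : ∀ᵐ x ∂ν, ∑ i, x i ^ 2 = (Fintype.card δ : ℝ)) :
    ∀ (M : ℕ) {W : (δ → ℝ) → ℝ} {CW : ℝ}, Measurable W → (∀ x, |W x| ≤ CW) →
    |∫ G, patLog W f ν G ∂(Measure.pi fun _ : Fin M => gauss δ) -
      ∫ G, patLog W φ ν G ∂(Measure.pi fun _ : Fin M => gauss δ)| ≤
      M * (Real.exp (2 * C) * ∫ z, |f z - φ z| ∂gaussianReal 0 1) := by
  intro M
  induction M with
  | zero => intro W CW _ _; simp [patLog]
  | succ M ih =>
    intro W CW hW hWC
    set ε := Real.exp (2 * C) * ∫ z, |f z - φ z| ∂gaussianReal 0 1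
    obtain ⟨hef, hif⟩ := integral_patterns_succ M
      (measurable_patLog (ν := ν) hW hf (M + 1)) fun G => abs_patLog_le hW hf hWC hfC G
    obtain ⟨heφ, hiφ⟩ := integral_patterns_succ M
      (measurable_patLog (ν := ν) hW hφ (M + 1)) fun G => abs_patLog_le hW hφ hWC hφC G
    rw [hef, heφ]
    simp only [patLog_cons] at hif hiφ ⊢
    -- the mixed term: `f` on the new pattern, `φ` on the others
    have hjm : Measurable fun p : (δ → ℝ) × (Fin M → δ → ℝ) => patLog (addPat W f p.1) φ ν p.2 := by
      have h : Measurable fun p : ((δ → ℝ) × (Fin M → δ → ℝ)) × (δ → ℝ) =>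
          Real.exp (addPat W f p.1.1 p.2 +
            ∑ a, φ ((∑ i, p.1.2 a i * p.2 i) / Real.sqrt (Fintype.card δ))) :=
        (((hW.comp measurable_snd).add (hf.comp (by fun_prop))).add
          (Finset.measurable_sum _ fun a _ => hφ.comp (by fun_prop))).exp
      exact Real.measurable_log.comp h.stronglyMeasurable.integral_prod_right'.measurable
    have hadd : ∀ (h : ℝ → ℝ), (∀ z, |h z| ≤ C) → ∀ g x, |addPat W h g x| ≤ CW + C :=
      fun h hh g x => (abs_add_le _ _).trans (add_le_add (hWC x) (hh _))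
    have haddm : ∀ (h : ℝ → ℝ), Measurable h → ∀ g, Measurable (addPat W h g) :=
      fun h hh g => hW.add (hh.comp (by fun_prop))
    have hij : Integrable (fun p : (δ → ℝ) × (Fin M → δ → ℝ) => patLog (addPat W f p.1) φ ν p.2)
        ((gauss δ).prod (Measure.pi fun _ : Fin M => gauss δ)) :=
      integrable_of_abs_le hjm fun p => abs_patLog_le (haddm f hf _) hφ (hadd f hfC _) hφC _
    have h1 : |∫ g, ∫ G, patLog (addPat W f g) f ν G ∂(Measure.pi fun _ : Fin M => gauss δ)
          ∂gauss δ -
        ∫ g, ∫ G, patLog (addPat W f g) φ ν G ∂(Measure.pi fun _ : Fin M => gauss δ) ∂gauss δ| ≤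
        M * ε := by
      rw [← integral_sub hif.integral_prod_left hij.integral_prod_left]
      have := norm_integral_le_of_norm_le_const (μ := gauss δ)
        (f := fun g => ∫ G, patLog (addPat W f g) f ν G ∂(Measure.pi fun _ : Fin M => gauss δ) -
          ∫ G, patLog (addPat W f g) φ ν G ∂(Measure.pi fun _ : Fin M => gauss δ)) (C := M * ε)
        (.of_forall fun g => by
          rw [Real.norm_eq_abs]; exact ih (haddm f hf g) (hadd f hfC g))
      simpa [Real.norm_eq_abs] using this
    have h2 : |∫ g, ∫ G, patLog (addPat W f g) φ ν G ∂(Measure.pi fun _ : Fin M => gauss δ)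
          ∂gauss δ -
        ∫ g, ∫ G, patLog (addPat W φ g) φ ν G ∂(Measure.pi fun _ : Fin M => gauss δ) ∂gauss δ| ≤
        ε := by
      have ej := integral_integral_swap (f := fun g G => patLog (addPat W f g) φ ν G) hij
      have eφ := integral_integral_swap (f := fun g G => patLog (addPat W φ g) φ ν G) hiφ
      rw [ej, eφ, ← integral_sub hij.integral_prod_right hiφ.integral_prod_right]
      have hb := norm_integral_le_of_norm_le_const (μ := Measure.pi fun _ : Fin M => gauss δ)
        (f := fun G => ∫ g, patLog (addPat W f g) φ ν G ∂gauss δ -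
          ∫ g, patLog (addPat W φ g) φ ν G ∂gauss δ) (C := ε) (.of_forall fun G => ?_)
      · simpa [Real.norm_eq_abs] using hb
      set W' : (δ → ℝ) → ℝ := fun x =>
        W x + ∑ a, φ ((∑ i, G a i * x i) / Real.sqrt (Fintype.card δ)) with hW'
      have hW'm : Measurable W' := (measurable_patWeight hW hφ M).comp measurable_prodMk_left
      have e : ∀ (h : ℝ → ℝ) g, patLog (addPat W h g) φ ν G =
          Real.log (∫ x, Real.exp (addPat W' h g x) ∂ν) := fun h g => by
        simp only [patLog, addPat, hW', add_right_comm]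
      simp only [e, Real.norm_eq_abs]
      have hi : ∀ (h : ℝ → ℝ), Measurable h → (∀ z, |h z| ≤ C) → Integrable
          (fun g => Real.log (∫ x, Real.exp (addPat W' h g x) ∂ν)) (gauss δ) := by
        intro h hh hhC
        have hm : Measurable fun p : (δ → ℝ) × (δ → ℝ) => Real.exp (addPat W' h p.1 p.2) :=
          ((hW'm.comp measurable_snd).add (hh.comp (by fun_prop))).exp
        refine integrable_of_abs_le
          (Real.measurable_log.comp hm.stronglyMeasurable.integral_prod_right'.measurable)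
          (C := CW + M * C + C) fun g => ?_
        exact (log_expMean_le (hW'm.add (hh.comp (by fun_prop))) fun x =>
          (abs_add_le _ _).trans (add_le_add (abs_patWeight_le hWC hφC G x) (hhC _))).2.2
      rw [← integral_sub (hi f hf hfC) (hi φ hφ hφC)]
      exact abs_integral_le_integral_abs.trans (one_pattern_close hW'm hf hφ
        (fun x => abs_patWeight_le hWC hφC G x) hfC hφC hν)
    refine (abs_sub_le _ _ _).trans ((add_le_add h1 h2).trans (le_of_eq ?_))
    push_cast; ring

/-- Stability of the pressure in `L¹` of the Gaussian law. -/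
theorem priorPressure_close [Nonempty δ] {f φ : ℝ → ℝ} (hf : Measurable f) (hφ : Measurable φ)
    {C : ℝ} (hfC : ∀ x, |f x| ≤ C) (hφC : ∀ x, |φ x| ≤ C) (M : ℕ) (ν : Measure (δ → ℝ))
    [IsProbabilityMeasure ν] (hν : ∀ᵐ x ∂ν, ∑ i, x i ^ 2 = (Fintype.card δ : ℝ)) :
    |priorPressure f M ν - priorPressure φ M ν| ≤
      (M : ℝ) / Fintype.card δ * Real.exp (4 * C) * ∫ x, |f x - φ x| ∂gaussianReal 0 1 := by
  have hD : (0 : ℝ) < Fintype.card δ := by exact_mod_cast Fintype.card_pos
  have hC0 : 0 ≤ C := (abs_nonneg _).trans (hfC 0)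
  rw [priorPressure_eq_patLog, priorPressure_eq_patLog, ← sub_div, abs_div, abs_of_pos hD,
    div_le_iff₀ hD]
  refine (patLog_close hf hφ hfC hφC hν M measurable_const (CW := 0) (by simp)).trans ?_
  have hI : 0 ≤ ∫ x, |f x - φ x| ∂gaussianReal 0 1 := integral_nonneg fun _ => abs_nonneg _
  calc (M : ℝ) * (Real.exp (2 * C) * ∫ z, |f z - φ z| ∂gaussianReal 0 1)
      ≤ M * (Real.exp (4 * C) * ∫ z, |f z - φ z| ∂gaussianReal 0 1) :=
        mul_le_mul_of_nonneg_left (mul_le_mul_of_nonneg_right
          (Real.exp_le_exp.2 (by linarith)) hI) (Nat.cast_nonneg M)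
    _ = _ := by field_simp

end Vale.Agent.P157.Parisi
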