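import Vale.Agent.P157.Parisi.Quad

/-!
The linear tilt of the uniform law on a sphere, compared with tilted Gaussian vectors.
-/

namespace Vale.Agent.P157.Parisi

open MeasureTheory ProbabilityTheory Finset Filter Topology

variable {n : ℕ}

lemma udir_unit {ι : Type} [Fintype ι] {ξ : ι → ℝ} (h : normSqF ξ ≠ 0) :
    ∑ i, udir ξ i ^ 2 = 1 := by
  simp only [udir, div_pow, Real.sq_sqrt (normSqF_nonneg ξ), ← sum_div]
  exact div_self h

lemma sum_udir_sq_le {ι : Type} [Fintype ι] (ξ : ι → ℝ) : ∑ i, udir ξ i ^ 2 ≤ 1 := by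
  by_cases h : normSqF ξ = 0
  · simp [udir, h]
  · exact (udir_unit h).le

lemma udir_neg {ι : Type} [Fintype ι] (ξ : ι → ℝ) : udir (-ξ) = -udir ξ := by
  funext i; simp [udir, normSqF, neg_div]

lemma sqrt_mul_udir {ι : Type} [Fintype ι] (ξ : ι → ℝ) (i : ι) :
    Real.sqrt (normSqF ξ) * udir ξ i = ξ i := by
  by_cases h : normSqF ξ = 0
  · have h0 : ξ i = 0 := by
      have := (sum_eq_zero_iff_of_nonneg fun i _ => sq_nonneg (ξ i)).1 h i (mem_univ i)
      simpa using this
    simp [udir, h0]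
  · have : Real.sqrt (normSqF ξ) ≠ 0 :=
      (Real.sqrt_pos.2 (lt_of_le_of_ne (normSqF_nonneg _) (Ne.symm h))).ne'
    unfold udir
    field_simp

lemma gauss_ae_ne_zero {ι : Type} [Fintype ι] [Nonempty ι] :
    ∀ᵐ ξ ∂gauss ι, normSqF ξ ≠ 0 := by
  obtain ⟨i⟩ := ‹Nonempty ι›
  have h : ∀ᵐ ξ ∂gauss ι, ξ i ≠ 0 := by
    have h1 : ∀ᵐ x ∂gaussianReal 0 1, x ≠ (0 : ℝ) := by
      have : NullSingletonClass (gaussianReal 0 1) := nullSingletonClass_gaussianReal one_ne_zero
      exact Measure.ae_ne _ 0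
    exact (measurePreserving_eval (fun _ : ι => gaussianReal 0 1) i).quasiMeasurePreserving.ae h1
  filter_upwards [h] with ξ hξ h0
  have := (sum_eq_zero_iff_of_nonneg fun i _ => sq_nonneg (ξ i)).1 h0 i (mem_univ i)
  exact hξ (by simpa using this)

lemma gauss_map_neg {ι : Type} [Fintype ι] :
    MeasurePreserving (fun ξ : ι → ℝ => -ξ) (gauss ι) (gauss ι) := by
  refine measurePreserving_pi (fun _ : ι => gaussianReal 0 1) (fun _ => gaussianReal 0 1)
    (f := fun _ x => -x) fun i => ⟨measurable_neg, ?_⟩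
  simp [gaussianReal_map_neg]

/-- The Laplace transform of the uniform law on the unit sphere. -/
noncomputable def sphM (n : ℕ) (s : ℝ) (y : Fin n → ℝ) : ℝ :=
  ∫ ξ, Real.exp (s * ∑ i, udir ξ i * y i) ∂gauss (Fin n)

lemma abs_udir_dot_le (ξ y : Fin n → ℝ) : |∑ i, udir ξ i * y i| ≤ Real.sqrt (normSqF y) := by
  refine Real.abs_le_sqrt ?_
  refine (sum_mul_sq_le_sq_mul_sq univ (udir ξ) y).trans ?_
  exact mul_le_of_le_one_left (normSqF_nonneg y) (sum_udir_sq_le ξ)

lemma measurable_udir_dot (y : Fin n → ℝ) :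
    Measurable fun ξ : Fin n → ℝ => ∑ i, udir ξ i * y i :=
  Finset.measurable_sum _ fun i _ => ((measurable_pi_apply i).comp measurable_udir).mul_const _

lemma integrable_sphM (s : ℝ) (y : Fin n → ℝ) :
    Integrable (fun ξ => Real.exp (s * ∑ i, udir ξ i * y i)) (gauss (Fin n)) := by
  refine Integrable.of_bound
    (Real.measurable_exp.comp ((measurable_udir_dot y).const_mul s)).aestronglyMeasurable
    (Real.exp (|s| * Real.sqrt (normSqF y))) (.of_forall fun ξ => ?_)
  rw [Real.norm_eq_abs, Real.abs_exp, Real.exp_le_exp]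
  refine (le_abs_self _).trans ?_
  rw [abs_mul]
  exact mul_le_mul_of_nonneg_left (abs_udir_dot_le ξ y) (abs_nonneg s)

lemma measurable_sphM : Measurable fun p : ℝ × (Fin n → ℝ) => sphM n p.1 p.2 := by
  have h : Measurable fun p : (ℝ × (Fin n → ℝ)) × (Fin n → ℝ) =>
      Real.exp (p.1.1 * ∑ i, udir p.2 i * p.1.2 i) := by
    refine Real.measurable_exp.comp ((measurable_fst.comp measurable_fst).mul
      (Finset.measurable_sum _ fun i _ => ?_))
    exact ((measurable_pi_apply i).comp (measurable_udir.comp measurable_snd)).mul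
      ((measurable_pi_apply i).comp (measurable_snd.comp measurable_fst))
  exact h.stronglyMeasurable.integral_prod_right'.measurable

lemma sphM_eq_cosh (s : ℝ) (y : Fin n → ℝ) :
    Integrable (fun ξ => Real.cosh (s * ∑ i, udir ξ i * y i)) (gauss (Fin n)) ∧
      sphM n s y = ∫ ξ, Real.cosh (s * ∑ i, udir ξ i * y i) ∂gauss (Fin n) := by
  have h1 := integrable_sphM s y
  have h2 := integrable_sphM (-s) y
  have e : sphM n (-s) y = sphM n s y := by
    unfold sphM
    refine Eq.trans ?_ (gauss_map_neg.integral_comp (MeasurableEquiv.neg _).measurableEmbedding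
      fun ξ => Real.exp (s * ∑ i, udir ξ i * y i))
    refine integral_congr_ae (.of_forall fun ξ => ?_)
    simp [udir_neg, neg_mul, sum_neg_distrib]
  have hc : (fun ξ => Real.cosh (s * ∑ i, udir ξ i * y i)) = fun ξ =>
      (Real.exp (s * ∑ i, udir ξ i * y i) + Real.exp ((-s) * ∑ i, udir ξ i * y i)) / 2 := by
    funext ξ; rw [Real.cosh_eq, neg_mul]
  rw [hc]
  refine ⟨(h1.add h2).div_const 2, ?_⟩
  rw [integral_div, integral_add h1 h2]
  change sphM n s y = (sphM n s y + sphM n (-s) y) / 2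
  rw [e]; ring

lemma one_le_sphM (s : ℝ) (y : Fin n → ℝ) : 1 ≤ sphM n s y := by
  obtain ⟨hi, he⟩ := sphM_eq_cosh s y
  rw [he]
  calc (1 : ℝ) = ∫ _ξ, (1 : ℝ) ∂gauss (Fin n) := by simp
    _ ≤ _ := integral_mono (integrable_const _) hi fun ξ => Real.one_le_cosh _

lemma sphM_mono {s t : ℝ} (h : |s| ≤ |t|) (y : Fin n → ℝ) : sphM n s y ≤ sphM n t y := by
  obtain ⟨hi, he⟩ := sphM_eq_cosh s y
  obtain ⟨hi', he'⟩ := sphM_eq_cosh t y
  rw [he, he']
  refine integral_mono hi hi' fun ξ => ?_
  simp only [Real.cosh_le_cosh, abs_mul]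
  exact mul_le_mul_of_nonneg_right h (abs_nonneg _)

/-- The log-partition function of one block. -/
noncomputable def sphU (n : ℕ) (y : Fin n → ℝ) : ℝ := Real.log (sphM n (Real.sqrt n) y)

lemma measurable_sphU : Measurable (sphU n) :=
  Real.measurable_log.comp (measurable_sphM.comp (measurable_const.prodMk measurable_id))

lemma sphU_nonneg (y : Fin n → ℝ) : 0 ≤ sphU n y := Real.log_nonneg (one_le_sphM _ y)

lemma sphU_le {B : ℝ} (hB : 0 < B) (y : Fin n → ℝ) : sphU n y ≤ qd n B (n * B / 2) y := by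
  rw [sphU, Real.log_le_iff_le_exp (lt_of_lt_of_le zero_lt_one (one_le_sphM _ y))]
  calc sphM n (Real.sqrt n) y ≤ ∫ _ξ, Real.exp (qd n B (n * B / 2) y) ∂gauss (Fin n) := by
        refine integral_mono (integrable_sphM _ y) (integrable_const _) fun ξ => ?_
        simp only [Real.exp_le_exp]
        refine (le_abs_self _).trans ?_
        rw [abs_mul, abs_of_nonneg (Real.sqrt_nonneg _)]
        refine (mul_le_mul_of_nonneg_left (abs_udir_dot_le ξ y) (Real.sqrt_nonneg _)).trans ?_
        have hy := Real.sq_sqrt (normSqF_nonneg y)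
        have hn := Real.sq_sqrt (Nat.cast_nonneg (α := ℝ) n)
        have h := sq_nonneg (Real.sqrt (normSqF y) - B * Real.sqrt n)
        have e : qd n B (n * B / 2) y = (normSqF y + B ^ 2 * n) / (2 * B) := by
          rw [qd]; field_simp
        rw [e, le_div_iff₀ (by positivity)]
        nlinarith
    _ = _ := by simp

lemma sphU_qbound {B : ℝ} (hB : 0 < B) : QBound B (n * B / 2) (sphU n) :=
  ⟨measurable_sphU, sphU_le hB⟩

lemma sphU_smul {c : ℝ} (hc : 0 ≤ c) (y : Fin n → ℝ) :
    sphU n (fun i => Real.sqrt c * y i) = Real.log (sphM n (Real.sqrt (n * c)) y) := by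
  unfold sphU sphM
  congr 1
  refine integral_congr_ae (.of_forall fun ξ => ?_)
  simp only [mul_sum, Real.sqrt_mul' _ hc]
  congr 1
  exact sum_congr rfl fun i _ => by ring

lemma sphU_smul_qbound {c B : ℝ} (hc : 0 < c) (hB : 0 < B) :
    QBound B (n * (c * B) / 2) fun y => sphU n fun i => Real.sqrt c * y i := by
  refine ⟨measurable_sphU.comp (by fun_prop), fun y => (sphU_le (mul_pos hc hB) _).trans_eq ?_⟩
  simp only [qd, normSqF, mul_pow, Real.sq_sqrt hc.le, ← mul_sum]
  field_simp

lemma sphereUnif_eq (n : ℕ) :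
    sphereUnif n = (unitUnif (Fin n)).map fun a i => Real.sqrt n * a i := by
  rw [unitUnif, Measure.map_smul, Measure.map_map (by fun_prop) measurable_sphereCoord, sphereUnif]
  rfl

lemma sphereUnif_eq_gauss (hn : 0 < n) :
    sphereUnif n = (gauss (Fin n)).map fun ξ i => Real.sqrt n * udir ξ i := by
  have : Nonempty (Fin n) := ⟨⟨0, hn⟩⟩
  rw [sphereUnif_eq, ← map_udir, Measure.map_map (by fun_prop) measurable_udir]
  rfl

lemma isProbability_sphereUnif (hn : 0 < n) : IsProbabilityMeasure (sphereUnif n) := by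
  rw [sphereUnif_eq_gauss hn]
  have hm : Measurable fun (ξ : Fin n → ℝ) (i : Fin n) => Real.sqrt n * udir ξ i :=
    measurable_pi_lambda _ fun i => ((measurable_pi_apply i).comp measurable_udir).const_mul _
  exact Measure.isProbabilityMeasure_map hm.aemeasurable

lemma normBlock_smul_udir (hn : 0 < n) {ξ : Fin n → ℝ} (h : normSqF ξ ≠ 0) (i : Fin n) :
    normBlock (fun k => Real.sqrt n * udir ξ k) i = Real.sqrt n * udir ξ i := by
  have hn' : (n : ℝ) ≠ 0 := by exact_mod_cast hn.ne'
  have hsq : ∑ k, (Real.sqrt n * udir ξ k) ^ 2 = n := by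
    simp only [mul_pow, ← mul_sum, udir_unit h, mul_one]
    exact Real.sq_sqrt (Nat.cast_nonneg n)
  unfold normBlock
  rw [hsq, if_neg hn']
  have : Real.sqrt (n : ℝ) ≠ 0 := (Real.sqrt_pos.2 (by exact_mod_cast hn)).ne'
  field_simp

lemma measurable_normBlock : Measurable (normBlock : (Fin n → ℝ) → Fin n → ℝ) := by
  refine measurable_pi_lambda _ fun i => ?_
  unfold normBlock
  exact Measurable.ite ((by fun_prop : Measurable fun σ : Fin n → ℝ => ∑ k, σ k ^ 2)
    (measurableSet_singleton 0)) measurable_const (by fun_prop)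

lemma logZ_blockLeaf (hn : 0 < n) : (blockLeaf n).logZ (sphereUnif n) = sphU n := by
  have : Nonempty (Fin n) := ⟨⟨0, hn⟩⟩
  funext y
  have hm : Measurable fun σ : Fin n → ℝ => Real.exp ((blockLeaf n).ham σ y) := by
    unfold Leaf.ham Leaf.loc
    simp only [blockLeaf]
    refine Real.measurable_exp.comp (Finset.measurable_sum _ fun j _ =>
      Finset.measurable_sum _ fun i _ => ?_)
    exact ((measurable_pi_apply i).comp measurable_normBlock).mul_const _
  have hg : Measurable fun (ξ : Fin n → ℝ) (i : Fin n) => Real.sqrt n * udir ξ i :=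
    measurable_pi_lambda _ fun i => ((measurable_pi_apply i).comp measurable_udir).const_mul _
  rw [Leaf.logZ, sphU, sphereUnif_eq_gauss hn, integral_map hg.aemeasurable
    hm.aestronglyMeasurable]
  congr 1
  refine integral_congr_ae ?_
  filter_upwards [gauss_ae_ne_zero] with ξ hξ
  simp [Leaf.ham, Leaf.loc, blockLeaf, normBlock_smul_udir hn hξ, mul_sum, mul_assoc]

/-- Integration of a tilt against a function of the length alone. -/
lemma tilt_polar [Nonempty (Fin n)] {F : ℝ → ℝ} (hF : Measurable F) (y : Fin n → ℝ)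
    (hi : Integrable (fun ξ => Real.exp (∑ i, ξ i * y i) * F (normSqF ξ)) (gauss (Fin n))) :
    Integrable (fun ξ => sphM n (Real.sqrt (normSqF ξ)) y * F (normSqF ξ)) (gauss (Fin n)) ∧
      ∫ ξ, Real.exp (∑ i, ξ i * y i) * F (normSqF ξ) ∂gauss (Fin n) =
        ∫ ξ, sphM n (Real.sqrt (normSqF ξ)) y * F (normSqF ξ) ∂gauss (Fin n) := by
  have : IsProbabilityMeasure ((gauss (Fin n)).map (normSqF : (Fin n → ℝ) → ℝ)) :=
    Measure.isProbabilityMeasure_map measurable_normSqF.aemeasurable
  set ν := (gauss (Fin n)).map (normSqF : (Fin n → ℝ) → ℝ)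
  set Φ : (Fin n → ℝ) × ℝ → ℝ := fun p => Real.exp (Real.sqrt p.2 * ∑ i, p.1 i * y i) * F p.2
  have hΦ : Measurable Φ := by
    refine Measurable.mul ?_ (hF.comp measurable_snd)
    refine Real.measurable_exp.comp ((Real.continuous_sqrt.measurable.comp measurable_snd).mul
      (Finset.measurable_sum _ fun i _ => ?_))
    exact ((measurable_pi_apply i).comp measurable_fst).mul_const _
  have hT : Measurable fun ξ : Fin n → ℝ => (udir ξ, normSqF ξ) :=
    measurable_udir.prodMk measurable_normSqF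
  have e : (fun ξ : Fin n → ℝ => Real.exp (∑ i, ξ i * y i) * F (normSqF ξ)) =
      Φ ∘ fun ξ => (udir ξ, normSqF ξ) := by
    funext ξ
    simp only [Φ, Function.comp, mul_sum, ← mul_assoc, sqrt_mul_udir]
  have hΦi : Integrable Φ ((unitUnif (Fin n)).prod ν) := by
    rw [← map_polar, integrable_map_measure hΦ.aestronglyMeasurable hT.aemeasurable, ← e]
    exact hi
  have hin : ∀ t, ∫ θ, Φ (θ, t) ∂unitUnif (Fin n) = sphM n (Real.sqrt t) y * F t := fun t => by
    have hΦt : Measurable fun θ : Fin n → ℝ => Φ (θ, t) :=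
      hΦ.comp (measurable_id.prodMk measurable_const)
    rw [← map_udir, integral_map measurable_udir.aemeasurable hΦt.aestronglyMeasurable]
    simp only [Φ]
    rw [integral_mul_const]
    rfl
  have hG : Integrable (fun t => sphM n (Real.sqrt t) y * F t) ν := by
    have := hΦi.integral_prod_right
    simpa only [hin] using this
  refine ⟨(integrable_map_measure hG.aestronglyMeasurable
    measurable_normSqF.aemeasurable).1 hG, ?_⟩
  calc ∫ ξ, Real.exp (∑ i, ξ i * y i) * F (normSqF ξ) ∂gauss (Fin n)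
        = ∫ ξ, (Φ ∘ fun ξ => (udir ξ, normSqF ξ)) ξ ∂gauss (Fin n) := by rw [← e]
    _ = ∫ p, Φ p ∂((unitUnif (Fin n)).prod ν) := by
        rw [← map_polar, integral_map hT.aemeasurable hΦ.aestronglyMeasurable]; rfl
    _ = ∫ t, sphM n (Real.sqrt t) y * F t ∂ν := by
        rw [integral_prod_symm _ hΦi]; simp only [hin]
    _ = _ := integral_map measurable_normSqF.aemeasurable hG.aestronglyMeasurable

/-- The Gaussian window of squared lengths. -/
def win (n : ℕ) (η : ℝ) : Set ℝ := Set.Icc (n * (1 - η)) (n * (1 + η))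

/-- The mass of the window. -/
noncomputable def winMass (n : ℕ) (η : ℝ) : ℝ := (gauss (Fin n)).real (normSqF ⁻¹' win n η)

/-- The exponential tilt `exp (ξ·y - s|ξ|²/2)` of a Gaussian vector. -/
lemma tilt_eq {s : ℝ} (hs : 0 < 1 + s) (y : Fin n → ℝ) :
    Integrable (fun ξ => Real.exp (∑ i, ξ i * y i) * Real.exp (-(s * normSqF ξ) / 2))
        (gauss (Fin n)) ∧
      ∫ ξ, Real.exp (∑ i, ξ i * y i) * Real.exp (-(s * normSqF ξ) / 2) ∂gauss (Fin n) =
        Real.exp (qd n (1 + s) (-(n / 2 * Real.log (1 + s))) y) := by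
  have h := integral_exp_diag (p := -(s / 2)) (by linarith) y
  have e : (fun ξ => Real.exp (∑ i, ξ i * y i) * Real.exp (-(s * normSqF ξ) / 2)) =
      fun ξ => Real.exp (-(s / 2) * normSqF ξ + ∑ i, y i * ξ i) := by
    funext ξ
    rw [← Real.exp_add]
    simp only [mul_comm (y _)]
    ring_nf
  rw [e]
  refine ⟨h.1, h.2.trans ?_⟩
  rw [qd, show (1 : ℝ) - 2 * -(s / 2) = 1 + s by ring, sub_eq_add_neg]

lemma winMass_pos (hn : 0 < n) {η : ℝ} (hη : 0 < η) : 0 < winMass n η := by
  have hn' : (0 : ℝ) < n := by exact_mod_cast hn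
  set O : Set (Fin n → ℝ) := normSqF ⁻¹' Set.Ioo (n * (1 - η)) (n * (1 + η))
  have hO : IsOpen O := isOpen_Ioo.preimage (by unfold normSqF; fun_prop)
  have hne : O.Nonempty := ⟨fun _ => 1, by simp [O, normSqF, hn', hη]⟩
  have hvol : (volume : Measure (Fin n → ℝ)) O ≠ 0 := (hO.measure_pos volume hne).ne'
  have hac : (volume : Measure (Fin n → ℝ)) ≪ gauss (Fin n) := by
    rw [gauss_eq_withDensity]
    refine withDensity_absolutelyContinuous' (Measurable.aemeasurable (Measurable.ennreal_ofReal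
      (Finset.measurable_prod _ fun i _ =>
        (measurable_gaussianPDFReal 0 1).comp (measurable_pi_apply i)))) (.of_forall fun ξ => ?_)
    rw [Ne, ENNReal.ofReal_eq_zero, not_le]
    exact prod_pos fun i _ => gaussianPDFReal_pos 0 1 _ one_ne_zero
  have hg : gauss (Fin n) O ≠ 0 := fun h => hvol (hac h)
  refine lt_of_lt_of_le (ENNReal.toReal_pos hg (measure_ne_top _ _))
    (measureReal_mono (Set.preimage_mono Set.Ioo_subset_Icc_self))

lemma normSq_moment (n : ℕ) :
    Integrable (fun ξ : Fin n → ℝ => (normSqF ξ - n) ^ 2) (gauss (Fin n)) ∧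
      ∫ ξ, (normSqF ξ - n) ^ 2 ∂gauss (Fin n) = sqVar * n := by
  obtain ⟨hi, he, hi2, he2⟩ := weighted_sq_moments (ι := Fin n) fun _ => 1
  have hsq : ∀ ξ : Fin n → ℝ, ∑ i, (1 : ℝ) * ξ i ^ 2 = normSqF ξ := fun ξ => by
    simp [normSqF]
  simp only [hsq] at hi he hi2 he2
  simp only [one_pow, sum_const, card_univ, Fintype.card_fin, nsmul_eq_mul, mul_one] at he he2
  have hI : Integrable (fun ξ : Fin n → ℝ => (normSqF ξ - n) ^ 2) (gauss (Fin n)) := by
    refine ((hi2.sub (hi.const_mul (2 * (n : ℝ)))).add (integrable_const ((n : ℝ) ^ 2))).congr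
      (.of_forall fun ξ => ?_)
    simp only [Pi.add_apply, Pi.sub_apply, normSqF]
    ring
  have hval : ∫ ξ, (normSqF ξ - n) ^ 2 ∂gauss (Fin n) = sqVar * n := by
    have e : ∀ ξ : Fin n → ℝ, (normSqF ξ - n) ^ 2 =
        normSqF ξ ^ 2 - 2 * n * normSqF ξ + (n : ℝ) ^ 2 := fun ξ => by ring
    simp only [e]
    rw [integral_add (hi2.sub' (hi.const_mul _)) (integrable_const _),
      integral_sub hi2 (hi.const_mul _), integral_const_mul, he2, he]
    simp
    ring
  exact ⟨hI, hval⟩

lemma one_sub_winMass_le (hn : 0 < n) {η : ℝ} (hη : 0 < η) :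
    1 - winMass n η ≤ sqVar / (n * η ^ 2) := by
  have hn' : (0 : ℝ) < n := by exact_mod_cast hn
  obtain ⟨hI, hval⟩ := normSq_moment n
  have hm := mul_meas_ge_le_integral_of_nonneg (μ := gauss (Fin n))
    (.of_forall fun ξ => sq_nonneg _) hI ((n * η) ^ 2)
  rw [hval] at hm
  have hsub : (normSqF ⁻¹' win n η)ᶜ ⊆ {ξ : Fin n → ℝ | (n * η) ^ 2 ≤ (normSqF ξ - n) ^ 2} := by
    intro ξ hξ
    simp only [Set.mem_compl_iff, Set.mem_preimage, win, Set.mem_Icc, not_and_or, not_le] at hξ
    simp only [Set.mem_setOf_eq]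
    have := mul_pos hn' hη
    rcases hξ with h | h <;> nlinarith [h, this]
  have h1 : 1 - winMass n η ≤ (gauss (Fin n)).real
      {ξ : Fin n → ℝ | (n * η) ^ 2 ≤ (normSqF ξ - n) ^ 2} := by
    have hc : (gauss (Fin n)).real (normSqF ⁻¹' win n η)ᶜ = 1 - winMass n η := by
      rw [measureReal_compl (s := normSqF ⁻¹' win n η) (measurable_normSqF measurableSet_Icc),
        probReal_univ, winMass]
    rw [← hc]
    exact measureReal_mono hsub
  rw [le_div_iff₀ (by positivity)]
  have h2 := mul_le_mul_of_nonneg_left h1 (sq_nonneg ((n : ℝ) * η))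
  refine le_of_mul_le_mul_left ?_ hn'
  nlinarith

/-- The penalty of the window, per coordinate. -/
noncomputable def winPen (n : ℕ) (η : ℝ) : ℝ := -Real.log (winMass n η) / n

lemma winPen_nonneg (n : ℕ) (η : ℝ) : 0 ≤ winPen n η :=
  div_nonneg (neg_nonneg.2 (Real.log_nonpos measureReal_nonneg measureReal_le_one))
    (Nat.cast_nonneg n)

lemma tendsto_winPen {η : ℝ} (hη : 0 < η) : Tendsto (fun n => winPen n η) atTop (𝓝 0) := by
  have h1 : Tendsto (fun n : ℕ => winMass n η) atTop (𝓝 1) := by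
    have h0 : Tendsto (fun n : ℕ => 1 - sqVar / (n * η ^ 2)) atTop (𝓝 1) := by
      have : Tendsto (fun n : ℕ => sqVar / η ^ 2 / (n : ℝ)) atTop (𝓝 0) :=
        tendsto_const_div_atTop_nhds_zero_nat _
      simpa [div_div, mul_comm] using this.const_sub 1
    refine tendsto_of_tendsto_of_tendsto_of_le_of_le' h0 tendsto_const_nhds
      ((eventually_gt_atTop 0).mono fun n hn => ?_) (.of_forall fun n => measureReal_le_one)
    linarith [one_sub_winMass_le hn hη]
  have h2 : Tendsto (fun n : ℕ => -Real.log (winMass n η)) atTop (𝓝 0) := by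
    simpa using ((Real.continuousAt_log one_ne_zero).tendsto.comp h1).neg
  exact h2.div_atTop tendsto_natCast_atTop_atTop

/-- The tilt dominates the sphere of a slightly smaller radius. -/
lemma sphU_le_tilt (hn : 0 < n) {b η : ℝ} (hb : 1 ≤ b) (hη : 0 < η) (hη1 : η < 1)
    (y : Fin n → ℝ) :
    sphU n (fun i => Real.sqrt (1 - η) * y i) ≤
      qd n b (n * (winPen n η + (b - 1) * (1 + η) / 2 - Real.log b / 2)) y := by
  have : Nonempty (Fin n) := ⟨⟨0, hn⟩⟩
  have hn' : (0 : ℝ) < n := by exact_mod_cast hn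
  set a := (b - 1) * (n * (1 + η)) / 2
  set S : Set (Fin n → ℝ) := normSqF ⁻¹' win n η
  have hS : MeasurableSet S := measurable_normSqF measurableSet_Icc
  obtain ⟨hi, he⟩ := tilt_eq (n := n) (s := b - 1) (by linarith) y
  rw [show 1 + (b - 1) = b by ring] at he
  obtain ⟨hi', he'⟩ := tilt_polar (F := fun t => Real.exp (-((b - 1) * t) / 2)) (by fun_prop) y hi
  rw [he'] at he
  have hlow : sphM n (Real.sqrt (n * (1 - η))) y * Real.exp (-a) * winMass n η ≤
      Real.exp (qd n b (-(n / 2 * Real.log b)) y) := by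
    rw [← he]
    have h0 : ∀ ξ, S.indicator (fun _ => sphM n (Real.sqrt (n * (1 - η))) y * Real.exp (-a)) ξ ≤
        sphM n (Real.sqrt (normSqF ξ)) y * Real.exp (-((b - 1) * normSqF ξ) / 2) := by
      intro ξ
      have hpos : 0 < sphM n (Real.sqrt (normSqF ξ)) y :=
        lt_of_lt_of_le one_pos (one_le_sphM _ y)
      by_cases hξ : ξ ∈ S
      · rw [Set.indicator_of_mem hξ]
        have hξ' : normSqF ξ ∈ win n η := hξ
        refine mul_le_mul (sphM_mono ?_ y) (Real.exp_le_exp.2 ?_) (Real.exp_pos _).le hpos.le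
        · rw [abs_of_nonneg (Real.sqrt_nonneg _), abs_of_nonneg (Real.sqrt_nonneg _)]
          exact Real.sqrt_le_sqrt hξ'.1
        · have := mul_le_mul_of_nonneg_left hξ'.2 (by linarith : (0 : ℝ) ≤ b - 1)
          simp only [a]; linarith
      · rw [Set.indicator_of_notMem hξ]
        exact mul_nonneg hpos.le (Real.exp_pos _).le
    refine le_trans (le_of_eq ?_) (integral_mono ((integrable_const _).indicator hS) hi' h0)
    rw [integral_indicator_const _ hS, winMass, smul_eq_mul]
    ring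
  have hpos : 0 < sphM n (Real.sqrt (n * (1 - η))) y := lt_of_lt_of_le one_pos (one_le_sphM _ y)
  have hm := winMass_pos hn hη
  have hlog := Real.log_le_log (by positivity) hlow
  rw [Real.log_mul (by positivity) hm.ne', Real.log_mul hpos.ne' (Real.exp_ne_zero _),
    Real.log_exp, Real.log_exp] at hlog
  rw [sphU_smul (by linarith)]
  have hw : (n : ℝ) * winPen n η = -Real.log (winMass n η) := by
    unfold winPen; field_simp
  simp only [qd, a] at hlog ⊢
  linarith

/-- The tilt is dominated by the sphere of a slightly larger radius and two other tilts. -/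
lemma tilt_le_max (hn : 0 < n) {b η lam : ℝ} (hb : 1 ≤ b) (hη : 0 < η) (hlam : 0 ≤ lam)
    (hlam' : 2 * lam < b) (y : Fin n → ℝ) :
    qd n b (-(n / 2 * Real.log b)) y ≤
      max (sphU n (fun i => Real.sqrt (1 + η) * y i) + -((b - 1) * (n * (1 - η)) / 2))
        (max (qd n (b - 2 * lam) (-(n / 2 * Real.log (b - 2 * lam)) - lam * (n * (1 + η))) y)
          (qd n (b + 2 * lam) (-(n / 2 * Real.log (b + 2 * lam)) + lam * (n * (1 - η))) y)) +
        Real.log 3 := by
  have : Nonempty (Fin n) := ⟨⟨0, hn⟩⟩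
  obtain ⟨hi, he⟩ := tilt_eq (n := n) (s := b - 1) (by linarith) y
  rw [show 1 + (b - 1) = b by ring] at he
  obtain ⟨hiY, heY⟩ := tilt_eq (n := n) (s := b - 1 - 2 * lam) (by linarith) y
  rw [show 1 + (b - 1 - 2 * lam) = b - 2 * lam by ring] at heY
  obtain ⟨hiZ, heZ⟩ := tilt_eq (n := n) (s := b - 1 + 2 * lam) (by linarith) y
  rw [show 1 + (b - 1 + 2 * lam) = b + 2 * lam by ring] at heZ
  set a := (b - 1) * (n * (1 - η)) / 2
  set cY := lam * (n * (1 + η))
  set cZ := lam * (n * (1 - η))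
  set F : ℝ → ℝ := fun t => (win n η).indicator (fun _ => Real.exp (-a)) t
  have hF : Measurable F := measurable_const.indicator measurableSet_Icc
  set P : (Fin n → ℝ) → ℝ := fun ξ => Real.exp (∑ i, ξ i * y i)
  have hP : Measurable P := by simp only [P]; fun_prop
  have hP0 : Integrable P (gauss (Fin n)) := by
    refine (tilt_eq (n := n) (s := 0) (by norm_num) y).1.congr (.of_forall fun ξ => ?_)
    simp [P]
  have hiX : Integrable (fun ξ => P ξ * F (normSqF ξ)) (gauss (Fin n)) := by
    refine (hP0.const_mul (Real.exp (-a))).mono'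
      (hP.mul (hF.comp measurable_normSqF)).aestronglyMeasurable (.of_forall fun ξ => ?_)
    simp only [F, Set.indicator, P]
    split_ifs <;> simp [abs_of_pos, Real.exp_pos, mul_comm, (mul_pos (Real.exp_pos _)
      (Real.exp_pos _)).le]
  obtain ⟨hiX', heX⟩ := tilt_polar hF y hiX
  set m := sphM n (Real.sqrt (n * (1 + η))) y
  have hm : 0 < m := lt_of_lt_of_le one_pos (one_le_sphM _ y)
  have hX : ∫ ξ, P ξ * F (normSqF ξ) ∂gauss (Fin n) ≤ m * Real.exp (-a) := by
    rw [heX]
    refine (integral_mono hiX' (integrable_const (m * Real.exp (-a))) fun ξ => ?_).trans_eq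
      (by simp)
    simp only [F, Set.indicator]
    split_ifs with h
    · refine mul_le_mul_of_nonneg_right (sphM_mono ?_ y) (Real.exp_pos _).le
      rw [abs_of_nonneg (Real.sqrt_nonneg _), abs_of_nonneg (Real.sqrt_nonneg _)]
      exact Real.sqrt_le_sqrt h.2
    · simpa using (mul_pos hm (Real.exp_pos _)).le
  have hpt : ∀ ξ, P ξ * Real.exp (-((b - 1) * normSqF ξ) / 2) ≤ P ξ * F (normSqF ξ) +
      (Real.exp (-cY) * (P ξ * Real.exp (-((b - 1 - 2 * lam) * normSqF ξ) / 2)) +
       Real.exp cZ * (P ξ * Real.exp (-((b - 1 + 2 * lam) * normSqF ξ) / 2))) := by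
    intro ξ
    have hPp : 0 < P ξ := Real.exp_pos _
    set t := normSqF ξ
    have k : ∀ u v : ℝ, Real.exp u * (P ξ * Real.exp v) = P ξ * Real.exp (u + v) := fun u v => by
      rw [Real.exp_add]; ring
    rw [k, k, ← mul_add, ← mul_add]
    refine mul_le_mul_of_nonneg_left ?_ hPp.le
    have hA := Real.exp_pos (-cY + -((b - 1 - 2 * lam) * t) / 2)
    have hB := Real.exp_pos (cZ + -((b - 1 + 2 * lam) * t) / 2)
    by_cases ht : t ∈ win n η
    · simp only [F, Set.indicator_of_mem ht]
      have : Real.exp (-((b - 1) * t) / 2) ≤ Real.exp (-a) := Real.exp_le_exp.2 (by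
        have := mul_le_mul_of_nonneg_left ht.1 (by linarith : (0 : ℝ) ≤ b - 1)
        simp only [a]; linarith)
      linarith
    · simp only [F, Set.indicator_of_notMem ht]
      simp only [win, Set.mem_Icc, not_and_or, not_le] at ht
      rcases ht with ht | ht
      · have : Real.exp (-((b - 1) * t) / 2) ≤ Real.exp (cZ + -((b - 1 + 2 * lam) * t) / 2) :=
          Real.exp_le_exp.2 (by
            have := mul_le_mul_of_nonneg_left ht.le hlam
            simp only [cZ]; linarith)
        linarith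
      · have : Real.exp (-((b - 1) * t) / 2) ≤ Real.exp (-cY + -((b - 1 - 2 * lam) * t) / 2) :=
          Real.exp_le_exp.2 (by
            have := mul_le_mul_of_nonneg_left ht.le hlam
            simp only [cY]; linarith)
        linarith
  have hYZ := (hiY.const_mul (Real.exp (-cY))).fun_add (hiZ.const_mul (Real.exp cZ))
  have hsum := integral_mono hi (hiX.fun_add hYZ) hpt
  rw [he, integral_add hiX hYZ, integral_add (hiY.const_mul _) (hiZ.const_mul _),
    integral_const_mul, integral_const_mul, heY, heZ, ← Real.exp_add, ← Real.exp_add] at hsum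
  set X := sphU n (fun i => Real.sqrt (1 + η) * y i) + -a with hXd
  set Y := qd n (b - 2 * lam) (-(n / 2 * Real.log (b - 2 * lam)) - cY) y with hYd
  set Z := qd n (b + 2 * lam) (-(n / 2 * Real.log (b + 2 * lam)) + cZ) y with hZd
  have eX : m * Real.exp (-a) = Real.exp X := by
    rw [hXd, Real.exp_add, sphU_smul (by linarith), Real.exp_log hm]
  have eY : -cY + qd n (b - 2 * lam) (-(n / 2 * Real.log (b - 2 * lam))) y = Y := by
    rw [hYd]; simp only [qd]; ring
  have eZ : cZ + qd n (b + 2 * lam) (-(n / 2 * Real.log (b + 2 * lam))) y = Z := by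
    rw [hZd]; simp only [qd]; ring
  rw [eY, eZ] at hsum
  set M := max X (max Y Z)
  have hb1 := Real.exp_le_exp.2 (le_max_left X (max Y Z))
  have hb2 := Real.exp_le_exp.2 ((le_max_left Y Z).trans (le_max_right X _))
  have hb3 := Real.exp_le_exp.2 ((le_max_right Y Z).trans (le_max_right X _))
  rw [eX] at hX
  have : Real.exp (qd n b (-(n / 2 * Real.log b)) y) ≤ Real.exp (M + Real.log 3) := by
    rw [Real.exp_add, Real.exp_log (by norm_num : (0 : ℝ) < 3)]
    simp only [P] at hX
    linarith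
  exact Real.exp_le_exp.1 this

end Vale.Agent.P157.Parisi
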