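import Vale.Agent.P157.Parisi.CSAlgebra
import Vale.Agent.P157.Parisi.SphereTilt

/-!
The entropy term of blocks tends to the Crisanti-Sommers expression.
-/

namespace Vale.Agent.P157.Parisi

open MeasureTheory ProbabilityTheory Finset Filter Topology

variable {n K : ℕ} {h q : ℕ → ℝ}

lemma blockField_eq (hn : 0 < n) (h : ℕ → ℝ) :
    blockField n K h = rootVal n K (aOf h) (sphU n) / n - h K / 2 := by
  rw [blockField, blockNest_eq, free_eq_rootVal, logZ_blockLeaf hn]

lemma rootVal_le {a : ℕ → ℝ} {b c : ℝ} (hb : 0 < dq K a b 0) {U : (Fin n → ℝ) → ℝ}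
    (hU : QBound b c U) (h0 : ∀ y, 0 ≤ U y) :
    rootVal n K a U ≤ n * a 0 ^ 2 / (2 * dq K a b 0) + (c + n * cq K a b 0) := by
  have hq := uUp_qbound hb hU (j := K) le_rfl
  rw [Nat.sub_self] at hq
  obtain ⟨hi, he⟩ := root_qd (n := n) (dq K a b 0) (c + n * cq K a b 0) (a 0)
  rw [← he]
  exact integral_mono (root_integrable hb hU h0) hi fun z => hq.le _

/-- The upper bound by a shifted path. -/
lemma blockField_pairing_le (hn : 0 < n) (hh : IsPath h) (hq : IsPath q) {κ η : ℝ} (hκ : 0 < κ)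
    (h1 : q K + κ < 1) (hη : η = κ / (4 * ((K : ℝ) + 1))) :
    blockField n K h + pairing K h q ≤
      sphereEntropy K (fun l => q l + κ) + η / (2 * (1 - (q K + κ))) + winPen n η := by
  have hn' : (0 : ℝ) < n := by exact_mod_cast hn
  have hκ1 : κ < 1 := by linarith [hq.nonneg K]
  have hη0 : 0 < η := by rw [hη]; positivity
  have hη1 : η < 1 := by
    rw [hη, div_lt_one (by positivity)]
    have : (0 : ℝ) ≤ K := Nat.cast_nonneg K
    linarith
  set h' := fun l => 1 / (1 - η) * h l
  have hh' : IsPath h' := hh.smul (one_div_nonneg.2 (by linarith))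
  have hhe : h = fun l => (1 - η) * h' l := by
    funext l
    have : (1 - η) ≠ 0 := by linarith
    simp only [h']
    field_simp
  have hq' : IsPath fun l => q l + κ := hq.add_const hκ.le
  obtain ⟨b, hb1, hb2, hb, hle⟩ := gQ_le_sphereEntropy hh' hq' h1
  have hU : QBound b (n * (winPen n η + (b - 1) * (1 + η) / 2 - Real.log b / 2))
      fun y => sphU n fun i => Real.sqrt (1 - η) * y i :=
    ⟨measurable_sphU.comp (by fun_prop), sphU_le_tilt hn hb1 hη0 hη1⟩
  have hroot := rootVal_le hb hU fun y => sphU_nonneg _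
  rw [← rootVal_scale, ← aOf_smul (by linarith), ← hhe, aOf_sq_zero hh'] at hroot
  have hfield : blockField n K h ≤
      gQ K h' b + winPen n η + (b - 1) * (1 + η) / 2 - (1 - η) * h' K / 2 := by
    rw [blockField_eq hn, ← congrFun hhe K]
    refine sub_le_sub_right ?_ _
    rw [div_le_iff₀ hn']
    refine hroot.trans (le_of_eq ?_)
    rw [gQ]
    ring
  have hp : pairing K h q = (1 - η) * pairing K h' q := by
    rw [hhe, pairing_smul]
  have hp' : pairing K h' q + κ * h' K / (2 * ((K : ℝ) + 1)) ≤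
      pairing K h' fun l => q l + κ := by
    simp only [pairing, mul_add, sum_add_distrib, add_div, ← sum_mul, mul_comm κ (h' K)]
    refine add_le_add le_rfl ?_
    gcongr
    exact single_le_sum (f := h') (fun l _ => hh'.nonneg l) (self_mem_range_succ K)
  have hpn : 0 ≤ pairing K h' q := pairing_nonneg hh' hq
  have ht : 1 / tailMass K (fun l => q l + κ) 0 ≤ 1 / (1 - (q K + κ)) :=
    one_div_le_one_div_of_le (by linarith) (tailMass_ge hq' 0)
  have hb3 : η * (b - 1) ≤ η * (1 / (1 - (q K + κ)) + h' K) :=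
    mul_le_mul_of_nonneg_left (by linarith) hη0.le
  have hκη : κ * h' K / (2 * ((K : ℝ) + 1)) = 2 * η * h' K := by
    rw [hη]; field_simp; ring
  have he : η * (1 / (1 - (q K + κ)) + h' K) = 2 * (η / (2 * (1 - (q K + κ)))) + η * h' K := by
    have : 1 - (q K + κ) ≠ 0 := by linarith
    field_simp
  have := mul_nonneg hη0.le hpn
  have := mul_nonneg hη0.le (hh'.nonneg K)
  nlinarith

lemma isPath_zero : IsPath fun _ => (0 : ℝ) := ⟨monotone_const, le_rfl⟩

instance : Nonempty {h : ℕ → ℝ // IsPath h} := ⟨⟨_, isPath_zero⟩⟩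

lemma bddAbove_blockSet (hn : 0 < n) (K : ℕ) (hq : IsPath q) (h1 : q K < 1) :
    BddAbove (Set.range fun h : {h : ℕ → ℝ // IsPath h} =>
      blockField n K h.1 + pairing K h.1 q) := by
  refine ⟨sphereEntropy K (fun l => q l + (1 - q K) / 2) +
      (1 - q K) / 2 / (4 * ((K : ℝ) + 1)) / (2 * (1 - (q K + (1 - q K) / 2))) +
      winPen n ((1 - q K) / 2 / (4 * ((K : ℝ) + 1))), ?_⟩
  rintro _ ⟨h, rfl⟩
  exact blockField_pairing_le hn h.2 hq (by linarith) (by linarith) rfl

theorem blockEntropy_bddAbove {n : ℕ} (hn : 0 < n) (K : ℕ) {q : ℕ → ℝ} (hq : IsPath q)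
    (h1 : q K < 1) :
    BddAbove (Set.range fun h : {h : ℕ → ℝ // IsPath h} =>
      blockField n K h.1 + (∑ l ∈ Finset.range (K + 1), h.1 l * q l) / (2 * ((K : ℝ) + 1))) :=
  bddAbove_blockSet hn K hq h1

lemma uUp_zero (a : ℕ → ℝ) : ∀ j, (sphNest n K a).uUp (fun _ => 0) j = fun _ => 0 := by
  intro j
  induction j with
  | zero => rfl
  | succ j ih =>
    simp only [Nest.uUp]
    funext y
    simp [ih, stepLog]

lemma blockField_const_zero (hn : 0 < n) (K : ℕ) : blockField n K (fun _ => 0) = 0 := by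
  rw [blockField_eq hn]
  have ha : aOf (fun _ => (0 : ℝ)) = fun l => 0 * (fun _ : ℕ => (1 : ℝ)) l := by
    funext l; simp [aOf]
  have hU : (fun x : Fin n → ℝ => sphU n fun i => 0 * x i) = fun _ => 0 := by
    funext x; simp [sphU, sphM]
  rw [ha, rootVal_scale, hU, rootVal, uUp_zero]
  simp

lemma inv_shift {d s : ℝ} (hd : 1 ≤ d) (hs : |s| ≤ 1 / 2) :
    1 / (d + s) ≤ 1 / d - s / d ^ 2 + 2 * s ^ 2 := by
  obtain ⟨hs1, hs2⟩ := abs_le.1 hs
  have h1 : 0 < d + s := by linarith
  have h2 : (1 : ℝ) / 2 ≤ d ^ 2 * (d + s) := by nlinarith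
  have e : 1 / (d + s) = 1 / d - s / d ^ 2 + s ^ 2 / (d ^ 2 * (d + s)) := by
    field_simp; ring
  have h3 : s ^ 2 / (d ^ 2 * (d + s)) ≤ 2 * s ^ 2 := by
    rw [div_le_iff₀ (by positivity)]
    nlinarith [sq_nonneg s]
  linarith

lemma log_shift {d s : ℝ} (hd : 1 ≤ d) (hs : |s| ≤ 1 / 2) :
    Real.log (d + s) - Real.log d ≤ s / d ∧
      s / d - 2 * s ^ 2 ≤ Real.log (d + s) - Real.log d := by
  obtain ⟨hs1, hs2⟩ := abs_le.1 hs
  have h1 : 0 < d + s := by linarith
  have h0 : 0 < d := by linarith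
  have hA := Real.log_le_sub_one_of_pos (div_pos h1 h0)
  have hB := Real.log_le_sub_one_of_pos (div_pos h0 h1)
  rw [Real.log_div h1.ne' h0.ne'] at hA
  rw [Real.log_div h0.ne' h1.ne'] at hB
  have e1 : (d + s) / d - 1 = s / d := by field_simp; ring
  have e2 : d / (d + s) - 1 = -(s / d) + s ^ 2 / (d * (d + s)) := by field_simp; ring
  have h3 : s ^ 2 / (d * (d + s)) ≤ 2 * s ^ 2 := by
    rw [div_le_iff₀ (by positivity)]
    have : (1 : ℝ) / 2 ≤ d * (d + s) := by nlinarith
    nlinarith [sq_nonneg s]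
  exact ⟨by linarith, by linarith⟩

/-- The quadratic value per coordinate at squared length `r`. -/
noncomputable def qVal (K : ℕ) (a : ℕ → ℝ) (b r : ℝ) : ℝ :=
  r / (2 * dq K a b 0) + cq K a b 0 - Real.log b / 2

lemma dq_shift (a : ℕ → ℝ) (b s : ℝ) (l : ℕ) : dq K a (b + s) l = dq K a b l + s := by
  simp only [dq]; ring

lemma one_le_dq_hStar (hq : IsPath q) (h1 : q K < 1) (l : ℕ) :
    1 ≤ dq K (aOf (hStar K q)) (1 / (1 - q K)) l := by
  refine le_trans ?_ (dq_zero_le K (aOf (hStar K q)) (1 / (1 - q K)) l)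
  rw [dq_hStar hq h1 (Nat.zero_le K), le_div_iff₀ (tailMass_pos hq h1 0), one_mul]
  linarith [tailMass_zero_le (K := K) hq, hq.2]

/-- The variation of the quadratic value under a shift of the multiplier. -/
lemma qVal_shift (hq : IsPath q) (h1 : q K < 1) {s r : ℝ} (hs : |s| ≤ 1 / 2) (hr : 0 ≤ r) :
    qVal K (aOf (hStar K q)) (1 / (1 - q K) + s) r ≤
      qVal K (aOf (hStar K q)) (1 / (1 - q K)) r -
        s / 2 * (1 + (r - hStar K q 0) * tailMass K q 0 ^ 2) +
        s ^ 2 * (r + 2 * ((K : ℝ) + 1) ^ 2) := by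
  set a := aOf (hStar K q)
  set b := 1 / (1 - q K)
  have hd : ∀ l ≤ K, dq K a b l = 1 / tailMass K q l := fun l hl => dq_hStar hq h1 hl
  have hd1 : ∀ l, 1 ≤ dq K a b l := one_le_dq_hStar hq h1
  have hpos : ∀ l, 0 < dq K a b l + s := fun l => by linarith [hd1 l, (abs_le.1 hs).1]
  have hr' : r / (2 * (dq K a b 0 + s)) ≤
      r / (2 * dq K a b 0) - s / 2 * r * tailMass K q 0 ^ 2 + r * s ^ 2 := by
    have hi := mul_le_mul_of_nonneg_left (inv_shift (hd1 0) hs) (div_nonneg hr zero_le_two)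
    have e : s / dq K a b 0 ^ 2 = s * tailMass K q 0 ^ 2 := by
      rw [hd 0 (Nat.zero_le K), one_div, inv_pow, div_inv_eq_mul]
    rw [e] at hi
    have e1 : r / (2 * (dq K a b 0 + s)) = r / 2 * (1 / (dq K a b 0 + s)) := by
      rw [div_mul_div_comm, mul_one]
    have e2 : r / (2 * dq K a b 0) = r / 2 * (1 / dq K a b 0) := by
      rw [div_mul_div_comm, mul_one]
    rw [e1, e2]
    refine hi.trans_eq ?_
    ring
  have hc : cq K a (b + s) 0 ≤
      cq K a b 0 + ∑ i ∈ range K, (-(s / 2) * (q (i + 1) - q i) + 2 * s ^ 2 * ((K : ℝ) + 1)) := by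
    simp only [cq, Nat.Ico_zero_eq_range, dq_shift, ← sum_add_distrib]
    refine sum_le_sum fun i hi => ?_
    have hiK : i < K := mem_range.1 hi
    have hm := lvl_succ_pos K i
    obtain ⟨hu, -⟩ := log_shift (hd1 (i + 1)) hs
    obtain ⟨-, hl⟩ := log_shift (hd1 i) hs
    have p := fun j => (lt_of_lt_of_le one_pos (hd1 j)).ne'
    rw [Real.log_div (hpos _).ne' (hpos _).ne', Real.log_div (p _) (p _)]
    have hδ : s / dq K a b (i + 1) - s / dq K a b i = -(s * (lvl K (i + 1) * (q (i + 1) - q i))) := by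
      rw [hd _ hiK, hd _ hiK.le, div_div_eq_mul_div, div_div_eq_mul_div, div_one, div_one,
        tailMass_succ hiK]
      ring
    have hm' : 1 ≤ lvl K (i + 1) * ((K : ℝ) + 1) := by
      unfold lvl
      rw [div_mul_cancel₀ _ (by positivity)]
      simp
    rw [← sub_le_iff_le_add', ← sub_div, div_le_iff₀ (by positivity)]
    nlinarith [sq_nonneg s]
  rw [sum_add_distrib, ← mul_sum, sum_range_sub q, sum_const, card_range, nsmul_eq_mul] at hc
  have hb : s * (1 - q K) - 2 * s ^ 2 ≤ Real.log (b + s) - Real.log b := by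
    have := (log_shift (hd1 K) hs).2
    rw [dq_top] at this
    simpa [b, div_div_eq_mul_div] using this
  have h0 : hStar K q 0 * tailMass K q 0 ^ 2 = q 0 := by
    have := tailMass_pos hq h1 0
    simp [hStar]
    field_simp
  simp only [qVal, dq_shift]
  rw [sub_mul r, h0]
  have hK : (0 : ℝ) ≤ K := Nat.cast_nonneg K
  nlinarith [mul_nonneg (sq_nonneg s) hK]

lemma qd_qVal (hn : 0 < n) (a : ℕ → ℝ) (b e : ℝ) (y : Fin n → ℝ) :
    qd n (dq K a b 0) (-(n / 2 * Real.log b) + e + n * cq K a b 0) y =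
      n * qVal K a b (normSqF y / n) + e := by
  have : (n : ℝ) ≠ 0 := by exact_mod_cast hn.ne'
  rw [qd, qVal]
  field_simp
  ring

lemma cq_hStar_le (hq : IsPath q) (h1 : q K < 1) :
    cq K (aOf (hStar K q)) (1 / (1 - q K)) 0 ≤ ((K : ℝ) + 1) / 2 * (1 / (1 - q K)) := by
  set a := aOf (hStar K q)
  set b := 1 / (1 - q K)
  have hd1 : ∀ l, 1 ≤ dq K a b l := one_le_dq_hStar hq h1
  have p : ∀ l, 0 < dq K a b l := fun l => lt_of_lt_of_le one_pos (hd1 l)
  calc cq K a b 0 ≤
        ∑ i ∈ range K, ((K : ℝ) + 1) / 2 * (Real.log (dq K a b (i + 1)) - Real.log (dq K a b i)) := by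
        simp only [cq, Nat.Ico_zero_eq_range]
        refine sum_le_sum fun i hi => ?_
        rw [Real.log_div (p _).ne' (p _).ne', lvl]
        have hnn : 0 ≤ Real.log (dq K a b (i + 1)) - Real.log (dq K a b i) := by
          refine sub_nonneg.2 (Real.log_le_log (p i) ?_)
          rw [dq_succ a b (mem_range.1 hi)]
          exact sub_le_self _ (mul_nonneg (lvl_nonneg _ _) (sq_nonneg _))
        rw [mul_div_assoc', div_div_eq_mul_div, mul_comm]
        refine le_of_eq_of_le ?_ (mul_le_mul_of_nonneg_right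
          (div_le_self (by positivity : (0 : ℝ) ≤ ((K : ℝ) + 1) / 2) (b := ((i + 1 : ℕ) : ℝ))
            (by simp)) hnn)
        field_simp
    _ ≤ ((K : ℝ) + 1) / 2 * b := by
        rw [← mul_sum, sum_range_sub (fun i => Real.log (dq K a b i)), dq_top]
        refine mul_le_mul_of_nonneg_left ?_ (by positivity)
        have := Real.log_le_sub_one_of_pos (x := b) (by simpa [dq_top] using p K)
        have := Real.log_nonneg (hd1 0)
        linarith

/-- Near the typical length both side tilts lose a linear amount. -/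
lemma qVal_near (hq : IsPath q) (h1 : q K < 1) {η lam r A : ℝ} (hη : 0 < η) (hlam : 0 < lam)
    (hlam1 : 2 * lam ≤ 1 / 2) (hr : 0 ≤ r) (hin : |r - hStar K q 0| ≤ η / 4)
    (hA : r + 2 * ((K : ℝ) + 1) ^ 2 ≤ A) (hlamA : 16 * lam * A ≤ η) :
    qVal K (aOf (hStar K q)) (1 / (1 - q K) + -(2 * lam)) r - lam * (1 + η) ≤
        qVal K (aOf (hStar K q)) (1 / (1 - q K)) r - lam * η / 2 ∧
      qVal K (aOf (hStar K q)) (1 / (1 - q K) + 2 * lam) r + lam * (1 - η) ≤
        qVal K (aOf (hStar K q)) (1 / (1 - q K)) r - lam * η / 2 := by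
  set t := tailMass K q 0
  have ht2 : t ^ 2 ≤ 1 := by
    have := tailMass_pos hq h1 0
    have := tailMass_zero_le (K := K) hq
    exact pow_le_one₀ (by positivity) (by linarith [hq.2])
  have hdev : |(r - hStar K q 0) * t ^ 2| ≤ η / 4 := by
    rw [abs_mul, abs_of_nonneg (sq_nonneg t)]
    exact (mul_le_of_le_one_right (abs_nonneg _) ht2).trans hin
  obtain ⟨d1, d2⟩ := abs_le.1 hdev
  have l1 := mul_le_mul_of_nonneg_left d1 hlam.le
  have l2 := mul_le_mul_of_nonneg_left d2 hlam.le
  have hsq : (2 * lam) ^ 2 * (r + 2 * ((K : ℝ) + 1) ^ 2) ≤ lam * η / 4 := by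
    refine (mul_le_mul_of_nonneg_left hA (sq_nonneg _)).trans ?_
    have := mul_le_mul_of_nonneg_left hlamA hlam.le
    linarith
  have sY := qVal_shift hq h1 (s := -(2 * lam)) (by rw [abs_neg, abs_of_pos] <;> linarith) hr
  have sZ := qVal_shift hq h1 (s := 2 * lam) (by rw [abs_of_pos] <;> linarith) hr
  rw [neg_sq] at sY
  exact ⟨by linarith, by linarith⟩

lemma qVal_far_const (hq : IsPath q) (h1 : q K < 1) {θ : ℝ} (hθ : 0 < θ) (hθ1 : θ ≤ 1 - q K) :
    hStar K q 0 + ((K : ℝ) + 2) / 2 * (1 / (1 - q K)) ≤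
      1 / θ ^ 2 + ((K : ℝ) + 2) / θ := by
  refine add_le_add (hStar_le hq h1 hθ hθ1).1 ?_
  rw [div_eq_mul_one_div _ θ]
  have : 0 < 1 - q K := by linarith
  have h := one_div_le_one_div_of_le hθ hθ1
  have hK : (0 : ℝ) ≤ K := Nat.cast_nonneg K
  have : 0 ≤ 1 / (1 - q K) := by positivity
  refine mul_le_mul ?_ h this (by linarith)
  linarith

/-- Away from the typical length the loss is paid by the quadratic penalty. -/
lemma qVal_far (hq : IsPath q) (h1 : q K < 1) {η r B : ℝ} (hη : 0 < η) (hη1 : η ≤ 1)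
    (hB : 0 < B) (hr : 0 ≤ r) (hout : η / 4 < |r - hStar K q 0|)
    (hconst : hStar K q 0 + ((K : ℝ) + 2) / 2 * (1 / (1 - q K)) ≤ B) :
    qVal K (aOf (hStar K q)) (1 / (1 - q K)) r + (1 / (1 - q K) - 1) * (1 - η) / 2 ≤
      (4 / η + 16 * B / η ^ 2) * (r - hStar K q 0) ^ 2 := by
  set a := aOf (hStar K q)
  set b := 1 / (1 - q K)
  set h0 := hStar K q 0
  have hd1 : ∀ l, 1 ≤ dq K a b l := one_le_dq_hStar hq h1
  have hb1 : 1 ≤ b := by simpa [dq_top] using hd1 K
  have hcb : cq K a b 0 ≤ ((K : ℝ) + 1) / 2 * b := cq_hStar_le hq h1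
  have hlogb := Real.log_nonneg hb1
  have hrd : r / (2 * dq K a b 0) ≤ r / 2 :=
    div_le_div_of_nonneg_left hr two_pos (by linarith [hd1 0])
  have hbe : (b - 1) * (1 - η) ≤ b := by
    have := mul_nonneg (sub_nonneg.2 hb1) hη.le
    linarith
  have h0nn : 0 ≤ h0 := (isPath_hStar hq h1).nonneg 0
  have habs : 0 ≤ |r - h0| := abs_nonneg _
  have hbound : qVal K a b r + (b - 1) * (1 - η) / 2 ≤ |r - h0| + B := by
    simp only [qVal]
    linarith [le_abs_self (r - h0)]
  refine hbound.trans ?_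
  have hx2 : η / 4 * |r - h0| ≤ (r - h0) ^ 2 := by
    rw [← sq_abs, sq]
    exact mul_le_mul_of_nonneg_right hout.le habs
  have hx3 : η ^ 2 / 16 ≤ (r - h0) ^ 2 := by
    rw [← sq_abs (r - h0)]
    calc η ^ 2 / 16 = (η / 4) ^ 2 := by ring
      _ ≤ _ := pow_le_pow_left₀ (by linarith) hout.le 2
  have k1 := mul_le_mul_of_nonneg_left hx2 (by positivity : 0 ≤ 4 / η)
  have k2 := mul_le_mul_of_nonneg_left hx3 (by positivity : 0 ≤ 16 * B / η ^ 2)
  have e1 : 4 / η * (η / 4 * |r - h0|) = |r - h0| := by field_simp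
  have e2 : 16 * B / η ^ 2 * (η ^ 2 / 16) = B := by field_simp
  linarith

/-- The lower bound, uniformly on paths kept away from one. -/
lemma exists_field_ge (K : ℕ) {θ ε : ℝ} (hθ : 0 < θ) (hε : 0 < ε) :
    ∀ᶠ n : ℕ in atTop, ∀ q, IsPath q → q K < 1 → θ ≤ 1 - q K →
      ∃ h, IsPath h ∧ sphereEntropy K q - ε ≤ blockField n K h + pairing K h q := by
  set H : ℝ := 1 / θ ^ 2
  set B : ℝ := 1 / θ ^ 2 + ((K : ℝ) + 2) / θ
  have hB : 0 < B := by positivity
  set η : ℝ := min (1 / 2) (ε / (2 * B))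
  have hη : 0 < η := lt_min (by norm_num) (by positivity)
  have hη1 : η ≤ 1 / 2 := min_le_left _ _
  have hηB : η * B ≤ ε / 2 := by
    refine (mul_le_mul_of_nonneg_right (min_le_right _ _) hB.le).trans_eq ?_
    field_simp
  set A : ℝ := H + 1 + 2 * ((K : ℝ) + 1) ^ 2
  have hA : 1 ≤ A := by
    have : 0 ≤ H := by positivity
    have : (0 : ℝ) ≤ 2 * ((K : ℝ) + 1) ^ 2 := by positivity
    simp only [A]; linarith
  set lam : ℝ := η / (16 * A) with hlamdef
  have hlam : 0 < lam := by positivity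
  have hlam1 : 2 * lam ≤ 1 / 2 := by
    rw [hlamdef, mul_div_assoc', div_le_iff₀ (by positivity)]
    linarith
  set c : ℝ := Real.log 3 + K * ((K : ℝ) + 1) * Real.log 3
  have hc : 0 ≤ c := by have := Real.log_nonneg (by norm_num : (1 : ℝ) ≤ 3); positivity
  set κ : ℝ := 4 / η + 16 * B / η ^ 2
  have hκ : 0 ≤ κ := by positivity
  have hv : 0 ≤ sqVar := variance_nonneg _ _
  have ev1 : ∀ᶠ n : ℕ in atTop, c < n * (lam * η / 2) :=
    (tendsto_natCast_atTop_atTop.atTop_mul_const (by positivity)).eventually_gt_atTop c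
  have ev2 : ∀ᶠ n : ℕ in atTop, (c + κ * H ^ 2 * sqVar) / n ≤ ε / 2 :=
    ((tendsto_const_div_atTop_nhds_zero_nat _).eventually (eventually_le_nhds (half_pos hε)))
  filter_upwards [ev1, ev2, eventually_gt_atTop 0] with n hn1 hn2 hn q hq h1 hθ1
  have hn' : (0 : ℝ) < n := by exact_mod_cast hn
  have hpath := isPath_hStar hq h1
  obtain ⟨hH, hHK⟩ := hStar_le hq h1 hθ hθ1
  set hs := hStar K q
  set a := aOf hs with ha
  set b := 1 / (1 - q K)
  set h0 := hs 0 with hh0
  have hd1 : ∀ l, 1 ≤ dq K a b l := one_le_dq_hStar hq h1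
  have hb1 : 1 ≤ b := by simpa [dq_top] using hd1 K
  have hbθ : b ≤ 1 / θ := one_div_le_one_div_of_le hθ hθ1
  have hb0 : 0 < dq K a b 0 := lt_of_lt_of_le one_pos (hd1 0)
  have hbY : 0 < dq K a (b - 2 * lam) 0 := by
    rw [sub_eq_add_neg, dq_shift]; linarith [hd1 0]
  have hbZ : 0 < dq K a (b + 2 * lam) 0 := by rw [dq_shift]; linarith
  set U : (Fin n → ℝ) → ℝ := fun y => sphU n fun i => Real.sqrt (1 + η) * y i
  have hU : QBound b (n * ((1 + η) * b) / 2) U :=
    sphU_smul_qbound (by linarith) (by linarith)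
  have hU0 : ∀ y, 0 ≤ U y := fun y => sphU_nonneg _
  set e := (b - 1) * (n * (1 - η)) / 2
  have he0 : 0 ≤ e := by
    have : 0 ≤ 1 - η := by linarith
    have : 0 ≤ b - 1 := by linarith
    positivity
  have hX : QBound b (n * ((1 + η) * b) / 2 + -e) fun y => U y + -e :=
    ⟨hU.meas.add_const _, fun y => by rw [← qd_add]; linarith [hU.le y]⟩
  have hmax := uUp_max3 (W := qd n b (-(n / 2 * Real.log b)))
    (Y := qd n (b - 2 * lam) (-(n / 2 * Real.log (b - 2 * lam)) - lam * (n * (1 + η))))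
    (Z := qd n (b + 2 * lam) (-(n / 2 * Real.log (b + 2 * lam)) + lam * (n * (1 - η))))
    hb0 hb0 hbY hbZ (QBound.qd_self _ _) hX (QBound.qd_self _ _) (QBound.qd_self _ _)
    (tilt_le_max hn hb1 hη hlam.le (by linarith)) (j := K) le_rfl
  rw [uUp_qd hb0 _ le_rfl, uUp_qd hbY _ le_rfl, uUp_qd hbZ _ le_rfl, Nat.sub_self] at hmax
  have key : ∀ z : Fin n → ℝ,
      qd n (dq K a b 0) (-(n / 2 * Real.log b) + n * cq K a b 0) (fun i => a 0 * z i) ≤
        (sphNest n K a).uUp U K (fun i => a 0 * z i) +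
          (-e + c + κ * h0 ^ 2 / n * (normSqF z - n) ^ 2) := by
    intro z
    set y : Fin n → ℝ := fun i => a 0 * z i
    set r := normSqF y / n with hr
    have hy : normSqF y = h0 * normSqF z := by
      simp only [y, normSqF, mul_pow, ← mul_sum, ha, aOf_sq_zero hpath, hh0]
    have hpen : κ * h0 ^ 2 / n * (normSqF z - n) ^ 2 = n * (κ * (r - h0) ^ 2) := by
      rw [hr, hy]; field_simp
    have hr0 : 0 ≤ r := div_nonneg (normSqF_nonneg y) hn'.le
    have hXle : (sphNest n K a).uUp (fun y => U y + -e) K y ≤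
        (sphNest n K a).uUp U K y + -e :=
      sphUp_le_add hb0 hX.meas hU (fun _ => le_rfl) le_rfl y
    have hU0' : 0 ≤ (sphNest n K a).uUp U K y := uUp_nonneg hb0 hU hU0 le_rfl y
    have hG : qd n (dq K a b 0) (-(n / 2 * Real.log b) + n * cq K a b 0) y =
        n * qVal K a b r := by
      have := qd_qVal (K := K) hn a b 0 y
      simpa using this
    have hY : qd n (dq K a (b - 2 * lam) 0) (-(n / 2 * Real.log (b - 2 * lam)) -
        lam * (n * (1 + η)) + n * cq K a (b - 2 * lam) 0) y =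
        n * (qVal K a (b + -(2 * lam)) r - lam * (1 + η)) := by
      rw [← sub_eq_add_neg, sub_eq_add_neg _ (lam * _), qd_qVal hn]; ring
    have hZ : qd n (dq K a (b + 2 * lam) 0) (-(n / 2 * Real.log (b + 2 * lam)) +
        lam * (n * (1 - η)) + n * cq K a (b + 2 * lam) 0) y =
        n * (qVal K a (b + 2 * lam) r + lam * (1 - η)) := by
      rw [qd_qVal hn]; ring
    have hm := hmax y
    rw [hG, hY, hZ] at hm
    rw [hG, hpen]
    rcases le_or_gt |r - h0| (η / 4) with hin | hout
    · obtain ⟨gY, gZ⟩ := qVal_near hq h1 hη hlam hlam1 hr0 hin (A := A)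
        (by simp only [A]; linarith [(abs_le.1 hin).2]) (by rw [hlamdef]; field_simp; norm_num)
      have gY' := mul_le_mul_of_nonneg_left gY hn'.le
      have gZ' := mul_le_mul_of_nonneg_left gZ hn'.le
      have hp : 0 ≤ n * (κ * (r - h0) ^ 2) := by positivity
      set X0 := (sphNest n K a).uUp (fun y => U y + -e) K y
      rcases le_total (max (n * (qVal K a (b + -(2 * lam)) r - lam * (1 + η)))
          (n * (qVal K a (b + 2 * lam) r + lam * (1 - η)))) X0 with hcase | hcase
      · rw [max_eq_left hcase] at hm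
        linarith
      · rw [max_eq_right hcase] at hm
        exfalso
        have := max_le gY' gZ'
        linarith
    · have hbound := qVal_far hq h1 hη (by linarith) hB hr0 (B := B) hout
        (qVal_far_const hq h1 hθ hθ1)
      have hnb := mul_le_mul_of_nonneg_left hbound hn'.le
      have ee : e = n * ((b - 1) * (1 - η) / 2) := by simp only [e]; ring
      linarith [mul_add (n : ℝ) (qVal K a b r) ((b - 1) * (1 - η) / 2)]
  obtain ⟨hiW, heW⟩ :=
    root_qd (n := n) (dq K a b 0) (-(n / 2 * Real.log b) + n * cq K a b 0) (a 0)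
  obtain ⟨hI, hval⟩ := normSq_moment n
  have hiU := root_integrable hb0 hU hU0
  have hiP : Integrable (fun z : Fin n → ℝ => -e + c + κ * h0 ^ 2 / n * (normSqF z - n) ^ 2)
      (gauss (Fin n)) := (integrable_const _).fun_add (hI.const_mul _)
  have hint := integral_mono hiW (hiU.fun_add hiP) key
  rw [heW, integral_add hiU hiP, integral_add (integrable_const _) (hI.const_mul _),
    integral_const_mul, hval] at hint
  simp only [integral_const, probReal_univ, one_smul] at hint
  change _ ≤ rootVal n K a U + _ at hint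
  rw [ha, aOf_sq_zero hpath, ← ha, ← rootVal_scale, ← hh0] at hint
  refine ⟨fun l => (1 + η) * hs l, hpath.smul (by linarith), ?_⟩
  rw [blockField_eq hn, aOf_smul (by linarith), pairing_smul]
  set R := rootVal n K (fun l => Real.sqrt (1 + η) * aOf hs l) (sphU n)
  have e1 : κ * h0 ^ 2 / n * (sqVar * n) = κ * h0 ^ 2 * sqVar := by field_simp
  rw [e1] at hint
  have hh2 : κ * h0 ^ 2 * sqVar ≤ κ * H ^ 2 * sqVar := by
    have := hpath.nonneg 0
    gcongr
  have hdiv : gQ K hs b + (b - 1) * (1 - η) / 2 - (c + κ * H ^ 2 * sqVar) / n ≤ R / n := by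
    rw [sub_le_iff_le_add, ← add_div, le_div_iff₀ hn']
    have e2 : (gQ K hs b + (b - 1) * (1 - η) / 2) * n =
        n * h0 / (2 * dq K a b 0) + (-(n / 2 * Real.log b) + n * cq K a b 0) + e := by
      simp only [gQ, e, ← ha, ← hh0]; ring
    rw [e2]
    linarith
  have hid := gQ_hStar hq h1
  have hp0 : 0 ≤ pairing K hs q := pairing_nonneg hpath hq
  have hBb : (b - 1) / 2 + hs K / 2 ≤ B := by
    have : ((K : ℝ) + 2) / θ = ((K : ℝ) + 1) / θ + 1 / θ := by rw [← add_div]; ring
    have : 0 ≤ hs K := hpath.nonneg K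
    simp only [B] at *
    linarith
  have := mul_le_mul_of_nonneg_left hBb hη.le
  have := mul_nonneg hη.le hp0
  linarith

lemma tailMass_add (q : ℕ → ℝ) (κ : ℝ) (l : ℕ) :
    tailMass K (fun i => q i + κ) l = tailMass K q l - κ := by
  simp only [tailMass, add_sub_add_right_eq_sub]; ring

lemma tailMass_smul (q : ℕ → ℝ) (s : ℝ) (l : ℕ) :
    tailMass K (fun i => s * q i) l = 1 - s + s * tailMass K q l := by
  simp only [tailMass, ← mul_sub, mul_left_comm _ s, ← mul_sum]; ring

lemma continuousAt_sphereEntropy {p : ℝ → ℕ → ℝ} {s : ℝ}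
    (hp : ∀ l, ContinuousAt (fun x => p x l) s)
    (ht : ∀ l, 0 < tailMass K (p s) l) :
    ContinuousAt (fun x => sphereEntropy K (p x)) s := by
  have htc : ∀ l, ContinuousAt (fun x => tailMass K (p x) l) s := fun l => by
    unfold tailMass
    exact (continuousAt_const.sub (hp K)).add
      (tendsto_finsetSum _ fun m _ => continuousAt_const.mul ((hp _).sub (hp _)))
  have hK : 0 < 1 - p s K := by simpa [tailMass_top] using ht K
  unfold sphereEntropy
  refine ((((hp 0).div (htc 0) (ht 0).ne').add (tendsto_finsetSum _ fun l _ =>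
    continuousAt_const.mul (((htc l).div (htc _) (ht _).ne').log ?_))).add
    ((continuousAt_const.sub (hp K)).log hK.ne')).div_const 2
  exact (div_pos (ht _) (ht _)).ne'

theorem tendsto_blockEntropy (K : ℕ) {q : ℕ → ℝ} (hq : IsPath q) (h1 : q K < 1) :
    Tendsto (fun n => blockEntropy n K q) atTop (𝓝 (sphereEntropy K q)) := by
  refine tendsto_order.2 ⟨fun a ha => ?_, fun a ha => ?_⟩
  · filter_upwards [exists_field_ge K (sub_pos.2 h1) (half_pos (sub_pos.2 ha)),
      eventually_gt_atTop 0] with n hn hn0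
    obtain ⟨h, hh, hle⟩ := hn q hq h1 le_rfl
    have := le_ciSup (bddAbove_blockSet hn0 K hq h1) ⟨h, hh⟩
    change a < ⨆ h : {h : ℕ → ℝ // IsPath h}, blockField n K h.1 + pairing K h.1 q
    simp only at this
    linarith
  · have hcont : ContinuousAt (fun κ : ℝ => sphereEntropy K (fun l => q l + κ) +
        κ / (4 * ((K : ℝ) + 1)) / (2 * (1 - (q K + κ)))) 0 := by
      refine (continuousAt_sphereEntropy (p := fun κ l => q l + κ)
        (fun l => by fun_prop) fun l => ?_).add ?_
      · simpa using tailMass_pos hq h1 l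
      · refine (continuousAt_id.div_const _).div (by fun_prop) ?_
        simp only [add_zero]
        linarith
    have h0 := hcont.eventually_lt continuousAt_const
      (show sphereEntropy K (fun l => q l + 0) + 0 / (4 * ((K : ℝ) + 1)) /
          (2 * (1 - (q K + 0))) < a by simpa using ha)
    obtain ⟨κ, ⟨hκa, hκ1⟩, hκ⟩ := ((h0.and (eventually_lt_nhds (sub_pos.2 h1))).filter_mono
      nhdsWithin_le_nhds |>.and (self_mem_nhdsWithin (a := (0 : ℝ)) (s := Set.Ioi 0))).exists
    have hκ0 : 0 < κ := hκ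
    have hpen := (tendsto_winPen (η := κ / (4 * ((K : ℝ) + 1))) (by positivity)).eventually
      (eventually_lt_nhds (sub_pos.2 hκa))
    filter_upwards [hpen, eventually_gt_atTop 0] with n hn hn0
    refine lt_of_le_of_lt (ciSup_le fun h =>
      blockField_pairing_le hn0 h.2 hq hκ0 (by linarith) rfl) ?_
    linarith

theorem blockEntropy_lower (K : ℕ) (C : ℝ) {ε : ℝ} (hε : 0 < ε) :
    ∀ᶠ n in atTop, ∀ q, IsPath q → q K < 1 →
      min C (sphereEntropy K q) - ε ≤ blockEntropy n K q := by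
  rcases le_or_gt 0 C with hC | hC
  · obtain ⟨θ, hθ, hgap⟩ := exists_gap K hC
    filter_upwards [exists_field_ge K hθ hε, eventually_gt_atTop 0] with n hn hn0 q hq h1
    have main : ∀ p, IsPath p → p K < 1 → sphereEntropy K p ≤ C → (∀ l, p l ≤ q l) →
        sphereEntropy K p - ε ≤ blockEntropy n K q := by
      intro p hp hp1 hpC hpq
      obtain ⟨h, hh, hle⟩ := hn p hp hp1 (hgap p hp hp1 hpC)
      refine hle.trans (le_trans ?_ (le_ciSup (bddAbove_blockSet hn0 K hq h1) ⟨h, hh⟩))
      refine add_le_add le_rfl ?_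
      simp only [pairing]
      gcongr with l
      · exact hh.nonneg l
      · exact hpq l
    rcases le_or_gt (sphereEntropy K q) C with hS | hS
    · rw [min_eq_right hS]
      exact main q hq h1 hS fun l => le_rfl
    · rw [min_eq_left hS.le]
      have hcont : ContinuousOn (fun s : ℝ => sphereEntropy K fun l => s * q l) (Set.Icc 0 1) :=
        fun s hs => (continuousAt_sphereEntropy (p := fun s l => s * q l) (fun l => by fun_prop)
          fun l => by
            rw [tailMass_smul]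
            have := tailMass_pos hq h1 l
            rcases hs.1.eq_or_lt with h | h
            · simp [← h]
            · have := mul_pos h this
              linarith [hs.2]).continuousWithinAt
      have hmem : C ∈ Set.Icc (sphereEntropy K fun l => 0 * q l)
          (sphereEntropy K fun l => 1 * q l) := by
        simp [sphereEntropy_zero, hC, hS.le]
      obtain ⟨s, ⟨hs0, hs1⟩, hs⟩ := intermediate_value_Icc zero_le_one hcont hmem
      simp only at hs
      have hle : ∀ l, s * q l ≤ q l := fun l => mul_le_of_le_one_left (hq.nonneg l) hs1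
      rw [← hs]
      exact main _ (hq.smul hs0) ((hle K).trans_lt h1) hs.le hle
  · filter_upwards [eventually_gt_atTop 0] with n hn0 q hq h1
    have h := le_ciSup (bddAbove_blockSet hn0 K hq h1) ⟨_, isPath_zero⟩
    simp only [blockField_const_zero hn0, pairing, zero_mul, sum_const_zero, zero_div, add_zero] at h
    refine le_trans ?_ h
    linarith [min_le_left C (sphereEntropy K q)]

end Vale.Agent.P157.Parisi
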