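import Vale.Agent.P157.Parisi.Model
import Vale.Agent.P157.Pressure
import Vale.Agent.P157.Spaces

/-!
The Ising cube as blocks of one spin, and elementary facts on the laws of blocks.
-/

namespace Vale.Agent.P157.Parisi

open MeasureTheory ProbabilityTheory Finset

lemma sphereUnif_eq_map (n : ℕ) :
    sphereUnif n = (unitUnif (Fin n)).map fun a i => Real.sqrt n * a i := by
  have hscale : Measurable fun a : Fin n → ℝ => fun i => Real.sqrt n * a i := by fun_prop
  rw [unitUnif, Measure.map_smul, Measure.map_map hscale measurable_sphereCoord, sphereUnif]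
  rfl

lemma measurable_scale (n : ℕ) :
    Measurable fun (a : Fin n → ℝ) i => Real.sqrt n * a i := by fun_prop

lemma sphereUnif_prob {n : ℕ} (hn : 0 < n) : IsProbabilityMeasure (sphereUnif n) := by
  have : Nonempty (Fin n) := ⟨⟨0, hn⟩⟩
  rw [sphereUnif_eq_map]
  exact Measure.isProbabilityMeasure_map (measurable_scale n).aemeasurable

lemma sphereUnif_ae {n : ℕ} (hn : 0 < n) :
    ∀ᵐ x ∂sphereUnif n, ∑ i, x i ^ 2 = (n : ℝ) := by
  have : Nonempty (Fin n) := ⟨⟨0, hn⟩⟩
  rw [sphereUnif_eq_map, ae_map_iff (measurable_scale n).aemeasurable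
    (measurableSet_eq_fun (by fun_prop) measurable_const)]
  refine unitUnif_ae_unit.mono fun a ha => ?_
  simp_rw [mul_pow, ← mul_sum, ha, mul_one, Real.sq_sqrt (Nat.cast_nonneg n)]

lemma measurable_unpair (n N : ℕ) :
    Measurable fun (x : Fin N → Fin n → ℝ) (p : Fin N × Fin n) => x p.1 p.2 :=
  measurable_pi_lambda _ fun p => (measurable_pi_apply p.2).comp (measurable_pi_apply p.1)

lemma blockPrior_prob {n : ℕ} (hn : 0 < n) (N : ℕ) : IsProbabilityMeasure (blockPrior n N) := by
  have := sphereUnif_prob hn
  exact Measure.isProbabilityMeasure_map (measurable_unpair n N).aemeasurable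

lemma blockPrior_ae {n : ℕ} (hn : 0 < n) (N : ℕ) :
    ∀ᵐ x ∂blockPrior n N, ∑ p, x p ^ 2 = (Fintype.card (Fin N × Fin n) : ℝ) := by
  have := sphereUnif_prob hn
  rw [blockPrior, ae_map_iff (measurable_unpair n N).aemeasurable
    (measurableSet_eq_fun (by fun_prop) measurable_const)]
  have h : ∀ᵐ x ∂(Measure.pi fun _ : Fin N => sphereUnif n), ∀ b, ∑ i, x b i ^ 2 = (n : ℝ) :=
    ae_all_iff.2 fun b => (Measure.quasiMeasurePreserving_eval
      (fun _ : Fin N => sphereUnif n) b).ae (sphereUnif_ae hn)
  refine h.mono fun x hx => ?_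
  rw [Fintype.sum_prod_type]
  simp [hx]

/-- The law of a fair coin. -/
noncomputable def coin : Measure Bool := (PMF.uniformOfFintype Bool).toMeasure

instance : IsProbabilityMeasure coin := by unfold coin; infer_instance

/-- A spin as a vector with one coordinate. -/
def spinVec (b : Bool) : Fin 1 → ℝ := fun _ => spin b

lemma sphereUnif_one_mean : ∫ x, x 0 ∂sphereUnif 1 = 0 := by
  rw [sphereUnif_eq_map, ← map_udir,
    integral_map (f := fun x : Fin 1 → ℝ => x 0) (measurable_scale 1).aemeasurable
      (measurable_pi_apply 0).aestronglyMeasurable,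
    integral_map (f := fun a : Fin 1 → ℝ => Real.sqrt (1 : ℕ) * a 0) measurable_udir.aemeasurable
      ((measurable_pi_apply 0).const_mul _).aestronglyMeasurable]
  have hmp : MeasurePreserving (MeasurableEquiv.piCongrRight fun _ : Fin 1 => MeasurableEquiv.neg ℝ)
      (gauss (Fin 1)) (gauss (Fin 1)) :=
    measurePreserving_pi _ _ fun _ => ⟨measurable_neg, by
      have h := gaussianReal_map_neg (μ := 0) (v := 1)
      rw [neg_zero] at h
      exact h⟩
  have h := hmp.integral_comp' fun ξ => Real.sqrt (1 : ℕ) * udir ξ 0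
  have h2 : (fun ξ : Fin 1 → ℝ => Real.sqrt (1 : ℕ) *
      udir ((MeasurableEquiv.piCongrRight fun _ : Fin 1 => MeasurableEquiv.neg ℝ) ξ) 0) =
      fun ξ => -(Real.sqrt (1 : ℕ) * udir ξ 0) := by
    funext ξ
    simp [udir, normSqF, MeasurableEquiv.piCongrRight, MeasurableEquiv.neg, neg_div]
  rw [h2, integral_neg] at h
  linarith

lemma sphereUnif_one : sphereUnif 1 = coin.map spinVec := by
  have := sphereUnif_prob one_pos
  have := Measure.isProbabilityMeasure_map (μ := coin) (f := spinVec)
    Measurable.of_discrete.aemeasurable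
  refine Measure.ext fun s hs => ?_
  set F : (Fin 1 → ℝ) → ℝ := s.indicator fun _ => (1 : ℝ)
  have key : ∫ x, F x ∂sphereUnif 1 = ∫ x, F x ∂coin.map spinVec := by
    have hF : Measurable F := measurable_const.indicator hs
    have hlin : ∀ᵐ x ∂sphereUnif 1, F x = (F (spinVec true) + F (spinVec false)) / 2 +
        (F (spinVec true) - F (spinVec false)) / 2 * x 0 :=
      (sphereUnif_ae one_pos).mono fun x hx => by
        have h1 : x 0 ^ 2 = 1 := by simpa using hx
        rcases sq_eq_one_iff.1 h1 with h | h
        · have e : x = spinVec true := funext fun i => by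
            rw [Subsingleton.elim i 0, h]; simp [spinVec, spin]
          rw [e]; simp [spinVec, spin]; ring
        · have e : x = spinVec false := funext fun i => by
            rw [Subsingleton.elim i 0, h]; simp [spinVec, spin]
          rw [e]; simp [spinVec, spin]; ring
    have hx0 : Integrable (fun x : Fin 1 → ℝ => x 0) (sphereUnif 1) :=
      Integrable.of_bound (measurable_pi_apply 0).aestronglyMeasurable 1
        ((sphereUnif_ae one_pos).mono fun x hx => by
          have h1 : x 0 ^ 2 = 1 := by simpa using hx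
          rw [Real.norm_eq_abs]
          rcases sq_eq_one_iff.1 h1 with h | h <;> simp [h])
    rw [integral_congr_ae hlin, integral_add (integrable_const _) (hx0.const_mul _),
      integral_const_mul, sphereUnif_one_mean, integral_map Measurable.of_discrete.aemeasurable
        hF.aestronglyMeasurable, coin, PMF.integral_eq_sum]
    simp [PMF.uniformOfFintype_apply]
    ring
  simp only [F, integral_indicator_const _ hs, smul_eq_mul, mul_one] at key
  exact (ENNReal.toReal_eq_toReal_iff' (measure_ne_top _ _) (measure_ne_top _ _)).1 key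

lemma integral_blockPrior_one {N : ℕ} {F : (Fin N × Fin 1 → ℝ) → ℝ} (hF : Measurable F) :
    ∫ x, F x ∂blockPrior 1 N =
      ((2 : ℝ) ^ N)⁻¹ * ∑ b : Fin N → Bool, F fun p => spin (b p.1) := by
  have hmap : blockPrior 1 N = (Measure.pi fun _ : Fin N => coin).map
      fun b p => spin (b p.1) := by
    have := Measure.isProbabilityMeasure_map (μ := coin) (f := spinVec)
      Measurable.of_discrete.aemeasurable
    rw [blockPrior, sphereUnif_one,
      ← Measure.pi_map_pi (fun _ => Measurable.of_discrete.aemeasurable),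
      Measure.map_map (measurable_unpair 1 N) Measurable.of_discrete]
    rfl
  rw [hmap, integral_map Measurable.of_discrete.aemeasurable hF.aestronglyMeasurable,
    integral_fintype Integrable.of_finite, mul_sum]
  refine sum_congr rfl fun b _ => ?_
  rw [← Set.univ_pi_singleton, measureReal_def, Measure.pi_pi]
  simp [coin, PMF.uniformOfFintype_apply]

theorem pressure_eq_priorPressure {f : ℝ → ℝ} (hf : Measurable f) (α : ℝ) (N : ℕ) :
    pressure f α N = priorPressure f ⌊α * N⌋₊ (blockPrior 1 N) := by
  set T := MeasurableEquiv.piCongrLeft (fun _ : Fin N => ℝ) (Equiv.prodUnique (Fin N) (Fin 1))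
    with hTdef
  have hT : MeasurePreserving T (gauss (Fin N × Fin 1)) (gauss (Fin N)) :=
    measurePreserving_piCongrLeft (fun _ : Fin N => gaussianReal 0 1) _
  have hTM : MeasurePreserving (MeasurableEquiv.piCongrRight fun _ : Fin ⌊α * N⌋₊ => T)
      (Measure.pi fun _ : Fin ⌊α * N⌋₊ => gauss (Fin N × Fin 1))
      (Measure.pi fun _ : Fin ⌊α * N⌋₊ => gauss (Fin N)) :=
    measurePreserving_pi _ _ fun _ => hT
  have hcard : Fintype.card (Fin N × Fin 1) = N := by simp
  unfold pressure priorPressure
  rw [hcard]
  congr 1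
  show ∫ G, _ ∂(Measure.pi fun _ : Fin ⌊α * N⌋₊ => gauss (Fin N)) = _
  rw [← hTM.integral_comp']
  refine integral_congr_ae (.of_forall fun G => ?_)
  simp only
  have hm : Measurable fun x : Fin N × Fin 1 → ℝ =>
      Real.exp (∑ a, f ((∑ i, G a i * x i) / Real.sqrt N)) :=
    (Finset.measurable_sum _ fun a _ => hf.comp (by fun_prop)).exp
  rw [integral_blockPrior_one hm]
  congr 1
  congr 1
  refine sum_congr rfl fun b _ => congrArg Real.exp (sum_congr rfl fun a _ => congrArg f ?_)
  congr 1
  refine (Fintype.sum_equiv (Equiv.prodUnique (Fin N) (Fin 1)) _ _ fun p => ?_).symm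
  have e : (MeasurableEquiv.piCongrRight fun _ : Fin ⌊α * N⌋₊ => T) G a p.1 = G a p :=
    MeasurableEquiv.piCongrLeft_apply_apply (β := fun _ : Fin N => ℝ)
      (Equiv.prodUnique (Fin N) (Fin 1)) (G a) p
  show G a p * spin (b p.1) = _
  rw [show (Equiv.prodUnique (Fin N) (Fin 1)) p = p.1 from rfl, e]
  rfl

theorem spherePressure_eq_priorPressure (f : ℝ → ℝ) (α : ℝ) (N : ℕ) :
    spherePressure f α N = priorPressure f ⌊α * N⌋₊ (sphereUnif N) := by
  simp [spherePressure, priorPressure, gauss]

lemma blockField_zero {n : ℕ} (hn : 0 < n) (K : ℕ) : blockField n K (fun _ => 0) = 0 := by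
  have := sphereUnif_prob hn
  set N := blockNest n K (fun _ => (0 : ℝ)) with hN
  set U := (blockLeaf n).logZ (sphereUnif n) with hU
  have hamp : ∀ l, N.amp l = fun _ => 0 := fun l => funext fun i => by simp [N, blockNest]
  have hu : ∀ d, d ≤ K → N.uUp U d (fun _ => 0) = 0 := by
    intro d
    induction d with
    | zero =>
      intro _
      simp [Nest.uUp, U, Leaf.logZ, Leaf.ham, Leaf.loc, blockLeaf]
    | succ d ih =>
      intro hd
      simp only [Nest.uUp, stepLog, hamp]
      have e : ∀ z : Fin n → ℝ, move (fun _ => 0) (fun _ => 0) z = (fun _ => (0 : ℝ)) := fun z =>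
        funext fun i => by simp [move]
      simp only [e, ih (by omega)]
      simp
  have h0 : N.mean U 0 (N.u U 0) = 0 := by
    simp only [Nest.mean, hamp, zero_mul, Nest.u, Nat.sub_zero]
    have : N.K = K := rfl
    rw [this, hu K le_rfl]
    simp
  simp [blockField, Nest.free, ← hN, ← hU, h0]

end Vale.Agent.P157.Parisi
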