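import Vale.Agent.P157.Parisi.LowerAvg
import Vale.Agent.P157.Parisi.CSLimit
import Vale.Agent.P157.Parisi.IsingBridge
import Vale.Agent.P157.Parisi.EnergyApprox

/-!
The lower bound: the pressure of blocks is at least the variational formula.
-/

namespace Vale.Agent.P157.Parisi

open MeasureTheory ProbabilityTheory Finset Filter Topology

variable {φ φ1 φ2 : ℝ → ℝ} {B : ℝ}

/-- The values of the formula at a fixed number of levels. -/
def levelValues (φ : ℝ → ℝ) (n K : ℕ) (α : ℝ) : Set ℝ :=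
  {v | ∃ q, IsPath q ∧ q K < 1 ∧ v = blockEntropy n K q + α * energy φ K q}

lemma PhiGood.measurable' (hφ : PhiGood φ φ1 φ2 B) : Measurable φ :=
  (continuous_iff_continuousAt.2 fun z => (hφ.deriv1 z).continuousAt).measurable

lemma levelValues_basic (hφ : PhiGood φ φ1 φ2 B) {n : ℕ} (hn : 0 < n) (K : ℕ) {α : ℝ}
    (hα : 0 ≤ α) : (levelValues φ n K α).Nonempty ∧ BddBelow (levelValues φ n K α) := by
  refine ⟨⟨_, fun _ => 0, isPath_zero, zero_lt_one, rfl⟩, -(α * B), ?_⟩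
  rintro v ⟨q, hq, h1, rfl⟩
  have hS : 0 ≤ blockEntropy n K q := by
    have h := le_ciSup (blockEntropy_bddAbove hn K hq h1)
      (⟨fun _ => 0, isPath_zero⟩ : {h : ℕ → ℝ // IsPath h})
    simpa [blockEntropy, blockField_zero hn] using h
  have := mul_le_mul_of_nonneg_left
    (abs_le.1 (abs_energy_le hφ.measurable' hφ.bound0 K q)).1 hα
  linarith

/-- The deterministic pinning error tends to its mesh part. -/
lemma pinDet_eventually (K : ℕ) {Γ : ℝ} (hΓ : 0 < Γ) (σ₀ : ℝ) {D : ℕ → ℝ}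
    (hD : Tendsto D atTop atTop) :
    ∀ᶠ N in atTop, pinDet K Γ σ₀ (D N) ≤ 21 * Γ * Real.sqrt (((K : ℝ) + 1)⁻¹) := by
  set s := Real.sqrt (((K : ℝ) + 1)⁻¹)
  set X := Γ * (((K : ℝ) + 1) / σ₀ + ((K : ℝ) + 1))
  have hs : 0 < s := Real.sqrt_pos.2 (by positivity)
  have h0 : Tendsto (fun N => X / Real.sqrt (D N)) atTop (𝓝 0) :=
    tendsto_const_nhds.div_atTop (Real.tendsto_sqrt_atTop.comp hD)
  have ht : Tendsto (fun N => 20 * Γ * (s + Real.sqrt (X / Real.sqrt (D N)) +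
      X / Real.sqrt (D N))) atTop (𝓝 (20 * Γ * (s + Real.sqrt 0 + 0))) :=
    ((tendsto_const_nhds.add ((Real.continuous_sqrt.tendsto 0).comp h0)).add h0).const_mul _
  rw [Real.sqrt_zero, add_zero, add_zero] at ht
  refine (ht.eventually (eventually_le_nhds (show 20 * Γ * s < 21 * Γ * s by
    nlinarith [mul_pos hΓ hs]))).mono fun N h => ?_
  exact h

/-- The deterministic error of a step, once the pinning errors are small. -/
lemma stepDet_le {α Γ η σ₀ ρ r η₀ Θ s : ℝ} {n N m K J : ℕ} (hB : 1 ≤ B) (hα : 0 ≤ α) (hΓ : 1 ≤ Γ)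
    (hr : 0 < r) (hη₀ : 0 < η₀) (hws : 1 / ((K : ℝ) + 1) ≤ s)
    (h1 : pinDet K 1 σ₀ ((n : ℝ) * N) ≤ 21 * s)
    (h2 : pinDet K Γ η ((n : ℝ) * ((N : ℝ) + m)) ≤ 21 * Γ * s) (hρ : ρ ≤ r ^ 2)
    (hρΘ : ρ * Θ ≤ r ^ 2 * η₀) (hη : ((K : ℝ) + 2) * η ^ 2 ≤ 2 * η₀ * (1 / ((K : ℝ) + 1))) :
    stepDet B α Γ η σ₀ ρ r η₀ Θ n N m K J ≤
      (Γ + α * B ^ 2) * (2 * (1 / (J : ℝ)) + 11 * r) + (Θ + 3 * (ρ * Θ)) +
        ((Γ + α * B ^ 2) * (3 + 2 * (Γ * (24 + 23 * Γ)) / (η₀ * r)) +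
          α * B ^ 2 * (23 + 24 * η₀) + Γ * (24 + 23 * Γ)) * s := by
  set w := 1 / ((K : ℝ) + 1) with hw
  set c := Γ * (24 + 23 * Γ) with hc
  have hΓ0 : 0 ≤ Γ := zero_le_one.trans hΓ
  have hwΓ := mul_le_mul_of_nonneg_left hws hΓ0
  have hcav : cavDet Γ η σ₀ n N m K ≤ c * s := by
    rw [cavDet, ← hw, hc, mul_assoc Γ (24 + 23 * Γ) s]
    refine mul_le_mul_of_nonneg_left ?_ hΓ0
    have : 2 * Γ / ((K : ℝ) + 1) = 2 * (Γ * w) := by rw [hw]; ring
    linarith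
  have hr4 : 4 * ρ / r ≤ 4 * r := by rw [div_le_iff₀ hr]; linarith
  have htail : tailDet Γ η σ₀ ρ r η₀ Θ n N m K J ≤
      2 * (1 / (J : ℝ)) + 11 * r + (3 + 2 * c / (η₀ * r)) * s := by
    have h3 : 2 * (cavDet Γ η σ₀ n N m K + 3 * ρ * Θ) / (η₀ * r) ≤
        2 * c / (η₀ * r) * s + 6 * r := by
      rw [div_le_iff₀ (by positivity), add_mul, div_mul_eq_mul_div,
        div_mul_cancel₀ _ (by positivity)]
      linarith
    rw [tailDet, ← hw]
    linarith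
  have hins : B ^ 2 * (pinDet K 1 σ₀ ((n : ℝ) * N) + w) + 12 * B ^ 2 * (((K : ℝ) + 2) * η ^ 2) ≤
      B ^ 2 * ((22 + 24 * η₀) * s) := by
    rw [mul_comm 12 (B ^ 2), mul_assoc, ← mul_add]
    refine mul_le_mul_of_nonneg_left ?_ (sq_nonneg B)
    have := mul_le_mul_of_nonneg_left hws hη₀.le
    linarith
  have t1 := mul_le_mul_of_nonneg_left htail (show 0 ≤ Γ + α * B ^ 2 by positivity)
  have t2 := mul_le_mul_of_nonneg_left hins hα
  have t3 := mul_le_mul_of_nonneg_left hws (show 0 ≤ α * B ^ 2 by positivity)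
  rw [stepDet, ← hw]
  linarith

/-- The lower bound at a rational rate. -/
theorem rate_lower (hφ : PhiGood φ φ1 φ2 B) (p : ℕ) {m : ℕ} (hm : 0 < m) {d₀ : ℝ} (hd₀ : 0 < d₀) :
    ∃ K₀, ∀ K ≥ K₀, ∀ n, 0 < n → ∀ᶠ N : ℕ in atTop,
      sInf (levelValues φ n K ((p : ℝ) / m)) - 6 * d₀ ≤
        priorPressure φ (patCount p m n N) (blockPrior n N) := by
  set α := (p : ℝ) / m
  have hα0 : 0 ≤ α := by positivity
  have hB1 := hφ.one_le
  set a := 2 * α + 1 with ha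
  set Γ := gBound B a with hΓdef
  have hΓ1 : 1 ≤ Γ := le_max_of_le_left (le_max_right _ _)
  set C₁ := Γ + α * B ^ 2
  have hC₁ : 0 < C₁ := by positivity
  set L := 1 + 2 * B ^ 2 * a
  have hL : 1 ≤ L := by
    have : 0 ≤ 2 * B ^ 2 * a := by positivity
    linarith
  set J := ⌈2 * C₁ / d₀⌉₊ + 1
  have hJ : 0 < J := Nat.succ_pos _
  have hJd : C₁ * (2 * (1 / (J : ℝ))) ≤ d₀ := by
    have h1 : 2 * C₁ / d₀ ≤ (J : ℝ) := (Nat.le_ceil _).trans (by simp [J])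
    rw [div_le_iff₀ hd₀] at h1
    rw [mul_one_div, mul_div_assoc', div_le_iff₀ (by positivity)]
    linarith
  set r := min (1 / 2) (d₀ / (11 * C₁))
  have hr0 : 0 < r := lt_min (by norm_num) (by positivity)
  have hr1 : r < 1 := (min_le_left _ _).trans_lt (by norm_num)
  have hrd : C₁ * (11 * r) ≤ d₀ := by
    have := min_le_right (1 / 2) (d₀ / (11 * C₁))
    rw [le_div_iff₀ (by positivity)] at this
    linarith
  set ρ := r ^ 2 / ((J : ℝ) + 2)
  have hρ0 : 0 < ρ := by positivity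
  have hρ2 : ρ * ((J : ℝ) + 2) = r ^ 2 := div_mul_cancel₀ _ (by positivity)
  have hρr2 : ρ ≤ r ^ 2 := div_le_self (by positivity) (by linarith [Nat.cast_nonneg (α := ℝ) J])
  have hρr : ρ ≤ r := hρr2.trans (by nlinarith)
  set η₀ := d₀ / (4 * L * ((J : ℝ) + 2))
  have hη₀ : 0 < η₀ := by positivity
  have hη₀d : L * (4 * (η₀ * ((J : ℝ) + 2))) ≤ d₀ := le_of_eq (by simp only [η₀]; field_simp)
  set c := Γ * (24 + 23 * Γ)
  set X := C₁ * (3 + 2 * c / (η₀ * r)) + α * B ^ 2 * (23 + 24 * η₀) + c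
  refine ⟨⌈(X / d₀) ^ 2⌉₊, fun K hK n hn => ?_⟩
  -- the mesh
  set w : ℝ := 1 / ((K : ℝ) + 1) with hw
  set s := Real.sqrt (((K : ℝ) + 1)⁻¹) with hs
  have hK1 : (0 : ℝ) < (K : ℝ) + 1 := by positivity
  have hw0 : 0 < w := by positivity
  have hw1 : w ≤ 1 := by rw [hw, div_le_one hK1]; linarith [Nat.cast_nonneg (α := ℝ) K]
  have hs0 : 0 ≤ s := Real.sqrt_nonneg _
  have hss : s * s = w := by rw [hs, Real.mul_self_sqrt (by positivity), hw, one_div]
  have hws : w ≤ s := by nlinarith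
  have hX : 0 < X := by positivity
  have hXs : X * s ≤ d₀ := by
    have h1 : (X / d₀) ^ 2 ≤ (K : ℝ) + 1 := by
      linarith [(Nat.le_ceil ((X / d₀) ^ 2)).trans (Nat.cast_le.2 hK)]
    have h2 := Real.le_sqrt_of_sq_le h1
    rw [div_le_iff₀ hd₀] at h2
    rw [hs, Real.sqrt_inv, ← div_eq_mul_inv, div_le_iff₀ (Real.sqrt_pos.2 hK1)]
    linarith
  -- the parameters
  set P := (range J).image (probe K J)
  set σ : ℕ → ℝ := fun l => Real.sqrt (if l ∈ P then η₀ else η₀ * w) with hσdef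
  have hσsq : ∀ l, σ l ^ 2 = if l ∈ P then η₀ else η₀ * w := fun l =>
    Real.sq_sqrt (by split_ifs <;> positivity)
  set σ₀ := Real.sqrt (η₀ * w)
  have hσ₀ : 0 < σ₀ := Real.sqrt_pos.2 (by positivity)
  have hσ : ∀ l, σ₀ ≤ σ l := fun l => Real.sqrt_le_sqrt (by
    split_ifs
    exacts [mul_le_of_le_one_right hη₀.le hw1, le_rfl])
  set η := Real.sqrt η₀ * w
  have hη : 0 < η := mul_pos (Real.sqrt_pos.2 hη₀) hw0
  have hηsq : η ^ 2 = η₀ * w ^ 2 := by rw [mul_pow, Real.sq_sqrt hη₀.le]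
  have hP : LowerParams K σ η ρ := ⟨fun l _ => hσ₀.trans_le (hσ l), hη, hρ0,
    hρr.trans hr1.le⟩
  have hKw : ((K : ℝ) + 1) * w = 1 := by rw [hw]; field_simp
  set Θ := ∑ k ∈ range (K + 1), σ k ^ 2 with hΘdef
  have hΘ0 : 0 ≤ Θ := sum_nonneg fun k _ => sq_nonneg _
  have hΘ : Θ ≤ η₀ * ((J : ℝ) + 1) := by
    calc Θ ≤ ∑ k ∈ range (K + 1), ((if k ∈ P then η₀ else 0) + η₀ * w) :=
          sum_le_sum fun k _ => by
            rw [hσsq]; split_ifs <;> linarith [mul_pos hη₀ hw0]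
      _ = ((range (K + 1) ∩ P).card : ℝ) * η₀ + η₀ * (((K : ℝ) + 1) * w) := by
          rw [sum_add_distrib, sum_ite_mem, sum_const, sum_const, card_range, nsmul_eq_mul,
            nsmul_eq_mul]
          push_cast; ring
      _ ≤ (J : ℝ) * η₀ + η₀ * 1 := by
          rw [hKw]
          gcongr
          calc (range (K + 1) ∩ P).card ≤ P.card := card_le_card inter_subset_right
            _ ≤ (range J).card := card_image_le
            _ = J := card_range J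
      _ = _ := by ring
  have hKη : ((K : ℝ) + 1) * η ^ 2 ≤ η₀ := by
    rw [hηsq, show ((K : ℝ) + 1) * (η₀ * w ^ 2) = η₀ * w * (((K : ℝ) + 1) * w) by ring, hKw,
      mul_one]
    exact mul_le_of_le_one_right hη₀.le hw1
  have hρΘ : ρ * Θ ≤ r ^ 2 * η₀ := by
    have : ρ * Θ ≤ ρ * (η₀ * ((J : ℝ) + 2)) := mul_le_mul_of_nonneg_left
      (hΘ.trans (mul_le_mul_of_nonneg_left (by linarith) hη₀.le)) hρ0.le
    calc ρ * Θ ≤ ρ * (η₀ * ((J : ℝ) + 2)) := this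
      _ = r ^ 2 * η₀ := by rw [← hρ2]; ring
  have hn' : (0 : ℝ) < n := by exact_mod_cast hn
  have hdet : ∀ᶠ N : ℕ in atTop, stepDet B α Γ η σ₀ ρ r η₀ Θ n N m K J ≤ 4 * d₀ := by
    filter_upwards [pinDet_eventually K one_pos σ₀ (D := fun N : ℕ => (n : ℝ) * N)
        (tendsto_natCast_atTop_atTop.const_mul_atTop hn'),
      pinDet_eventually K (zero_lt_one.trans_le hΓ1) η (D := fun N : ℕ => (n : ℝ) * ((N : ℝ) + m))
        ((tendsto_natCast_atTop_atTop.atTop_add tendsto_const_nhds).const_mul_atTop hn')]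
      with N h1 h2
    rw [mul_one, ← hs] at h1
    rw [← hs] at h2
    have hKη2 : ((K : ℝ) + 2) * η ^ 2 ≤ 2 * η₀ * (1 / ((K : ℝ) + 1)) := by
      rw [← hw, hηsq,
        show ((K : ℝ) + 2) * (η₀ * w ^ 2) = η₀ * w * (((K : ℝ) + 1) * w + w) by ring, hKw]
      refine le_trans (mul_le_mul_of_nonneg_left (add_le_add le_rfl hw1) (by positivity)) ?_
      linarith
    refine (stepDet_le hB1 hα0 hΓ1 hr0 hη₀ (Θ := Θ) (J := J) (σ₀ := σ₀) (by rw [← hw]; exact hws)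
      h1 h2 hρr2 hρΘ hKη2).trans ?_
    have h5 := mul_le_mul_of_nonneg_right (hρr.trans hr1.le) hΘ0
    have h6 : 4 * Θ ≤ L * (4 * (η₀ * ((J : ℝ) + 2))) := by
      refine le_trans ?_ (le_mul_of_one_le_left (by positivity) hL)
      linarith
    change C₁ * (2 * (1 / (J : ℝ)) + 11 * r) + (Θ + 3 * (ρ * Θ)) + X * s ≤ 4 * d₀
    linarith
  have hV : ∀ q, IsPath q → q K < 1 →
      sInf (levelValues φ n K α) ≤ blockEntropy n K q + α * energy φ K q := fun q hq h1 =>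
    csInf_le (levelValues_basic hφ hn K hα0).2 ⟨q, hq, h1, rfl⟩
  have hprobe : ∀ i < J, η₀ ≤ σ (probe K J i) ^ 2 := fun i hi => by
    rw [hσsq, if_pos (mem_image_of_mem _ (mem_range.2 hi))]
  filter_upwards [lower_fixed hφ hn hP hσ₀ (fun l _ => hσ l) hρr hr1 hJ hη₀ hprobe p hm hV ha hdet
    hd₀] with N hN
  have herr : L * (4 * (Θ + ((K : ℝ) + 1) * η ^ 2)) ≤ d₀ := by
    refine le_trans ?_ hη₀d
    refine mul_le_mul_of_nonneg_left ?_ (zero_le_one.trans hL)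
    linarith
  linarith

/-- Module F: the lower bound. -/
theorem block_lower {φ φ1 φ2 : ℝ → ℝ} {B : ℝ} (hφ : PhiGood φ φ1 φ2 B) {α : ℝ} (hα : 0 ≤ α)
    {ε : ℝ} (hε : 0 < ε) :
    ∃ K₀, ∀ K ≥ K₀, ∀ n, 0 < n → ∀ᶠ N : ℕ in atTop, ∃ q, IsPath q ∧ q K < 1 ∧
      blockEntropy n K q + α * energy φ K q - ε ≤
        priorPressure φ ⌊α * (N * n : ℕ)⌋₊ (blockPrior n N) := by
  have hB : 0 < B := zero_lt_one.trans_le hφ.one_le
  set d₀ := ε / 10 with hd₀def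
  have hd₀ : 0 < d₀ := by positivity
  -- a rational rate
  set δ := d₀ / B
  have hδ : 0 < δ := by positivity
  set m := ⌈1 / δ⌉₊ + 1
  have hm : 0 < m := Nat.succ_pos _
  set p := ⌊α * m⌋₊
  have hm' : (0 : ℝ) < m := by exact_mod_cast hm
  have hclose : |α - (p : ℝ) / m| ≤ δ := by
    have h1 : (p : ℝ) ≤ α * m := Nat.floor_le (by positivity)
    have h2 : α * m < (p : ℝ) + 1 := Nat.lt_floor_add_one _
    have h3 : 1 ≤ δ * m := by
      have : 1 / δ ≤ (m : ℝ) := (Nat.le_ceil _).trans (by simp [m])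
      rw [div_le_iff₀ hδ] at this
      linarith
    have h4 : α - (p : ℝ) / m = (α * m - p) / m := by field_simp
    rw [h4, abs_of_nonneg (div_nonneg (by linarith) hm'.le), div_le_iff₀ hm']
    linarith
  obtain ⟨K₀, hK₀⟩ := rate_lower hφ p hm hd₀
  refine ⟨K₀, fun K hK n hn => ?_⟩
  have hα' : 0 ≤ (p : ℝ) / m := by positivity
  obtain ⟨v, ⟨q, hq, h1, rfl⟩, hv⟩ := exists_lt_of_csInf_lt (levelValues_basic hφ hn K hα').1
    (lt_add_of_pos_right (sInf (levelValues φ n K ((p : ℝ) / m))) hd₀)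
  filter_upwards [hK₀ K hK n hn, eventually_gt_atTop 0,
    tendsto_natCast_atTop_atTop.eventually_ge_atTop (2 * B / d₀)] with N hN hN0 hNbig
  refine ⟨q, hq, h1, ?_⟩
  have := blockPrior_prob hn N
  have : Nonempty (Fin N × Fin n) := ⟨(⟨0, hN0⟩, ⟨0, hn⟩)⟩
  have hnN : (0 : ℝ) < (n : ℝ) * N := by positivity
  have hBδ : B * δ = d₀ := by rw [mul_comm]; exact div_mul_cancel₀ _ hB.ne'
  have hen : α * energy φ K q ≤ (p : ℝ) / m * energy φ K q + d₀ := by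
    have := abs_le.1 ((abs_mul (α - (p : ℝ) / m) (energy φ K q)).trans_le
      (mul_le_mul hclose (abs_energy_le hφ.measurable' hφ.bound0 K q) (abs_nonneg _) hδ.le))
    linarith
  have hcount : |(⌊α * (N * n : ℕ)⌋₊ : ℝ) - patCount p m n N| ≤ δ * ((n : ℝ) * N) + 2 := by
    obtain ⟨c1, c2⟩ := patCount_bounds p hm n N
    have e1 : (⌊α * (N * n : ℕ)⌋₊ : ℝ) ≤ α * (N * n : ℕ) := Nat.floor_le (by positivity)
    have e2 : α * (N * n : ℕ) < (⌊α * (N * n : ℕ)⌋₊ : ℝ) + 1 := Nat.lt_floor_add_one _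
    have h5 := mul_le_mul_of_nonneg_right (abs_le.1 hclose).1 hnN.le
    have h6 := mul_le_mul_of_nonneg_right (abs_le.1 hclose).2 hnN.le
    push_cast at e1 e2 ⊢
    rw [abs_le]
    constructor <;> linarith
  have hlip := priorPressure_lipschitz (δ := Fin N × Fin n) hφ.measurable' hφ.bound0
    ⌊α * (N * n : ℕ)⌋₊ (patCount p m n N) (blockPrior n N)
  have hb : B * |(⌊α * (N * n : ℕ)⌋₊ : ℝ) - patCount p m n N| /
      Fintype.card (Fin N × Fin n) ≤ 2 * d₀ := by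
    simp only [Fintype.card_prod, Fintype.card_fin, Nat.cast_mul]
    rw [div_le_iff₀ (by positivity)]
    have h7 : 2 * B ≤ d₀ * ((n : ℝ) * N) := by
      rw [div_le_iff₀ hd₀] at hNbig
      have : (1 : ℝ) ≤ n := by exact_mod_cast hn
      nlinarith [le_mul_of_one_le_left (show (0 : ℝ) ≤ N * d₀ by positivity) this]
    have h8 := mul_le_mul_of_nonneg_left hcount hB.le
    push_cast at h8
    nlinarith
  have := abs_le.1 (hlip.trans hb)
  linarith

end Vale.Agent.P157.Parisi
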