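import Vale.Agent.P157.Parisi.Coupling

/-!
The sphere is approximated by independent blocks.
-/

namespace Vale.Agent.P157.Parisi

open MeasureTheory ProbabilityTheory Finset Filter Topology

variable {u : ℝ → ℝ} {L : ℝ}

lemma abs_contLog_succ (hu : Weight u L) {ι : Type} [Fintype ι] (π : Measure (ι → ℝ))
    [IsProbabilityMeasure π] (M : ℕ) : |contLog u π (M + 1) - contLog u π M| ≤ L := by
  set T := (MeasurableEquiv.piFinSuccAbove (fun _ : Fin (M + 1) => ι → ℝ) 0).symm with hTdef
  have hT : MeasurePreserving T ((gauss ι).prod (gaussM ι M)) (gaussM ι (M + 1)) :=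
    (measurePreserving_piFinSuccAbove (fun _ : Fin (M + 1) => gauss ι) 0).symm
  have hTW : ∀ q a, phiW u (T q) a = u (∑ i, q.1 i * a i) * phiW u q.2 a := fun q a => by
    rw [phiW, Fin.prod_univ_succAbove _ 0]
    simp [hTdef, MeasurableEquiv.piFinSuccAbove_symm_apply, Fin.insertNthEquiv, phiW]
  have hi1 : Integrable (fun q => Real.log (∫ a, phiW u (T q) a ∂π))
      ((gauss ι).prod (gaussM ι M)) :=
    (hT.integrable_comp_emb T.measurableEmbedding).2 (integrable_logIntegral hu π (M + 1))
  have hi2 : Integrable (fun q => Real.log (∫ a, phiW u q.2 a ∂π))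
      ((gauss ι).prod (gaussM ι M)) := (integrable_logIntegral hu π M).comp_snd _
  have e2 : contLog u π M = ∫ q, Real.log (∫ a, phiW u q.2 a ∂π) ∂(gauss ι).prod (gaussM ι M) := by
    rw [integral_fun_snd (μ := gauss ι) (fun G => Real.log (∫ a, phiW u G a ∂π))]
    simp [contLog]
  have e1 : contLog u π (M + 1) =
      ∫ q, Real.log (∫ a, phiW u (T q) a ∂π) ∂(gauss ι).prod (gaussM ι M) :=
    (hT.integral_comp T.measurableEmbedding fun G => Real.log (∫ a, phiW u G a ∂π)).symm
  rw [e1, e2, ← integral_sub hi1 hi2]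
  have hb : ∀ q, ‖Real.log (∫ a, phiW u (T q) a ∂π) - Real.log (∫ a, phiW u q.2 a ∂π)‖ ≤ L := by
    intro q
    have hp : 0 < ∫ a, phiW u q.2 a ∂π :=
      lt_of_lt_of_le (Real.exp_pos _) (integral_phiW_bounds hu q.2 π).1
    have hp' : 0 < ∫ a, phiW u (T q) a ∂π :=
      lt_of_lt_of_le (Real.exp_pos _) (integral_phiW_bounds hu (T q) π).1
    have hpos : ∀ a, 0 ≤ phiW u q.2 a := fun a =>
      le_trans (Real.exp_pos _).le (phiW_bounds hu q.2 a).1
    have h1 : ∫ a, phiW u (T q) a ∂π ≤ Real.exp L * ∫ a, phiW u q.2 a ∂π := by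
      rw [← integral_const_mul]
      refine integral_mono (integrable_phiW hu _ π) ((integrable_phiW hu _ π).const_mul _)
        fun a => ?_
      simp only [hTW]
      exact mul_le_mul_of_nonneg_right (hu.le_exp _).2 (hpos a)
    have h2 : Real.exp (-L) * ∫ a, phiW u q.2 a ∂π ≤ ∫ a, phiW u (T q) a ∂π := by
      rw [← integral_const_mul]
      refine integral_mono ((integrable_phiW hu _ π).const_mul _) (integrable_phiW hu _ π)
        fun a => ?_
      simp only [hTW]
      exact mul_le_mul_of_nonneg_right (hu.le_exp _).1 (hpos a)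
    have l1 := Real.log_le_log hp' h1
    have l2 := Real.log_le_log (mul_pos (Real.exp_pos _) hp) h2
    rw [Real.log_mul (Real.exp_ne_zero _) hp.ne', Real.log_exp] at l1 l2
    rw [Real.norm_eq_abs, abs_le]
    exact ⟨by linarith, by linarith⟩
  simpa using norm_integral_le_of_norm_le_const (μ := (gauss ι).prod (gaussM ι M))
    (.of_forall hb)

lemma abs_contLog_sub (hu : Weight u L) {ι : Type} [Fintype ι] (π : Measure (ι → ℝ))
    [IsProbabilityMeasure π] (M e : ℕ) : |contLog u π (M + e) - contLog u π M| ≤ L * e := by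
  induction e with
  | zero => simp
  | succ e ih =>
    have := (abs_sub_le _ (contLog u π (M + e)) _).trans
      (add_le_add (abs_contLog_succ hu π (M + e)) ih)
    rw [← add_assoc]
    push_cast
    linarith

/-- Integrals of a function of the direction times a function of the length factorise. -/
lemma integral_dir_mul {ι : Type} [Fintype ι] [Nonempty ι] {g : (ι → ℝ) → ℝ} {h : ℝ → ℝ}
    (hg : Measurable g) (hh : Measurable h) :
    ∫ ξ, g (udir ξ) * h (normSqF ξ) ∂gauss ι =
      (∫ ξ, g (udir ξ) ∂gauss ι) * ∫ ξ, h (normSqF ξ) ∂gauss ι := by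
  have : IsProbabilityMeasure ((gauss ι).map (normSqF : (ι → ℝ) → ℝ)) :=
    Measure.isProbabilityMeasure_map measurable_normSqF.aemeasurable
  have hT : Measurable fun ξ : ι → ℝ => (udir ξ, normSqF ξ) :=
    measurable_udir.prodMk measurable_normSqF
  have hf : Measurable fun q : (ι → ℝ) × ℝ => g q.1 * h q.2 :=
    (hg.comp measurable_fst).mul (hh.comp measurable_snd)
  calc ∫ ξ, g (udir ξ) * h (normSqF ξ) ∂gauss ι
      = ∫ q, g q.1 * h q.2 ∂(gauss ι).map fun ξ => (udir ξ, normSqF ξ) :=
        (integral_map hT.aemeasurable hf.aestronglyMeasurable).symm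
    _ = (∫ a, g a ∂unitUnif ι) * ∫ t, h t ∂(gauss ι).map normSqF := by
        rw [map_polar, integral_prod_mul]
    _ = _ := by
        rw [← map_udir, integral_map measurable_udir.aemeasurable hg.aestronglyMeasurable,
          integral_map measurable_normSqF.aemeasurable hh.aestronglyMeasurable]

variable (N n k : ℕ)

/-- Blocks and a rest. -/
abbrev BlockIdx := (Fin N × Fin n) ⊕ Fin k

/-- The block of a coordinate. -/
def blockOf : BlockIdx N n k → Option (Fin N)
  | Sum.inl q => some q.1
  | Sum.inr _ => none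

/-- The weights of the blocks. -/
noncomputable def blockW : Option (Fin N) → ℝ
  | some _ => 1 / Real.sqrt N
  | none => 0

/-- The whole sphere. -/
noncomputable def sphMap : (BlockIdx N n k → ℝ) → BlockIdx N n k → ℝ :=
  normMap (fun _ => ()) (fun _ => (1 : ℝ))

/-- The blocks, with zeros on the rest. -/
noncomputable def blkMap : (BlockIdx N n k → ℝ) → BlockIdx N n k → ℝ :=
  normMap (blockOf N n k) (blockW N)

variable {N n k}

lemma sphMap_eq : sphMap N n k = udir := by
  funext ξ i
  simp [sphMap, normMap, udir, bsq, bdot, normSqF, sq]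

lemma sum_blockW_sq (hN : 0 < N) : ∑ b, blockW N b ^ 2 = 1 := by
  have : (N : ℝ) ≠ 0 := by exact_mod_cast hN.ne'
  simp [Fintype.sum_option, blockW, div_pow, this]

lemma blockMaps_dist_le (hN : 0 < N) (ξ : BlockIdx N n k → ℝ) :
    ∑ i, (blkMap N n k ξ i - sphMap N n k ξ i) ^ 2 ≤ 4 := by
  have h1 := sum_normMap_sq_le (p := blockOf N n k) (blockW N) ξ
  rw [sum_blockW_sq hN] at h1
  have h2 := sum_normMap_sq_le (p := fun _ : BlockIdx N n k => ()) (fun _ => (1 : ℝ)) ξ
  simp only [Fintype.sum_unique, one_pow] at h2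
  calc ∑ i, (blkMap N n k ξ i - sphMap N n k ξ i) ^ 2
      ≤ ∑ i, (2 * blkMap N n k ξ i ^ 2 + 2 * sphMap N n k ξ i ^ 2) :=
        sum_le_sum fun i _ => by nlinarith [sq_nonneg (blkMap N n k ξ i + sphMap N n k ξ i)]
    _ ≤ _ := by
        rw [sum_add_distrib, ← mul_sum, ← mul_sum]
        simp only [blkMap, sphMap]
        linarith

lemma sum_ite_some (b : Fin N) :
    ∑ i, (if blockOf N n k i = some b then (1 : ℝ) else 0) = n := by
  simp only [Fintype.sum_sum_type, Fintype.sum_prod_type, blockOf, Option.some.injEq]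
  simp [apply_ite]

lemma sum_ite_none : ∑ i, (if blockOf N n k i = none then (1 : ℝ) else 0) = k := by
  simp [Fintype.sum_sum_type, blockOf]

lemma sqrt_ge {y : ℝ} (hy : 0 ≤ y) : y * (3 - y) / 2 ≤ Real.sqrt y := by
  obtain ⟨s, hs, rfl⟩ : ∃ s, 0 ≤ s ∧ y = s ^ 2 :=
    ⟨Real.sqrt y, Real.sqrt_nonneg y, (Real.sq_sqrt hy).symm⟩
  rw [Real.sqrt_sq hs]
  nlinarith [mul_nonneg (mul_nonneg hs (sq_nonneg (s - 1))) (by linarith : (0 : ℝ) ≤ s + 2)]

lemma bsq_udir {ι κ : Type} [Fintype ι] [Fintype κ] [DecidableEq κ] (p : ι → κ) (ξ : ι → ℝ)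
    (b : κ) : bsq p (udir ξ) b = bsq p ξ b / normSqF ξ := by
  simp only [bsq, bdot, udir, sum_div]
  refine sum_congr rfl fun i _ => ?_
  split_ifs
  · rw [div_mul_div_comm, Real.mul_self_sqrt (normSqF_nonneg ξ)]
  · simp

lemma blockMaps_dist_pointwise (hN : 0 < N) {ξ : BlockIdx N n k → ℝ} (hξ : normSqF ξ ≠ 0) :
    ∑ i, (blkMap N n k ξ i - sphMap N n k ξ i) ^ 2 ≤
      (N : ℝ) * (∑ b : Fin N, bsq (blockOf N n k) (udir ξ) (some b) ^ 2) - 1 +
        3 * bsq (blockOf N n k) (udir ξ) none := by
  set p := blockOf N n k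
  set R := normSqF ξ
  have hR : 0 < R := lt_of_le_of_ne (normSqF_nonneg ξ) (Ne.symm hξ)
  have hN' : (0 : ℝ) < N := by exact_mod_cast hN
  have h1 : ∑ i, blkMap N n k ξ i ^ 2 ≤ 1 :=
    (sum_normMap_sq_le (p := p) (blockW N) ξ).trans_eq (sum_blockW_sq hN)
  have h2 : ∑ i, udir ξ i ^ 2 = 1 := udir_unit hξ
  have h3 : ∑ i, blkMap N n k ξ i * udir ξ i =
      ∑ b : Fin N, (1 / (N : ℝ)) * Real.sqrt (N * bsq p (udir ξ) (some b)) := by
    have e : ∀ b, bdot p (blkMap N n k ξ) (udir ξ) b =
        blockW N b / Real.sqrt R * Real.sqrt (bsq p ξ b) := by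
      intro b
      rw [← Real.div_sqrt (x := bsq p ξ b)]
      simp only [bsq, bdot, sum_div, mul_sum]
      refine sum_congr rfl fun i _ => ?_
      split_ifs with hb
      · subst hb
        simp only [blkMap, normMap, udir, bsq, bdot, p, R]
        ring
      · simp
    rw [sum_eq_sum_bdot (p := p), Fintype.sum_option, e none]
    simp only [blockW, zero_div, zero_mul, zero_add, e, bsq_udir]
    refine sum_congr rfl fun b _ => ?_
    rw [Real.sqrt_mul hN'.le, Real.sqrt_div (bsq_nonneg _ _)]
    rw [show 1 / (N : ℝ) * (Real.sqrt N * (Real.sqrt (bsq p ξ (some b)) / Real.sqrt R)) =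
      Real.sqrt N / N * (Real.sqrt (bsq p ξ (some b)) / Real.sqrt R) by ring, Real.sqrt_div_self']
    ring
  have h4 : ∑ b : Fin N, (3 / 2 * bsq p (udir ξ) (some b) -
      (N : ℝ) / 2 * bsq p (udir ξ) (some b) ^ 2) ≤ ∑ i, blkMap N n k ξ i * udir ξ i := by
    rw [h3]
    refine sum_le_sum fun b _ => ?_
    have h := mul_le_mul_of_nonneg_left
      (sqrt_ge (mul_nonneg hN'.le (bsq_nonneg (p := p) (udir ξ) (some b))))
      (one_div_nonneg.2 hN'.le)
    refine le_trans (le_of_eq ?_) h
    field_simp
  have h5 : bsq p (udir ξ) none + ∑ b : Fin N, bsq p (udir ξ) (some b) = 1 := by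
    rw [← h2, ← Fintype.sum_option (fun b => bsq p (udir ξ) b)]
    simp only [sq, bsq]
    exact (sum_eq_sum_bdot _ _).symm
  rw [sum_sub_distrib, ← mul_sum, ← mul_sum] at h4
  have e : ∑ i, (blkMap N n k ξ i - udir ξ i) ^ 2 = ∑ i, blkMap N n k ξ i ^ 2 +
      ∑ i, udir ξ i ^ 2 - 2 * ∑ i, blkMap N n k ξ i * udir ξ i := by
    rw [mul_sum, ← sum_add_distrib, ← sum_sub_distrib]
    exact sum_congr rfl fun i _ => by ring
  rw [sphMap_eq, e]
  linarith

lemma bsq_udir_bound {ι κ : Type} [Fintype ι] [Fintype κ] [DecidableEq κ] (p : ι → κ)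
    (ξ : ι → ℝ) (b : κ) : bsq p (udir ξ) b ≤ 1 := by
  refine le_trans ?_ (sum_udir_sq_le ξ)
  refine sum_le_sum fun i _ => ?_
  split_ifs
  · rw [sq]
  · exact sq_nonneg _

/-- The mean squared distance between the sphere and the blocks. -/
lemma blockMaps_dist_mean (hN : 0 < N) (hn : 0 < n) :
    ∫ ξ, ∑ i, (blkMap N n k ξ i - sphMap N n k ξ i) ^ 2 ∂gauss (BlockIdx N n k) ≤
      sqVar / n + 3 * k / (N * n + k : ℕ) := by
  have : Nonempty (BlockIdx N n k) := ⟨Sum.inl (⟨0, hN⟩, ⟨0, hn⟩)⟩
  set p := blockOf N n k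
  set D : ℝ := ((N * n + k : ℕ) : ℝ) with hDdef
  have hD : 0 < D := by rw [hDdef]; exact_mod_cast by positivity
  have hv : 0 ≤ sqVar := variance_nonneg _ _
  have hn' : (0 : ℝ) < n := by exact_mod_cast hn
  have hN' : (0 : ℝ) < N := by exact_mod_cast hN
  have hbm : ∀ b, Measurable fun x : BlockIdx N n k → ℝ => bsq p x b := fun b =>
    Finset.measurable_sum _ fun i _ => Measurable.ite (MeasurableSet.const _)
      ((measurable_pi_apply i).mul (measurable_pi_apply i)) measurable_const
  have hbe : ∀ b x, bsq p x b = ∑ i, (if p i = b then (1 : ℝ) else 0) * x i ^ 2 := fun b x =>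
    sum_congr rfl fun i _ => by split_ifs <;> ring
  have hmul : ∀ b (ξ : BlockIdx N n k → ℝ), bsq p (udir ξ) b * normSqF ξ = bsq p ξ b := by
    intro b ξ
    rw [bsq_udir]
    by_cases hR : normSqF ξ = 0
    · have h0 : bsq p ξ b = 0 := le_antisymm ((sum_le_sum fun i _ => by
        split_ifs
        · rw [sq]
        · exact sq_nonneg _).trans_eq hR) (bsq_nonneg ξ b)
      simp [h0, hR]
    · exact div_mul_cancel₀ _ hR
  obtain ⟨-, hT1, -, hT2⟩ := weighted_sq_moments (ι := BlockIdx N n k) fun _ => 1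
  simp only [one_mul, one_pow, sum_const, card_univ, nsmul_eq_mul, mul_one, Fintype.card_sum,
    Fintype.card_prod, Fintype.card_fin] at hT1 hT2
  have hE1 : (∫ ξ, bsq p (udir ξ) none ∂gauss (BlockIdx N n k)) * D = k := by
    obtain ⟨-, he, -, -⟩ := weighted_sq_moments (ι := BlockIdx N n k)
      fun i => if p i = none then (1 : ℝ) else 0
    simp only [← hbe] at he
    rw [show ∑ i, (if p i = none then (1 : ℝ) else 0) = k from sum_ite_none] at he
    have h := integral_dir_mul (hbm none) (h := fun t => t) measurable_id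
    simp only [hmul] at h
    simp only [show (normSqF : (BlockIdx N n k → ℝ) → ℝ) = fun x => ∑ i, x i ^ 2 from rfl] at h
    rw [he, hT1] at h
    exact h.symm
  have hE2 : ∀ b : Fin N, (∫ ξ, bsq p (udir ξ) (some b) ^ 2 ∂gauss (BlockIdx N n k)) *
      (D ^ 2 + sqVar * D) = (n : ℝ) ^ 2 + sqVar * n := by
    intro b
    obtain ⟨-, -, -, he⟩ := weighted_sq_moments (ι := BlockIdx N n k)
      fun i => if p i = some b then (1 : ℝ) else 0
    have hsq : ∀ i, (if p i = some b then (1 : ℝ) else 0) ^ 2 =
        if p i = some b then 1 else 0 := fun i => by split_ifs <;> simp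
    simp only [← hbe, hsq] at he
    rw [show ∑ i, (if p i = some b then (1 : ℝ) else 0) = n from sum_ite_some b] at he
    have h := integral_dir_mul ((hbm (some b)).pow_const 2) (h := fun t => t ^ 2) (by fun_prop)
    simp only [← mul_pow, hmul] at h
    simp only [show (normSqF : (BlockIdx N n k → ℝ) → ℝ) = fun x => ∑ i, x i ^ 2 from rfl] at h
    rw [he, hT2] at h
    exact h.symm
  have hi : ∀ b, Integrable (fun ξ => bsq p (udir ξ) b) (gauss (BlockIdx N n k)) := fun b =>
    Integrable.of_bound ((hbm b).comp measurable_udir).aestronglyMeasurable 1 (.of_forall fun ξ => by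
      rw [Real.norm_eq_abs, abs_of_nonneg (bsq_nonneg _ _)]; exact bsq_udir_bound p ξ b)
  have hi2 : ∀ b, Integrable (fun ξ => bsq p (udir ξ) b ^ 2) (gauss (BlockIdx N n k)) := fun b =>
    Integrable.of_bound (((hbm b).comp measurable_udir).pow_const 2).aestronglyMeasurable 1
      (.of_forall fun ξ => by
        rw [Real.norm_eq_abs, abs_of_nonneg (sq_nonneg _)]
        exact pow_le_one₀ (bsq_nonneg _ _) (bsq_udir_bound p ξ b))
  have hsum := ((integrable_finsetSum univ fun b (_ : b ∈ (univ : Finset (Fin N))) =>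
    hi2 (some b)).const_mul (N : ℝ)).sub' (integrable_const (1 : ℝ))
  refine (integral_mono_of_nonneg (.of_forall fun ξ => sum_nonneg fun i _ => sq_nonneg _)
    (hsum.fun_add ((hi none).const_mul 3)) ?_).trans ?_
  · filter_upwards [gauss_ae_ne_zero] with ξ hξ using blockMaps_dist_pointwise hN hξ
  · rw [integral_add hsum ((hi none).const_mul 3),
      integral_sub ((integrable_finsetSum _ fun b _ => hi2 (some b)).const_mul _)
        (integrable_const _), integral_const_mul, integral_const_mul,
      integral_finsetSum _ fun b _ => hi2 (some b)]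
    simp only [integral_const, probReal_univ, one_smul]
    have hnone : ∫ ξ, bsq p (udir ξ) none ∂gauss (BlockIdx N n k) = k / D :=
      (eq_div_iff hD.ne').2 hE1
    have hDN : (N : ℝ) * n ≤ D := by rw [hDdef]; push_cast; linarith [k.cast_nonneg (α := ℝ)]
    have hsome : ∀ b : Fin N, ∫ ξ, bsq p (udir ξ) (some b) ^ 2 ∂gauss (BlockIdx N n k) ≤
        (1 + sqVar / n) / (N : ℝ) ^ 2 := by
      intro b
      rw [(eq_div_iff (by positivity : D ^ 2 + sqVar * D ≠ 0)).2 (hE2 b)]
      calc ((n : ℝ) ^ 2 + sqVar * n) / (D ^ 2 + sqVar * D)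
          ≤ ((n : ℝ) ^ 2 + sqVar * n) / ((N : ℝ) * n) ^ 2 := by
            refine div_le_div_of_nonneg_left (by positivity) (by positivity) ?_
            nlinarith [mul_nonneg hv hD.le, mul_le_mul hDN hDN (by positivity) hD.le]
        _ = _ := by field_simp
    have hle := mul_le_mul_of_nonneg_left (sum_le_sum fun b (_ : b ∈ (univ : Finset (Fin N))) =>
      hsome b) hN'.le
    have e : (N : ℝ) * ∑ _b : Fin N, (1 + sqVar / n) / (N : ℝ) ^ 2 = 1 + sqVar / n := by
      rw [sum_const, card_univ, Fintype.card_fin, nsmul_eq_mul]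
      field_simp
    rw [hnone]
    have : 3 * ((k : ℝ) / D) = 3 * k / D := by ring
    linarith

lemma measurePreserving_uncurry (N n : ℕ) :
    MeasurePreserving (fun (x : Fin N → Fin n → ℝ) (q : Fin N × Fin n) => x q.1 q.2)
      (Measure.pi fun _ : Fin N => gauss (Fin n)) (gauss (Fin N × Fin n)) := by
  refine ⟨by fun_prop, ?_⟩
  unfold gauss
  refine (Measure.pi_eq fun s hs => ?_).symm
  rw [Measure.map_apply (by fun_prop) (MeasurableSet.univ_pi hs)]
  have : (fun (x : Fin N → Fin n → ℝ) (q : Fin N × Fin n) => x q.1 q.2) ⁻¹' Set.univ.pi s =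
      Set.univ.pi fun b => Set.univ.pi fun i => s (b, i) := by
    ext x; simp [Set.mem_pi]
  rw [this, Measure.pi_pi]
  simp only [Measure.pi_pi, Fintype.prod_prod_type]

/-- Independent uniform blocks as a function of one Gaussian vector. -/
noncomputable def priorMap (N n : ℕ) (η : Fin N × Fin n → ℝ) (q : Fin N × Fin n) : ℝ :=
  Real.sqrt n * udir (fun i => η (q.1, i)) q.2

lemma measurable_priorMap (N n : ℕ) : Measurable (priorMap N n) :=
  measurable_pi_lambda _ fun q => by
    have hrow : Measurable fun (η : Fin N × Fin n → ℝ) (i : Fin n) => η (q.1, i) :=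
      measurable_pi_lambda _ fun i => measurable_pi_apply (q.1, i)
    exact ((measurable_pi_apply q.2).comp (measurable_udir.comp hrow)).const_mul _

lemma blockPrior_eq (hn : 0 < n) :
    blockPrior n N = (gauss (Fin N × Fin n)).map (priorMap N n) := by
  have hf : Measurable fun (ξ : Fin n → ℝ) (i : Fin n) => Real.sqrt n * udir ξ i :=
    measurable_pi_lambda _ fun i => ((measurable_pi_apply i).comp measurable_udir).const_mul _
  have : IsProbabilityMeasure (sphereUnif n) := isProbability_sphereUnif hn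
  have hpi := measurePreserving_pi (fun _ : Fin N => gauss (Fin n)) (fun _ => sphereUnif n)
    fun _ => (⟨hf, (sphereUnif_eq_gauss hn).symm⟩ : MeasurePreserving _ _ _)
  rw [blockPrior, ← hpi.map_eq, ← (measurePreserving_uncurry N n).map_eq, Measure.map_map (by fun_prop) hpi.measurable,
    Measure.map_map (measurable_priorMap N n) (measurePreserving_uncurry N n).measurable]
  rfl

/-- Independent blocks on the sphere of radius one. -/
noncomputable def priorUnit (N n : ℕ) (η : Fin N × Fin n → ℝ) (q : Fin N × Fin n) : ℝ :=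
  priorMap N n η q / Real.sqrt (Fintype.card (Fin N × Fin n))

lemma measurable_priorUnit (N n : ℕ) : Measurable (priorUnit N n) :=
  measurable_pi_lambda _ fun q =>
    ((measurable_pi_apply q).comp (measurable_priorMap N n)).div_const _

lemma priorPressure_blockPrior (hu : Weight u L) (hN : 0 < N) (hn : 0 < n) (M : ℕ) :
    priorPressure (fun z => Real.log (u z)) M (blockPrior n N) * Fintype.card (Fin N × Fin n) =
      ∫ G, Real.log (mapPart u G (priorUnit N n)) ∂gaussM (Fin N × Fin n) M := by
  have hcard : (Fintype.card (Fin N × Fin n) : ℝ) ≠ 0 := by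
    simp [hN.ne', hn.ne']
  rw [priorPressure, div_mul_cancel₀ _ hcard, blockPrior_eq hn]
  refine integral_congr_ae (.of_forall fun G => ?_)
  simp only [mapPart]
  congr 1
  have hm : Measurable fun x : Fin N × Fin n → ℝ => Real.exp (∑ a, Real.log (u ((∑ i, G a i * x i) /
      Real.sqrt (Fintype.card (Fin N × Fin n))))) :=
    Real.measurable_exp.comp (Finset.measurable_sum _ fun a _ =>
      (Real.measurable_log.comp hu.cont.measurable).comp (by fun_prop))
  rw [integral_map (measurable_priorMap N n).aemeasurable hm.aestronglyMeasurable]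
  refine integral_congr_ae (.of_forall fun η => ?_)
  simp only [phiW, Real.exp_sum, Real.exp_log (hu.pos _)]
  refine prod_congr rfl fun a _ => congrArg u ?_
  rw [sum_div]
  exact sum_congr rfl fun i _ => mul_div_assoc _ _ _

lemma blkMap_inl (hn : 0 < n) (ξ : BlockIdx N n k → ℝ) (q : Fin N × Fin n) :
    blkMap N n k ξ (Sum.inl q) = priorUnit N n (fun r => ξ (Sum.inl r)) q := by
  have hb : bsq (blockOf N n k) ξ (some q.1) = normSqF fun i => ξ (Sum.inl (q.1, i)) := by
    simp only [bsq, bdot, blockOf, normSqF, Fintype.sum_sum_type, Fintype.sum_prod_type,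
      Option.some.injEq, sq, reduceCtorEq, if_false, sum_const_zero, add_zero]
    rw [sum_eq_single q.1]
    · simp
    · intro b _ hb'
      simp [hb']
    · simp
  rw [show blkMap N n k ξ (Sum.inl q) = blockW N (some q.1) *
      (ξ (Sum.inl q) / Real.sqrt (bsq (blockOf N n k) ξ (some q.1))) from rfl, hb]
  simp only [priorUnit, priorMap, udir, blockW, Fintype.card_prod, Fintype.card_fin, Nat.cast_mul,
    Real.sqrt_mul (Nat.cast_nonneg N)]
  have : Real.sqrt (n : ℝ) ≠ 0 := (Real.sqrt_pos.2 (by exact_mod_cast hn)).ne'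
  field_simp

lemma blkMap_inr (ξ : BlockIdx N n k → ℝ) (x : Fin k) : blkMap N n k ξ (Sum.inr x) = 0 := by
  simp [blkMap, normMap, blockOf, blockW]

lemma contLog_blkMap (hu : Weight u L) (hN : 0 < N) (hn : 0 < n) (M : ℕ) :
    contLog u ((gauss (BlockIdx N n k)).map (blkMap N n k)) M =
      priorPressure (fun z => Real.log (u z)) M (blockPrior n N) *
        Fintype.card (Fin N × Fin n) := by
  have hS : Measurable (blkMap N n k) := measurable_normMap _
  have hrest : MeasurePreserving (fun (ξ : BlockIdx N n k → ℝ) q => ξ (Sum.inl q))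
      (gauss (BlockIdx N n k)) (gauss (Fin N × Fin n)) :=
    measurePreserving_fst.comp
      (measurePreserving_sumPiEquivProdPi (fun _ : BlockIdx N n k => gaussianReal 0 1))
  have hrestM : MeasurePreserving
      (fun (G : Fin M → BlockIdx N n k → ℝ) j => fun q => G j (Sum.inl q))
      (gaussM (BlockIdx N n k) M) (gaussM (Fin N × Fin n) M) :=
    measurePreserving_pi _ _ fun _ => hrest
  have hU := measurable_priorUnit N n
  have hlm : Measurable fun G : Fin M → Fin N × Fin n → ℝ =>
      Real.log (mapPart u G (priorUnit N n)) :=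
    Real.measurable_log.comp (measurable_mapPart hu hU)
  rw [priorPressure_blockPrior hu hN hn M, contLog_map hu M hS, ← hrestM.map_eq,
    integral_map hrestM.measurable.aemeasurable hlm.aestronglyMeasurable]
  refine integral_congr_ae (.of_forall fun G => ?_)
  simp only [mapPart]
  congr 1
  have hm : Measurable fun η => phiW u (fun j q => G j (Sum.inl q)) (priorUnit N n η) :=
    ((continuous_phiW hu M).comp (.prodMk_right _)).measurable.comp hU
  rw [← hrest.map_eq, integral_map hrest.measurable.aemeasurable hm.aestronglyMeasurable]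
  refine integral_congr_ae (.of_forall fun ξ => ?_)
  simp only [phiW]
  refine prod_congr rfl fun a _ => congrArg u ?_
  simp only [Fintype.sum_sum_type, blkMap_inr, blkMap_inl hn, mul_zero, sum_const_zero, add_zero]

theorem sphere_block_close {φ : ℝ → ℝ} {C : ℝ} (hb : ∀ z, |φ z| ≤ C)
    (hl : ∀ z z', |φ z - φ z'| ≤ C * |z - z'|) {α : ℝ} (hα : 0 ≤ α) {ε : ℝ} (hε : 0 < ε) :
    ∃ n₀, ∀ n ≥ n₀, ∀ᶠ D : ℕ in atTop,
      |spherePressure φ α D -
        priorPressure φ ⌊α * (D / n * n : ℕ)⌋₊ (blockPrior n (D / n))| ≤ ε := by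
  have hC : 0 ≤ C := (abs_nonneg _).trans (hb 0)
  set u := fun z => Real.exp (φ z) with hudef
  have hcont : Continuous φ := by
    refine (LipschitzWith.of_dist_le_mul (K := ⟨C, hC⟩) fun x y => ?_).continuous
    simp only [Real.dist_eq]
    exact hl x y
  have hu : Weight u C :=
    ⟨fun z => Real.exp_pos _, fun z => by simpa [u] using hb z, by fun_prop⟩
  have hlog : (fun z => Real.log (u z)) = φ := funext fun z => Real.log_exp _
  set A := C * Real.exp (2 * C) * α
  have hA : 0 ≤ A := by positivity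
  set c := ε / (4 * (A + 1))
  have hc : 0 < c := by positivity
  have hv : 0 ≤ sqVar := variance_nonneg _ _
  have hn0 : Tendsto (fun n : ℕ => A * (sqVar / n / (2 * c))) atTop (𝓝 0) := by
    simpa using (((tendsto_const_div_atTop_nhds_zero_nat sqVar).div_const (2 * c)).const_mul A)
  obtain ⟨n₀, hn₀⟩ := eventually_atTop.1
    (hn0.eventually (eventually_le_nhds (show (0 : ℝ) < ε / 4 by positivity)))
  refine ⟨max n₀ 1, fun n hn => ?_⟩
  have hn1 : 0 < n := lt_of_lt_of_le one_pos ((le_max_right _ _).trans hn)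
  have hnv := hn₀ n ((le_max_left _ _).trans hn)
  set Q := C * (α * n + 1) + C * α * n + A * (3 * n / (2 * c))
  filter_upwards [eventually_ge_atTop n, (tendsto_const_div_atTop_nhds_zero_nat Q).eventually
    (eventually_le_nhds (show (0 : ℝ) < ε / 4 by positivity))] with D hD hQ
  have hN : 0 < D / n := Nat.div_pos hD hn1
  have hk : D % n < n := Nat.mod_lt D hn1
  have hdm : D / n * n + D % n = D := Nat.div_add_mod' D n
  generalize D / n = N at hN hdm ⊢
  generalize D % n = k at hk hdm
  subst hdm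
  set M := ⌊α * (N * n : ℕ)⌋₊
  set MD := ⌊α * (N * n + k : ℕ)⌋₊
  have hDpos : 0 < N * n + k := by positivity
  have : Nonempty (BlockIdx N n k) := ⟨Sum.inl (⟨0, hN⟩, ⟨0, hn1⟩)⟩
  set ι := BlockIdx N n k
  have e : ι ≃ Fin (N * n + k) := Fintype.equivFinOfCardEq (by simp [ι])
  have hsph : spherePressure φ α (N * n + k) =
      contLog u (unitUnif ι) MD / (N * n + k : ℕ) := by
    rw [← hlog, spherePressure_eq hu.cont.measurable hu.pos hDpos]
    simp only [sphereLog, MD]
    rw [contLog_reindex u e]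
  have hblk := contLog_blkMap (k := k) hu hN hn1 M
  rw [hlog, Fintype.card_prod, Fintype.card_fin, Fintype.card_fin] at hblk
  set D : ℝ := ((N * n + k : ℕ) : ℝ) with hDdef
  set D' : ℝ := ((N * n : ℕ) : ℝ) with hD'def
  have hD' : 0 < D' := by rw [hD'def]; exact_mod_cast Nat.mul_pos hN hn1
  have hDD : D = D' + k := by rw [hDdef, hD'def]; push_cast; ring
  have hD0 : 0 < D := by rw [hDdef]; exact_mod_cast hDpos
  have hkn : (k : ℝ) ≤ n := by exact_mod_cast hk.le
  set X := contLog u (unitUnif ι) MD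
  set X' := contLog u (unitUnif ι) M
  set Y := contLog u ((gauss ι).map (blkMap N n k)) M
  have hSm : Measurable (sphMap N n k) := measurable_normMap _
  have hBm : Measurable (blkMap N n k) := measurable_normMap _
  have hpY : IsProbabilityMeasure ((gauss ι).map (blkMap N n k)) :=
    Measure.isProbabilityMeasure_map hBm.aemeasurable
  have hunit : (gauss ι).map (sphMap N n k) = unitUnif ι := by rw [sphMap_eq, map_udir]
  have hY : |Y| ≤ C * M := abs_contLog_le hu _ _
  have hMα : (M : ℝ) ≤ α * D' := Nat.floor_le (by positivity)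
  have hMM : M ≤ MD := Nat.floor_mono (by push_cast; gcongr; simp)
  have hcount : |X - X'| ≤ C * (α * n + 1) := by
    have h := abs_contLog_sub hu (unitUnif ι) M (MD - M)
    rw [Nat.add_sub_cancel' hMM, Nat.cast_sub hMM] at h
    refine h.trans (mul_le_mul_of_nonneg_left ?_ hC)
    have h1 : (MD : ℝ) ≤ α * D := Nat.floor_le (by positivity)
    have h2 : α * D' < M + 1 := Nat.lt_floor_add_one _
    have h3 := mul_le_mul_of_nonneg_left hkn hα
    rw [hDD, mul_add] at h1
    linarith
  have hdist := blockMaps_dist_mean (k := k) hN hn1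
  set E := ∫ ξ, ∑ i, (blkMap N n k ξ i - sphMap N n k ξ i) ^ 2 ∂gauss ι with hEdef
  have hcoup : |X' - Y| ≤ α * D' * (C * Real.exp (2 * C) * (c / 2 + E / (2 * c))) := by
    have hE : 0 ≤ E := integral_nonneg fun ξ => sum_nonneg fun i _ => sq_nonneg _
    have hlip : ∀ z z', |Real.log (u z) - Real.log (u z')| ≤ C * |z - z'| := fun z z' => by
      simpa [u] using hl z z'
    have h1 := contLog_map_sub_le hu hC hlip hSm hBm (blockMaps_dist_le hN) M
      (fun M' F hF hFb => gibbs_uniform hu _ M' hF hFb) hc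
    have h2 := contLog_map_sub_le hu hC hlip hBm hSm
      (fun ξ => by simpa only [← neg_sub (blkMap N n k ξ _), neg_sq] using blockMaps_dist_le hN ξ) M
      (fun M' F hF hFb => gibbs_uniform hu _ M' hF hFb) hc
    simp only [← neg_sub (blkMap N n k _ _) (sphMap N n k _ _), neg_sq, ← hEdef] at h2
    rw [hunit] at h1 h2
    have hM := mul_le_mul_of_nonneg_right hMα
      (by positivity : 0 ≤ C * Real.exp (2 * C) * (c / 2 + E / (2 * c)))
    rw [abs_le]
    exact ⟨by linarith, by linarith⟩
  have hprior : priorPressure φ M (blockPrior n N) = Y / D' := by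
    rw [eq_div_iff hD'.ne', hblk]
  rw [hsph, hprior]
  change |X / D - Y / D'| ≤ ε
  have hsplit : X / D - Y / D' = (X - X') / D + (X' - Y) / D + Y * (1 / D - 1 / D') := by ring
  have hthird : |Y * (1 / D - 1 / D')| ≤ C * α * n / D := by
    have e1 : 1 / D - 1 / D' = -((k : ℝ) / (D * D')) := by
      rw [hDD]; field_simp; ring
    rw [e1, abs_mul, abs_neg, abs_of_nonneg (by positivity : 0 ≤ (k : ℝ) / (D * D'))]
    calc |Y| * ((k : ℝ) / (D * D')) ≤ C * (α * D') * ((n : ℝ) / (D * D')) := by
          refine mul_le_mul (hY.trans (mul_le_mul_of_nonneg_left hMα hC)) ?_ (by positivity)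
            (by positivity)
          gcongr
      _ = _ := by field_simp
  have hE' : A * (c / 2 + E / (2 * c)) ≤ ε / 4 + ε / 4 + A * (3 * n / (2 * c)) / D := by
    have h1 : A * (c / 2) ≤ ε / 4 := by
      have : A * c ≤ ε / 4 := by
        rw [show A * c = (A / (A + 1)) * (ε / 4) by simp only [c]; field_simp]
        exact mul_le_of_le_one_left (by positivity) ((div_le_one (by positivity)).2 (by linarith))
      linarith [mul_nonneg hA hc.le]
    have h2 : A * (E / (2 * c)) ≤ A * (sqVar / n / (2 * c)) + A * (3 * n / (2 * c)) / D := by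
      have : E / (2 * c) ≤ sqVar / n / (2 * c) + 3 * n / (2 * c) / D := by
        rw [div_right_comm _ (2 * c) D, ← add_div]
        gcongr
        refine hdist.trans (add_le_add le_rfl ?_)
        gcongr
      refine (mul_le_mul_of_nonneg_left this hA).trans_eq ?_
      ring
    rw [mul_add]
    linarith
  rw [hsplit]
  refine (abs_add_three _ _ _).trans ?_
  rw [abs_div, abs_div, abs_of_pos hD0]
  have hfst := div_le_div_of_nonneg_right hcount hD0.le
  have hsnd : |X' - Y| / D ≤ A * (c / 2 + E / (2 * c)) := by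
    rw [div_le_iff₀ hD0]
    refine hcoup.trans ?_
    have : D' ≤ D := by rw [hDD]; linarith [k.cast_nonneg (α := ℝ)]
    calc α * D' * (C * Real.exp (2 * C) * (c / 2 + E / (2 * c)))
        = A * (c / 2 + E / (2 * c)) * D' := by simp only [A]; ring
      _ ≤ _ := mul_le_mul_of_nonneg_left this (mul_nonneg hA (add_nonneg (by positivity)
          (div_nonneg (integral_nonneg fun ξ => sum_nonneg fun i _ => sq_nonneg _) (by positivity))))
  simp only [Q, add_div] at hQ
  linarith

end Vale.Agent.P157.Parisi
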