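import Vale.Agent.P157.Parisi.CalcAmpDeriv
import Vale.Agent.P157.Parisi.Concave
import Vale.Agent.P157.Parisi.CSLimit

/-!
Repeating every level of a path: the energy is unchanged and the entropy does not increase.
-/

namespace Vale.Agent.P157.Parisi

open MeasureTheory ProbabilityTheory Finset Filter Topology

namespace Refine

/-- The fine path: level `m` carries the value of level `m / L`. -/
def lift (L : ℕ) (h : ℕ → ℝ) (m : ℕ) : ℝ := h (m / L)

lemma isPath_lift {h : ℕ → ℝ} (hh : IsPath h) (L : ℕ) : IsPath (lift L h) :=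
  ⟨fun _ _ hab => hh.1 (Nat.div_le_div_right hab), by simpa [lift] using hh.2⟩

lemma top_div {K K' L : ℕ} (hL : 0 < L) (hK : K' + 1 = L * (K + 1)) : K' / L = K := by
  refine Nat.div_eq_of_lt_le ?_ ?_ <;> nlinarith

lemma rec_refine {α : Type} {K K' L : ℕ} (hL : 0 < L) (hK : K' + 1 = L * (K + 1))
    {s s' : ℕ → α → α} {f f' : ℕ → α} (h0 : f' 0 = f 0)
    (hf : ∀ d, f (d + 1) = s (K - d) (f d)) (hf' : ∀ d, f' (d + 1) = s' (K' - d) (f' d))
    (hs : ∀ j, 1 ≤ j → j ≤ K → ∀ v, s' (L * j) v = s j v)
    (hid : ∀ m, 1 ≤ m → m ≤ K' → ¬ L ∣ m → ∀ v, s' m v = v) :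
    f' K' = f K := by
  have main : ∀ d ≤ K', f' d = f (K - (K' - d) / L) := by
    intro d
    induction d with
    | zero => intro _; rw [Nat.sub_zero, top_div hL hK, Nat.sub_self, h0]
    | succ d ih =>
      intro hd
      rw [hf', ih (by omega)]
      have hm : K' - d = K' - (d + 1) + 1 := by omega
      set m := K' - (d + 1) with hmdef
      rw [hm, Nat.succ_div]
      by_cases hdiv : L ∣ m + 1
      · rw [if_pos hdiv]
        obtain ⟨j, hj⟩ := hdiv
        have hdj : (m + 1) / L = j := by rw [hj, Nat.mul_div_cancel_left j hL]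
        have hmj : m / L + 1 = j := by
          rw [← hdj, Nat.succ_div, if_pos ⟨j, hj⟩]
        have hjK : j ≤ K := by
          have : L * j < L * (K + 1) := by rw [← hj, ← hK]; omega
          exact Nat.lt_succ_iff.1 (Nat.lt_of_mul_lt_mul_left this)
        have hj1 : 1 ≤ j := hmj ▸ Nat.le_add_left 1 _
        have hsub : K - m / L = (K - j) + 1 := by
          generalize m / L = a at hmj
          omega
        rw [hmj, hj, hs j hj1 hjK, hsub, hf,
          show K - (K - j) = j by omega]
      · rw [if_neg hdiv, hid (m + 1) (by omega) (by omega) hdiv]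
        simp
  simpa using main K' le_rfl

lemma lift_diff {L : ℕ} (hL : 0 < L) (h : ℕ → ℝ) {j : ℕ} (hj : 1 ≤ j) :
    lift L h (L * j) - lift L h (L * j - 1) = h j - h (j - 1) := by
  have h1 : (L * j - 1) / L = j - 1 := by
    obtain ⟨i, rfl⟩ : ∃ i, j = i + 1 := ⟨j - 1, by omega⟩
    refine Nat.div_eq_of_lt_le ?_ ?_
    · simp only [Nat.add_sub_cancel]; rw [Nat.mul_comm i L, Nat.mul_add]; omega
    · simp only [Nat.add_sub_cancel]; rw [Nat.mul_comm (i + 1) L, Nat.mul_add]; omega
  simp [lift, h1, Nat.mul_div_cancel_left j hL]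

lemma lift_eq_pred {L : ℕ} (h : ℕ → ℝ) {m : ℕ} (hm : 1 ≤ m) (hd : ¬ L ∣ m) :
    lift L h m = lift L h (m - 1) := by
  obtain ⟨k, rfl⟩ : ∃ k, m = k + 1 := ⟨m - 1, by omega⟩
  simp [lift, Nat.succ_div, hd]

lemma lift_top {K K' L : ℕ} (hL : 0 < L) (hK : K' + 1 = L * (K + 1)) (h : ℕ → ℝ) :
    lift L h K' = h K := by simp [lift, top_div hL hK]

lemma lvl_mul {K K' L : ℕ} (hL : 0 < L) (hK : K' + 1 = L * (K + 1)) (j : ℕ) :
    lvl K' (L * j) = lvl K j := by
  have h : (K' : ℝ) + 1 = (L : ℝ) * ((K : ℝ) + 1) := by exact_mod_cast hK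
  have hL' : (L : ℝ) ≠ 0 := by exact_mod_cast hL.ne'
  simp only [lvl, Nat.cast_mul]
  rw [h, mul_div_mul_left _ _ hL']

lemma gaussStep_zero {m : ℝ} (hm : m ≠ 0) (u : ℝ → ℝ) : gaussStep m 0 u = u := by
  funext y; simp [gaussStep, hm]

lemma stepLog_zero {ι : Type} [Fintype ι] {m : ℝ} (hm : m ≠ 0) (u : (ι → ℝ) → ℝ) :
    stepLog m (fun _ => 0) u = u := by
  funext y
  have h : ∀ z, move (fun _ : ι => (0:ℝ)) y z = y := fun z => by funext i; simp [move]
  simp [stepLog, h, hm]

lemma energy_lift (f : ℝ → ℝ) {K K' L : ℕ} (hL : 0 < L) (hK : K' + 1 = L * (K + 1))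
    (q : ℕ → ℝ) : energy f K' (lift L q) = energy f K q := by
  simp only [energy, cascade, lift_top hL hK]
  have h0 : lift L q 0 = q 0 := by simp [lift]
  set u : ℝ → ℝ := fun y =>
    Real.log (∫ z, Real.exp (f (y + Real.sqrt (1 - q K) * z)) ∂gaussianReal 0 1)
  rw [h0, rec_refine hL hK (f := descend K q u) (f' := descend K' (lift L q) u)
    (s := fun l => gaussStep (lvl K l) (q l - q (l - 1)))
    (s' := fun l => gaussStep (lvl K' l) (lift L q l - lift L q (l - 1))) rfl
    (fun _ => rfl) (fun _ => rfl)]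
  · intro j hj _ v
    rw [lift_diff hL q hj, lvl_mul hL hK]
  · intro m hm _ hd v
    rw [lift_eq_pred q hm hd, sub_self, gaussStep_zero]
    have : (0:ℝ) < m := by exact_mod_cast hm
    simp only [lvl]
    positivity

/-- Increments of a path. -/
def inc (h : ℕ → ℝ) (l : ℕ) : ℝ := if l = 0 then h 0 else h l - h (l - 1)

lemma sum_inc (h : ℕ → ℝ) (m : ℕ) : ∑ l ∈ range (m + 1), inc h l = h m := by
  induction m with
  | zero => simp [inc]
  | succ m ih => rw [sum_range_succ, ih]; simp [inc]

lemma inc_nonneg {h : ℕ → ℝ} (hh : IsPath h) (l : ℕ) : 0 ≤ inc h l := by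
  unfold inc
  split_ifs
  · exact hh.2
  · exact sub_nonneg.2 (hh.1 (Nat.sub_le l 1))

lemma blockNest_amp (n K : ℕ) (h : ℕ → ℝ) :
    (blockNest n K h).amp = fun l _ => Real.sqrt (inc h l) := by
  funext l i
  simp only [blockNest, inc]
  split_ifs <;> rfl

lemma free_lift (n : ℕ) {K K' L : ℕ} (hL : 0 < L) (hK : K' + 1 = L * (K + 1)) (h : ℕ → ℝ) :
    (blockNest n K' (lift L h)).free (blockLeaf n) (sphereUnif n) =
      (blockNest n K h).free (blockLeaf n) (sphereUnif n) := by
  set U := (blockLeaf n).logZ (sphereUnif n)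
  have hu : (blockNest n K' (lift L h)).uUp U K' = (blockNest n K h).uUp U K := by
    refine rec_refine hL hK (f := (blockNest n K h).uUp U)
      (f' := (blockNest n K' (lift L h)).uUp U)
      (s := fun l => stepLog (gridX K l) ((blockNest n K h).amp l))
      (s' := fun l => stepLog (gridX K' l) ((blockNest n K' (lift L h)).amp l))
      rfl (fun _ => rfl) (fun _ => rfl) ?_ ?_
    · intro j hj _ v
      have hLj : L * j ≠ 0 := Nat.mul_ne_zero hL.ne' (by omega)
      simp only [blockNest_amp, inc, if_neg hLj, if_neg (show j ≠ 0 by omega), lift_diff hL h hj,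
        gridX, lvl_mul hL hK]
    · intro m hm _ hd v
      simp only [blockNest_amp, inc, if_neg (show m ≠ 0 by omega), lift_eq_pred h hm hd, sub_self,
        Real.sqrt_zero]
      refine stepLog_zero ?_ v
      have : (0:ℝ) < m := by exact_mod_cast hm
      simp only [gridX, lvl]
      positivity
  have h0 : (blockNest n K' (lift L h)).amp 0 = (blockNest n K h).amp 0 := by
    simp [blockNest_amp, inc, lift]
  simp only [Nest.free, Nest.mean, Nest.u, blockNest, Nat.sub_zero] at *
  rw [hu]
  simp [lift, U]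

lemma blockField_lift (n : ℕ) {K K' L : ℕ} (hL : 0 < L) (hK : K' + 1 = L * (K + 1))
    (h : ℕ → ℝ) : blockField n K' (lift L h) = blockField n K h := by
  simp only [blockField, free_lift n hL hK, lift_top hL hK]

section Block

variable {n : ℕ}

lemma sum_normBlock_sq (σ : Fin n → ℝ) : ∑ i, normBlock σ i ^ 2 = (n : ℝ) := by
  unfold normBlock
  by_cases h : ∑ k, σ k ^ 2 = 0
  · simp [h]
  · simp only [h, if_false]
    have hp : 0 < ∑ k, σ k ^ 2 :=
      lt_of_le_of_ne (sum_nonneg fun k _ => sq_nonneg _) (Ne.symm h)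
    simp only [div_pow, mul_pow, Real.sq_sqrt hp.le, Real.sq_sqrt (Nat.cast_nonneg n)]
    rw [← sum_div, ← mul_sum]
    field_simp

lemma blockLeaf_good (n : ℕ) : (blockLeaf n).Good (max 1 (Real.sqrt n)) where
  nonneg := le_max_of_le_left zero_le_one
  meas _ i := by
    simp only [blockLeaf, normBlock]
    exact Measurable.ite (measurableSet_eq_fun (by fun_prop) measurable_const) (by fun_prop)
      (by fun_prop)
  bound σ _ i := by
    refine le_max_of_le_right ?_
    have h := single_le_sum (fun k _ => sq_nonneg (normBlock σ k)) (mem_univ i)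
    rw [sum_normBlock_sq] at h
    simpa [Real.sqrt_sq_eq_abs, blockLeaf] using Real.sqrt_le_sqrt h
  deriv1 _ z := hasDerivAt_id z
  deriv2 _ z := hasDerivAt_const z 1
  cont2 _ := continuous_const
  bound1 _ _ := by simp [blockLeaf]
  bound2 _ _ := by simp [blockLeaf]

lemma blockNest_good (n K : ℕ) (h : ℕ → ℝ) : (blockNest n K h).Good := by
  have hK : (0:ℝ) < (K:ℝ) + 1 := by positivity
  constructor
  · simp [blockNest, gridX, lvl]
  · simp [blockNest, gridX, lvl, hK.ne']
  · intro l hl _
    have : (0:ℝ) < l := by exact_mod_cast hl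
    simp only [blockNest, gridX, lvl]
    positivity
  · intro l _
    refine min_le_min le_rfl (div_le_div_of_nonneg_right ?_ hK.le)
    push_cast; linarith

lemma blockNest_w (n K : ℕ) (h : ℕ → ℝ) {m : ℕ} (hm : m ≤ K) :
    (blockNest n K h).w m = ((K : ℝ) + 1)⁻¹ := by
  have hK : (0:ℝ) < (K:ℝ) + 1 := by positivity
  have h1 : (m:ℝ) ≤ K := by exact_mod_cast hm
  simp only [Nest.w, blockNest, gridX, lvl]
  rw [min_eq_right (by rw [div_le_one hK]; push_cast; linarith),
    min_eq_right (by rw [div_le_one hK]; linarith)]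
  push_cast
  ring

lemma isProbabilityMeasure_sphereUnif (hn : 0 < n) : IsProbabilityMeasure (sphereUnif n) := by
  have : Nonempty (Fin n) := ⟨⟨0, hn⟩⟩
  have hscale : Measurable fun a : Fin n → ℝ => fun i => Real.sqrt n * a i := by fun_prop
  have h : sphereUnif n = (unitUnif (Fin n)).map fun a i => Real.sqrt n * a i := by
    rw [unitUnif, Measure.map_smul, Measure.map_map hscale measurable_sphereCoord, sphereUnif]
    rfl
  rw [h]
  exact Measure.isProbabilityMeasure_map hscale.aemeasurable

variable (μ : Measure (Fin n → ℝ)) [IsProbabilityMeasure μ]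

lemma sum_heatTop (N : Nest (Fin n)) (hN : N.Good) :
    ∑ i, N.heatTop (blockLeaf n) μ i = n := by
  have hL := blockLeaf_good n
  have hobs : ∀ i, Obs fun σ (_ : Fin n → ℝ) => (blockLeaf n).a σ () i ^ 2 := fun i =>
    ⟨fun _ => (hL.meas () i).pow_const 2, fun _ => continuous_const,
      ⟨max 1 (Real.sqrt n) ^ 2, fun σ _ => by
        rw [abs_of_nonneg (sq_nonneg _)]
        exact sq_le_sq' (abs_le.1 (hL.bound σ () i)).1 (abs_le.1 (hL.bound σ () i)).2⟩⟩
  have htop : ∀ i, N.heat (blockLeaf n) μ N.K i =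
      N.node (blockLeaf n) μ N.K (fun σ _ => (blockLeaf n).a σ () i ^ 2) := by
    intro i
    funext y
    rw [heat_top hN hL, node_top hN hL]
    refine congrFun (congrArg ((blockLeaf n).gibbs μ) ?_) y
    funext σ v
    simp [blockLeaf, Leaf.vec]
  have hsum : ∀ s : Finset (Fin n),
      (∑ i ∈ s, N.heatTop (blockLeaf n) μ i) = N.mean ((blockLeaf n).logZ μ) N.K
        (N.node (blockLeaf n) μ N.K fun σ _ => ∑ i ∈ s, (blockLeaf n).a σ () i ^ 2) := by
    intro s
    induction s using Finset.induction with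
    | empty =>
      simp only [sum_empty]
      rw [show N.node (blockLeaf n) μ N.K (fun _ _ => (0:ℝ)) = fun _ => (0:ℝ) from
        funext (node_const hN hL le_rfl 0), mean_const hN hL le_rfl]
    | insert i s hi ih =>
      have ho : Obs fun σ (_ : Fin n → ℝ) => ∑ i ∈ s, (blockLeaf n).a σ () i ^ 2 := by
        refine ⟨fun y => measurable_sum _ fun j _ => (hobs j).1 y, fun _ => continuous_const, ?_⟩
        refine ⟨n, fun σ _ => ?_⟩
        rw [abs_of_nonneg (sum_nonneg fun j _ => sq_nonneg _)]
        exact (sum_le_univ_sum_of_nonneg fun j => sq_nonneg _).trans (sum_normBlock_sq σ).le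
      simp only [sum_insert hi]
      rw [ih, Nest.heatTop, htop, ← mean_add hN hL le_rfl (node_tame hN hL le_rfl (hobs i))
        (node_tame hN hL le_rfl ho)]
      congr 1
      funext y
      exact (node_add hN hL le_rfl (hobs i) ho y).symm
  rw [hsum]
  have hc : (fun σ (_ : Fin n → ℝ) => ∑ i, (blockLeaf n).a σ () i ^ 2) = fun _ _ => (n : ℝ) :=
    funext fun σ => funext fun _ => sum_normBlock_sq σ
  rw [hc, show N.node (blockLeaf n) μ N.K (fun _ _ => (n:ℝ)) = fun _ => (n:ℝ) from
    funext (node_const hN hL le_rfl _), mean_const hN hL le_rfl]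

/-- A level with zero amplitude repeats the previous one. -/
lemma sqGrad_zero_step {ι Ω κ : Type} [Fintype ι] [Fintype κ] [MeasurableSpace Ω] {N : Nest ι}
    {L : Leaf Ω κ ι} {μ : Measure Ω} [IsProbabilityMeasure μ] {B : ℝ} (hN : N.Good)
    (hL : L.Good B) {m : ℕ} (hm : m < N.K) (h0 : N.amp (m + 1) = fun _ => 0) (i : ι) :
    N.sqGrad L μ (m + 1) i = N.sqGrad L μ m i := by
  have havg : ∀ f, N.avg (L.logZ μ) m f = f := by
    intro f
    funext y
    have h : ∀ z, move (fun _ : ι => (0:ℝ)) y z = y := fun z => by funext i; simp [move]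
    simp [Nest.avg, tilt, h0, h, Real.exp_ne_zero]
  have hg : N.grad L μ m i = N.grad L μ (m + 1) i := by
    simp only [Nest.grad]
    rw [node_succ hN hL hm, havg]
  simp only [Nest.sqGrad, Nest.mean, havg, hg]

end Block

lemma sum_block {R : Type} [AddCommMonoid R] (F : ℕ → R) (L J : ℕ) :
    ∑ m ∈ range (J * L), F m = ∑ j ∈ range J, ∑ r ∈ range L, F (j * L + r) := by
  induction J with
  | zero => simp
  | succ J ih => rw [Nat.succ_mul, sum_range_add, ih, sum_range_succ _ J]

lemma block_div {L : ℕ} (hL : 0 < L) (j r : ℕ) (hr : r < L) : (j * L + r) / L = j := by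
  refine Nat.div_eq_of_lt_le ?_ ?_ <;> nlinarith

variable {n : ℕ}

/-- The interpolation between two paths. -/
def segPath (p p' : ℕ → ℝ) (t : ℝ) (l : ℕ) : ℝ := (1 - t) * p l + t * p' l

lemma inc_segPath (p p' : ℕ → ℝ) (t : ℝ) (l : ℕ) :
    inc (segPath p p' t) l = (1 - t) * inc p l + t * inc p' l := by
  unfold inc segPath; split_ifs <;> ring

/-- The first order bound along a segment which starts at a constant on blocks. -/
theorem blockField_le_lift (hn : 0 < n) {K K' L : ℕ} (hL : 0 < L) (hK : K' + 1 = L * (K + 1))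
    {g p' : ℕ → ℝ} (hg : IsPath g) (hp' : IsPath p')
    (hbal : ∀ j ≤ K, ∑ r ∈ range L, (p' (j * L + r) - g j) = 0) :
    blockField n K' p' ≤ blockField n K' (lift L g) := by
  have := isProbabilityMeasure_sphereUnif hn
  set p := lift L g with hpdef
  have hp : IsPath p := isPath_lift hg L
  set N := blockNest n K' p with hNdef
  have hN : N.Good := blockNest_good n K' p
  have hLG := blockLeaf_good n
  set μ := sphereUnif n with hμ
  let A : ℝ → ℕ → Fin n → ℝ := fun t l _ => Real.sqrt (inc (segPath p p' t) l)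
  have hnest : ∀ t, blockNest n K' (segPath p p' t) = N.setAmp (A t) := by
    intro t
    show (⟨K', gridX K', (blockNest n K' (segPath p p' t)).amp⟩ : Nest (Fin n)) = _
    rw [blockNest_amp]
    rfl
  let φ : ℝ → ℝ := fun t => blockField n K' (segPath p p' t)
  have hφ : ∀ t, φ t = (N.setAmp (A t)).free (blockLeaf n) μ / n - segPath p p' t K' / 2 := by
    intro t
    simp only [φ, blockField, hnest, hμ]
  let v : ℕ → ℝ := fun l => p' l - p l
  let w : ℝ := ((K' : ℝ) + 1)⁻¹
  let P : ℝ → ℕ → ℝ := fun t m => ∑ i, (N.setAmp (A t)).sqGrad (blockLeaf n) μ m i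
  let G : ℝ → ℝ := fun t => -(∑ m ∈ range (K' + 1), w * v m * P t m) / (2 * n)
  have hAcont : ∀ l ≤ K', ∀ i, Continuous fun t => A t l i := by
    intro l _ i
    simp only [A, inc_segPath]
    fun_prop
  have hφc : Continuous φ := by
    rw [funext hφ]
    refine ((continuous_free hN hLG (μ := μ) hAcont).div_const _).sub ?_
    unfold segPath
    fun_prop
  have hGc : Continuous G := by
    refine ((continuous_finsetSum _ fun m hm => continuous_const.mul ?_).neg).div_const _
    exact continuous_finsetSum _ fun i _ =>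
      continuous_sqGrad hN hLG (μ := μ) hAcont (Nat.lt_succ_iff.1 (mem_range.1 hm)) i
  have hder : ∀ t ∈ Set.Ioo (0:ℝ) 1, HasDerivAt φ (G t) t := by
    intro t ht
    let A' : ℝ → ℕ → Fin n → ℝ := fun s l _ =>
      (inc p' l - inc p l) / (2 * Real.sqrt (inc (segPath p p' s) l))
    have hr : 0 < min t (1 - t) := lt_min ht.1 (by linarith [ht.2])
    have hzero : ∀ l, inc p l = 0 ∧ inc p' l = 0 ∨
        ∀ s ∈ Set.Ioo (0:ℝ) 1, 0 < inc (segPath p p' s) l := by
      intro l
      rcases (inc_nonneg hp l).lt_or_eq with h1 | h1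
      · refine Or.inr fun s hs => ?_
        rw [inc_segPath]
        exact add_pos_of_pos_of_nonneg (mul_pos (by linarith [hs.2]) h1)
          (mul_nonneg hs.1.le (inc_nonneg hp' l))
      rcases (inc_nonneg hp' l).lt_or_eq with h2 | h2
      · refine Or.inr fun s hs => ?_
        rw [inc_segPath]
        exact add_pos_of_nonneg_of_pos (mul_nonneg (by linarith [hs.2]) (inc_nonneg hp l))
          (mul_pos hs.1 h2)
      exact Or.inl ⟨h1.symm, h2.symm⟩
    have hA : ∀ l ≤ K', ∀ i, ∀ s, |s - t| < min t (1 - t) →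
        HasDerivAt (fun u => A u l i) (A' s l i) s := by
      intro l _ i s hs
      have hs' : s ∈ Set.Ioo (0:ℝ) 1 := by
        obtain ⟨a1, a2⟩ := abs_lt.1 hs
        constructor <;> linarith [min_le_left t (1 - t), min_le_right t (1 - t)]
      rcases hzero l with ⟨h1, h2⟩ | h
      · simp only [A, A', inc_segPath, h1, h2, mul_zero, add_zero, Real.sqrt_zero, sub_self,
          zero_div]
        exact hasDerivAt_const s 0
      · have hd : HasDerivAt (fun u => inc (segPath p p' u) l) (inc p' l - inc p l) s := by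
          simp only [inc_segPath]
          exact (((hasDerivAt_id s).const_sub 1).mul_const (inc p l)
            |>.add ((hasDerivAt_id s).mul_const (inc p' l))).congr_deriv (by ring)
        exact hd.sqrt (h s hs').ne'
    have hA' : ∀ l ≤ K', ∀ i, ContinuousAt (fun s => A' s l i) t := by
      intro l _ i
      rcases hzero l with ⟨h1, h2⟩ | h
      · simp only [A', h1, h2, sub_self, zero_div]
        exact continuousAt_const
      · refine continuousAt_const.div ?_ ?_
        · simp only [inc_segPath]; fun_prop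
        · exact mul_ne_zero two_ne_zero (Real.sqrt_pos.2 (h t ht)).ne'
    have hfd := free_deriv hN hLG (μ := μ) hr hA hA'
    have hprod : ∀ l i, A' t l i * A t l i = (inc p' l - inc p l) / 2 := by
      intro l i
      rcases hzero l with ⟨h1, h2⟩ | h
      · simp [A', h1, h2]
      · have := (Real.sqrt_pos.2 (h t ht)).ne'
        simp only [A, A']
        field_simp
    have hw : ∀ m ∈ range (K' + 1), N.w m = w := fun m hm =>
      blockNest_w n K' p (Nat.lt_succ_iff.1 (mem_range.1 hm))
    have hsegK : HasDerivAt (fun s => segPath p p' s K') (v K') t := by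
      simp only [segPath, v]
      exact (((hasDerivAt_id t).const_sub 1).mul_const (p K')
        |>.add ((hasDerivAt_id t).mul_const (p' K'))).congr_deriv (by ring)
    have hd := (hfd.div_const (n : ℝ)).sub (hsegK.div_const 2)
    rw [funext hφ]
    refine hd.congr_deriv ?_
    have hswap : ∑ l ∈ range (K' + 1), (inc p' l - inc p l) *
        ∑ m ∈ Icc l K', w * P t m = ∑ m ∈ range (K' + 1), v m * (w * P t m) := by
      simp only [mul_sum]
      rw [sum_comm' (t' := range (K' + 1)) (s' := fun m => range (m + 1))]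
      · refine sum_congr rfl fun m _ => ?_
        rw [← sum_mul, sum_sub_distrib, sum_inc, sum_inc]
      · intro l m
        simp only [mem_range, mem_Icc]
        omega
    have hfree : ∑ l ∈ range (K' + 1), ∑ i, A' t l i * A t l i *
        ((N.setAmp (A t)).heatTop (blockLeaf n) μ i -
          ∑ m ∈ Icc l K', N.w m * (N.setAmp (A t)).sqGrad (blockLeaf n) μ m i) =
        ((n:ℝ) * v K' - ∑ m ∈ range (K' + 1), v m * (w * P t m)) / 2 := by
      have e : ∀ l ∈ range (K' + 1), ∑ i, A' t l i * A t l i *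
          ((N.setAmp (A t)).heatTop (blockLeaf n) μ i -
            ∑ m ∈ Icc l K', N.w m * (N.setAmp (A t)).sqGrad (blockLeaf n) μ m i) =
          ((inc p' l - inc p l) * n -
            (inc p' l - inc p l) * ∑ m ∈ Icc l K', w * P t m) / 2 := by
        intro l _
        simp only [hprod]
        rw [← mul_sum, sum_sub_distrib,
          sum_heatTop μ (N.setAmp (A t)) (hnest t ▸ blockNest_good n K' _), sum_comm]
        have : ∀ m ∈ Icc l K', ∑ i, N.w m * (N.setAmp (A t)).sqGrad (blockLeaf n) μ m i =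
            w * P t m := fun m hm => by
          rw [← mul_sum, hw m (mem_range.2 (Nat.lt_succ_of_le (mem_Icc.1 hm).2))]
        rw [sum_congr rfl this]
        ring
      rw [sum_congr rfl e, ← sum_div, sum_sub_distrib, ← sum_mul, hswap,
        sum_sub_distrib, sum_inc, sum_inc]
      simp only [v]
      ring
    show (∑ l ∈ range (N.K + 1), _) / (n : ℝ) - v K' / 2 = G t
    rw [show N.K = K' from rfl, hfree]
    simp only [G]
    have hn' : (n:ℝ) ≠ 0 := by exact_mod_cast hn.ne'
    rw [show ∑ m ∈ range (K' + 1), w * v m * P t m = ∑ m ∈ range (K' + 1), v m * (w * P t m) from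
      sum_congr rfl fun m _ => by ring]
    generalize ∑ m ∈ range (K' + 1), v m * (w * P t m) = T
    field_simp
    ring
  have hseg0 : segPath p p' 0 = p := by funext l; simp [segPath]
  have hseg1 : segPath p p' 1 = p' := by funext l; simp [segPath]
  have hG0 : G 0 = 0 := by
    have hconst : ∀ j r, r < L → j ≤ K → P 0 (j * L + r) = P 0 (j * L) := by
      intro j r
      induction r with
      | zero => simp
      | succ r ih =>
        intro hr hj
        rw [← ih (by omega) hj]
        refine sum_congr rfl fun i _ => ?_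
        have hlt : j * L + r < K' := by nlinarith
        refine sqGrad_zero_step (m := j * L + r) (N := N.setAmp (A 0)) ?_ hLG hlt ?_ i
        · exact hnest 0 ▸ blockNest_good n K' _
        · funext k
          show Real.sqrt (inc (segPath p p' 0) (j * L + r + 1)) = 0
          rw [hseg0, hpdef, inc, if_neg (by omega), Nat.add_sub_cancel,
            show j * L + r + 1 = j * L + (r + 1) by omega]
          simp [lift, block_div hL j (r + 1) hr, block_div hL j r (by omega)]
    simp only [G]
    rw [hK, Nat.mul_comm L, sum_block]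
    have : ∀ j ∈ range (K + 1), ∑ r ∈ range L, w * v (j * L + r) * P 0 (j * L + r) = 0 := by
      intro j hj
      have hj' := Nat.lt_succ_iff.1 (mem_range.1 hj)
      have e : ∀ r ∈ range L, w * v (j * L + r) * P 0 (j * L + r) =
          (w * P 0 (j * L)) * (p' (j * L + r) - g j) := fun r hr => by
        rw [hconst j r (mem_range.1 hr) hj']
        simp only [v, hpdef, lift, block_div hL j r (mem_range.1 hr)]
        ring
      rw [sum_congr rfl e, ← mul_sum, hbal j hj', mul_zero]
    rw [sum_congr rfl this]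
    simp
  have hφ01 : ∀ t ∈ Set.Ioo (0:ℝ) 1, (1 - t) * φ 0 + t * φ 1 ≤ φ t := by
    intro t ht
    simp only [φ, hseg0, hseg1]
    exact blockField_concave hn K' hp hp' ht.1.le ht.2.le
  by_contra hcon
  push Not at hcon
  have hlt : φ 0 < φ 1 := by simpa only [φ, hseg0, hseg1] using hcon
  obtain ⟨δ, hδ, hδ'⟩ := Metric.continuousAt_iff.1 (hGc.continuousAt (x := 0)) (φ 1 - φ 0)
    (by linarith)
  set t := min δ 1 / 2 with ht
  have ht0 : 0 < t := by positivity
  have ht1 : t < 1 := by have := min_le_right δ 1; linarith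
  obtain ⟨ξ, hξ, hξ'⟩ := exists_hasDerivAt_eq_slope φ G ht0 hφc.continuousOn
    fun x hx => hder x ⟨hx.1, hx.2.trans ht1⟩
  have h1 : φ 1 - φ 0 ≤ G ξ := by
    rw [hξ', le_div_iff₀ (by linarith)]
    nlinarith [hφ01 t ⟨ht0, ht1⟩]
  have h2 := hδ' (x := ξ) (by
    rw [Real.dist_eq, sub_zero, abs_of_pos hξ.1]
    have := min_le_left δ 1
    linarith [hξ.2])
  rw [Real.dist_eq, hG0, sub_zero] at h2
  linarith [le_abs_self (G ξ)]

/-- Refining a path does not increase the entropy. -/
theorem blockEntropy_lift (hn : 0 < n) {K K' L : ℕ} (hL : 0 < L) (hK : K' + 1 = L * (K + 1))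
    {q : ℕ → ℝ} (hq : IsPath q) (h1 : q K < 1) :
    blockEntropy n K' (lift L q) ≤ blockEntropy n K q := by
  have : Nonempty {h : ℕ → ℝ // IsPath h} := ⟨⟨fun _ => 0, monotone_const, le_rfl⟩⟩
  refine ciSup_le fun ⟨h, hh⟩ => ?_
  let g : ℕ → ℝ := fun j => (∑ r ∈ range L, h (j * L + r)) / L
  have hg : IsPath g := by
    refine ⟨fun a b hab => ?_, ?_⟩
    · exact div_le_div_of_nonneg_right
        (sum_le_sum fun r _ => hh.1 (by nlinarith)) (Nat.cast_nonneg L)
    · exact div_nonneg (sum_nonneg fun r _ => hh.2.trans (hh.1 (Nat.zero_le _)))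
        (Nat.cast_nonneg L)
  have hL' : (L : ℝ) ≠ 0 := by exact_mod_cast hL.ne'
  have hb := blockField_le_lift hn hL hK hg hh fun j _ => by
    simp [g, sum_sub_distrib, mul_div_cancel₀ _ hL']
  rw [blockField_lift n hL hK] at hb
  have hs : (∑ l ∈ range (K' + 1), h l * lift L q l) / (2 * ((K' : ℝ) + 1)) =
      (∑ j ∈ range (K + 1), g j * q j) / (2 * ((K : ℝ) + 1)) := by
    have hcast : (K' : ℝ) + 1 = (L : ℝ) * ((K : ℝ) + 1) := by exact_mod_cast hK
    rw [hcast, hK, Nat.mul_comm L, sum_block]
    have e : ∀ j ∈ range (K + 1), ∑ r ∈ range L, h (j * L + r) * lift L q (j * L + r) =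
        (L : ℝ) * (g j * q j) := fun j _ => by
      rw [← mul_assoc, show (L:ℝ) * g j = ∑ r ∈ range L, h (j * L + r) from mul_div_cancel₀ _ hL',
        sum_mul]
      exact sum_congr rfl fun r hr => by simp [lift, block_div hL j r (mem_range.1 hr)]
    rw [sum_congr rfl e, ← mul_sum]
    field_simp
  calc blockField n K' h + (∑ l ∈ range (K' + 1), h l * lift L q l) / (2 * ((K' : ℝ) + 1))
      ≤ blockField n K g + (∑ j ∈ range (K + 1), g j * q j) / (2 * ((K : ℝ) + 1)) := by
        rw [hs]; gcongr
    _ ≤ _ := le_ciSup (blockEntropy_bddAbove hn K hq h1) (⟨g, hg⟩ : {h : ℕ → ℝ // IsPath h})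

end Refine

end Vale.Agent.P157.Parisi
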