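import Vale.Agent.P157.Parisi.UpperGrid
import Vale.Agent.P157.Parisi.Refine

/-!
The upper bound: refining the levels removes the error of the grid.
-/

namespace Vale.Agent.P157.Parisi

open MeasureTheory ProbabilityTheory Finset Filter Topology

/-- The pressure is at most every value of the variational formula. -/
theorem block_upper {φ φ1 φ2 : ℝ → ℝ} {B : ℝ} (hφ : PhiGood φ φ1 φ2 B) {n : ℕ} (hn : 0 < n)
    {α : ℝ} (hα : 0 ≤ α) (K : ℕ) {q : ℕ → ℝ} (hq : IsPath q) (h1 : q K < 1) {ε : ℝ} (hε : 0 < ε) :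
    ∀ᶠ N : ℕ in atTop, priorPressure φ ⌊α * (N * n : ℕ)⌋₊ (blockPrior n N) ≤
      blockEntropy n K q + α * energy φ K q + ε := by
  have hlim : Tendsto (fun L : ℕ => 10 * α * B ^ 2 * Real.sqrt ((L : ℝ)⁻¹)) atTop (𝓝 0) := by
    have h := ((Real.continuous_sqrt.tendsto _).comp
      (tendsto_inv_atTop_zero.comp (tendsto_natCast_atTop_atTop (R := ℝ)))).const_mul
      (10 * α * B ^ 2)
    simpa [Function.comp_def] using h
  obtain ⟨L, hLs, hL1⟩ := ((hlim.eventually_le_const (show (0:ℝ) < ε / 2 by linarith)).and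
    (eventually_ge_atTop 1)).exists
  set K' := L * (K + 1) - 1 with hK'
  have hK : K' + 1 = L * (K + 1) := by
    have : 1 ≤ L * (K + 1) := Nat.one_le_iff_ne_zero.2 (Nat.mul_ne_zero (by omega) (by omega))
    omega
  have hLp : 0 < L := hL1
  have hq' := Refine.isPath_lift hq L
  have h1' : Refine.lift L q K' < 1 := by rw [Refine.lift_top hLp hK]; exact h1
  have hmesh : 10 * α * B ^ 2 * Real.sqrt (((K' : ℝ) + 1)⁻¹) ≤ ε / 2 := by
    refine le_trans (mul_le_mul_of_nonneg_left (Real.sqrt_le_sqrt ?_) (by positivity)) hLs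
    refine inv_anti₀ (by exact_mod_cast hLp) ?_
    exact_mod_cast (show L ≤ K' + 1 by rw [hK]; exact Nat.le_mul_of_pos_right L (Nat.succ_pos K))
  have hE := Refine.energy_lift φ hLp hK q
  have hS := Refine.blockEntropy_lift hn hLp hK hq h1
  filter_upwards [upper_grid hφ hn hα K' hq' h1' (show 0 < ε / 2 by linarith)] with N hN
  rw [hE] at hN
  linarith

end Vale.Agent.P157.Parisi
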