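import Vale.Agent.P157.Parisi.Approx
import Vale.Agent.P157.Parisi.IsingBridge
import Vale.Agent.P157.Parisi.Concave
import Vale.Agent.P157.Parisi.CSLimit
import Vale.Agent.P157.Parisi.SphereBlocks
import Vale.Agent.P157.Parisi.Lower
import Vale.Agent.P157.Parisi.Upper

/-!
Assembly of the variational formula from the two bounds for blocks of spins.
-/

namespace Vale.Agent.P157.Parisi

open MeasureTheory ProbabilityTheory Finset Filter Topology

/-- Smooth bounded approximation of a bounded Borel potential. -/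
theorem exists_smooth_approx {f : ℝ → ℝ} (hf : Measurable f) {C : ℝ} (hC : ∀ x, |f x| ≤ C)
    {ε : ℝ} (hε : 0 < ε) :
    ∃ φ φ1 φ2 : ℝ → ℝ, ∃ B, PhiGood φ φ1 φ2 B ∧ (∀ x, |φ x| ≤ C + 1) ∧
      (∀ x y, |φ x - φ y| ≤ B * |x - y|) ∧ ∫ x, |f x - φ x| ∂gaussianReal 0 1 ≤ ε := by
  obtain ⟨φ, φ1, φ2, B, h1, h2, h3, h4, h5, h6, h7, h8, h9, h10⟩ :=
    exists_smooth_approx_aux hf hC hε
  exact ⟨φ, φ1, φ2, B, ⟨h1, h2, h3, h4, h5, h6, h7⟩, h8, h9, h10⟩

/-- The values entering the variational formula. -/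
def valueSet (S : ℕ → (ℕ → ℝ) → ℝ) (f : ℝ → ℝ) (α : ℝ) : Set ℝ :=
  {v | ∃ K q, IsPath q ∧ q K < 1 ∧ v = S K q + α * energy f K q}

lemma valueSet_nonempty (S : ℕ → (ℕ → ℝ) → ℝ) (f : ℝ → ℝ) (α : ℝ) :
    (valueSet S f α).Nonempty :=
  ⟨_, 0, fun _ => 0, isPath_zero, zero_lt_one, rfl⟩

section Value

variable {S : ℕ → (ℕ → ℝ) → ℝ} (hS : ∀ K q, IsPath q → q K < 1 → 0 ≤ S K q)
variable {f : ℝ → ℝ} (hf : Measurable f) {C : ℝ} (hfC : ∀ x, |f x| ≤ C) {α : ℝ} (hα : 0 ≤ α)

include hS hf hfC hα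

lemma valueSet_bddBelow : BddBelow (valueSet S f α) := by
  refine ⟨-(α * C), ?_⟩
  rintro v ⟨K, q, hq, h1, rfl⟩
  have := mul_le_mul_of_nonneg_left (abs_le.1 (abs_energy_le hf hfC K q)).1 hα
  linarith [hS K q hq h1]

lemma value_le (K : ℕ) {q : ℕ → ℝ} (hq : IsPath q) (h1 : q K < 1) :
    variationalValue S f α ≤ S K q + α * energy f K q :=
  csInf_le (valueSet_bddBelow hS hf hfC hα) ⟨K, q, hq, h1, rfl⟩

lemma value_close {φ : ℝ → ℝ} (hφ : Measurable φ) (hφC : ∀ x, |φ x| ≤ C) :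
    |variationalValue S f α - variationalValue S φ α| ≤
      α * Real.exp (4 * C) * ∫ x, |f x - φ x| ∂gaussianReal 0 1 := by
  set η := α * Real.exp (4 * C) * ∫ x, |f x - φ x| ∂gaussianReal 0 1 with hη
  have he : ∀ K q, IsPath q → q K < 1 → |α * energy f K q - α * energy φ K q| ≤ η := by
    intro K q hq h1
    rw [← mul_sub, abs_mul, abs_of_nonneg hα, hη, mul_assoc]
    exact mul_le_mul_of_nonneg_left (energy_close hf hφ hfC hφC K hq h1.le) hα
  refine abs_le.2 ⟨?_, ?_⟩
  · have : variationalValue S φ α - η ≤ variationalValue S f α := by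
      refine le_csInf (valueSet_nonempty S f α) ?_
      rintro v ⟨K, q, hq, h1, rfl⟩
      have := value_le hS hφ hφC hα K hq h1
      linarith [(abs_le.1 (he K q hq h1)).1]
    linarith
  · have : variationalValue S f α - η ≤ variationalValue S φ α := by
      refine le_csInf (valueSet_nonempty S φ α) ?_
      rintro v ⟨K, q, hq, h1, rfl⟩
      have := value_le hS hf hfC hα K hq h1
      linarith [(abs_le.1 (he K q hq h1)).2]
    linarith

omit hS hf hfC hα in
lemma exists_near_value {η : ℝ} (hη : 0 < η) :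
    ∃ K q, IsPath q ∧ q K < 1 ∧ S K q + α * energy f K q < variationalValue S f α + η := by
  obtain ⟨v, ⟨K, q, hq, h1, rfl⟩, hv⟩ := exists_lt_of_csInf_lt (valueSet_nonempty S f α)
    (show sInf (valueSet S f α) < variationalValue S f α + η from lt_add_of_pos_right _ hη)
  exact ⟨K, q, hq, h1, hv⟩

end Value

lemma blockEntropy_one (K : ℕ) (q : ℕ → ℝ) : blockEntropy 1 K q = isingEntropy K q := by
  refine congrArg iSup (funext fun h => ?_)
  rw [blockField_one K h.2]

lemma blockEntropy_nonneg {n : ℕ} (hn : 0 < n) (K : ℕ) {q : ℕ → ℝ} (hq : IsPath q) (h1 : q K < 1) :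
    0 ≤ blockEntropy n K q := by
  have h := le_ciSup (blockEntropy_bddAbove hn K hq h1)
    (⟨fun _ => 0, isPath_zero⟩ : {h : ℕ → ℝ // IsPath h})
  simpa [blockEntropy, blockField_zero hn] using h

lemma isingEntropy_nonneg (K : ℕ) {q : ℕ → ℝ} (hq : IsPath q) (h1 : q K < 1) :
    0 ≤ isingEntropy K q := by
  rw [← blockEntropy_one]; exact blockEntropy_nonneg one_pos K hq h1

theorem isingEntropy_bddAbove (K : ℕ) {q : ℕ → ℝ} (hq : IsPath q) (h1 : q K < 1) :
    BddAbove (Set.range fun h : {h : ℕ → ℝ // IsPath h} =>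
      isingField K h.1 + (∑ l ∈ Finset.range (K + 1), h.1 l * q l) / (2 * ((K : ℝ) + 1))) := by
  have h := blockEntropy_bddAbove one_pos K hq h1
  simpa only [blockField_one K (Subtype.prop _)] using h

lemma sphereEntropy_nonneg (K : ℕ) {q : ℕ → ℝ} (hq : IsPath q) (h1 : q K < 1) :
    0 ≤ sphereEntropy K q :=
  ge_of_tendsto (tendsto_blockEntropy K hq h1)
    ((eventually_gt_atTop 0).mono fun _ hn => blockEntropy_nonneg hn K hq h1)

section Smooth

variable {φ φ1 φ2 : ℝ → ℝ} {B : ℝ} (hφ : PhiGood φ φ1 φ2 B) {α : ℝ} (hα : 0 ≤ α)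

include hφ

lemma PhiGood.meas : Measurable φ :=
  (continuous_iff_continuousAt.2 fun z => (hφ.deriv1 z).continuousAt).measurable

lemma PhiGood.lipschitz (x y : ℝ) : |φ x - φ y| ≤ B * |x - y| := by
  have := Convex.norm_image_sub_le_of_norm_deriv_le (s := Set.univ) (f := φ) (C := B)
    (fun z _ => (hφ.deriv1 z).differentiableAt)
    (fun z _ => by rw [(hφ.deriv1 z).deriv, Real.norm_eq_abs]; exact hφ.bound1 z)
    convex_univ (Set.mem_univ y) (Set.mem_univ x)
  simpa [Real.norm_eq_abs] using this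

include hα

lemma ising_smooth : Tendsto (fun N => pressure φ α N) atTop (𝓝 (isingValue φ α)) := by
  refine tendsto_order.2 ⟨fun a ha => ?_, fun a ha => ?_⟩
  · set η := (isingValue φ α - a) / 2 with hη
    obtain ⟨K₀, hK⟩ := block_lower hφ hα (ε := η) (by linarith)
    refine (hK K₀ le_rfl 1 one_pos).mono fun N ⟨q, hq, h1, h⟩ => ?_
    have hv := value_le (S := isingEntropy) (fun K q => isingEntropy_nonneg K) hφ.meas hφ.bound0 hα
      K₀ hq h1
    rw [blockEntropy_one, Nat.mul_one] at h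
    rw [pressure_eq_priorPressure hφ.meas]
    change isingValue φ α ≤ _ at hv
    linarith
  · set η := (a - isingValue φ α) / 2 with hη
    obtain ⟨K, q, hq, h1, hv⟩ := exists_near_value (S := isingEntropy) (f := φ) (α := α) (η := η)
      (by linarith)
    refine (block_upper hφ one_pos hα K hq h1 (ε := η / 2) (by linarith)).mono fun N h => ?_
    rw [blockEntropy_one, Nat.mul_one] at h
    rw [pressure_eq_priorPressure hφ.meas]
    change _ < isingValue φ α + η at hv
    linarith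

lemma sphere_smooth : Tendsto (fun N => spherePressure φ α N) atTop (𝓝 (sphereValue φ α)) := by
  have hS := fun K q => @sphereEntropy_nonneg K q
  refine tendsto_order.2 ⟨fun a ha => ?_, fun a ha => ?_⟩
  · set η := (sphereValue φ α - a) / 4 with hη
    have hηp : 0 < η := by linarith
    obtain ⟨K₀, hK⟩ := block_lower hφ hα (ε := η) hηp
    obtain ⟨n₀, hn₀⟩ := sphere_block_close hφ.bound0 hφ.lipschitz hα hηp
    obtain ⟨n, hnE, hn, hnp⟩ := ((blockEntropy_lower K₀ (sphereValue φ α + α * B) hηp).and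
      ((eventually_ge_atTop n₀).and (eventually_gt_atTop 0))).exists
    filter_upwards [hn₀ n hn,
      (Nat.tendsto_div_const_atTop hnp.ne').eventually (hK K₀ le_rfl n hnp)] with D hD hq
    obtain ⟨q, hq, h1, h⟩ := hq
    have hv := value_le hS hφ.meas hφ.bound0 hα K₀ hq h1
    change sphereValue φ α ≤ _ at hv
    have he := mul_le_mul_of_nonneg_left (abs_le.1 (abs_energy_le hφ.meas hφ.bound0 K₀ q)).1 hα
    have := hnE q hq h1
    have := (abs_le.1 hD).1
    rcases le_total (sphereValue φ α + α * B) (sphereEntropy K₀ q) with hmin | hmin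
    · rw [min_eq_left hmin] at *
      linarith
    · rw [min_eq_right hmin] at *
      linarith
  · set η := (a - sphereValue φ α) / 4 with hη
    have hηp : 0 < η := by linarith
    obtain ⟨K, q, hq, h1, hv⟩ := exists_near_value (S := sphereEntropy) (f := φ) (α := α) hηp
    change _ < sphereValue φ α + η at hv
    obtain ⟨n₀, hn₀⟩ := sphere_block_close hφ.bound0 hφ.lipschitz hα hηp
    obtain ⟨n, hnE, hn, hnp⟩ := (((tendsto_blockEntropy K hq h1).eventually
      (eventually_lt_nhds (lt_add_of_pos_right _ hηp))).and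
      ((eventually_ge_atTop n₀).and (eventually_gt_atTop 0))).exists
    filter_upwards [hn₀ n hn, (Nat.tendsto_div_const_atTop hnp.ne').eventually
      (block_upper hφ hnp hα K hq h1 hηp)] with D hD h
    have := (abs_le.1 hD).2
    linarith

end Smooth

lemma tendsto_of_close {p : ℕ → ℝ} {V : ℝ}
    (h : ∀ ε > 0, ∃ (p' : ℕ → ℝ) (V' : ℝ), Tendsto p' atTop (𝓝 V') ∧
      (∀ᶠ N in atTop, |p N - p' N| ≤ ε) ∧ |V - V'| ≤ ε) :
    Tendsto p atTop (𝓝 V) := by
  refine Metric.tendsto_nhds.2 fun ε hε => ?_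
  obtain ⟨p', V', ht, hp, hV⟩ := h (ε / 4) (by linarith)
  filter_upwards [hp, Metric.tendsto_nhds.1 ht (ε / 4) (by linarith)] with N h1 h2
  rw [Real.dist_eq] at h2 ⊢
  have h3 := abs_sub_le (p N) (p' N) V
  have h4 := abs_sub_le (p' N) V' V
  rw [abs_sub_comm V' V] at h4
  linarith

lemma pattern_ratio_le {α : ℝ} (hα : 0 ≤ α) (N : ℕ) : (⌊α * N⌋₊ : ℝ) / N ≤ α :=
  div_le_of_le_mul₀ (Nat.cast_nonneg N) hα (Nat.floor_le (by positivity))

/-- The limit of the pressure of the Gaussian perceptron, on the Ising cube and on the sphere. -/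
theorem perceptron_formula (f : ℝ → ℝ) (hf : Measurable f) (hb : ∃ C, ∀ x, |f x| ≤ C) (α : ℝ)
    (hα : 0 < α) :
    Tendsto (fun N => pressure f α N) atTop (𝓝 (isingValue f α)) ∧
      Tendsto (fun N => spherePressure f α N) atTop (𝓝 (sphereValue f α)) := by
  obtain ⟨C, hC⟩ := hb
  have hfC : ∀ x, |f x| ≤ C + 1 := fun x => (hC x).trans (by linarith)
  have happ : ∀ ε > 0, ∃ φ φ1 φ2 : ℝ → ℝ, ∃ B, PhiGood φ φ1 φ2 B ∧ (∀ x, |φ x| ≤ C + 1) ∧
      α * Real.exp (4 * (C + 1)) * ∫ x, |f x - φ x| ∂gaussianReal 0 1 ≤ ε := by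
    intro ε hε
    obtain ⟨φ, φ1, φ2, B, h1, h2, h3, h4, h5, h6, h7, h8, -, h10⟩ :=
      exists_smooth_approx_aux hf hC (ε := ε / (α * Real.exp (4 * (C + 1)))) (by positivity)
    refine ⟨φ, φ1, φ2, B, ⟨h1, h2, h3, h4, h5, h6, h7⟩, h8, ?_⟩
    calc _ ≤ α * Real.exp (4 * (C + 1)) * (ε / (α * Real.exp (4 * (C + 1)))) :=
          mul_le_mul_of_nonneg_left h10 (by positivity)
      _ = ε := by field_simp
  refine ⟨tendsto_of_close fun ε hε => ?_, tendsto_of_close fun ε hε => ?_⟩
  all_goals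
    obtain ⟨φ, φ1, φ2, B, hφ, hφC, hε'⟩ := happ ε hε
    have hI : 0 ≤ Real.exp (4 * (C + 1)) * ∫ x, |f x - φ x| ∂gaussianReal 0 1 :=
      mul_nonneg (Real.exp_pos _).le (integral_nonneg fun _ => abs_nonneg _)
    rw [mul_assoc] at hε'
  · refine ⟨_, _, ising_smooth hφ hα.le, (eventually_gt_atTop 0).mono fun N hN => ?_,
      (value_close (fun K q => @isingEntropy_nonneg K q) hf hfC hα.le hφ.meas hφC).trans
        (by rwa [mul_assoc])⟩
    have := blockPrior_prob one_pos N
    have : Nonempty (Fin N) := ⟨⟨0, hN⟩⟩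
    rw [pressure_eq_priorPressure hf, pressure_eq_priorPressure hφ.meas]
    refine (priorPressure_close hf hφ.meas hfC hφC _ _ (blockPrior_ae one_pos N)).trans ?_
    rw [mul_assoc, Fintype.card_prod, Fintype.card_fin, Fintype.card_fin, Nat.mul_one]
    exact (mul_le_mul_of_nonneg_right (pattern_ratio_le hα.le N) hI).trans hε'
  · refine ⟨_, _, sphere_smooth hφ hα.le, (eventually_gt_atTop 0).mono fun N hN => ?_,
      (value_close (fun K q => @sphereEntropy_nonneg K q) hf hfC hα.le hφ.meas hφC).trans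
        (by rwa [mul_assoc])⟩
    have := sphereUnif_prob hN
    have : Nonempty (Fin N) := ⟨⟨0, hN⟩⟩
    rw [spherePressure_eq_priorPressure, spherePressure_eq_priorPressure]
    refine (priorPressure_close hf hφ.meas hfC hφC _ _ (by simpa using sphereUnif_ae hN)).trans ?_
    rw [mul_assoc, Fintype.card_fin]
    exact (mul_le_mul_of_nonneg_right (pattern_ratio_le hα.le N) hI).trans hε'

end Vale.Agent.P157.Parisi
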