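import Mathlib

/-!
Maximisation of the box average of a convex function against a quadratic form, with a logarithmic
barrier: near a maximiser the function is affine up to the square of the side of the box.
-/

namespace Vale.Agent.P157.Parisi

open MeasureTheory Finset

variable {ι : Type} [Fintype ι]

/-- The uniform probability measure on `[-1, 1]`. -/
noncomputable def segUnif : Measure ℝ :=
  (2⁻¹ : NNReal) • volume.restrict (Set.Icc (-1) 1)

/-- The uniform probability measure on the cube `[-1, 1]^ι`. -/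
noncomputable def cubeUnif (ι : Type) [Fintype ι] : Measure (ι → ℝ) :=
  Measure.pi fun _ => segUnif

/-- The average of `a` over the box of half side `d` centred at `c`. -/
noncomputable def boxAvg (d : ℝ) (a : (ι → ℝ) → ℝ) (c : ι → ℝ) : ℝ :=
  ∫ u, a (fun i => c i + d * u i) ∂cubeUnif ι

/-- The quantity maximised: box average, quadratic form and barrier. -/
noncomputable def boxObj (d ε : ℝ) (k : ι → ℝ) (a : (ι → ℝ) → ℝ) (c : ι → ℝ) : ℝ :=
  boxAvg d a c - (∑ i, k i * c i ^ 2) / 2 + ε * ∑ i, Real.log (c i - 2 * d)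

instance isProbabilityMeasure_segUnif : IsProbabilityMeasure segUnif := by
  constructor
  simp [segUnif, Real.volume_Icc]
  norm_num [ENNReal.smul_def]
  rw [ENNReal.inv_mul_cancel] <;> norm_num

instance isProbabilityMeasure_cubeUnif : IsProbabilityMeasure (cubeUnif ι) := by
  unfold cubeUnif; infer_instance

lemma cubeUnif_ae_mem : ∀ᵐ u ∂cubeUnif ι, ∀ i, |u i| ≤ 1 := by
  rw [ae_all_iff]
  intro i
  have h : ∀ᵐ x ∂segUnif, |x| ≤ 1 := by
    apply Measure.ae_smul_measure
    filter_upwards [ae_restrict_mem measurableSet_Icc] with x hx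
    exact abs_le.2 hx
  exact (Measure.quasiMeasurePreserving_eval (μ := fun _ : ι => segUnif) i).ae h

lemma integral_segUnif (f : ℝ → ℝ) :
    ∫ x, f x ∂segUnif = 2⁻¹ * ∫ x in (-1:ℝ)..1, f x := by
  rw [segUnif, integral_smul_nnreal_measure, intervalIntegral.integral_of_le (by norm_num),
    integral_Icc_eq_integral_Ioc]
  simp [NNReal.smul_def]

lemma integral_cubeUnif_eval (i : ι) {f : ℝ → ℝ} (hf : Continuous f) :
    ∫ u, f (u i) ∂cubeUnif ι = 2⁻¹ * ∫ x in (-1:ℝ)..1, f x := by
  rw [← integral_segUnif]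
  exact MeasureTheory.integral_comp_eval (μ := fun _ : ι => segUnif) hf.aestronglyMeasurable

lemma integrable_cubeUnif {f : (ι → ℝ) → ℝ} (hf : Continuous f) :
    Integrable f (cubeUnif ι) := by
  have hK : IsCompact (Set.pi Set.univ fun _ : ι => Set.Icc (-1:ℝ) 1) :=
    isCompact_univ_pi fun _ => isCompact_Icc
  obtain ⟨C, hC⟩ := hK.exists_bound_of_continuousOn hf.continuousOn
  refine Integrable.of_bound hf.aestronglyMeasurable C ?_
  filter_upwards [cubeUnif_ae_mem (ι := ι)] with u hu
  exact hC u fun i _ => abs_le.1 (hu i)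

lemma integrable_box {a : (ι → ℝ) → ℝ} (ha : Continuous a) (d : ℝ) (c : ι → ℝ) :
    Integrable (fun u => a fun i => c i + d * u i) (cubeUnif ι) :=
  integrable_cubeUnif (ha.comp (continuous_pi fun i => continuous_const.add
    (continuous_const.mul (continuous_apply i))))

lemma boxAvg_le {a b : (ι → ℝ) → ℝ} (ha : Continuous a) (hb : Continuous b) {d : ℝ}
    (hd : 0 ≤ d) {c : ι → ℝ} (h : ∀ v, (∀ i, |v i - c i| ≤ d) → a v ≤ b v) :
    boxAvg d a c ≤ boxAvg d b c := by
  refine integral_mono_ae (integrable_box ha d c) (integrable_box hb d c) ?_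
  filter_upwards [cubeUnif_ae_mem (ι := ι)] with u hu
  refine h _ fun i => ?_
  have h1 : |c i + d * u i - c i| = d * |u i| := by
    rw [add_sub_cancel_left, abs_mul, abs_of_nonneg hd]
  rw [h1]
  exact mul_le_of_le_one_right hd (hu i)

lemma boxAvg_affine (F : ℝ) (g : ι → ℝ) (d : ℝ) (c : ι → ℝ) :
    boxAvg d (fun v => F + ∑ i, g i * v i) c = F + ∑ i, g i * c i := by
  have hi : ∀ i, Integrable (fun u : ι → ℝ => g i * (c i + d * u i)) (cubeUnif ι) := fun i =>
    integrable_cubeUnif (continuous_const.mul (continuous_const.add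
      (continuous_const.mul (continuous_apply i))))
  have h0 : ∀ i, ∫ u, g i * (c i + d * u i) ∂cubeUnif ι = g i * c i := by
    intro i
    rw [integral_cubeUnif_eval (ι := ι) i (f := fun x => g i * (c i + d * x)) (by fun_prop)]
    have h1 : IntervalIntegrable (fun _ : ℝ => c i) volume (-1) 1 := intervalIntegrable_const
    have h2 : IntervalIntegrable (fun x : ℝ => d * x) volume (-1) 1 :=
      (continuous_const.mul continuous_id).intervalIntegrable _ _
    rw [intervalIntegral.integral_const_mul, intervalIntegral.integral_add h1 h2,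
      intervalIntegral.integral_const, intervalIntegral.integral_const_mul, integral_id]
    simp only [smul_eq_mul]
    ring
  simp only [boxAvg]
  rw [integral_add (integrable_const _) (integrable_finsetSum _ fun i _ => hi i),
    integral_finsetSum _ fun i _ => hi i]
  simp [h0]

lemma boxAvg_sq (k : ι → ℝ) (d : ℝ) (c : ι → ℝ) :
    boxAvg d (fun v => (∑ i, k i * v i ^ 2) / 2) c =
      (∑ i, k i * c i ^ 2) / 2 + d ^ 2 * (∑ i, k i) / 6 := by
  have hi : ∀ i, Integrable (fun u : ι → ℝ => k i * (c i + d * u i) ^ 2) (cubeUnif ι) := fun i =>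
    integrable_cubeUnif (continuous_const.mul ((continuous_const.add
      (continuous_const.mul (continuous_apply i))).pow 2))
  have h0 : ∀ i, ∫ u, k i * (c i + d * u i) ^ 2 ∂cubeUnif ι =
      k i * c i ^ 2 + d ^ 2 * k i / 3 := by
    intro i
    rw [integral_cubeUnif_eval (ι := ι) i (f := fun x => k i * (c i + d * x) ^ 2) (by fun_prop)]
    have he : (fun x : ℝ => k i * (c i + d * x) ^ 2) =
        fun x => k i * c i ^ 2 + 2 * k i * c i * d * x + k i * d ^ 2 * x ^ 2 := by
      funext x; ring
    have h2 : IntervalIntegrable (fun x : ℝ => k i * d ^ 2 * x ^ 2) volume (-1) 1 :=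
      (continuous_const.mul (continuous_id.pow 2)).intervalIntegrable _ _
    rw [he, intervalIntegral.integral_add ((by fun_prop : Continuous _).intervalIntegrable _ _) h2,
      intervalIntegral.integral_add intervalIntegrable_const
        ((by fun_prop : Continuous _).intervalIntegrable _ _),
      intervalIntegral.integral_const, intervalIntegral.integral_const_mul,
      intervalIntegral.integral_const_mul, integral_id, integral_pow]
    simp only [smul_eq_mul]
    norm_num
    ring
  simp only [boxAvg]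
  rw [integral_div, integral_finsetSum _ fun i _ => hi i]
  simp only [h0, sum_add_distrib, ← sum_div, ← mul_sum]
  ring

lemma continuous_boxAvg {a : (ι → ℝ) → ℝ} (ha : Continuous a) (d : ℝ) :
    Continuous fun c => boxAvg d a c := by
  refine continuous_iff_continuousAt.2 fun c => ?_
  have hg : Continuous fun p : (ι → ℝ) × (ι → ℝ) => a (fun i => p.1 i + d * p.2 i) :=
    ha.comp (by fun_prop)
  have hK : IsCompact (Set.pi Set.univ fun _ : ι => Set.Icc (-1:ℝ) 1) :=
    isCompact_univ_pi fun _ => isCompact_Icc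
  obtain ⟨C, hC⟩ := ((isCompact_closedBall c 1).prod hK).exists_bound_of_continuousOn hg.continuousOn
  refine continuousAt_of_dominated (bound := fun _ => C) ?_ ?_ (integrable_const _) ?_
  · exact Filter.Eventually.of_forall fun c' => (integrable_box ha d c').aestronglyMeasurable
  · filter_upwards [Metric.closedBall_mem_nhds c one_pos] with c' hc'
    filter_upwards [cubeUnif_ae_mem (ι := ι)] with u hu
    exact hC (c', u) ⟨hc', fun i _ => abs_le.1 (hu i)⟩
  · refine Filter.Eventually.of_forall fun u => ?_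
    exact (hg.comp (continuous_id.prodMk continuous_const)).continuousAt

lemma le_boxAvg_midpoint {a : (ι → ℝ) → ℝ} (hc : ConvexOn ℝ Set.univ a) (ha : Continuous a)
    (d : ℝ) (c v : ι → ℝ) :
    2 * boxAvg d a c ≤ boxAvg d a (fun i => c i + v i) + boxAvg d a (fun i => c i - v i) := by
  simp only [boxAvg]
  rw [← integral_const_mul, ← integral_add (integrable_box ha d _) (integrable_box ha d _)]
  refine integral_mono ((integrable_box ha d c).const_mul 2)
    ((integrable_box ha d _).add (integrable_box ha d _)) fun u => ?_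
  have h := hc.2 (Set.mem_univ (fun i => c i + v i + d * u i))
    (Set.mem_univ (fun i => c i - v i + d * u i)) (by norm_num : (0:ℝ) ≤ 1/2)
    (by norm_num : (0:ℝ) ≤ 1/2) (by norm_num)
  have he : (1/2 : ℝ) • (fun i => c i + v i + d * u i) + (1/2 : ℝ) • (fun i => c i - v i + d * u i)
      = fun i => c i + d * u i := by funext i; simp; ring
  rw [he] at h
  simp only [smul_eq_mul] at h
  linarith

lemma cubeUnif_map_neg : (cubeUnif ι).map (fun u i => - u i) = cubeUnif ι := by
  have h : segUnif.map Neg.neg = segUnif := by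
    rw [segUnif, Measure.map_smul]
    congr 1
    have hp : MeasurePreserving (fun x : ℝ => -x) volume volume :=
      Measure.measurePreserving_neg volume
    have := (hp.restrict_preimage (s := Set.Icc (-1:ℝ) 1) measurableSet_Icc).map_eq
    simpa using this
  exact (measurePreserving_pi _ _ fun _ : ι => (⟨measurable_neg, h⟩ :
    MeasurePreserving Neg.neg segUnif segUnif)).map_eq

lemma le_boxAvg {a : (ι → ℝ) → ℝ} (hc : ConvexOn ℝ Set.univ a) (ha : Continuous a)
    (d : ℝ) (c : ι → ℝ) : a c ≤ boxAvg d a c := by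
  have hneg : boxAvg d a c = ∫ u, a (fun i => c i + d * (- u i)) ∂cubeUnif ι := by
    conv_lhs => rw [boxAvg, ← cubeUnif_map_neg (ι := ι)]
    have hm : Measurable fun (u : ι → ℝ) i => - u i := by fun_prop
    exact integral_map hm.aemeasurable
      (ha.comp (continuous_pi fun i => continuous_const.add
        (continuous_const.mul (continuous_apply i)))).aestronglyMeasurable
  have hn : Integrable (fun u => a fun i => c i + d * (- u i)) (cubeUnif ι) :=
    integrable_cubeUnif (ha.comp (by fun_prop))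
  have h : 2 * a c ≤ boxAvg d a c + boxAvg d a c := by
    conv_rhs => arg 2; rw [hneg]
    rw [boxAvg, ← integral_add (integrable_box ha d c) hn]
    calc 2 * a c = ∫ _, 2 * a c ∂cubeUnif ι := by simp
      _ ≤ _ := integral_mono (integrable_const _) ((integrable_box ha d c).add hn) fun u => ?_
    have h := hc.2 (Set.mem_univ (fun i => c i + d * u i))
      (Set.mem_univ (fun i => c i + d * (- u i))) (by norm_num : (0:ℝ) ≤ 1/2)
      (by norm_num : (0:ℝ) ≤ 1/2) (by norm_num)
    have he : (1/2 : ℝ) • (fun i => c i + d * u i) + (1/2 : ℝ) • (fun i => c i + d * (- u i))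
        = c := by funext i; simp; ring
    rw [he] at h
    simp only [smul_eq_mul] at h
    simp only [Pi.add_apply]
    linarith
  linarith

/-- The bound by a quadratic form with room `η` passes to the objective. -/
theorem boxObj_le {a : (ι → ℝ) → ℝ} (ha : Continuous a) {k : ι → ℝ} {d ε η A : ℝ} (hd : 0 ≤ d)
    {c : ι → ℝ} (hc : ∀ i, 2 * d < c i)
    (hA : ∀ v, (∀ i, 0 ≤ v i) → a v ≤ A + (∑ i, (k i - 2 * η) * v i ^ 2) / 2) :
    boxObj d ε k a c ≤ A + d ^ 2 * (∑ i, (k i - 2 * η)) / 6 +
      ∑ i, (-η * c i ^ 2 + ε * Real.log (c i - 2 * d)) := by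
  have hcont : Continuous fun v : ι → ℝ => (∑ i, (k i - 2 * η) * v i ^ 2) / 2 := by fun_prop
  have h1 : boxAvg d a c ≤ boxAvg d (fun v => A + (∑ i, (k i - 2 * η) * v i ^ 2) / 2) c :=
    boxAvg_le ha (continuous_const.add hcont) hd fun v hv => hA v fun i => by
      linarith [(abs_le.1 (hv i)).1, hc i]
  have h2 : boxAvg d (fun v => A + (∑ i, (k i - 2 * η) * v i ^ 2) / 2) c =
      A + ((∑ i, (k i - 2 * η) * c i ^ 2) / 2 + d ^ 2 * (∑ i, (k i - 2 * η)) / 6) := by
    rw [← boxAvg_sq]
    simp only [boxAvg]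
    rw [integral_add (integrable_const _) (integrable_box hcont d c)]
    simp
  have h3 : ∑ i, (k i - 2 * η) * c i ^ 2 = (∑ i, k i * c i ^ 2) - 2 * η * ∑ i, c i ^ 2 := by
    rw [mul_sum, ← sum_sub_distrib]
    exact sum_congr rfl fun i _ => by ring
  have h4 : ∑ i, (-η * c i ^ 2 + ε * Real.log (c i - 2 * d)) =
      -η * (∑ i, c i ^ 2) + ε * ∑ i, Real.log (c i - 2 * d) := by
    simp only [sum_add_distrib, mul_sum]
  rw [boxObj, h4]
  rw [h2, h3] at h1
  nlinarith [h1]

/-- Existence of a maximiser under a quadratic bound with room `η`. -/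
theorem exists_boxObj_max {a : (ι → ℝ) → ℝ} (ha : Continuous a) {k : ι → ℝ} {d ε η A : ℝ}
    (hd : 0 ≤ d) (hε : 0 < ε) (hη : 0 < η)
    (hA : ∀ v, (∀ i, 0 ≤ v i) → a v ≤ A + (∑ i, (k i - 2 * η) * v i ^ 2) / 2) :
    ∃ c, (∀ i, 2 * d < c i) ∧ ∀ c', (∀ i, 2 * d < c' i) → boxObj d ε k a c' ≤ boxObj d ε k a c := by
  classical
  set Q : ℝ := A + d ^ 2 * (∑ i, (k i - 2 * η)) / 6 with hQ
  set f : ℝ → ℝ := fun x => -η * x ^ 2 + ε * Real.log (x - 2 * d) with hf
  have hub : ∀ c, (∀ i, 2 * d < c i) → boxObj d ε k a c ≤ Q + ∑ i, f (c i) :=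
    fun c hc => boxObj_le ha hd hc hA
  set M0 : ℝ := ε ^ 2 / (4 * η) with hM0
  have hf0 : ∀ x, 2 * d < x → f x ≤ M0 ∧ ε * Real.log (x - 2 * d) ≥ f x ∧ f x ≤ -η * x ^ 2 + ε * x := by
    intro x hx
    have hl : Real.log (x - 2 * d) ≤ x := by
      have := Real.log_le_sub_one_of_pos (show 0 < x - 2 * d by linarith)
      linarith
    have h3 : f x ≤ -η * x ^ 2 + ε * x := by
      simp only [hf]; nlinarith
    refine ⟨h3.trans ?_, by simp only [hf]; nlinarith [sq_nonneg x], h3⟩
    rw [hM0, le_div_iff₀ (by linarith)]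
    nlinarith [sq_nonneg (2 * η * x - ε)]
  let c₀ : ι → ℝ := fun _ => 2 * d + 1
  set Y : ℝ := boxObj d ε k a c₀ - Q - (Fintype.card ι : ℝ) * M0 with hY
  have hkey : ∀ c, (∀ i, 2 * d < c i) → boxObj d ε k a c₀ ≤ boxObj d ε k a c →
      ∀ i, Y ≤ f (c i) := by
    intro c hc hle i
    have h1 := hub c hc
    rw [← add_sum_erase _ _ (mem_univ i)] at h1
    have h2 : ∑ j ∈ univ.erase i, f (c j) ≤ (univ.erase i).card * M0 := by
      simpa using sum_le_sum fun j (_ : j ∈ univ.erase i) => (hf0 _ (hc j)).1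
    have h3 : ((univ.erase i).card : ℝ) * M0 ≤ (Fintype.card ι : ℝ) * M0 :=
      mul_le_mul_of_nonneg_right (by exact_mod_cast card_le_univ _) (by positivity)
    linarith
  let lo : ℝ := 2 * d + min 1 (Real.exp (Y / ε))
  let hi : ℝ := 2 * d + 2 + (ε + |Y|) / η
  have hlo : 2 * d < lo := by
    have := Real.exp_pos (Y / ε)
    simp only [lo]
    linarith [lt_min one_pos this]
  have hin : ∀ c, (∀ i, 2 * d < c i) → boxObj d ε k a c₀ ≤ boxObj d ε k a c →
      c ∈ Set.pi Set.univ fun _ : ι => Set.Icc lo hi := by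
    intro c hc hle i _
    have hYi := hkey c hc hle i
    obtain ⟨-, h2, h3⟩ := hf0 _ (hc i)
    constructor
    · have h4 : Y / ε ≤ Real.log (c i - 2 * d) := by
        rw [div_le_iff₀ hε]; linarith
      have h5 := (Real.le_log_iff_exp_le (by linarith [hc i])).1 h4
      simp only [lo]
      linarith [min_le_right (1:ℝ) (Real.exp (Y / ε))]
    · simp only [hi]
      rcases le_total (c i) (2 * d + 2) with hh | hh
      · linarith [show 0 ≤ (ε + |Y|) / η by positivity]
      · have h6 : η * c i ^ 2 ≤ ε * c i + |Y| := by linarith [neg_le_abs Y]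
        have h7 : c i ≤ (ε + |Y|) / η := by
          rw [le_div_iff₀ hη]
          nlinarith [abs_nonneg Y, hc i]
        linarith
  have hc₀ : c₀ ∈ Set.pi Set.univ fun _ : ι => Set.Icc lo hi :=
    hin c₀ (fun i => by simp [c₀]) le_rfl
  have hcont : ContinuousOn (boxObj d ε k a) (Set.pi Set.univ fun _ : ι => Set.Icc lo hi) := by
    have h1 : Continuous fun c : ι → ℝ => boxAvg d a c - (∑ i, k i * c i ^ 2) / 2 :=
      (continuous_boxAvg ha d).sub (by fun_prop)
    refine h1.continuousOn.add (continuousOn_const.mul (continuousOn_finsetSum _ fun i _ => ?_))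
    exact ContinuousOn.log (by fun_prop) fun c hc => by
      have := (hc i (Set.mem_univ _)).1
      linarith
  obtain ⟨c, hc, hmax⟩ := (isCompact_univ_pi fun _ : ι => isCompact_Icc).exists_isMaxOn
    ⟨c₀, hc₀⟩ hcont
  refine ⟨c, fun i => hlo.trans_le (hc i (Set.mem_univ _)).1, fun c' hc' => ?_⟩
  rcases le_total (boxObj d ε k a c') (boxObj d ε k a c₀) with h | h
  · exact h.trans (hmax hc₀)
  · exact hmax (hin c' hc' h)

/-- A maximiser stays away from the barrier. -/
theorem boxObj_max_lower [DecidableEq ι] {a : (ι → ℝ) → ℝ} (ha : Continuous a) {k : ι → ℝ} {d ε : ℝ}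
    (hd : 0 ≤ d) (hε : 0 < ε) (hdε : 20 * d ≤ Real.sqrt ε) {c : ι → ℝ} (hc : ∀ i, 2 * d < c i)
    (hmax : ∀ c', (∀ i, 2 * d < c' i) → boxObj d ε k a c' ≤ boxObj d ε k a c)
    (hk : ∀ i, k i ≤ 1)
    (hmono : ∀ v i r, (∀ j, 0 ≤ v j) → 0 ≤ r → a v ≤ a (Function.update v i (v i + r)))
    (i : ι) : Real.sqrt ε / 3 ≤ c i - 2 * d := by
  set w := c i - 2 * d with hw
  have hwp : 0 < w := by linarith [hc i]
  let c' := Function.update c i (c i + w)
  have hc' : ∀ j, 2 * d < c' j := fun j => by
    by_cases h : j = i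
    · subst h; simp [c']; linarith
    · simp [c', h, hc j]
  have havg : boxAvg d a c ≤ boxAvg d a c' := by
    refine integral_mono_ae (integrable_box ha d c) (integrable_box ha d c') ?_
    filter_upwards [cubeUnif_ae_mem (ι := ι)] with u hu
    have hv : ∀ j, 0 ≤ c j + d * u j := fun j => by
      nlinarith [hc j, (abs_le.1 (hu j)).1]
    have he : (fun j => c' j + d * u j) =
        Function.update (fun j => c j + d * u j) i (c i + d * u i + w) := by
      funext j
      by_cases h : j = i
      · subst h; simp [c']; ring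
      · simp [c', h]
    rw [he]
    exact hmono _ i w hv hwp.le
  have hsum : ∀ φ : ι → ℝ → ℝ, ∑ j, φ j (c' j) = (∑ j, φ j (c j)) + (φ i (c i + w) - φ i (c i)) := by
    intro φ
    rw [← add_sum_erase _ (fun j => φ j (c' j)) (mem_univ i),
      ← add_sum_erase _ (fun j => φ j (c j)) (mem_univ i)]
    have : ∀ j ∈ univ.erase i, φ j (c' j) = φ j (c j) := fun j hj => by
      simp [c', ne_of_mem_erase hj]
    rw [sum_congr rfl this]
    simp [c']
    ring
  have h := hmax c' hc'
  simp only [boxObj] at h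
  rw [hsum (fun j x => k j * x ^ 2), hsum (fun _ x => Real.log (x - 2 * d))] at h
  have hlog : Real.log (c i + w - 2 * d) - Real.log (c i - 2 * d) = Real.log 2 := by
    rw [← Real.log_div (by linarith) (by linarith), show (c i + w - 2 * d) / (c i - 2 * d) = 2 by
      rw [div_eq_iff (by linarith)]; rw [hw]; ring]
  have h2 : 0.69 ≤ Real.log 2 := by linarith [Real.log_two_gt_d9]
  have hq : ε * Real.log 2 ≤ k i * ((c i + w) ^ 2 - c i ^ 2) / 2 := by
    have h' : ε * (Real.log (c i + w - 2 * d) - Real.log (c i - 2 * d)) ≤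
        k i * ((c i + w) ^ 2 - c i ^ 2) / 2 := by nlinarith [h, havg]
    rwa [hlog] at h'
  have h3 : ε * 0.69 ≤ w * (2 * d + 1.5 * w) := by
    have h4 : (c i + w) ^ 2 - c i ^ 2 = w * (2 * c i + w) := by ring
    have h5 : 0 ≤ w * (2 * c i + w) := mul_nonneg hwp.le (by linarith [hc i])
    have h6 : k i * (w * (2 * c i + w)) ≤ w * (2 * c i + w) :=
      mul_le_of_le_one_left h5 (hk i)
    rw [h4] at hq
    nlinarith
  by_contra hcon
  push Not at hcon
  have hs := Real.mul_self_sqrt hε.le
  nlinarith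

/-- Upper quadratic bound for the average near a maximiser. -/
theorem boxAvg_le_quad {a : (ι → ℝ) → ℝ} {k : ι → ℝ} {d ε C : ℝ} (hε : 0 ≤ ε) {c v : ι → ℝ}
    (hc : ∀ i, 2 * d < c i)
    (hmax : ∀ c', (∀ i, 2 * d < c' i) → boxObj d ε k a c' ≤ boxObj d ε k a c)
    (hv : ∀ i, 2 * |v i| ≤ c i - 2 * d)
    (hC : ∀ i, k i / 2 + 2 * ε / (c i - 2 * d) ^ 2 ≤ C) :
    boxAvg d a (fun i => c i + v i) ≤ boxAvg d a c +
      (∑ i, (k i * c i - ε / (c i - 2 * d)) * v i) + C * ∑ i, v i ^ 2 := by
  have hpos : ∀ i, 2 * d < c i + v i := fun i => by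
    linarith [hv i, neg_abs_le (v i), hc i]
  have h := hmax _ hpos
  simp only [boxObj] at h
  have hterm : ∀ i, k i * (c i + v i) ^ 2 / 2 - ε * Real.log (c i + v i - 2 * d) -
      (k i * c i ^ 2 / 2 - ε * Real.log (c i - 2 * d)) ≤
      (k i * c i - ε / (c i - 2 * d)) * v i + C * v i ^ 2 := by
    intro i
    set w := c i - 2 * d with hw
    have hwp : 0 < w := by linarith [hc i]
    have hwv : w / 2 ≤ w + v i := by linarith [hv i, neg_abs_le (v i)]
    have hlog : Real.log (c i + v i - 2 * d) = Real.log w + Real.log ((w + v i) / w) := by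
      rw [← Real.log_mul hwp.ne' (div_pos (by linarith) hwp).ne', mul_div_cancel₀ _ hwp.ne', hw]
      congr 1; ring
    have hlb : 1 - w / (w + v i) ≤ Real.log ((w + v i) / w) := by
      have := Real.one_sub_inv_le_log_of_pos (show 0 < (w + v i) / w from div_pos (by linarith) hwp)
      rwa [inv_div] at this
    have hrem : v i / w - (1 - w / (w + v i)) ≤ 2 * v i ^ 2 / w ^ 2 := by
      have he : v i / w - (1 - w / (w + v i)) = v i ^ 2 / (w * (w + v i)) := by
        field_simp [hwp.ne', (show w + v i ≠ 0 by linarith)]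
        ring
      rw [he, div_le_div_iff₀ (mul_pos hwp (by linarith)) (by positivity)]
      nlinarith [mul_nonneg (sq_nonneg (v i)) hwp.le]
    have hCi := mul_le_mul_of_nonneg_right (hC i) (sq_nonneg (v i))
    rw [hlog]
    have h1 : ε * (v i / w) - ε * Real.log ((w + v i) / w) ≤ ε * (2 * v i ^ 2 / w ^ 2) := by
      rw [← mul_sub]; exact mul_le_mul_of_nonneg_left (by linarith) hε
    have e1 : ε / w * v i = ε * (v i / w) := by ring
    have e2 : 2 * ε / w ^ 2 * v i ^ 2 = ε * (2 * v i ^ 2 / w ^ 2) := by ring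
    nlinarith [h1, hCi, e1, e2]
  have hs := sum_le_sum fun i (_ : i ∈ univ) => hterm i
  simp only [sum_sub_distrib, sum_add_distrib, ← sum_div, ← mul_sum] at hs
  nlinarith [h, hs]

/-- Near a maximiser a convex function is affine up to `O(d²)`. -/
theorem boxObj_affine {a : (ι → ℝ) → ℝ} (hca : ConvexOn ℝ Set.univ a) (ha : Continuous a)
    {k : ι → ℝ} {d ε C : ℝ} (hd : 0 ≤ d) (hε : 0 ≤ ε) (hC0 : 0 ≤ C) {c : ι → ℝ}
    (hc : ∀ i, 2 * d < c i)
    (hmax : ∀ c', (∀ i, 2 * d < c' i) → boxObj d ε k a c' ≤ boxObj d ε k a c)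
    (hw : ∀ i, 4 * d ≤ c i - 2 * d)
    (hC : ∀ i, k i / 2 + 2 * ε / (c i - 2 * d) ^ 2 ≤ C)
    {u : ι → ℝ} (hu : ∀ i, |u i| ≤ 2 * d) :
    |a (fun i => c i + u i) - boxAvg d a c -
      ∑ i, (k i * c i - ε / (c i - 2 * d)) * u i| ≤ 6 * C * Fintype.card ι * d ^ 2 := by
  set g := fun i => k i * c i - ε / (c i - 2 * d) with hg
  set F := boxAvg d a c with hF
  set n : ℝ := (Fintype.card ι : ℝ) with hn
  have hsq : ∀ (v : ι → ℝ) (r : ℝ), 0 ≤ r → (∀ i, |v i| ≤ r) → ∑ i, v i ^ 2 ≤ n * r ^ 2 := by
    intro v r hr hv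
    have := sum_le_sum fun i (_ : i ∈ univ) => sq_le_sq' (abs_le.1 (hv i)).1 (abs_le.1 (hv i)).2
    simpa [hn] using this
  have hup : ∀ v : ι → ℝ, (∀ i, |v i| ≤ 2 * d) →
      a (fun i => c i + v i) ≤ F + (∑ i, g i * v i) + 4 * C * n * d ^ 2 := by
    intro v hv
    have h1 := le_boxAvg hca ha d (fun i => c i + v i)
    have h2 := boxAvg_le_quad (a := a) hε hc hmax (v := v)
      (fun i => by linarith [hv i, hw i]) hC
    have h3 := mul_le_mul_of_nonneg_left (hsq v _ (by linarith) hv) hC0
    linarith [h3, show C * (n * (2 * d) ^ 2) = 4 * C * n * d ^ 2 by ring]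
  have hF2 : boxAvg (2 * d) a c ≤ F + 4 * C * n * d ^ 2 := by
    have hb : Continuous fun v : ι → ℝ => (F + 4 * C * n * d ^ 2 - ∑ i, g i * c i) +
        ∑ i, g i * v i := by fun_prop
    refine (boxAvg_le ha hb (by linarith) fun v hv => ?_).trans (le_of_eq ?_)
    · have h1 := hup (fun i => v i - c i) hv
      simp only [add_sub_cancel, mul_sub, sum_sub_distrib] at h1
      linarith
    · rw [boxAvg_affine]; ring
  have hlow : F + (∑ i, g i * u i) - 6 * C * n * d ^ 2 ≤ a (fun i => c i + u i) := by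
    have hhalf : ∀ i, |-(u i / 2)| ≤ d := fun i => by
      rw [abs_neg, abs_div, abs_two]; linarith [hu i]
    have h1 := le_boxAvg_midpoint hca ha d c (fun i => u i / 2)
    have h2 := boxAvg_le_quad (a := a) hε hc hmax (v := fun i => -(u i / 2))
      (fun i => by linarith [hhalf i, hw i]) hC
    have h3 := mul_le_mul_of_nonneg_left (hsq _ _ hd hhalf) hC0
    have h4 : ∑ i, g i * -(u i / 2) = -(∑ i, g i * u i) / 2 := by
      rw [neg_div, sum_div, ← sum_neg_distrib]
      exact sum_congr rfl fun i _ => by ring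
    have h5 : 2 * boxAvg d a (fun i => c i + u i / 2) ≤
        boxAvg (2 * d) a c + a (fun i => c i + u i) := by
      have hi : Integrable (fun _ : ι → ℝ => a fun i => c i + u i) (cubeUnif ι) := integrable_const _
      calc 2 * boxAvg d a (fun i => c i + u i / 2)
          ≤ ∫ w, a (fun i => c i + 2 * d * w i) + a (fun i => c i + u i) ∂cubeUnif ι := ?_
        _ = _ := by rw [integral_add (integrable_box ha _ _) hi]; simp [boxAvg]
      rw [boxAvg, ← integral_const_mul]
      refine integral_mono ((integrable_box ha d _).const_mul 2)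
        ((integrable_box ha _ _).add hi) fun w => ?_
      have h := hca.2 (Set.mem_univ (fun i => c i + 2 * d * w i))
        (Set.mem_univ (fun i => c i + u i)) (by norm_num : (0:ℝ) ≤ 1/2)
        (by norm_num : (0:ℝ) ≤ 1/2) (by norm_num)
      have he : (1/2 : ℝ) • (fun i => c i + 2 * d * w i) + (1/2 : ℝ) • (fun i => c i + u i)
          = fun i => c i + u i / 2 + d * w i := by funext i; simp; ring
      rw [he] at h
      simp only [smul_eq_mul] at h
      linarith
    have h6 : boxAvg d a (fun i => c i + -(u i / 2)) = boxAvg d a (fun i => c i - u i / 2) := by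
      simp only [← sub_eq_add_neg]
    simp only [h6] at h2
    simp only [hg] at h4 ⊢
    nlinarith [h1, h2, h3, h4, h5, hF2]
  have hnn : (0:ℝ) ≤ C * n * d ^ 2 := by positivity
  rw [abs_le]
  constructor <;> linarith [hup u hu]

/-- Any convex function close to an almost affine one has almost the same slopes inside the box. -/
theorem slope_le_of_close [DecidableEq ι] {b : (ι → ℝ) → ℝ} (hb : ConvexOn ℝ Set.univ b)
    {F d R : ℝ} (hd : 0 < d) {g c : ι → ℝ}
    (hclose : ∀ u : ι → ℝ, (∀ i, |u i| ≤ 2 * d) →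
      |b (fun i => c i + u i) - F - ∑ i, g i * u i| ≤ R)
    {s : ι → ℝ} (hs : ∀ i, |s i - c i| ≤ d) {i : ι} {b' : ℝ}
    (hder : HasDerivAt (fun t => b (Function.update s i t)) b' (s i)) :
    b' ≤ g i + 2 * R / d := by
  have hu : ∀ t, |t - c i| ≤ 2 * d → ∀ j, |Function.update s i t j - c j| ≤ 2 * d := by
    intro t ht j
    by_cases h : j = i
    · subst h; simpa using ht
    · simp [h]; linarith [hs j]
  have h1 := hclose (fun j => Function.update s i (s i + d) j - c j)
    (hu (s i + d) (by
      have := abs_le.1 (hs i)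
      rw [abs_le]; constructor <;> linarith))
  have h2 := hclose (fun j => s j - c j) fun j => by linarith [hs j]
  simp only [add_sub_cancel] at h1 h2
  have hconv : ConvexOn ℝ Set.univ (fun t => b (Function.update s i t)) := by
    refine ⟨convex_univ, fun x _ y _ p q hp hq hpq => ?_⟩
    have he : Function.update s i (p • x + q • y) =
        p • Function.update s i x + q • Function.update s i y := by
      funext j
      by_cases h : j = i
      · subst h; simp
      · simp [h, ← add_mul, hpq]
    simp only [he]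
    exact hb.2 (Set.mem_univ _) (Set.mem_univ _) hp hq hpq
  have h3 := hconv.le_slope_of_hasDerivAt (Set.mem_univ (s i)) (Set.mem_univ (s i + d))
    (by linarith) hder
  rw [slope_def_field, le_div_iff₀ (by linarith)] at h3
  simp only [Function.update_eq_self, add_sub_cancel_left] at h3
  have h4 : (∑ j, g j * (Function.update s i (s i + d) j - c j)) -
      ∑ j, g j * (s j - c j) = g i * d := by
    rw [← sum_sub_distrib, sum_eq_single i]
    · simp; ring
    · intro j _ hj; simp [hj]
    · simp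
  have h5 : b' * d ≤ g i * d + 2 * R := by
    nlinarith [(abs_le.1 h1).2, (abs_le.1 h2).1]
  calc b' = b' * d / d := by field_simp
    _ ≤ (g i * d + 2 * R) / d := by gcongr
    _ = _ := by field_simp

end Vale.Agent.P157.Parisi
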