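import Mathlib

/-!
Matrix inequalities behind overlap pinning: the covariance matrix of a node is controlled, in
Frobenius norm, by the increment of the mean square magnetisation.
-/

namespace Vale.Agent.P157.Parisi

open Finset

variable {σ : Type} [Fintype σ]

/-- The Frobenius norm. -/
noncomputable def frob (J : σ → σ → ℝ) : ℝ := Real.sqrt (∑ i, ∑ k, J i k ^ 2)

/-- The quadratic form of a matrix. -/
def qform (J : σ → σ → ℝ) (v : σ → ℝ) : ℝ := ∑ i, ∑ k, v i * J i k * v k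

lemma frob_nonneg (J : σ → σ → ℝ) : 0 ≤ frob J := Real.sqrt_nonneg _

lemma frob_sq (J : σ → σ → ℝ) : frob J ^ 2 = ∑ i, ∑ k, J i k ^ 2 :=
  Real.sq_sqrt (sum_nonneg fun i _ => sum_nonneg fun k _ => sq_nonneg _)

lemma sum_mul_le_frob (J C : σ → σ → ℝ) : |∑ i, ∑ k, J i k * C i k| ≤ frob J * frob C := by
  refine abs_le_of_sq_le_sq ?_ (mul_nonneg (frob_nonneg J) (frob_nonneg C))
  rw [mul_pow, frob_sq, frob_sq, ← Fintype.sum_prod_type', ← Fintype.sum_prod_type',
    ← Fintype.sum_prod_type']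
  exact sum_mul_sq_le_sq_mul_sq _ _ _

lemma qform_le_frob (J : σ → σ → ℝ) (v : σ → ℝ) : |qform J v| ≤ frob J * ∑ i, v i ^ 2 := by
  have h := sum_mul_le_frob J (fun i k => v i * v k)
  have e : frob (fun i k => v i * v k) = ∑ i, v i ^ 2 := by
    rw [frob, Real.sqrt_eq_iff_eq_sq (sum_nonneg fun i _ => sum_nonneg fun k _ => sq_nonneg _)
      (sum_nonneg fun i _ => sq_nonneg _), sq, sum_mul_sum]
    exact sum_congr rfl fun i _ => sum_congr rfl fun k _ => by ring
  rw [e] at h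
  simpa [qform, mul_comm, mul_left_comm] using h

lemma frob_mul_le (J : σ → σ → ℝ) : frob (fun i k => ∑ m, J i m * J k m) ≤ frob J ^ 2 := by
  rw [frob, Real.sqrt_le_iff]
  refine ⟨sq_nonneg _, ?_⟩
  rw [frob_sq, sq (∑ i, ∑ k, J i k ^ 2), sum_mul_sum]
  exact sum_le_sum fun i _ => sum_le_sum fun k _ => sum_mul_sq_le_sq_mul_sq _ _ _

/-- The trace of the cube of a symmetric matrix. -/
lemma cube_le (J : σ → σ → ℝ) :
    |∑ i, ∑ k, J i k * ∑ m, J i m * J k m| ≤ frob J ^ 3 := by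
  refine (sum_mul_le_frob J _).trans ?_
  rw [pow_succ' (frob J) 2]
  exact mul_le_mul_of_nonneg_left (frob_mul_le J) (frob_nonneg J)

/-- Step (2a): the joint covariance of the Gaussian increment and of the next gradient is positive
semidefinite, hence `|J| ≤ √gap / s + x gap`. -/
theorem frob_le_of_joint [DecidableEq σ] {J : σ → σ → ℝ} {d : σ → ℝ}
    {s x : ℝ} (hs : 0 < s) (hx : 0 ≤ x)
    (hpsd : ∀ i, ∀ c : σ → ℝ, 2 * ∑ k, c k * (s * J i k) ≤
      d i + ∑ k, ∑ m, c k * c m * ((if k = m then 1 else 0) + x * s ^ 2 * J k m)) :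
    frob J ≤ Real.sqrt (∑ i, d i) / s + x * ∑ i, d i := by
  set F := frob J with hF
  set G := ∑ i, d i with hG
  have hd : ∀ i, 0 ≤ d i := fun i => by simpa using hpsd i 0
  have hG0 : 0 ≤ G := sum_nonneg fun i _ => hd i
  have hF0 : 0 ≤ F := frob_nonneg J
  have key : ∀ t : ℝ, 2 * t * s * F ^ 2 ≤ G + t ^ 2 * (F ^ 2 + x * s ^ 2 * F ^ 3) := by
    intro t
    have h := sum_le_sum fun i (_ : i ∈ univ) => hpsd i (fun k => t * J i k)
    have e1 : ∑ i, 2 * ∑ k, t * J i k * (s * J i k) = 2 * t * s * F ^ 2 := by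
      rw [hF, frob_sq, mul_sum]
      refine sum_congr rfl fun i _ => ?_
      rw [mul_sum, mul_sum]
      exact sum_congr rfl fun k _ => by ring
    have e2 : ∀ i, ∑ k, ∑ m, t * J i k * (t * J i m) *
        ((if k = m then 1 else 0) + x * s ^ 2 * J k m) =
        t ^ 2 * ∑ k, J i k ^ 2 + t ^ 2 * (x * s ^ 2) * ∑ k, J i k * ∑ m, J i m * J k m := by
      intro i
      rw [mul_sum, mul_sum, ← sum_add_distrib]
      refine sum_congr rfl fun k _ => ?_
      simp only [mul_add, sum_add_distrib, mul_ite, mul_one, mul_zero, sum_ite_eq, mem_univ,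
        if_true, mul_sum]
      congr 1
      · ring
      · exact sum_congr rfl fun m _ => by ring
    rw [e1, sum_congr rfl (fun i _ => congrArg (d i + ·) (e2 i)), sum_add_distrib, sum_add_distrib,
      ← mul_sum, ← mul_sum, ← frob_sq] at h
    have hc := (abs_le.1 (cube_le J)).2
    have : t ^ 2 * (x * s ^ 2) * (∑ i, ∑ k, J i k * ∑ m, J i m * J k m) ≤
        t ^ 2 * (x * s ^ 2) * F ^ 3 := mul_le_mul_of_nonneg_left hc (by positivity)
    linarith
  have hden : 0 < 1 + x * s ^ 2 * F := by positivity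
  have h := key (s / (1 + x * s ^ 2 * F))
  have h2 : s ^ 2 * F ^ 2 ≤ G * (1 + x * s ^ 2 * F) := by
    field_simp at h
    nlinarith [h, hden]
  by_contra hlt
  push Not at hlt
  have hA : 0 ≤ Real.sqrt G / s := by positivity
  have h3 : Real.sqrt G < s * (F - x * G) := by
    rw [← div_lt_iff₀' hs]; linarith
  have h4 : Real.sqrt G / s < F := by nlinarith [mul_nonneg hx hG0]
  have h5 : Real.sqrt G < s * F := by rw [← div_lt_iff₀' hs]; exact h4
  have hsq := Real.sq_sqrt hG0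
  nlinarith [mul_lt_mul'' h3 h5 (Real.sqrt_nonneg G) (Real.sqrt_nonneg G)]

lemma sum_mul_nonneg_of_psd {P C : σ → σ → ℝ} (hP : ∀ v, 0 ≤ qform P v)
    (hCs : ∀ i k, C i k = C k i) (hC : ∀ v, 0 ≤ qform C v) :
    0 ≤ ∑ i, ∑ k, P i k * C i k := by
  classical
  have hpsd : Matrix.PosSemidef (Matrix.of C) := by
    refine Matrix.posSemidef_iff_dotProduct_mulVec.2 ⟨?_, fun v => ?_⟩
    · ext i k; simp [hCs k i]
    · have := hC v
      simp only [qform, dotProduct, Matrix.mulVec, Matrix.of_apply, star_trivial, mul_sum] at this ⊢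
      simpa [mul_assoc] using this
  obtain ⟨m, v, hv⟩ := Matrix.posSemidef_iff_eq_sum_vecMulVec.1 hpsd
  have hCv : ∀ i k, C i k = ∑ j, v j i * v j k := fun i k => by
    have := congrFun (congrFun hv i) k
    simpa [Matrix.sum_apply, Matrix.vecMulVec_apply] using this
  have e : ∑ i, ∑ k, P i k * C i k = ∑ j, qform P (v j) := by
    simp only [hCv, qform, mul_sum]
    rw [sum_comm (s := (univ : Finset (Fin m)))]
    refine sum_congr rfl fun i _ => ?_
    rw [sum_comm]
    exact sum_congr rfl fun j _ => sum_congr rfl fun k _ => by ring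
  rw [e]
  exact sum_nonneg fun j _ => hP _

/-- Step (2b): `J ≥ x C - Λ` gives `|C| ≤ |J| / x + √(Λ tr C / x)`. -/
theorem frob_cov_le [DecidableEq σ] {J C : σ → σ → ℝ} {x Λ : ℝ} (hx : 0 < x) (hΛ : 0 ≤ Λ)
    (hCs : ∀ i k, C i k = C k i) (hC : ∀ v, 0 ≤ qform C v)
    (hJC : ∀ v, x * qform C v - Λ * ∑ i, v i ^ 2 ≤ qform J v) :
    frob C ≤ frob J / x + Real.sqrt (Λ * (∑ i, C i i) / x) := by
  have hP : ∀ v, 0 ≤ qform (fun i k => J i k - x * C i k + if i = k then Λ else 0) v := by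
    intro v
    have : qform (fun i k => J i k - x * C i k + if i = k then Λ else 0) v =
        qform J v - x * qform C v + Λ * ∑ i, v i ^ 2 := by
      simp only [qform, mul_sum]
      rw [← sum_sub_distrib, ← sum_add_distrib]
      refine sum_congr rfl fun i _ => ?_
      simp only [mul_add, add_mul, mul_sub, sub_mul, sum_add_distrib, sum_sub_distrib, mul_ite,
        ite_mul, mul_zero, zero_mul, sum_ite_eq, mem_univ, if_true]
      congr 1
      · congr 1; exact sum_congr rfl fun k _ => by ring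
      · ring
    rw [this]; linarith [hJC v]
  have h := sum_mul_nonneg_of_psd hP hCs hC
  simp only [add_mul, sub_mul, sum_add_distrib, sum_sub_distrib, ite_mul, zero_mul, sum_ite_eq,
    mem_univ, if_true, mul_assoc, ← mul_sum, ← sq] at h
  have hJ := (abs_le.1 (sum_mul_le_frob J C)).2
  rw [← frob_sq] at h
  have hT : 0 ≤ ∑ i, C i i := sum_nonneg fun i _ => by
    simpa [qform, Pi.single_apply] using hC (Pi.single i 1)
  set c := frob C
  set r := Real.sqrt (Λ * (∑ i, C i i) / x) with hr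
  have hr2 : r ^ 2 = Λ * (∑ i, C i i) / x := Real.sq_sqrt (by positivity)
  have hc2 : c ^ 2 ≤ frob J / x * c + r ^ 2 := by
    rw [hr2, div_mul_eq_mul_div, ← add_div, le_div_iff₀ hx]; linarith
  have hr0 : 0 ≤ r := Real.sqrt_nonneg _
  have hJx : 0 ≤ frob J / x := div_nonneg (frob_nonneg J) hx.le
  nlinarith [frob_nonneg C]

/-- Step (2c): if `(u · v)² ≤ b · uCu` for all `u` then `|v|² ≤ b |C|`. -/
theorem sum_sq_le_of_cs {C : σ → σ → ℝ} {v : σ → ℝ} {b : ℝ} (hb : 0 ≤ b)
    (h : ∀ u : σ → ℝ, (∑ i, u i * v i) ^ 2 ≤ b * qform C u) :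
    ∑ i, v i ^ 2 ≤ b * frob C := by
  have h1 := h v
  simp only [← sq] at h1
  have h2 := mul_le_mul_of_nonneg_left (abs_le.1 (qform_le_frob C v)).2 hb
  set S := ∑ i, v i ^ 2
  have hS : 0 ≤ S := sum_nonneg fun i _ => sq_nonneg _
  rcases eq_or_lt_of_le hS with h0 | h0
  · rw [← h0]; exact mul_nonneg hb (frob_nonneg C)
  · nlinarith

/-- Step (2c), second half: the product rule for node averages. -/
theorem abs_sum_sq_sub_le {C : σ → σ → ℝ} {p m v : σ → ℝ} {b eb e2 : ℝ}
    (hp : ∀ i, p i = v i + m i * eb) (hb : 0 ≤ b) (he2 : b + eb ^ 2 = e2)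
    (h : ∀ u : σ → ℝ, (∑ i, u i * v i) ^ 2 ≤ b * qform C u) :
    |∑ i, p i ^ 2 - (∑ i, m i ^ 2) * eb ^ 2| ≤
      e2 * (frob C + 2 * Real.sqrt (∑ i, m i ^ 2) * Real.sqrt (frob C)) := by
  set S := ∑ i, v i ^ 2
  set T := ∑ i, m i ^ 2
  set c := frob C
  have hS : S ≤ b * c := sum_sq_le_of_cs hb h
  have e : ∑ i, p i ^ 2 - T * eb ^ 2 = S + 2 * eb * ∑ i, m i * v i := by
    simp only [S, T, hp, sum_mul, mul_sum, ← sum_sub_distrib, ← sum_add_distrib]
    exact sum_congr rfl fun i _ => by ring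
  have hc : 0 ≤ c := frob_nonneg C
  have hmv : |∑ i, m i * v i| ≤ Real.sqrt T * (Real.sqrt b * Real.sqrt c) := by
    refine abs_le_of_sq_le_sq ?_ (by positivity)
    rw [mul_pow, mul_pow, Real.sq_sqrt (sum_nonneg fun i _ => sq_nonneg _), Real.sq_sqrt hb,
      Real.sq_sqrt hc]
    exact (sum_mul_sq_le_sq_mul_sq _ _ _).trans
      (mul_le_mul_of_nonneg_left hS (sum_nonneg fun i _ => sq_nonneg _))
  have hbe : |eb| * Real.sqrt b ≤ e2 := by
    nlinarith [sq_nonneg (|eb| - Real.sqrt b), Real.sq_sqrt hb, sq_abs eb, Real.sqrt_nonneg b,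
      abs_nonneg eb]
  have hb2 : b ≤ e2 := by linarith [sq_nonneg eb]
  have h2 : |2 * eb * ∑ i, m i * v i| ≤ e2 * (2 * Real.sqrt T * Real.sqrt c) := by
    rw [abs_mul, abs_mul, abs_two]
    calc 2 * |eb| * |∑ i, m i * v i|
        ≤ 2 * |eb| * (Real.sqrt T * (Real.sqrt b * Real.sqrt c)) :=
          mul_le_mul_of_nonneg_left hmv (by positivity)
      _ = 2 * (|eb| * Real.sqrt b) * Real.sqrt T * Real.sqrt c := by ring
      _ ≤ 2 * e2 * Real.sqrt T * Real.sqrt c := by gcongr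
      _ = _ := by ring
  rw [e]
  refine (abs_add_le _ _).trans ?_
  rw [mul_add, abs_of_nonneg (sum_nonneg fun i _ => sq_nonneg _)]
  exact add_le_add (hS.trans (mul_le_mul_of_nonneg_right hb2 hc)) h2

end Vale.Agent.P157.Parisi
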