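import Vale.Agent.P157.Parisi.CalcIBP
import Vale.Agent.P157.Parisi.PinAlgebra

/-! Module B: pinning of the overlaps on a fine grid of levels. -/

namespace Vale.Agent.P157.Parisi

open MeasureTheory ProbabilityTheory Finset

namespace Pin

section Closure

variable {ι : Type} [Fintype ι] {Ω : Type} [MeasurableSpace Ω]

lemma tame_const_mul (c : ℝ) {f : (ι → ℝ) → ℝ} (hf : Tame f) : Tame (fun v => c * f v) :=
  hf.const_mul c

lemma tame_sqrt {f : (ι → ℝ) → ℝ} (hf : Tame f) : Tame (fun v => Real.sqrt (f v)) := by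
  obtain ⟨C, k, hC, hk, h⟩ := hf.bound
  refine tame_of_bound hf.1.sqrt (C := C + 1) (k := k) fun y => ?_
  have h1 : Real.sqrt (f y) ≤ |f y| + 1 := by
    rw [Real.sqrt_le_iff]
    exact ⟨by positivity, by nlinarith [le_abs_self (f y), abs_nonneg (f y)]⟩
  rw [abs_of_nonneg (Real.sqrt_nonneg _), add_mul, one_mul]
  linarith [h y, Real.one_le_exp (mul_nonneg hk (l1_nonneg y))]

end Closure

variable {ι : Type} [Fintype ι] {Ω κ : Type} [Fintype κ] [MeasurableSpace Ω]
variable {N : Nest ι} {L : Leaf Ω κ ι} {μ : Measure Ω} [IsProbabilityMeasure μ] {B : ℝ}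
variable (hN : N.Good) (hL : L.Good B)

include hN hL

lemma avg_sub {l : ℕ} (hl : l < N.K) {f g : (ι → ℝ) → ℝ} (hf : Tame f) (hg : Tame g)
    (y : ι → ℝ) :
    N.avg (L.logZ μ) l (fun v => f v - g v) y =
      N.avg (L.logZ μ) l f y - N.avg (L.logZ μ) l g y := by
  have := avg_add hN hL (μ := μ) hl hf (tame_const_mul (-1) hg) y
  rw [avg_const_mul hN hL] at this
  simpa [sub_eq_add_neg] using this

lemma mean_sub {l : ℕ} (hl : l ≤ N.K) {f g : (ι → ℝ) → ℝ} (hf : Tame f) (hg : Tame g) :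
    N.mean (L.logZ μ) l (fun v => f v - g v) =
      N.mean (L.logZ μ) l f - N.mean (L.logZ μ) l g := by
  have := mean_add hN hL (μ := μ) hl hf (tame_const_mul (-1) hg)
  rw [mean_const_mul hN hL] at this
  simpa [sub_eq_add_neg] using this

lemma mean_sum {l : ℕ} (hl : l ≤ N.K) {α : Type} (s : Finset α) {f : α → (ι → ℝ) → ℝ}
    (hf : ∀ a ∈ s, Tame (f a)) :
    N.mean (L.logZ μ) l (fun v => ∑ a ∈ s, f a v) = ∑ a ∈ s, N.mean (L.logZ μ) l (f a) := by
  classical
  induction s using Finset.induction with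
  | empty => simpa using mean_const hN hL (μ := μ) hl 0
  | insert a s ha ih =>
    simp only [sum_insert ha]
    rw [mean_add hN hL hl (hf a (mem_insert_self a s))
      (tame_sum s fun b hb => hf b (mem_insert_of_mem hb)), ih fun b hb => hf b (mem_insert_of_mem hb)]

lemma mean_sqrt_le {l : ℕ} (hl : l ≤ N.K) {f : (ι → ℝ) → ℝ} (hf : Tame f) (h0 : ∀ y, 0 ≤ f y)
    {η : ℝ} (h : N.mean (L.logZ μ) l f ≤ η) :
    N.mean (L.logZ μ) l (fun y => Real.sqrt (f y)) ≤ Real.sqrt η := by
  have hη : 0 ≤ η := le_trans (by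
    simpa [mean_const hN hL (μ := μ) hl] using
      mean_mono hN hL (μ := μ) hl (tame_const 0) hf h0) h
  have key : ∀ t : ℝ, 0 < t → N.mean (L.logZ μ) l (fun y => Real.sqrt (f y)) ≤ η / (2 * t) + t / 2 := by
    intro t ht
    have h1 := mean_mono hN hL (μ := μ) hl (tame_sqrt hf)
      (Tame.add (tame_const_mul (1 / (2 * t)) hf) (tame_const (t / 2))) (fun v => by
        have := Real.sq_sqrt (h0 v)
        field_simp
        nlinarith [sq_nonneg (Real.sqrt (f v) - t)])
    rw [mean_add hN hL hl (tame_const_mul _ hf) (tame_const _), mean_const_mul hN hL,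
      mean_const hN hL hl] at h1
    refine h1.trans ?_
    rw [div_eq_mul_one_div η, mul_comm η]
    gcongr
  rcases eq_or_lt_of_le hη with he | he
  · rw [← he, Real.sqrt_zero]
    refine le_of_forall_pos_le_add fun ε hε => ?_
    have := key (2 * ε) (by linarith)
    rw [← he] at this
    simpa using this
  · have := key (Real.sqrt η) (Real.sqrt_pos.2 he)
    have e : η / (2 * Real.sqrt η) + Real.sqrt η / 2 = Real.sqrt η := by
      field_simp
      nlinarith [Real.sq_sqrt hη]
    linarith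

lemma tame_sqSum {l : ℕ} (hl : l ≤ N.K) (S : Finset ι) : Tame (N.sqSum L μ S l) :=
  tame_sum S (f := fun i v => N.grad L μ l i v ^ 2) fun i _ => by
    simpa [sq] using Tame.mul (grad_tame hN hL (μ := μ) hl i) (grad_tame hN hL (μ := μ) hl i)

lemma tame_gap {l : ℕ} (hl : l < N.K) (S : Finset ι) : Tame (N.gap L μ S l) :=
  Tame.sub (avg_tame hN hL hl (tame_sqSum hN hL hl S)) (tame_sqSum hN hL hl.le S)

lemma gap_eq {l : ℕ} (hl : l < N.K) (S : Finset ι) (y : ι → ℝ) :
    N.gap L μ S l y = ∑ i ∈ S, (N.avg (L.logZ μ) l (fun v => N.grad L μ (l + 1) i v ^ 2) y -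
      N.grad L μ l i y ^ 2) := by
  rw [sum_sub_distrib, ← avg_sum hN hL hl S fun i _ => by
    simpa [sq] using Tame.mul (grad_tame hN hL (μ := μ) hl i) (grad_tame hN hL (μ := μ) hl i)]
  rfl

lemma sqSum_le {l : ℕ} (hl : l ≤ N.K) {S : Finset ι} {T : ℝ}
    (hT : ∀ ω y, ∑ i ∈ S, L.vec i ω y ^ 2 ≤ T) (y : ι → ℝ) :
    N.sqSum L μ S l y ≤ ∑ i ∈ S, N.node L μ l (fun ω v => L.vec i ω v ^ 2) y ∧
      ∑ i ∈ S, N.node L μ l (fun ω v => L.vec i ω v ^ 2) y ≤ T := by
  have ho : ∀ i, Obs (fun ω v => L.vec i ω v ^ 2) := fun i => by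
    simpa [sq] using Obs.mul (vec_obs hN hL i) (vec_obs hN hL i)
  refine ⟨sum_le_sum fun i _ => node_sq_ge hN hL hl (vec_obs hN hL i) y, ?_⟩
  rw [← node_sum hN hL hl S ho]
  have := node_mono hN hL (μ := μ) hl (obs_sum S ho) (obs_const T) hT y
  rwa [node_const hN hL hl] at this

lemma covNorm_eq (S : Finset ι) (l : ℕ) (y : ι → ℝ) :
    N.covNorm L μ S l y = frob (fun i k : S => N.cov L μ l i k y) := by
  rw [Nest.covNorm, frob, ← sum_coe_sort S]
  simp only [← sum_coe_sort S (fun k => N.cov L μ l _ k y ^ 2)]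

lemma tame_covNorm {l : ℕ} (hl : l ≤ N.K) (S : Finset ι) : Tame (N.covNorm L μ S l) := by
  refine tame_sqrt (tame_sum S fun i _ => tame_sum S fun k _ => ?_)
  have : Tame (N.cov L μ l i k) := Tame.sub
    (node_tame hN hL hl (Obs.mul (vec_obs hN hL i) (vec_obs hN hL k)))
    (Tame.mul (grad_tame hN hL hl i) (grad_tame hN hL hl k))
  simpa [sq] using Tame.mul this this

lemma qform_coe (S : Finset ι) (M : ι → ι → ℝ) (v : ι → ℝ) :
    qform (fun i k : S => M i k) (fun i : S => v i) =
      ∑ i ∈ S, ∑ k ∈ S, v i * v k * M i k := by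
  rw [qform, ← sum_coe_sort S]
  refine sum_congr rfl fun i _ => ?_
  rw [← sum_coe_sort S]
  exact sum_congr rfl fun k _ => by ring

end Pin

open Pin

variable {ι : Type} [Fintype ι] {Ω κ : Type} [Fintype κ] [MeasurableSpace Ω]
variable {N : Nest ι} {L : Leaf Ω κ ι} {μ : Measure Ω} [IsProbabilityMeasure μ] {B : ℝ}
variable (hN : N.Good) (hL : L.Good B)

include hN hL

theorem gap_nonneg {l : ℕ} (hl : l < N.K) (S : Finset ι) (y : ι → ℝ) :
    0 ≤ N.gap L μ S l y := by
  rw [gap_eq hN hL hl]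
  refine sum_nonneg fun i _ => ?_
  rw [sub_nonneg, grad_succ hN hL hl]
  exact avg_sq_ge hN hL hl (grad_tame hN hL hl i) y

theorem mean_gap {l : ℕ} (hl : l < N.K) (S : Finset ι) :
    N.mean (L.logZ μ) l (N.gap L μ S l) =
      (∑ i ∈ S, N.sqGrad L μ (l + 1) i) - ∑ i ∈ S, N.sqGrad L μ l i := by
  have h : ∀ {m}, m ≤ N.K →
      N.mean (L.logZ μ) m (N.sqSum L μ S m) = ∑ i ∈ S, N.sqGrad L μ m i := fun {m} hm =>
    Pin.mean_sum hN hL hm S fun i _ => by
      simpa [sq] using Tame.mul (grad_tame hN hL (μ := μ) hm i) (grad_tame hN hL (μ := μ) hm i)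
  rw [← h hl.le, ← h hl]
  exact Pin.mean_sub hN hL hl.le (avg_tame hN hL hl (tame_sqSum hN hL hl S))
    (tame_sqSum hN hL hl.le S)

/-- The trace inequality. -/
theorem covNorm_le {l : ℕ} (hl : l < N.K) {S : Finset ι} {Λ σ T : ℝ} (hS : L.CurvLower S Λ)
    (hσ : 0 < σ) (hamp : ∀ i ∈ S, N.amp (l + 1) i = σ)
    (hT : ∀ ω y, ∑ i ∈ S, L.vec i ω y ^ 2 ≤ T) (y : ι → ℝ) :
    N.covNorm L μ S l y ≤
      N.gap L μ S l y + Real.sqrt (N.gap L μ S l y) / (σ * N.x (l + 1)) +
        Real.sqrt (Λ * T / N.x (l + 1)) := by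
  classical
  set x := N.x (l + 1)
  have hx : 0 < x := hN.x_pos (l + 1) (by omega) hl
  set G : ι → ℝ := fun i => N.grad L μ l i y
  set d : ι → ℝ := fun i =>
    N.avg (L.logZ μ) l (fun v => N.grad L μ (l + 1) i v ^ 2) y - G i ^ 2
  set J : S → S → ℝ := fun i k => N.hess L μ l i k y with hJ
  -- the increment as a function of the new state
  let Z : S → (ι → ℝ) → ℝ := fun k v => (v k - y k) / σ
  have hZ : ∀ k, Tame (Z k) := fun k => by
    simpa [Z, div_eq_inv_mul] using tame_const_mul σ⁻¹ (Tame.sub (tame_coord (k : ι)) (tame_const (y k)))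
  have hZz : ∀ (k : S) (z : ι → ℝ), Z k (move (N.amp (l + 1)) y z) = z k := fun k z => by
    simp only [Z, move, hamp k k.2]
    field_simp
    ring
  have eZ : ∀ k : S, N.avg (L.logZ μ) l (Z k) y = x * σ * G k := fun k => by
    have := tilt_z hN hL (μ := μ) hl (k : ι) y
    rw [hamp k k.2] at this
    rw [← this]
    simp only [Nest.avg, tilt, hZz]
  have eZG : ∀ (i : ι) (k : S), N.avg (L.logZ μ) l (fun v => Z k v * N.grad L μ (l + 1) i v) y =
      σ * (N.hess L μ l i k y + x * G k * G i) := fun i k => by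
    have := tilt_z_grad hN hL (μ := μ) hl i (k : ι) y
    rw [hamp k k.2] at this
    rw [← this]
    simp only [Nest.avg, tilt, hZz]
  have eZZ : ∀ k m : S, N.avg (L.logZ μ) l (fun v => Z k v * Z m v) y =
      (if k = m then 1 else 0) + x * σ * σ * (J k m + x * G k * G m) := fun k m => by
    have := tilt_z_z hN hL (μ := μ) hl (k : ι) (m : ι) y
    rw [hamp k k.2, hamp m m.2] at this
    simp only [Subtype.coe_inj] at this
    rw [← this]
    simp only [Nest.avg, tilt, hZz]
  have hpsd : ∀ i : S, ∀ c : S → ℝ, 2 * ∑ k, c k * (σ * J i k) ≤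
      d i + ∑ k, ∑ m, c k * c m * ((if k = m then 1 else 0) + x * σ ^ 2 * J k m) := by
    intro i c
    set W := fun v => ∑ k, c k * Z k v with hW
    have tW : Tame W := tame_sum univ fun k _ => tame_const_mul _ (hZ k)
    have tG := grad_tame hN hL (μ := μ) (show l + 1 ≤ N.K from hl) (i : ι)
    have h := avg_sq_ge hN hL (μ := μ) hl (Tame.sub tG tW) y
    have tG2 : Tame (fun v => N.grad L μ (l + 1) i v ^ 2) := by simpa [sq] using Tame.mul tG tG
    have tGW : Tame (fun v => ∑ k, 2 * c k * (Z k v * N.grad L μ (l + 1) i v)) :=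
      tame_sum univ fun k _ => tame_const_mul _ (Tame.mul (hZ k) tG)
    have tWW : Tame (fun v => ∑ k, ∑ m, c k * c m * (Z k v * Z m v)) :=
      tame_sum univ fun k _ => tame_sum univ fun m _ => tame_const_mul _ (Tame.mul (hZ k) (hZ m))
    have e : (fun v => (N.grad L μ (l + 1) i v - W v) ^ 2) = fun v =>
        (N.grad L μ (l + 1) i v ^ 2 - ∑ k, 2 * c k * (Z k v * N.grad L μ (l + 1) i v)) +
          ∑ k, ∑ m, c k * c m * (Z k v * Z m v) := by
      funext v
      have e1 : ∑ k, 2 * c k * (Z k v * N.grad L μ (l + 1) i v) =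
          2 * W v * N.grad L μ (l + 1) i v := by
        simp only [hW, mul_sum, sum_mul]
        exact sum_congr rfl fun k _ => by ring
      have e2 : ∑ k, ∑ m, c k * c m * (Z k v * Z m v) = W v ^ 2 := by
        simp only [hW, sq, sum_mul_sum]
        exact sum_congr rfl fun k _ => sum_congr rfl fun m _ => by ring
      rw [e1, e2]; ring
    rw [e, avg_add hN hL hl (Tame.sub tG2 tGW) tWW, Pin.avg_sub hN hL hl tG2 tGW,
      Pin.avg_sub hN hL hl tG tW, ← grad_succ hN hL hl,
      avg_sum hN hL hl univ (fun k _ => tame_const_mul _ (hZ k)),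
      avg_sum hN hL hl univ (fun k _ => tame_const_mul _ (Tame.mul (hZ k) tG)),
      avg_sum hN hL hl univ (fun k _ => tame_sum univ fun m _ =>
        tame_const_mul _ (Tame.mul (hZ k) (hZ m)))] at h
    simp only [avg_const_mul hN hL, eZ, eZG,
      avg_sum hN hL hl univ (fun m _ => tame_const_mul _ (Tame.mul (hZ _) (hZ m))), eZZ] at h
    set P := ∑ k : S, c k * (x * σ * G k) with hP
    have eP : P ^ 2 = ∑ k, ∑ m, c k * c m * (x * σ * σ * (x * G k * G m)) := by
      rw [hP, sq, sum_mul_sum]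
      exact sum_congr rfl fun k _ => sum_congr rfl fun m _ => by ring
    have e3 : ∑ k : S, 2 * c k * (σ * (N.hess L μ l i k y + x * G k * G i)) =
        2 * ∑ k, c k * (σ * J i k) + 2 * P * G i := by
      rw [hP, mul_sum, mul_sum, sum_mul, ← sum_add_distrib]
      exact sum_congr rfl fun k _ => by simp only [hJ]; ring
    have e4 : ∑ k : S, ∑ m : S,
        c k * c m * ((if k = m then (1:ℝ) else 0) + x * σ * σ * (J k m + x * G k * G m)) =
        (∑ k, ∑ m, c k * c m * ((if k = m then 1 else 0) + x * σ ^ 2 * J k m)) + P ^ 2 := by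
      rw [eP, ← sum_add_distrib]
      refine sum_congr rfl fun k _ => ?_
      rw [← sum_add_distrib]
      exact sum_congr rfl fun m _ => by ring
    rw [e3, e4] at h
    have hd : d i = N.avg (L.logZ μ) l (fun v => N.grad L μ (l + 1) i v ^ 2) y - G i ^ 2 := rfl
    have hexp : (N.grad L μ l i y - P) ^ 2 = G i ^ 2 - 2 * P * G i + P ^ 2 := by ring
    linarith
  have hgap : ∑ i : S, d i = N.gap L μ S l y := by
    rw [gap_eq hN hL hl]; exact sum_coe_sort S d
  have h1 := frob_le_of_joint (J := J) (d := fun i : S => d i) hσ hx.le hpsd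
  rw [hgap] at h1
  -- comparison of the Hessian with the covariance
  set C : S → S → ℝ := fun i k => N.cov L μ l i k y with hC
  have hCs : ∀ i k, C i k = C k i := fun i k => by
    simp only [hC, Nest.cov, mul_comm (L.vec (i : ι) _ _), mul_comm (N.grad L μ l (i : ι) y)]
  have hext : ∀ v : S → ℝ, ∃ w : ι → ℝ, v = fun i : S => w i := fun v =>
    ⟨fun i => if h : i ∈ S then v ⟨i, h⟩ else 0, by funext i; simp [i.2]⟩
  have hCp : ∀ v, 0 ≤ qform C v := fun v => by
    obtain ⟨w, rfl⟩ := hext v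
    rw [qform_coe hN hL S (fun i k => N.cov L μ l i k y)]
    exact cov_nonneg hN hL hl.le S w y
  have hJC : ∀ v, x * qform C v - Λ * ∑ i, v i ^ 2 ≤ qform J v := fun v => by
    obtain ⟨w, rfl⟩ := hext v
    rw [qform_coe hN hL S (fun i k => N.cov L μ l i k y),
      qform_coe hN hL S (fun i k => N.hess L μ l i k y), sum_coe_sort S (fun i => w i ^ 2)]
    exact hess_ge hN hL hl.le hS w y
  have h2 := frob_cov_le hx hS.1 hCs hCp hJC
  have htr : ∑ i, C i i ≤ T := by
    refine le_trans ?_ (sqSum_le hN hL (μ := μ) hl.le hT y).2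
    rw [← sum_coe_sort S]
    exact sum_le_sum fun i _ => by
      simp only [hC, Nest.cov, ← sq]
      linarith [sq_nonneg (N.grad L μ l (i : ι) y)]
  rw [covNorm_eq hN hL]
  refine h2.trans (add_le_add ?_ (Real.sqrt_le_sqrt ?_))
  · rw [div_le_iff₀ hx]
    refine h1.trans (le_of_eq ?_)
    field_simp
    ring
  · exact div_le_div_of_nonneg_right (mul_le_mul_of_nonneg_left htr hS.1) hx.le

/-- The node product inequality for a family of scalar observables. -/
theorem node_product {γ : Type} [Fintype γ] {l : ℕ} (hl : l ≤ N.K) (S : Finset ι)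
    {b : γ → Ω → (ι → ℝ) → ℝ} (hb : ∀ c, Obs (b c)) {β : ℝ}
    (hβ : ∀ ω y, ∑ c, b c ω y ^ 2 ≤ β) (y : ι → ℝ) :
    |(∑ c, ∑ i ∈ S, N.node L μ l (fun ω v => L.vec i ω v * b c ω v) y ^ 2) -
        N.sqSum L μ S l y * ∑ c, N.node L μ l (b c) y ^ 2| ≤
      β * (N.covNorm L μ S l y +
        2 * Real.sqrt (N.sqSum L μ S l y) * Real.sqrt (N.covNorm L μ S l y)) := by
  classical
  have ob2 : ∀ c, Obs (fun ω v => b c ω v ^ 2) := fun c => by
    simpa [sq] using Obs.mul (hb c) (hb c)
  have key : ∀ c, |∑ i ∈ S, N.node L μ l (fun ω v => L.vec i ω v * b c ω v) y ^ 2 -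
      N.sqSum L μ S l y * N.node L μ l (b c) y ^ 2| ≤
      N.node L μ l (fun ω v => b c ω v ^ 2) y * (N.covNorm L μ S l y +
        2 * Real.sqrt (N.sqSum L μ S l y) * Real.sqrt (N.covNorm L μ S l y)) := by
    intro c
    set e := N.node L μ l (b c) y with he
    set e2 := N.node L μ l (fun ω v => b c ω v ^ 2) y with he2
    have hvar : 0 ≤ e2 - e ^ 2 := sub_nonneg.2 (node_sq_ge hN hL hl (hb c) y)
    set p : ι → ℝ := fun i => N.node L μ l (fun ω v => L.vec i ω v * b c ω v) y with hp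
    set m : ι → ℝ := fun i => N.grad L μ l i y with hm
    have cs : ∀ u : S → ℝ, (∑ i : S, u i * (p i - m i * e)) ^ 2 ≤
        (e2 - e ^ 2) * qform (fun i k : S => N.cov L μ l i k y) u := by
      intro u
      set C := ∑ i : S, u i * (p i - m i * e) with hCdef
      set V := qform (fun i k : S => N.cov L μ l i k y) u with hV
      have hq : ∀ t : ℝ, 0 ≤ t ^ 2 * (e2 - e ^ 2) - 2 * t * C + V := by
        intro t
        set F := fun ω v => ∑ i : S, u i * L.vec i ω v with hF
        have oF : Obs F := obs_sum univ fun i => Obs.mul (obs_const _) (vec_obs hN hL _)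
        have o1 : Obs (fun ω v => -t * b c ω v) := Obs.mul (obs_const _) (hb c)
        have h := node_sq_ge hN hL (μ := μ) hl (Obs.add oF o1) y
        have oT1 : Obs (fun ω v => ∑ i : S, ∑ k : S, u i * u k * (L.vec i ω v * L.vec k ω v)) :=
          obs_sum univ fun i => obs_sum univ fun k =>
            Obs.mul (obs_const _) (Obs.mul (vec_obs hN hL _) (vec_obs hN hL _))
        have oT2 : Obs (fun ω v => ∑ i : S, -2 * t * u i * (L.vec i ω v * b c ω v)) :=
          obs_sum univ fun i => Obs.mul (obs_const _) (Obs.mul (vec_obs hN hL _) (hb c))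
        have ee : (fun ω v => (F ω v + -t * b c ω v) ^ 2) = fun ω v =>
            (∑ i : S, ∑ k : S, u i * u k * (L.vec i ω v * L.vec k ω v) +
              ∑ i : S, -2 * t * u i * (L.vec i ω v * b c ω v)) + t ^ 2 * b c ω v ^ 2 := by
          funext ω v
          have e1 : ∑ i : S, ∑ k : S, u i * u k * (L.vec i ω v * L.vec k ω v) = F ω v ^ 2 := by
            simp only [hF, sq, sum_mul_sum]
            exact sum_congr rfl fun i _ => sum_congr rfl fun k _ => by ring
          have e2' : ∑ i : S, -2 * t * u i * (L.vec i ω v * b c ω v) =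
              -2 * t * b c ω v * F ω v := by
            simp only [hF, mul_sum]
            exact sum_congr rfl fun i _ => by ring
          rw [e1, e2']; ring
        rw [ee, node_add hN hL hl (Obs.add oT1 oT2) (Obs.mul (obs_const _) (ob2 c)),
          node_add hN hL hl oT1 oT2, node_add hN hL hl oF o1,
          node_sum hN hL hl univ (fun i => Obs.mul (obs_const _) (vec_obs hN hL _)),
          node_sum hN hL hl univ (fun i => obs_sum univ fun k =>
            Obs.mul (obs_const _) (Obs.mul (vec_obs hN hL _) (vec_obs hN hL _))),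
          node_sum hN hL hl univ
            (fun i => Obs.mul (obs_const _) (Obs.mul (vec_obs hN hL _) (hb c)))] at h
        simp only [node_const_mul hN hL, node_sum hN hL hl univ
          (fun (k : S) => Obs.mul (obs_const _) (Obs.mul (vec_obs hN hL _) (vec_obs hN hL k.1))),
          ← he, ← he2] at h
        have eV : V = ∑ i : S, ∑ k : S, u i * u k *
            N.node L μ l (fun ω v => L.vec i ω v * L.vec k ω v) y - (∑ i : S, u i * m i) ^ 2 := by
          rw [hV, qform, sq, sum_mul_sum, ← sum_sub_distrib]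
          refine sum_congr rfl fun i _ => ?_
          rw [← sum_sub_distrib]
          exact sum_congr rfl fun k _ => by simp only [Nest.cov, hm]; ring
        have eC : ∑ i : S, -2 * t * u i * N.node L μ l (fun ω v => L.vec i ω v * b c ω v) y =
            -2 * t * C - 2 * t * e * ∑ i : S, u i * m i := by
          rw [hCdef, mul_sum, mul_sum, ← sum_sub_distrib]
          exact sum_congr rfl fun i _ => by simp only [hp]; ring
        have eM : ∑ i : S, u i * N.node L μ l (L.vec i) y = ∑ i : S, u i * m i := rfl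
        rw [eC, eM] at h
        nlinarith [h, eV]
      have := discrim_le_zero (a := e2 - e ^ 2) (b := -2 * C) (c := V) fun t => by
        nlinarith [hq t]
      simp only [discrim] at this
      nlinarith
    have h := abs_sum_sq_sub_le (p := fun i : S => p i) (m := fun i : S => m i)
      (v := fun i : S => p i - m i * e) (b := e2 - e ^ 2) (eb := e) (e2 := e2)
      (C := fun i k : S => N.cov L μ l i k y) (fun i => by ring) hvar (by ring) cs
    rw [sum_coe_sort S (fun i => p i ^ 2), sum_coe_sort S (fun i => m i ^ 2),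
      ← covNorm_eq hN hL] at h
    exact h
  set R := N.covNorm L μ S l y +
    2 * Real.sqrt (N.sqSum L μ S l y) * Real.sqrt (N.covNorm L μ S l y)
  have hR : 0 ≤ R := by
    have : 0 ≤ N.covNorm L μ S l y := Real.sqrt_nonneg _
    positivity
  calc |(∑ c, ∑ i ∈ S, N.node L μ l (fun ω v => L.vec i ω v * b c ω v) y ^ 2) -
          N.sqSum L μ S l y * ∑ c, N.node L μ l (b c) y ^ 2|
      = |∑ c, (∑ i ∈ S, N.node L μ l (fun ω v => L.vec i ω v * b c ω v) y ^ 2 -
          N.sqSum L μ S l y * N.node L μ l (b c) y ^ 2)| := by rw [sum_sub_distrib, mul_sum]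
    _ ≤ ∑ c, N.node L μ l (fun ω v => b c ω v ^ 2) y * R :=
        (abs_sum_le_sum_abs _ _).trans (sum_le_sum fun c _ => key c)
    _ ≤ β * R := by
      rw [← sum_mul]
      refine mul_le_mul_of_nonneg_right ?_ hR
      rw [← node_sum hN hL hl univ fun c => ob2 c]
      have := node_mono hN hL (μ := μ) hl (obs_sum univ fun c => ob2 c) (obs_const β) hβ y
      rwa [node_const hN hL hl] at this

/-- The squared gradient is concentrated at each level. -/
theorem sqSum_dev {l : ℕ} (hl : l < N.K) (hw : 0 < N.w (l + 1)) (S : Finset ι) {D : ℝ}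
    (hD : 0 < D) :
    N.mean (L.logZ μ) l (fun y => |N.sqSum L μ S l y / D - N.ovl L μ S D l|) ≤
      (N.heatDev L μ S D l + N.heatDev L μ S D (l + 1)) / N.w (l + 1) +
        2 * (N.ovl L μ S D (l + 1) - N.ovl L μ S D l) := by
  set U := L.logZ μ
  set w := N.w (l + 1)
  have tH : ∀ {m}, m ≤ N.K → Tame (N.heatSum L μ S D m) := fun {m} hm => by
    have := tame_const_mul D⁻¹ (tame_sum S fun i _ => heat_tame hN hL (μ := μ) hm i)
    exact (show N.heatSum L μ S D m = fun y => D⁻¹ * ∑ i ∈ S, N.heat L μ m i y from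
      funext fun y => by simp [Nest.heatSum, div_eq_inv_mul]) ▸ this
  have tQ := tame_sqSum hN hL (μ := μ) (show l + 1 ≤ N.K from hl) S
  set H' := N.heatSum L μ S D (l + 1)
  have rel : ∀ y, N.avg U l H' y - N.heatSum L μ S D l y =
      w / D * N.avg U l (N.sqSum L μ S (l + 1)) y := by
    intro y
    have e1 : N.avg U l H' y = D⁻¹ * ∑ i ∈ S, N.avg U l (N.heat L μ (l + 1) i) y := by
      rw [← avg_sum hN hL hl S fun i _ => heat_tame hN hL hl i, ← avg_const_mul hN hL]
      exact congrArg (fun f => N.avg U l f y) (funext fun v => by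
        simp [H', Nest.heatSum, div_eq_inv_mul])
    have e2 : N.avg U l (N.sqSum L μ S (l + 1)) y =
        ∑ i ∈ S, N.avg U l (fun v => N.grad L μ (l + 1) i v ^ 2) y :=
      avg_sum hN hL hl S (fun i _ => by
        simpa [sq] using Tame.mul (grad_tame hN hL (μ := μ) hl i) (grad_tame hN hL (μ := μ) hl i)) y
    rw [e1, e2, Nest.heatSum, sum_congr rfl fun i _ => heat_succ hN hL hl i y, sum_sub_distrib,
      ← mul_sum]
    field_simp
    ring
  set a := N.mean U l (N.heatSum L μ S D l)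
  set a' := N.mean U (l + 1) H'
  have hm : ∀ {m}, m ≤ N.K →
      N.mean U m (N.sqSum L μ S m) = D * N.ovl L μ S D m := fun {m} hm' => by
    rw [show D * N.ovl L μ S D m = ∑ i ∈ S, N.sqGrad L μ m i from mul_div_cancel₀ _ hD.ne']
    exact Pin.mean_sum hN hL hm' S fun i _ => by
      simpa [sq] using Tame.mul (grad_tame hN hL (μ := μ) hm' i) (grad_tame hN hL (μ := μ) hm' i)
  have tAH : Tame (N.avg U l H') := avg_tame hN hL hl (tH hl)
  have relm : a' - a = w * N.ovl L μ S D (l + 1) := by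
    calc a' - a = N.mean U l (fun y => N.avg U l H' y - N.heatSum L μ S D l y) :=
          (Pin.mean_sub hN hL hl.le tAH (tH hl.le)).symm
      _ = w / D * N.mean U (l + 1) (N.sqSum L μ S (l + 1)) := by
          simp only [rel]
          exact mean_const_mul hN hL l (w / D) (N.avg U l (N.sqSum L μ S (l + 1)))
      _ = _ := by rw [hm hl]; field_simp
  have tgap := tame_gap hN hL (μ := μ) hl S
  have tdev := Tame.abs (Tame.sub (tH (m := l + 1) hl) (tame_const a'))
  have tdev0 := Tame.abs (Tame.sub (tH (m := l) hl.le) (tame_const a))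
  set δq := N.ovl L μ S D (l + 1) - N.ovl L μ S D l
  have hδ : N.mean U l (N.gap L μ S l) = D * δq := by
    rw [show N.gap L μ S l = fun y => N.avg U l (N.sqSum L μ S (l + 1)) y - N.sqSum L μ S l y
      from rfl, Pin.mean_sub hN hL hl.le (avg_tame hN hL hl tQ) (tame_sqSum hN hL hl.le S),
      hm hl.le, mul_sub, ← hm hl]
    rfl
  have hδ0 : 0 ≤ δq := by
    have := mean_mono hN hL (μ := μ) hl.le (tame_const 0) tgap (gap_nonneg hN hL hl S)
    rw [mean_const hN hL hl.le, hδ] at this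
    exact nonneg_of_mul_nonneg_right (by linarith [this]) hD
  have bound : ∀ y, |N.sqSum L μ S l y / D - N.ovl L μ S D l| ≤
      w⁻¹ * (N.avg U l (fun v => |H' v - a'|) y + |N.heatSum L μ S D l y - a|) +
        (D⁻¹ * N.gap L μ S l y + δq) := by
    intro y
    have hA : |N.avg U l H' y - a'| ≤ N.avg U l (fun v => |H' v - a'|) y := by
      have t1 := Tame.sub (tH (m := l + 1) hl) (tame_const a')
      have up := avg_mono hN hL (μ := μ) hl t1 (Tame.abs t1) (fun v => le_abs_self _) y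
      have dn := avg_mono hN hL (μ := μ) hl (tame_const_mul (-1) (Tame.abs t1)) t1
        (fun v => by linarith [neg_abs_le (H' v - a')]) y
      rw [avg_const_mul hN hL] at dn
      rw [Pin.avg_sub hN hL hl (tH hl) (tame_const _), avg_const hN hL hl] at up dn
      rw [abs_le]
      exact ⟨by linarith, up⟩
    have e : N.sqSum L μ S l y / D - N.ovl L μ S D l =
        w⁻¹ * ((N.avg U l H' y - a') - (N.heatSum L μ S D l y - a)) +
          (δq - D⁻¹ * N.gap L μ S l y) := by
      have h1 := rel y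
      have e1 : N.avg U l H' y - a' - (N.heatSum L μ S D l y - a) =
          w / D * N.avg U l (N.sqSum L μ S (l + 1)) y - w * N.ovl L μ S D (l + 1) := by
        linarith
      rw [e1, show N.gap L μ S l y = N.avg U l (N.sqSum L μ S (l + 1)) y - N.sqSum L μ S l y
        from rfl]
      field_simp
      ring
    rw [e]
    refine (abs_add_le _ _).trans (add_le_add ?_ ?_)
    · rw [abs_mul, abs_of_pos (inv_pos.2 hw)]
      exact mul_le_mul_of_nonneg_left ((abs_sub _ _).trans (add_le_add hA le_rfl))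
        (inv_pos.2 hw).le
    · refine (abs_sub _ _).trans ?_
      rw [abs_of_nonneg hδ0, abs_of_nonneg
        (mul_nonneg (inv_pos.2 hD).le (gap_nonneg hN hL hl S y))]
      linarith
  have tA := avg_tame hN hL (μ := μ) hl tdev
  have t1 := tame_const_mul w⁻¹ (Tame.add tA tdev0)
  have t2 := Tame.add (tame_const_mul D⁻¹ tgap) (tame_const δq)
  have tlhs : Tame (fun y => |N.sqSum L μ S l y / D - N.ovl L μ S D l|) := by
    simpa [div_eq_inv_mul] using Tame.abs
      (Tame.sub (tame_const_mul D⁻¹ (tame_sqSum hN hL (μ := μ) hl.le S))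
        (tame_const (N.ovl L μ S D l)))
  refine (mean_mono hN hL hl.le tlhs (Tame.add t1 t2) bound).trans (le_of_eq ?_)
  rw [mean_add hN hL hl.le t1 t2, mean_const_mul hN hL, mean_add hN hL hl.le tA tdev0,
    mean_add hN hL hl.le (tame_const_mul _ tgap) (tame_const _), mean_const_mul hN hL,
    mean_const hN hL hl.le, hδ, ← mul_assoc, inv_mul_cancel₀ hD.ne']
  simp only [Nest.heatDev, Nest.mean, U, a, a', H', δq, w]
  ring

/-- The overlap of a fine level is replaced by its mean. -/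
theorem pinned_product {γ : Type} [Fintype γ] {l : ℕ} (hl : l < N.K) (hw : 0 < N.w (l + 1))
    {S : Finset ι} {Λ σ Γ D β : ℝ} (hS : L.CurvLower S Λ) (hσ : 0 < σ) (hD : 1 ≤ D) (hΓ : 1 ≤ Γ)
    (hΛ : Λ ≤ Γ) (hamp : ∀ i ∈ S, N.amp (l + 1) i = σ)
    (hT : ∀ ω y, ∑ i ∈ S, L.vec i ω y ^ 2 ≤ Γ * D)
    {b : γ → Ω → (ι → ℝ) → ℝ} (hb : ∀ c, Obs (b c)) (hβ : ∀ ω y, ∑ c, b c ω y ^ 2 ≤ β) :
    ∀ η : ℝ, η = (N.ovl L μ S D (l + 1) - N.ovl L μ S D l) +
        (Real.sqrt Γ / (σ * N.x (l + 1)) + Γ / Real.sqrt (N.x (l + 1))) / Real.sqrt D →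
    N.mean (L.logZ μ) l (fun y =>
      |(∑ c, ∑ i ∈ S, N.node L μ l (fun ω v => L.vec i ω v * b c ω v) y ^ 2) / D -
          N.ovl L μ S D l * ∑ c, N.node L μ l (b c) y ^ 2|) ≤
      β * (η + 2 * Real.sqrt Γ * Real.sqrt η +
        (N.heatDev L μ S D l + N.heatDev L μ S D (l + 1)) / N.w (l + 1) +
          2 * (N.ovl L μ S D (l + 1) - N.ovl L μ S D l)) := by
  intro η hη
  have hD0 : 0 < D := by linarith
  have hx : 0 < N.x (l + 1) := hN.x_pos (l + 1) (by omega) hl
  set δq := N.ovl L μ S D (l + 1) - N.ovl L μ S D l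
  set q := N.ovl L μ S D l
  set c0 := (Real.sqrt Γ / (σ * N.x (l + 1)) + Γ / Real.sqrt (N.x (l + 1))) / Real.sqrt D
  have tC := tame_covNorm hN hL (μ := μ) hl.le S
  have tgap := tame_gap hN hL (μ := μ) hl S
  have tQ := tame_sqSum hN hL (μ := μ) hl.le S
  have hgapT : ∀ y, N.gap L μ S l y ≤ Γ * D := fun y => by
    have h1 := avg_mono hN hL (μ := μ) hl (tame_sqSum hN hL hl S) (tame_const (Γ * D))
      (fun v => (sqSum_le hN hL (μ := μ) hl hT v).1.trans (sqSum_le hN hL (μ := μ) hl hT v).2) y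
    rw [avg_const hN hL hl] at h1
    have h2 : 0 ≤ N.sqSum L μ S l y := sum_nonneg fun i _ => sq_nonneg _
    simp only [Nest.gap]; linarith
  have hcov : ∀ y, D⁻¹ * N.covNorm L μ S l y ≤ D⁻¹ * N.gap L μ S l y + c0 := by
    intro y
    have h := mul_le_mul_of_nonneg_left (covNorm_le hN hL (μ := μ) hl hS hσ hamp hT y)
      (inv_pos.2 hD0).le
    refine h.trans ?_
    rw [mul_add, mul_add, add_assoc]
    refine add_le_add le_rfl ?_
    have hsD : 0 < Real.sqrt D := Real.sqrt_pos.2 hD0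
    have hDD := Real.mul_self_sqrt hD0.le
    have a1 : Real.sqrt (N.gap L μ S l y) ≤ Real.sqrt Γ * Real.sqrt D := by
      rw [← Real.sqrt_mul (by linarith)]
      exact Real.sqrt_le_sqrt (hgapT y)
    have a2 : Real.sqrt (Λ * (Γ * D) / N.x (l + 1)) ≤
        Γ * Real.sqrt D / Real.sqrt (N.x (l + 1)) := by
      rw [Real.sqrt_div (mul_nonneg hS.1 (by positivity))]
      refine div_le_div_of_nonneg_right ?_ (Real.sqrt_nonneg _)
      refine (Real.sqrt_le_sqrt (mul_le_mul_of_nonneg_right hΛ (by positivity))).trans ?_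
      rw [← mul_assoc, Real.sqrt_mul (by positivity), Real.sqrt_mul_self (by linarith)]
    calc D⁻¹ * (Real.sqrt (N.gap L μ S l y) / (σ * N.x (l + 1))) +
          D⁻¹ * Real.sqrt (Λ * (Γ * D) / N.x (l + 1))
        ≤ D⁻¹ * (Real.sqrt Γ * Real.sqrt D / (σ * N.x (l + 1))) +
          D⁻¹ * (Γ * Real.sqrt D / Real.sqrt (N.x (l + 1))) := by gcongr
      _ = c0 := by
          simp only [c0]
          have hsx : 0 < Real.sqrt (N.x (l + 1)) := Real.sqrt_pos.2 hx
          field_simp
          rw [Real.sq_sqrt hD0.le]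
  have hmgap : D⁻¹ * N.mean (L.logZ μ) l (N.gap L μ S l) = δq := by
    rw [mean_gap hN hL hl]
    simp only [δq, Nest.ovl, div_eq_inv_mul, mul_sub]
  have tCD := tame_const_mul D⁻¹ tC
  have hmcov : N.mean (L.logZ μ) l (fun y => D⁻¹ * N.covNorm L μ S l y) ≤ η := by
    refine (mean_mono hN hL hl.le tCD (Tame.add (tame_const_mul D⁻¹ tgap) (tame_const c0))
      hcov).trans (le_of_eq ?_)
    rw [mean_add hN hL hl.le (tame_const_mul _ tgap) (tame_const _), mean_const_mul hN hL,
      mean_const hN hL hl.le, hmgap, hη]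
  have hsq := Pin.mean_sqrt_le hN hL (μ := μ) hl.le tCD
    (fun y => mul_nonneg (inv_pos.2 hD0).le (Real.sqrt_nonneg _)) hmcov
  have bound : ∀ y, |(∑ c, ∑ i ∈ S, N.node L μ l (fun ω v => L.vec i ω v * b c ω v) y ^ 2) / D -
      q * ∑ c, N.node L μ l (b c) y ^ 2| ≤
      β * (D⁻¹ * N.covNorm L μ S l y +
        2 * Real.sqrt Γ * Real.sqrt (D⁻¹ * N.covNorm L μ S l y)) +
      β * |N.sqSum L μ S l y / D - q| := by
    intro y
    set A := ∑ c, ∑ i ∈ S, N.node L μ l (fun ω v => L.vec i ω v * b c ω v) y ^ 2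
    set P := ∑ c, N.node L μ l (b c) y ^ 2
    have ob2 : ∀ c, Obs (fun ω v => b c ω v ^ 2) := fun c => by
      simpa [sq] using Obs.mul (hb c) (hb c)
    have hP : P ≤ β := by
      refine (sum_le_sum fun c _ => node_sq_ge hN hL hl.le (hb c) y).trans ?_
      rw [← node_sum hN hL hl.le univ fun c => ob2 c]
      have := node_mono hN hL (μ := μ) hl.le (obs_sum univ fun c => ob2 c) (obs_const β) hβ y
      rwa [node_const hN hL hl.le] at this
    have hP0 : 0 ≤ P := sum_nonneg fun c _ => sq_nonneg _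
    have hβ0 : 0 ≤ β := hP0.trans hP
    have e : A / D - q * P =
        D⁻¹ * (A - N.sqSum L μ S l y * P) + (N.sqSum L μ S l y / D - q) * P := by
      field_simp; ring
    rw [e]
    refine (abs_add_le _ _).trans (add_le_add ?_ ?_)
    · rw [abs_mul, abs_of_pos (inv_pos.2 hD0)]
      refine (mul_le_mul_of_nonneg_left (node_product hN hL hl.le S hb hβ y)
        (inv_pos.2 hD0).le).trans ?_
      rw [← mul_assoc, mul_comm D⁻¹ β, mul_assoc, mul_add]
      refine mul_le_mul_of_nonneg_left (add_le_add le_rfl ?_) hβ0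
      have s1 : Real.sqrt (D⁻¹ * N.sqSum L μ S l y) ≤ Real.sqrt Γ := by
        refine Real.sqrt_le_sqrt ?_
        rw [inv_mul_le_iff₀ hD0, mul_comm D]
        exact (sqSum_le hN hL hl.le hT y).1.trans (sqSum_le hN hL hl.le hT y).2
      have s2 : D⁻¹ * (2 * Real.sqrt (N.sqSum L μ S l y) * Real.sqrt (N.covNorm L μ S l y)) =
          2 * Real.sqrt (D⁻¹ * N.sqSum L μ S l y) * Real.sqrt (D⁻¹ * N.covNorm L μ S l y) := by
        rw [Real.sqrt_mul (inv_pos.2 hD0).le, Real.sqrt_mul (inv_pos.2 hD0).le]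
        linear_combination (-2 * Real.sqrt (N.sqSum L μ S l y) * Real.sqrt (N.covNorm L μ S l y)) *
          Real.mul_self_sqrt (inv_pos.2 hD0).le
      rw [s2]
      gcongr
    · rw [abs_mul, abs_of_nonneg hP0, mul_comm]
      exact mul_le_mul_of_nonneg_right hP (abs_nonneg _)
  have tb1 := tame_const_mul β
    (Tame.add tCD (tame_const_mul (2 * Real.sqrt Γ) (tame_sqrt tCD)))
  have tdev : Tame (fun y => |N.sqSum L μ S l y / D - q|) := by
    simpa [div_eq_inv_mul] using Tame.abs (Tame.sub (tame_const_mul D⁻¹ tQ) (tame_const q))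
  have tlhs : Tame (fun y =>
      |(∑ c, ∑ i ∈ S, N.node L μ l (fun ω v => L.vec i ω v * b c ω v) y ^ 2) / D -
        q * ∑ c, N.node L μ l (b c) y ^ 2|) := by
    have h1 := tame_sum univ fun c _ => tame_sum S fun i _ =>
      (show Tame (fun y => N.node L μ l (fun ω v => L.vec i ω v * b c ω v) y ^ 2) by
        simpa [sq] using Tame.mul
          (node_tame hN hL (μ := μ) hl.le (Obs.mul (vec_obs hN hL i) (hb c)))
          (node_tame hN hL (μ := μ) hl.le (Obs.mul (vec_obs hN hL i) (hb c))))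
    have h2 := tame_sum univ fun c _ =>
      (show Tame (fun y => N.node L μ l (b c) y ^ 2) by
        simpa [sq] using Tame.mul (node_tame hN hL (μ := μ) hl.le (hb c))
          (node_tame hN hL (μ := μ) hl.le (hb c)))
    simpa [div_eq_inv_mul] using
      Tame.abs (Tame.sub (tame_const_mul D⁻¹ h1) (tame_const_mul q h2))
  refine (mean_mono hN hL hl.le tlhs (Tame.add tb1 (tame_const_mul β tdev)) bound).trans ?_
  rw [mean_add hN hL hl.le tb1 (tame_const_mul _ tdev), mean_const_mul hN hL,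
    mean_const_mul hN hL, mean_add hN hL hl.le tCD (tame_const_mul _ (tame_sqrt tCD)),
    mean_const_mul hN hL (f := fun y => Real.sqrt (D⁻¹ * N.covNorm L μ S l y))]
  have hd := sqSum_dev hN hL (μ := μ) hl hw S hD0
  rcases lt_or_ge β 0 with hneg | hβ0
  · rcases isEmpty_or_nonempty Ω with hΩ | ⟨⟨ω⟩⟩
    · exact absurd (Measure.eq_zero_of_isEmpty μ) (IsProbabilityMeasure.ne_zero μ)
    · exact absurd (hβ ω 0) (not_le.2 (hneg.trans_le (sum_nonneg fun c _ => sq_nonneg _)))
  rw [← mul_add]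
  refine mul_le_mul_of_nonneg_left ?_ hβ0
  have := mul_le_mul_of_nonneg_left hsq (by positivity : 0 ≤ 2 * Real.sqrt Γ)
  linarith

/-- The product error at a level is at most the trivial bound. -/
theorem Pin.prod_trivial {γ : Type} [Fintype γ] {l : ℕ} (hl : l ≤ N.K) (S : Finset ι)
    {Γ D β : ℝ} (hD : 0 < D) (hT : ∀ ω y, ∑ i ∈ S, L.vec i ω y ^ 2 ≤ Γ * D)
    {b : γ → Ω → (ι → ℝ) → ℝ} (hb : ∀ c, Obs (b c)) (hβ : ∀ ω y, ∑ c, b c ω y ^ 2 ≤ β) :
    N.mean (L.logZ μ) l (fun y =>
      |(∑ c, ∑ i ∈ S, N.node L μ l (fun ω v => L.vec i ω v * b c ω v) y ^ 2) / D -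
          N.ovl L μ S D l * ∑ c, N.node L μ l (b c) y ^ 2|) ≤ Γ * β := by
  have obs_sq : ∀ {f : Ω → (ι → ℝ) → ℝ}, Obs f → Obs (fun ω v => f ω v ^ 2) := fun {f} hf => by
    simpa [sq] using Obs.mul hf hf
  have tame_sq : ∀ {f : (ι → ℝ) → ℝ}, Tame f → Tame (fun v => f v ^ 2) := fun {f} hf => by
    simpa [sq] using Tame.mul hf hf
  have cs : ∀ {f g : Ω → (ι → ℝ) → ℝ}, Obs f → Obs g → ∀ y,
      N.node L μ l (fun ω v => f ω v * g ω v) y ^ 2 ≤
        N.node L μ l (fun ω v => f ω v ^ 2) y * N.node L μ l (fun ω v => g ω v ^ 2) y := by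
    intro f g hf hg y
    set A := N.node L μ l (fun ω v => f ω v ^ 2) y
    set C := N.node L μ l (fun ω v => f ω v * g ω v) y
    set G := N.node L μ l (fun ω v => g ω v ^ 2) y
    have h : ∀ t : ℝ, 0 ≤ A * (t * t) + 2 * C * t + G := by
      intro t
      have h1 := node_sq_ge hN hL (μ := μ) hl (Obs.add (Obs.mul (obs_const t) hf) hg) y
      have e : (fun ω v => (t * f ω v + g ω v) ^ 2) =
          fun ω v => (t ^ 2 * f ω v ^ 2 + 2 * t * (f ω v * g ω v)) + g ω v ^ 2 := by
        funext ω v; ring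
      rw [e, node_add hN hL hl (Obs.add (Obs.mul (obs_const _) (obs_sq hf))
        (Obs.mul (obs_const _) (Obs.mul hf hg))) (obs_sq hg),
        node_add hN hL hl (Obs.mul (obs_const _) (obs_sq hf))
        (Obs.mul (obs_const _) (Obs.mul hf hg))] at h1
      simp only [node_const_mul hN hL] at h1
      nlinarith [sq_nonneg (N.node L μ l (fun ω v => t * f ω v + g ω v) y)]
    have := discrim_le_zero h
    simp only [discrim] at this
    nlinarith
  have hPb : ∀ y, ∑ c, N.node L μ l (fun ω v => b c ω v ^ 2) y ≤ β := by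
    intro y
    rw [← node_sum hN hL hl univ fun c => obs_sq (hb c)]
    have := node_mono hN hL (μ := μ) hl (obs_sum univ fun c => obs_sq (hb c)) (obs_const β) hβ y
    rwa [node_const hN hL hl] at this
  have hq : N.ovl L μ S D l ≤ Γ := by
    rw [Nest.ovl, div_le_iff₀ hD]
    have h := mean_mono hN hL (μ := μ) hl (tame_sqSum hN hL hl S) (tame_const (Γ * D))
      fun v => (sqSum_le hN hL (μ := μ) hl hT v).1.trans (sqSum_le hN hL (μ := μ) hl hT v).2
    rw [mean_const hN hL hl] at h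
    refine (le_of_eq ?_).trans h
    exact (Pin.mean_sum hN hL hl S fun i _ => tame_sq (grad_tame hN hL hl i)).symm
  have hq0 : 0 ≤ N.ovl L μ S D l := by
    refine div_nonneg (sum_nonneg fun i _ => ?_) hD.le
    have h := mean_mono hN hL (μ := μ) hl (tame_const 0) (tame_sq (grad_tame hN hL (μ := μ) hl i))
      fun v => sq_nonneg _
    rwa [mean_const hN hL hl] at h
  have tl : Tame (fun y =>
      |(∑ c, ∑ i ∈ S, N.node L μ l (fun ω v => L.vec i ω v * b c ω v) y ^ 2) / D -
          N.ovl L μ S D l * ∑ c, N.node L μ l (b c) y ^ 2|) := by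
    simpa [div_eq_inv_mul] using Tame.abs (Tame.sub
      (tame_const_mul D⁻¹ (tame_sum univ fun c _ => tame_sum S fun i _ =>
        tame_sq (node_tame hN hL (μ := μ) hl (Obs.mul (vec_obs hN hL i) (hb c)))))
      (tame_const_mul (N.ovl L μ S D l) (tame_sum univ fun c _ =>
        tame_sq (node_tame hN hL (μ := μ) hl (hb c)))))
  have h := mean_mono hN hL (μ := μ) hl tl (tame_const (Γ * β)) fun y => by
    have hV := (sqSum_le hN hL (μ := μ) hl hT y).2
    have hV0 : ∀ i, 0 ≤ N.node L μ l (fun ω v => L.vec i ω v ^ 2) y := fun i =>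
      (sq_nonneg _).trans (node_sq_ge hN hL hl (vec_obs hN hL i) y)
    have hA : (∑ c, ∑ i ∈ S, N.node L μ l (fun ω v => L.vec i ω v * b c ω v) y ^ 2) ≤
        (∑ i ∈ S, N.node L μ l (fun ω v => L.vec i ω v ^ 2) y) *
          ∑ c, N.node L μ l (fun ω v => b c ω v ^ 2) y := by
      rw [sum_mul_sum, sum_comm]
      exact sum_le_sum fun i _ => sum_le_sum fun c _ => cs (vec_obs hN hL i) (hb c) y
    have hP : ∑ c, N.node L μ l (b c) y ^ 2 ≤ β :=
      (sum_le_sum fun c _ => node_sq_ge hN hL hl (hb c) y).trans (hPb y)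
    have hP0 : 0 ≤ ∑ c, N.node L μ l (b c) y ^ 2 := sum_nonneg fun c _ => sq_nonneg _
    have hB0 : 0 ≤ ∑ c, N.node L μ l (fun ω v => b c ω v ^ 2) y :=
      sum_nonneg fun c _ => (sq_nonneg _).trans (node_sq_ge hN hL hl (hb c) y)
    have hAD : (∑ c, ∑ i ∈ S, N.node L μ l (fun ω v => L.vec i ω v * b c ω v) y ^ 2) / D ≤ Γ * β := by
      rw [div_le_iff₀ hD, mul_right_comm]
      exact hA.trans (mul_le_mul hV (hPb y) hB0 ((sum_nonneg fun i _ => hV0 i).trans hV))
    have hqP : N.ovl L μ S D l * ∑ c, N.node L μ l (b c) y ^ 2 ≤ Γ * β :=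
      mul_le_mul hq hP hP0 (hq0.trans hq)
    have hAD0 : 0 ≤ (∑ c, ∑ i ∈ S, N.node L μ l (fun ω v => L.vec i ω v * b c ω v) y ^ 2) / D :=
      div_nonneg (sum_nonneg fun c _ => sum_nonneg fun i _ => sq_nonneg _) hD.le
    rw [abs_le]
    exact ⟨by nlinarith [mul_nonneg hq0 hP0], by nlinarith [mul_nonneg hq0 hP0]⟩
  rwa [mean_const hN hL hl] at h

end Vale.Agent.P157.Parisi
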