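import Vale.Agent.P157.Parisi.BoxConvex
import Vale.Agent.P157.Parisi.Pin
import Vale.Agent.P157.Parisi.CalcAmp
import Vale.Agent.P157.Parisi.LowerBasics

/-!
Averages over a box of amplitudes.
-/

namespace Vale.Agent.P157.Parisi

open MeasureTheory ProbabilityTheory Finset

/-- Lebesgue measure on the unit cube. -/
noncomputable def cubeLaw (β : Type) [Fintype β] : Measure (β → ℝ) :=
  Measure.pi fun _ => volume.restrict (Set.Icc (0 : ℝ) 1)

/-- `A` moves the amplitude of level `l` on `S` affinely over `[a, b]` with the coordinate `j` and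
nothing else depends on that coordinate. -/
def MovesAlong {ι β : Type} [DecidableEq β] (A : (β → ℝ) → ℕ → ι → ℝ) (S : Finset ι) (l : ℕ)
    (j : β) (a b : ℝ) : Prop :=
  (∀ v, ∀ i ∈ S, A v l i = a + (b - a) * v j) ∧
    ∀ v x m i, ¬(m = l ∧ i ∈ S) → A (Function.update v j x) m i = A v m i

/-- The derivative of the free energy in the amplitude of level `l` on `S`. -/
noncomputable def Nest.ampDeriv {ι Ω κ : Type} [Fintype ι] [Fintype κ] [MeasurableSpace Ω]
    (N : Nest ι) (L : Leaf Ω κ ι) (μ : Measure Ω) (S : Finset ι) (l : ℕ) : ℝ :=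
  ∑ i ∈ S, N.amp l i * (N.heatTop L μ i - ∑ m ∈ Icc l N.K, N.w m * N.sqGrad L μ m i)

namespace Box

section Cube

variable {β : Type} [Fintype β]

instance : IsProbabilityMeasure (volume.restrict (Set.Icc (0 : ℝ) 1)) :=
  ⟨by simp⟩

instance : IsProbabilityMeasure (cubeLaw β) := by unfold cubeLaw; infer_instance

lemma integrable_cube {F : (β → ℝ) → ℝ} (hF : Continuous F) : Integrable F (cubeLaw β) := by
  rw [cubeLaw, ← Measure.restrict_pi_pi]
  exact hF.continuousOn.integrableOn_compact (isCompact_univ_pi fun _ => isCompact_Icc)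

lemma ae_mem_cube : ∀ᵐ v ∂cubeLaw β, ∀ k, v k ∈ Set.Icc (0 : ℝ) 1 := by
  rw [ae_all_iff]
  intro k
  exact (measurePreserving_eval (fun _ : β => volume.restrict (Set.Icc (0 : ℝ) 1)) k).quasiMeasurePreserving.ae
    (ae_restrict_mem measurableSet_Icc)

variable [DecidableEq β]

lemma measurePreserving_cube_update (j : β) :
    MeasurePreserving (fun p : (β → ℝ) × ℝ => Function.update p.1 j p.2)
      ((cubeLaw β).prod (volume.restrict (Set.Icc (0 : ℝ) 1))) (cubeLaw β) := by
  have hm : Measurable fun p : (β → ℝ) × ℝ => Function.update p.1 j p.2 := measurable_update'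
  refine ⟨hm, (Measure.pi_eq fun t ht => ?_).symm⟩
  rw [Measure.map_apply hm (MeasurableSet.univ_pi ht)]
  have e : (fun p : (β → ℝ) × ℝ => Function.update p.1 j p.2) ⁻¹' Set.pi Set.univ t =
      (Set.pi Set.univ (Function.update t j Set.univ)) ×ˢ t j := by
    ext p
    simp only [Set.mem_preimage, Set.mem_pi, Set.mem_univ, true_implies, Set.mem_prod]
    constructor
    · refine fun h => ⟨fun i => ?_, by simpa using h j⟩
      by_cases hi : i = j
      · subst hi; simp
      · simpa [Function.update_of_ne hi] using h i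
    · rintro ⟨h, hk⟩ i
      by_cases hi : i = j
      · subst hi; simpa using hk
      · simpa [Function.update_of_ne hi] using h i
  rw [e, Measure.prod_prod, cubeLaw, Measure.pi_pi, ← mul_prod_erase univ _ (mem_univ j),
    ← mul_prod_erase univ (fun i => volume.restrict (Set.Icc (0 : ℝ) 1) (t i)) (mem_univ j)]
  simp only [Function.update_self, measure_univ, one_mul]
  rw [mul_comm]
  congr 1
  exact prod_congr rfl fun i hi => by rw [Function.update_of_ne (ne_of_mem_erase hi)]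

/-- A bound in one coordinate of the cube gives the bound of the average. -/
lemma cube_integral_le {F : (β → ℝ) → ℝ} (hF : Continuous F) (j : β) {a b M : ℝ} (hab : a < b)
    (h : ∀ v, (∀ k, v k ∈ Set.Icc (0 : ℝ) 1) →
      ∫ s in a..b, F (Function.update v j ((s - a) / (b - a))) ≤ M) :
    ∫ v, F v ∂cubeLaw β ≤ M / (b - a) := by
  have hm := measurePreserving_cube_update j
  have hi := integrable_cube hF
  have hi2 := hm.integrable_comp_of_integrable hi
  rw [← hm.map_eq, integral_map hm.measurable.aemeasurable hF.aestronglyMeasurable]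
  rw [integral_prod (fun p : (β → ℝ) × ℝ => F (Function.update p.1 j p.2)) hi2]
  refine (integral_mono_ae hi2.integral_prod_left (integrable_const (M / (b - a))) ?_).trans_eq
    (by simp)
  filter_upwards [ae_mem_cube] with v hv
  have e : ∫ s in a..b, F (Function.update v j ((s - a) / (b - a))) =
      (b - a) * ∫ x in (0 : ℝ)..1, F (Function.update v j x) := by
    simp only [sub_div]
    rw [intervalIntegral.integral_comp_div_sub (fun x => F (Function.update v j x))
      (sub_ne_zero.2 hab.ne'), smul_eq_mul, sub_self, ← sub_div, div_self (sub_ne_zero.2 hab.ne')]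
  rw [le_div_iff₀ (sub_pos.2 hab), mul_comm]
  refine le_of_eq_of_le ?_ (h v hv)
  rw [e, intervalIntegral.integral_of_le zero_le_one, ← integral_Icc_eq_integral_Ioc]
  rfl

lemma update_mem {v : β → ℝ} (hv : ∀ k, v k ∈ Set.Icc (0 : ℝ) 1) (j : β) (x : ℝ) :
    ∀ k, k ≠ j → Function.update v j x k ∈ Set.Icc (0 : ℝ) 1 := fun k hk => by
  rw [Function.update_of_ne hk]; exact hv k

variable {ι : Type} [DecidableEq ι]

lemma setAmp_update {N : Nest ι} {A : (β → ℝ) → ℕ → ι → ℝ} {S : Finset ι} {l : ℕ} {j : β}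
    {a b : ℝ} (hA : MovesAlong A S l j a b) (hab : a < b) (v : β → ℝ) (s : ℝ) :
    N.setAmp (A (Function.update v j ((s - a) / (b - a)))) = (N.setAmp (A v)).withAmp S l s := by
  simp only [Nest.setAmp, Nest.withAmp]
  congr 1
  funext m i
  split_ifs with h
  · obtain ⟨rfl, hi⟩ := h
    rw [hA.1 _ i hi, Function.update_self]
    field_simp [(sub_pos.2 hab).ne']
    ring
  · exact hA.2 v _ m i h

end Cube

variable {ι : Type} [Fintype ι] [DecidableEq ι] {Ω κ : Type} [Fintype κ] [MeasurableSpace Ω]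
variable {N : Nest ι} {L : Leaf Ω κ ι} {μ : Measure Ω} [IsProbabilityMeasure μ] {B : ℝ}
variable {S : Finset ι} {Γ D : ℝ}
variable (hN : N.Good) (hL : L.Good B)

include hN hL in
lemma hasDerivAt_free {l : ℕ} (hl : l ≤ N.K) (s : ℝ) :
    HasDerivAt (fun t => (N.withAmp S l t).free L μ) ((N.withAmp S l s).ampDeriv L μ S l) s := by
  have h := free_deriv (μ := μ) hN hL (A := fun t => (N.withAmp S l t).amp)
    (A' := fun _ m i => if m = l ∧ i ∈ S then 1 else 0) (t₀ := s) one_pos
    (fun m _ i t _ => by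
      simp only [Nest.withAmp]
      split_ifs
      · exact hasDerivAt_id t
      · exact hasDerivAt_const t _)
    (fun m _ i => continuousAt_const)
  refine h.congr_deriv ?_
  rw [sum_eq_single l (fun m _ hm => sum_eq_zero fun i _ => by simp [hm])
    (fun h => absurd (mem_range.2 (Nat.lt_succ_of_le hl)) h)]
  simp only [Nest.ampDeriv, true_and, ite_mul, one_mul, zero_mul]
  rw [sum_ite_mem, univ_inter]
  rfl

include hN hL in
lemma continuous_ampDeriv {T : Type} [TopologicalSpace T] [FirstCountableTopology T]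
    {A : T → ℕ → ι → ℝ} (hA : ∀ m i, Continuous fun t => A t m i) (S : Finset ι) (l : ℕ) :
    Continuous fun t => (N.setAmp (A t)).ampDeriv L μ S l :=
  continuous_finsetSum _ fun i _ => (hA l i).mul
    ((continuous_heatTop hN hL (fun m _ k => hA m k) i).sub
      (continuous_finsetSum (Icc l N.K) fun m hm => (continuous_const (y := N.w m)).mul
        (continuous_sqGrad hN hL (μ := μ) (fun m _ k => hA m k) (mem_Icc.1 hm).2 i)))

include hN hL in
lemma abs_ampDeriv_le (hS : L.CurvLower S Γ) (hcard : (S.card : ℝ) ≤ Γ * D)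
    (hb : ∀ ω y, |∑ i ∈ S, ((∑ j, L.φ2 j (L.loc ω y j) * L.a ω j i ^ 2) + L.vec i ω y ^ 2)|
      ≤ Γ * D) {l : ℕ} (hl : l ≤ N.K) {s : ℝ} (hamp : ∀ i ∈ S, N.amp l i = s) :
    |N.ampDeriv L μ S l| ≤ |s| * (Conc.heatConst Γ * D) := by
  have e : N.ampDeriv L μ S l = s * ((∑ i ∈ S, N.heatTop L μ i) -
      ∑ m ∈ Icc l N.K, N.w m * ∑ i ∈ S, N.sqGrad L μ m i) := by
    simp only [mul_sum (s := S)]
    rw [sum_comm, ← sum_sub_distrib, mul_sum]
    exact sum_congr rfl fun i hi => by rw [hamp i hi]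
  rw [e, abs_mul]
  refine mul_le_mul_of_nonneg_left ?_ (abs_nonneg _)
  have hΓD : 0 ≤ Γ * D := (Nat.cast_nonneg _).trans hcard
  have h1 : |∑ i ∈ S, N.heatTop L μ i| ≤ Γ * D := by
    have hbd : ∀ y, |∑ i ∈ S, N.heat L μ N.K i y| ≤ Γ * D := fun y =>
      (Conc.abs_heat_sum_le (μ := μ) hN hL hS hcard hb le_rfl y).trans
        (le_of_eq (by rw [hN.x_last]; ring))
    have ht : Tame fun y => ∑ i ∈ S, N.heat L μ N.K i y :=
      tame_sum S fun i _ => heat_tame hN hL le_rfl i
    simp only [Nest.heatTop]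
    rw [← Pin.mean_sum hN hL le_rfl S fun i _ => heat_tame hN hL le_rfl i, abs_le]
    refine ⟨?_, ?_⟩
    · have := mean_mono hN hL (μ := μ) le_rfl (tame_const (-(Γ * D))) ht
        fun y => (abs_le.1 (hbd y)).1
      rwa [mean_const hN hL le_rfl] at this
    · have := mean_mono hN hL (μ := μ) le_rfl ht (tame_const (Γ * D))
        fun y => (abs_le.1 (hbd y)).2
      rwa [mean_const hN hL le_rfl] at this
  set T := Γ * D + Γ * (Γ * D)
  have hT : 0 ≤ T := add_nonneg hΓD (mul_nonneg hS.1 hΓD)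
  have h2 : ∀ m ≤ N.K, 0 ≤ ∑ i ∈ S, N.sqGrad L μ m i ∧ ∑ i ∈ S, N.sqGrad L μ m i ≤ T := by
    intro m hm
    have ht : ∀ i, Tame fun y => N.grad L μ m i y ^ 2 := fun i => (grad_tame hN hL hm i).sq
    simp only [Nest.sqGrad]
    rw [← Pin.mean_sum hN hL hm S fun i _ => ht i]
    refine ⟨?_, ?_⟩
    · have := mean_mono hN hL (μ := μ) hm (tame_const 0) (tame_sum S fun i _ => ht i)
        fun y => sum_nonneg fun i _ => sq_nonneg _
      rwa [mean_const hN hL hm] at this
    · have := mean_mono hN hL (μ := μ) hm (tame_sum S fun i _ => ht i) (tame_const T)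
        fun y => Conc.gradSq_le hN hL hS hcard hb hm y
      rwa [mean_const hN hL hm] at this
  have hw : ∀ m ≤ N.K, 0 ≤ N.w m := fun m hm => sub_nonneg.2 (hN.x_mono m hm)
  have h3 : 0 ≤ ∑ m ∈ Icc l N.K, N.w m * ∑ i ∈ S, N.sqGrad L μ m i ∧
      ∑ m ∈ Icc l N.K, N.w m * ∑ i ∈ S, N.sqGrad L μ m i ≤ T := by
    refine ⟨sum_nonneg fun m hm => mul_nonneg (hw m (mem_Icc.1 hm).2) (h2 m (mem_Icc.1 hm).2).1, ?_⟩
    refine (sum_le_sum fun m hm => mul_le_mul_of_nonneg_left (h2 m (mem_Icc.1 hm).2).2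
      (hw m (mem_Icc.1 hm).2)).trans ?_
    rw [← sum_mul]
    refine mul_le_of_le_one_left hT ((sum_le_sum_of_subset_of_nonneg (t := range (N.K + 1))
      (fun m hm => mem_range.2 (Nat.lt_succ_of_le (mem_Icc.1 hm).2))
      fun m hm _ => hw m (Nat.le_of_lt_succ (mem_range.1 hm))).trans_eq ?_)
    simp only [Nest.w]
    rw [sum_range_sub N.x, hN.x_zero, hN.x_last, sub_zero]
  refine (abs_sub _ _).trans ?_
  rw [abs_of_nonneg h3.1]
  simp only [Conc.heatConst, T] at *
  linarith [h1, h3.2]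

end Box

open Box

/-- The averaged deviation of the heat quantity. -/
theorem dev_avg_le (K : ℕ) (a b ξ Γ : ℝ) (ha : 0 < a) (hab : a < b) (hξ : 0 < ξ) :
    ∃ Cst : ℝ, ∀ {ι Ω κ β : Type} [Fintype ι] [DecidableEq ι] [Fintype κ] [MeasurableSpace Ω]
      [Fintype β] [DecidableEq β] (N : Nest ι) (A : (β → ℝ) → ℕ → ι → ℝ) (j : β)
      (L : Leaf Ω κ ι) (μ : Measure Ω) (S : Finset ι) (B D δ d : ℝ) (l : ℕ),
      IsProbabilityMeasure μ → L.Good B → N.Good → N.K ≤ K → l < N.K →
      (∀ m, 1 ≤ m → m ≤ N.K → ξ ≤ N.x m) → 1 ≤ D → (S.card : ℝ) ≤ Γ * D → 0 < d → d ≤ a / 2 →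
      L.CurvLower S Γ →
      (∀ ω y, |∑ i ∈ S, ((∑ k, L.φ2 k (L.loc ω y k) * L.a ω k i ^ 2) + L.vec i ω y ^ 2)| ≤ Γ * D) →
      MovesAlong A S (l + 1) j a b → (∀ m i, Continuous fun v => A v m i) →
      (∀ v, (∀ k, v k ∈ Set.Icc (0 : ℝ) 1) → ∀ s ∈ Set.Icc (a - d) (b + d),
        ((N.setAmp (A v)).withAmp S (l + 1) s).mean (L.logZ μ) 0 (fun y =>
          |((N.setAmp (A v)).withAmp S (l + 1) s).u (L.logZ μ) 0 y -
            ((N.setAmp (A v)).withAmp S (l + 1) s).free L μ|) ≤ δ * D) →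
      Integrable (fun v => (N.setAmp (A v)).heatDev L μ S D l) (cubeLaw β) ∧
        ∫ v, (N.setAmp (A v)).heatDev L μ S D l ∂cubeLaw β ≤
          Cst * (δ / d + d + 1 / Real.sqrt D) := by
  obtain ⟨C, hC⟩ := heatDev_integral_le K a b ξ Γ ha hab hξ
  refine ⟨C / (b - a), ?_⟩
  intro ι Ω κ β _ _ _ _ _ _ N A j L μ S B D δ d l hμ hL hN hK hl hxi hD hcard hd hda hS hb hA hAc
    hconc
  have hG : ∀ v, (N.setAmp (A v)).Good := fun v => ⟨hN.x_zero, hN.x_last, hN.x_pos, hN.x_mono⟩
  have hc : Continuous fun v => (N.setAmp (A v)).heatDev L μ S D l :=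
    continuous_heatDev hN hL (fun m _ i => hAc m i) hl.le S D
  refine ⟨integrable_cube hc, ?_⟩
  rw [div_mul_eq_mul_div]
  refine cube_integral_le hc j hab fun v hv => ?_
  simp only [setAmp_update hA hab]
  exact hC (N.setAmp (A v)) L μ S B D δ d l hμ hL (hG v) hK hl hxi hD hcard hd hda hS hb
    (hconc v hv)

/-- Two systems with close free energies have close amplitude derivatives on average. -/
theorem deriv_avg_close (K : ℕ) (a b Γ : ℝ) (ha : 0 < a) (hab : a < b) :
    ∃ Cst : ℝ, ∀ {ι Ω κ ι' Ω' κ' β : Type} [Fintype ι] [DecidableEq ι] [Fintype κ]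
      [MeasurableSpace Ω] [Fintype ι'] [DecidableEq ι'] [Fintype κ'] [MeasurableSpace Ω']
      [Fintype β] [DecidableEq β]
      (N : Nest ι) (A : (β → ℝ) → ℕ → ι → ℝ) (L : Leaf Ω κ ι) (μ : Measure Ω) (S : Finset ι)
      (N' : Nest ι') (A' : (β → ℝ) → ℕ → ι' → ℝ) (L' : Leaf Ω' κ' ι') (μ' : Measure Ω')
      (S' : Finset ι') (j : β) (B B' D C d : ℝ) (l : ℕ),
      IsProbabilityMeasure μ → IsProbabilityMeasure μ' → L.Good B → L'.Good B' → N.Good → N'.Good →
      N.K ≤ K → N'.K ≤ K → l ≤ N.K → l ≤ N'.K → 1 ≤ D → 0 ≤ C → 0 < d → d ≤ a / 2 →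
      L.CurvLower S Γ → L'.CurvLower S' Γ → (S.card : ℝ) ≤ Γ * D → (S'.card : ℝ) ≤ Γ * D →
      (∀ ω y, ∑ i ∈ S, (|∑ k, L.φ2 k (L.loc ω y k) * L.a ω k i ^ 2| + L.vec i ω y ^ 2) ≤ Γ * D) →
      (∀ ω y, ∑ i ∈ S', (|∑ k, L'.φ2 k (L'.loc ω y k) * L'.a ω k i ^ 2| + L'.vec i ω y ^ 2) ≤
        Γ * D) →
      MovesAlong A S l j a b → MovesAlong A' S' l j a b →
      (∀ m i, Continuous fun v => A v m i) → (∀ m i, Continuous fun v => A' v m i) →
      (∀ v : β → ℝ, (∀ k, k ≠ j → v k ∈ Set.Icc (0 : ℝ) 1) →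
        a + (b - a) * v j ∈ Set.Icc (a - d) (b + d) →
          |(N.setAmp (A v)).free L μ - (N'.setAmp (A' v)).free L' μ'| ≤ C) →
      Integrable (fun v => |(N.setAmp (A v)).ampDeriv L μ S l -
        (N'.setAmp (A' v)).ampDeriv L' μ' S' l|) (cubeLaw β) ∧
        ∫ v, |(N.setAmp (A v)).ampDeriv L μ S l - (N'.setAmp (A' v)).ampDeriv L' μ' S' l|
          ∂cubeLaw β ≤ Cst * (C / d + D * d) := by
  set R := 2 * b
  set G₀ := R * Conc.heatConst Γ
  set c₀ := 2 * Conc.convConst Γ R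
  refine ⟨(4 * (b - a) + (b - a) * (6 * c₀) + 4 * G₀) / (b - a), ?_⟩
  intro ι Ω κ ι' Ω' κ' β _ _ _ _ _ _ _ _ _ _ N A L μ S N' A' L' μ' S' j B B' D C d l hμ hμ' hL hL'
    hN hN' _ _ hl hl' hD hC hd hda hS hS' hcard hcard' hT hT' hA hA' hAc hAc' hfree
  have hF : Continuous fun v => |(N.setAmp (A v)).ampDeriv L μ S l -
      (N'.setAmp (A' v)).ampDeriv L' μ' S' l| :=
    ((continuous_ampDeriv hN hL hAc S l).sub (continuous_ampDeriv hN' hL' hAc' S' l)).abs
  refine ⟨integrable_cube hF, ?_⟩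
  rw [div_mul_eq_mul_div]
  refine cube_integral_le hF j hab fun v hv => ?_
  simp only [setAmp_update hA hab, setAmp_update hA' hab]
  have hΓ : 0 ≤ Γ := hS.1
  have hD0 : 0 ≤ D := by linarith
  have hR : ∀ s ∈ Set.Icc (a - d) (b + d), |s| ≤ R := fun s hs =>
    abs_le.2 ⟨by simp only [R]; linarith [hs.1], by simp only [R]; linarith [hs.2]⟩
  have hsum : ∀ {α : Type} (s : Finset α) (f g : α → ℝ), (∀ i ∈ s, 0 ≤ g i) →
      |∑ i ∈ s, (f i + g i)| ≤ ∑ i ∈ s, (|f i| + g i) := fun s f g hg =>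
    (abs_sum_le_sum_abs _ _).trans (sum_le_sum fun i hi =>
      (abs_add_le _ _).trans_eq (by rw [abs_of_nonneg (hg i hi)]))
  set M := N.setAmp (A v)
  set M' := N'.setAmp (A' v)
  have hM : M.Good := ⟨hN.x_zero, hN.x_last, hN.x_pos, hN.x_mono⟩
  have hM' : M'.Good := ⟨hN'.x_zero, hN'.x_last, hN'.x_pos, hN'.x_mono⟩
  have hb := fun ω y => (hsum S _ (fun i => L.vec i ω y ^ 2) fun _ _ => sq_nonneg _).trans (hT ω y)
  have hb' := fun ω y =>
    (hsum S' _ (fun i => L'.vec i ω y ^ 2) fun _ _ => sq_nonneg _).trans (hT' ω y)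
  have hc0 : 0 ≤ c₀ := by
    simp only [c₀, Conc.convConst, Conc.heatConst]; positivity
  have hG0 : 0 ≤ G₀ := mul_nonneg (by simp only [R]; linarith)
    (by simp only [Conc.heatConst]; positivity)
  have hfm := monotoneOn_deriv_of_support (I := Set.Icc (a - d) (b + d))
    (f := fun s => (M.withAmp S l s).free L μ)
    (fun s _ => hasDerivAt_free hM hL hl s)
    (fun s hs => free_support hM hL hS hcard hb hl (hR s hs))
  have hgm := monotoneOn_deriv_of_support (I := Set.Icc (a - d) (b + d))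
    (f := fun s => (M'.withAmp S' l s).free L' μ')
    (fun s _ => hasDerivAt_free hM' hL' hl' s)
    (fun s hs => free_support hM' hL' hS' hcard' hb' hl' (hR s hs))
  have hAc1 : ∀ m i, Continuous fun s => (M.withAmp S l s).amp m i := fun m i => by
    simp only [Nest.withAmp]; split_ifs <;> fun_prop
  have hAc2 : ∀ m i, Continuous fun s => (M'.withAmp S' l s).amp m i := fun m i => by
    simp only [Nest.withAmp]; split_ifs <;> fun_prop
  have hbound : ∀ s ∈ Set.Icc (a - d) (b + d),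
      |(M.withAmp S l s).ampDeriv L μ S l| ≤ G₀ * D ∧
        |(M'.withAmp S' l s).ampDeriv L' μ' S' l| ≤ G₀ * D := by
    intro s hs
    have h0 : 0 ≤ Conc.heatConst Γ * D := by simp only [Conc.heatConst]; positivity
    refine ⟨(abs_ampDeriv_le (Conc.withAmp_good hM S l s) hL hS hcard hb hl (s := s)
        (fun i hi => by simp [Nest.withAmp, hi])).trans ?_,
      (abs_ampDeriv_le (Conc.withAmp_good hM' S' l s) hL' hS' hcard' hb' hl' (s := s)
        (fun i hi => by simp [Nest.withAmp, hi])).trans ?_⟩ <;>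
    · simp only [G₀, mul_assoc]
      exact mul_le_mul_of_nonneg_right (hR s hs) h0
  have key := integral_abs_deriv_sub_le (a := a) (b := b) (d := d) (c := c₀ * D) (G := G₀ * D)
    (C := C) hd hab.le (mul_nonneg hc0 hD0) hC
    (fun s _ => hasDerivAt_free hM hL hl s) (fun s _ => hasDerivAt_free hM' hL' hl' s)
    (continuous_ampDeriv hM hL hAc1 S l).continuousOn
    (continuous_ampDeriv hM' hL' hAc2 S' l).continuousOn
    (by simpa only [c₀, mul_assoc] using hfm) (by simpa only [c₀, mul_assoc] using hgm)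
    (fun s hs => (hbound s hs).1) (fun s hs => (hbound s hs).2)
    (fun s hs => by
      have h := hfree (Function.update v j ((s - a) / (b - a))) (update_mem hv j _) (by
        rw [Function.update_self, mul_div_cancel₀ _ (sub_ne_zero.2 hab.ne'), add_sub_cancel]
        exact hs)
      rwa [setAmp_update hA hab, setAmp_update hA' hab] at h)
  refine key.trans ?_
  have hba : 0 ≤ b - a := by linarith
  have : 0 ≤ C / d := div_nonneg hC hd.le
  have e : 4 * C / d = 4 * (C / d) := by ring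
  rw [e]
  nlinarith [mul_nonneg hba (mul_nonneg hD0 hd.le), mul_nonneg hba this,
    mul_nonneg (mul_nonneg hba hc0) this, mul_nonneg hG0 this]

end Vale.Agent.P157.Parisi
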