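import Vale.Agent.P157.Parisi.Conc

/-!
The free energy is semiconvex in the amplitude of one level on a block.
-/

namespace Vale.Agent.P157.Parisi.Box

open MeasureTheory ProbabilityTheory Finset

section Jensen

variable {α : Type} [MeasurableSpace α] {P : Measure α} {a b g : α → ℝ} {m : ℝ}

/-- A supporting line of the nested log-average. -/
lemma log_support (hm : 0 < m) (ha : Integrable (fun z => Real.exp (m * a z)) P)
    (hb : Integrable (fun z => Real.exp (m * b z)) P)
    (hg : Integrable (fun z => Real.exp (m * a z) * g z) P) (hP : P ≠ 0)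
    (h : ∀ z, a z + g z ≤ b z) :
    m⁻¹ * Real.log (∫ z, Real.exp (m * a z) ∂P) +
        (∫ z, Real.exp (m * a z) * g z ∂P) / ∫ z, Real.exp (m * a z) ∂P ≤
      m⁻¹ * Real.log (∫ z, Real.exp (m * b z) ∂P) := by
  have : NeZero P := ⟨hP⟩
  set Z := ∫ z, Real.exp (m * a z) ∂P
  have hZ : 0 < Z := integral_exp_pos ha
  set c := (∫ z, Real.exp (m * a z) * g z ∂P) / Z with hc
  have key : ∀ z, Real.exp (m * c) * (Real.exp (m * a z) * (1 - m * c)) +
      Real.exp (m * c) * m * (Real.exp (m * a z) * g z) ≤ Real.exp (m * b z) := by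
    intro z
    have h1 := Real.add_one_le_exp (m * g z - m * c)
    have h2 : Real.exp (m * a z) * (Real.exp (m * c) * Real.exp (m * g z - m * c)) =
        Real.exp (m * (a z + g z)) := by
      rw [← Real.exp_add, ← Real.exp_add]; ring_nf
    have h3 : Real.exp (m * (a z + g z)) ≤ Real.exp (m * b z) :=
      Real.exp_le_exp.2 (mul_le_mul_of_nonneg_left (h z) hm.le)
    have h4 := mul_le_mul_of_nonneg_left (mul_le_mul_of_nonneg_left h1 (Real.exp_pos (m * c)).le)
      (Real.exp_pos (m * a z)).le
    linarith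
  have i1 := (ha.mul_const (1 - m * c)).const_mul (Real.exp (m * c))
  have i2 := hg.const_mul (Real.exp (m * c) * m)
  have h5 : (∫ z, Real.exp (m * c) * (Real.exp (m * a z) * (1 - m * c)) +
      Real.exp (m * c) * m * (Real.exp (m * a z) * g z) ∂P) ≤ ∫ z, Real.exp (m * b z) ∂P :=
    integral_mono (i1.add i2) hb key
  rw [integral_add i1 i2, integral_const_mul, integral_const_mul, integral_mul_const] at h5
  have h6 : Real.exp (m * c) * Z ≤ ∫ z, Real.exp (m * b z) ∂P := by
    refine le_of_eq_of_le ?_ h5
    rw [show (∫ z, Real.exp (m * a z) * g z ∂P) = c * Z by rw [hc, div_mul_cancel₀ _ hZ.ne']]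
    ring
  have h7 := Real.log_le_log (by positivity) h6
  rw [Real.log_mul (Real.exp_pos _).ne' hZ.ne', Real.log_exp] at h7
  have := mul_le_mul_of_nonneg_left h7 (inv_nonneg.2 hm.le)
  rw [mul_add, inv_mul_cancel_left₀ hm.ne'] at this
  linarith

end Jensen

/-- Supporting lines determine the derivative and make it monotone after a shift. -/
lemma monotoneOn_deriv_of_support {f f' : ℝ → ℝ} {I : Set ℝ} {c : ℝ}
    (hd : ∀ s ∈ I, HasDerivAt f (f' s) s)
    (hs : ∀ s ∈ I, ∃ p, ∀ t, f s + (t - s) * p - c * (t - s) ^ 2 ≤ f t) :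
    MonotoneOn (fun s => f' s + 2 * c * s) I := by
  have eq : ∀ s ∈ I, ∀ t, f s + (t - s) * f' s - c * (t - s) ^ 2 ≤ f t := by
    intro s hsI
    obtain ⟨p, hp⟩ := hs s hsI
    have hmin : IsLocalMin (fun t => f t - (t - s) * p + c * (t - s) ^ 2) s :=
      Filter.Eventually.of_forall fun t => by simpa using by linarith [hp t]
    have hder := ((hd s hsI).sub (((hasDerivAt_id s).sub_const s).mul_const p)).add
      ((((hasDerivAt_id s).sub_const s).pow 2).const_mul c)
    have := hmin.hasDerivAt_eq_zero hder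
    have e : p = f' s := by simp at this; linarith
    rwa [← e]
  intro s hsI t htI hst
  have h1 := eq s hsI t
  have h2 := eq t htI s
  rcases eq_or_lt_of_le hst with rfl | hlt
  · exact le_rfl
  · simp only
    by_contra hcon
    have := mul_lt_mul_of_pos_left (not_le.1 hcon) (sub_pos.2 hlt)
    nlinarith

variable {ι : Type} [Fintype ι] [DecidableEq ι] {Ω κ : Type} [Fintype κ] [MeasurableSpace Ω]
variable {N : Nest ι} {L : Leaf Ω κ ι} {μ : Measure Ω} [IsProbabilityMeasure μ] {B : ℝ}
variable {S : Finset ι} {Γ D R : ℝ}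
variable (hN : N.Good) (hL : L.Good B) (hS : L.CurvLower S Γ) (hcard : (S.card : ℝ) ≤ Γ * D)
  (hb : ∀ ω y, |∑ i ∈ S, ((∑ j, L.φ2 j (L.loc ω y j) * L.a ω j i ^ 2) + L.vec i ω y ^ 2)|
      ≤ Γ * D)

include hN hL hS in
/-- The supporting paraboloid of the recursion in the state. -/
lemma line_lower {p : ℕ} (hp : p ≤ N.K) (y v : ι → ℝ) (hv : ∀ i ∉ S, v i = 0) :
    N.u (L.logZ μ) p y + ∑ i ∈ S, v i * N.grad L μ p i y - Γ * ∑ i ∈ S, v i ^ 2 ≤
      N.u (L.logZ μ) p fun i => y i + v i := by
  have hsum : ∀ g : ι → ℝ, ∑ i, v i * g i = ∑ i ∈ S, v i * g i := fun g =>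
    (sum_subset (subset_univ S) fun i _ hi => by simp [hv i hi]).symm
  set V := ∑ i ∈ S, v i ^ 2
  have hV : 0 ≤ Γ * V := mul_nonneg hS.1 (sum_nonneg fun i _ => sq_nonneg _)
  set f := fun t : ℝ => N.u (L.logZ μ) p fun i => y i + t * v i
  set f1 := fun t : ℝ => ∑ i, v i * N.grad L μ p i fun j => y j + t * v j
  have hf : ∀ t, HasDerivAt f (f1 t) t := GradOf.line (gradOf_u hN hL hp) y v
  have hmono : Monotone fun t => f1 t + Γ * V * t := by
    refine monotone_of_hasDerivAt_nonneg (f' := fun t =>
      (∑ i, v i * ∑ k, v k * N.hess L μ p i k fun j => y j + t * v j) + Γ * V) (fun t => ?_) ?_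
    · refine HasDerivAt.add ?_ (by simpa using (hasDerivAt_id t).const_mul (Γ * V))
      exact HasDerivAt.fun_sum fun i _ =>
        (GradOf.line (gradOf_grad hN hL hp i) y v t).const_mul (v i)
    · intro t
      simp only [Pi.zero_apply]
      rw [hsum, sum_congr rfl fun i _ => congrArg _ (hsum _)]
      have h := hess_ge (μ := μ) hN hL hp hS v fun j => y j + t * v j
      have hc := mul_nonneg (show 0 ≤ N.x (p + 1) from Conc.x_nonneg hN (by omega))
        (cov_nonneg (μ := μ) hN hL hp S v fun j => y j + t * v j)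
      rw [show ∑ i ∈ S, v i ^ 2 = V from rfl] at h
      rw [show (∑ i ∈ S, v i * ∑ k ∈ S, v k * N.hess L μ p i k fun j => y j + t * v j) =
        ∑ i ∈ S, ∑ k ∈ S, v i * v k * N.hess L μ p i k fun j => y j + t * v j by
        simp only [mul_sum, mul_assoc]]
      linarith
  obtain ⟨c, hc, heq⟩ := exists_hasDerivAt_eq_slope f f1 zero_lt_one
    (fun t _ => (hf t).continuousAt.continuousWithinAt) fun t _ => hf t
  have hm := hmono hc.1.le
  simp only [mul_zero, add_zero] at hm
  have e1 : f1 0 = ∑ i ∈ S, v i * N.grad L μ p i y := by simp [f1, hsum]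
  have e2 : f 1 = N.u (L.logZ μ) p fun i => y i + v i := by simp [f]
  have e0 : f 0 = N.u (L.logZ μ) p y := by simp [f]
  rw [sub_zero, div_one, e2, e0] at heq
  have := mul_le_mul_of_nonneg_left hc.2.le hV
  linarith

include hN hL hS hcard hb in
/-- The supporting line one level below the varying amplitude. -/
lemma support_step {l : ℕ} (hl : l < N.K) {s : ℝ} (hs : |s| ≤ R) (t : ℝ) (y : ι → ℝ) :
    (N.withAmp S (l + 1) s).u (L.logZ μ) l y + (t - s) * Conc.hTop N L μ S l s y -
        Conc.convConst Γ R * D * (t - s) ^ 2 ≤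
      (N.withAmp S (l + 1) t).u (L.logZ μ) l y := by
  set M := N.withAmp S (l + 1) s
  have hM : M.Good := Conc.withAmp_good hN S (l + 1) s
  set x := N.x (l + 1)
  set V := M.u (L.logZ μ) (l + 1)
  have hV : V = N.u (L.logZ μ) (l + 1) := Conc.withAmp_u N S _ _ _ _ le_rfl
  have hVt : (N.withAmp S (l + 1) t).u (L.logZ μ) (l + 1) = V :=
    (Conc.withAmp_u N S _ _ _ _ le_rfl).trans hV.symm
  rw [u_succ (N := M) hl, u_succ (N := N.withAmp S (l + 1) t) hl, hVt]
  set A := M.amp (l + 1) with hA
  set A' := (N.withAmp S (l + 1) t).amp (l + 1) with hA'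
  have hAS : ∀ i ∈ S, A i = s := fun i hi => by simp [A, M, Nest.withAmp, hi]
  have hmove : ∀ z, move A' y z = fun i => move A y z i + (if i ∈ S then (t - s) * z i else 0) := by
    intro z; funext i
    by_cases hi : i ∈ S <;> simp [move, A, A', M, Nest.withAmp, hi] <;> ring
  have hlin := linGrowth_u (μ := μ) hM hL (l + 1)
  set G := fun i => M.grad L μ (l + 1) i
  set g := fun z : ι → ℝ => (∑ i ∈ S, (t - s) * (z i * G i (move A y z))) -
    ∑ i ∈ S, Γ * (t - s) ^ 2 * (z i * z i)
  have hE : Tame fun z => Real.exp (x * V (move A y z)) := (hlin.exp_tame x).comp_move A y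
  have tzG : ∀ i, Tame fun z : ι → ℝ => z i * G i (move A y z) := fun i =>
    (tame_coord i).mul ((grad_tame hM hL (show l + 1 ≤ M.K from hl) i).comp_move A y)
  have tzz : ∀ i, Tame fun z : ι → ℝ => z i * z i := fun i => (tame_coord i).mul (tame_coord i)
  have hgt : Tame g := (tame_sum S fun i _ => (tzG i).const_mul _).sub
    (tame_sum S fun i _ => (tzz i).const_mul _)
  have hpt : ∀ z, V (move A y z) + g z ≤ V (move A' y z) := by
    intro z
    have h := line_lower (μ := μ) hM hL hS (show l + 1 ≤ M.K from hl) (move A y z)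
      (fun i => if i ∈ S then (t - s) * z i else 0) (fun i hi => if_neg hi)
    rw [← hmove] at h
    refine le_trans (le_of_eq ?_) h
    simp only [g, G, V, mul_sum]
    rw [add_sub_assoc']
    refine congrArg₂ _ (congrArg _ (sum_congr rfl fun i hi => ?_)) (sum_congr rfl fun i hi => ?_) <;>
    simp only [if_pos hi] <;> ring
  have key := log_support (P := gauss ι) (a := fun z => V (move A y z))
    (b := fun z => V (move A' y z)) (g := g) (hN.x_pos _ (by omega) hl) hE.integrable
    ((hlin.exp_tame x).comp_move A' y).integrable (hE.mul hgt).integrable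
    (IsProbabilityMeasure.ne_zero _) hpt
  refine le_trans ?_ key
  rw [show stepLog (M.x (l + 1)) A V y =
    x⁻¹ * Real.log (∫ z, Real.exp (x * V (move A y z)) ∂gauss ι) from rfl]
  set Z := ∫ z, Real.exp (x * V (move A y z)) ∂gauss ι
  have hI : (∫ z, Real.exp (x * V (move A y z)) * g z ∂gauss ι) / Z =
      (t - s) * Conc.hTop N L μ S l s y - Γ * (t - s) ^ 2 *
        ((S.card : ℝ) + x * s * s * ∑ i ∈ S, M.heat L μ l i y) := by
    have ec : (S.card : ℝ) + x * s * s * ∑ i ∈ S, M.heat L μ l i y =
        ∑ i ∈ S, (1 + x * s * s * M.heat L μ l i y) := by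
      rw [sum_add_distrib, mul_sum, sum_const, nsmul_eq_mul, mul_one]
    rw [Conc.hTop, mul_sum, ec]
    have split : ∀ z, Real.exp (x * V (move A y z)) * g z =
        (∑ i ∈ S, (t - s) * (Real.exp (x * V (move A y z)) * (z i * G i (move A y z)))) -
          ∑ i ∈ S, Γ * (t - s) ^ 2 * (Real.exp (x * V (move A y z)) * (z i * z i)) := by
      intro z
      simp only [g, mul_sub, mul_sum]
      exact congrArg₂ _ (sum_congr rfl fun i _ => by ring) (sum_congr rfl fun i _ => by ring)
    rw [integral_congr_ae (.of_forall split),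
      integral_sub (integrable_finsetSum _ fun i _ => ((hE.mul (tzG i)).const_mul _).integrable)
      (integrable_finsetSum _ fun i _ => ((hE.mul (tzz i)).const_mul _).integrable),
      integral_finsetSum _ fun i _ => ((hE.mul (tzG i)).const_mul _).integrable,
      integral_finsetSum _ fun i _ => ((hE.mul (tzz i)).const_mul _).integrable]
    simp only [integral_const_mul]
    simp only [sub_div, sum_div, mul_div_assoc]
    congr 1
    · rw [mul_sum]
      refine sum_congr rfl fun i hi => ?_
      refine congrArg _ ?_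
      have h := tilt_z_grad (μ := μ) hM hL (show l < M.K from hl) i i y
      rw [show M.amp (l + 1) i = s from hAS i hi] at h
      exact h.trans (by simp only [Nest.heat, M]; ring)
    · rw [mul_sum]
      refine sum_congr rfl fun i hi => ?_
      refine congrArg _ ?_
      have h := tilt_z_z (μ := μ) hM hL (show l < M.K from hl) i i y
      rw [if_pos rfl, show M.amp (l + 1) i = s from hAS i hi] at h
      rw [show M.x (l + 1) = x from rfl] at h
      refine h.trans ?_
      rw [Nest.heat, show M.x (l + 1) = x from rfl]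
      ring
  rw [hI]
  have hx1 : x ≤ 1 := Conc.x_le_one hN (by omega)
  have hx0 : 0 ≤ x := Conc.x_nonneg hN (by omega)
  have hH := Conc.abs_heat_le (μ := μ) hN hL hS hcard hb hl s y
  have hH0 : 0 ≤ Conc.heatConst Γ * D := (abs_nonneg _).trans hH
  have hss : s * s ≤ R ^ 2 := by
    rw [← sq, ← sq_abs s]; exact pow_le_pow_left₀ (abs_nonneg _) hs 2
  have hmain : (S.card : ℝ) + x * s * s * ∑ i ∈ S, M.heat L μ l i y ≤
      Γ * D + R ^ 2 * (Conc.heatConst Γ * D) := by
    refine add_le_add hcard ?_
    calc x * s * s * ∑ i ∈ S, M.heat L μ l i y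
        ≤ x * s * s * (Conc.heatConst Γ * D) :=
          mul_le_mul_of_nonneg_left (abs_le.1 hH).2 (by rw [mul_assoc]; exact mul_nonneg hx0 (mul_self_nonneg s))
      _ ≤ _ := mul_le_mul_of_nonneg_right
          (by rw [mul_assoc]; exact (mul_le_of_le_one_left (mul_self_nonneg s) hx1).trans hss) hH0
  have := mul_le_mul_of_nonneg_left hmain (mul_nonneg hS.1 (sq_nonneg (t - s)))
  simp only [Conc.convConst]
  linarith

include hN hL hS hcard hb in
/-- The supporting line at every lower level. -/
lemma support_path {l : ℕ} (hl : l < N.K) {s : ℝ} (hs : |s| ≤ R) :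
    ∀ j m, m + j = l → ∃ P, Tame P ∧ ∀ t y,
      (N.withAmp S (l + 1) s).u (L.logZ μ) m y + (t - s) * P y -
          Conc.convConst Γ R * D * (t - s) ^ 2 ≤
        (N.withAmp S (l + 1) t).u (L.logZ μ) m y := by
  intro j
  induction j with
  | zero =>
    intro m hm
    obtain rfl : m = l := by omega
    exact ⟨_, Conc.hTop_tame hN hL hl s, fun t y => support_step hN hL hS hcard hb hl hs t y⟩
  | succ j ih =>
    intro m hm
    obtain ⟨P, hP, hPs⟩ := ih (m + 1) (by omega)
    set M := N.withAmp S (l + 1) s
    have hM : M.Good := Conc.withAmp_good hN S (l + 1) s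
    have hmK : m < M.K := show m < N.K by omega
    refine ⟨M.avg (L.logZ μ) m P, avg_tame hM hL hmK hP, fun t y => ?_⟩
    have hM' : (N.withAmp S (l + 1) t).Good := Conc.withAmp_good hN S (l + 1) t
    have ha : (N.withAmp S (l + 1) t).amp (m + 1) = M.amp (m + 1) :=
      (Conc.withAmp_amp_ne N S (by omega) t).trans (Conc.withAmp_amp_ne N S (by omega) s).symm
    rw [u_succ (N := M) hmK, u_succ (N := N.withAmp S (l + 1) t) hmK, ha]
    set A := M.amp (m + 1)
    set x := N.x (m + 1)
    set c := Conc.convConst Γ R * D * (t - s) ^ 2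
    have hE := ((linGrowth_u (μ := μ) hM hL (m + 1)).exp_tame x).comp_move A y
    have key := log_support (P := gauss ι) (a := fun z => M.u (L.logZ μ) (m + 1) (move A y z))
      (b := fun z => (N.withAmp S (l + 1) t).u (L.logZ μ) (m + 1) (move A y z))
      (g := fun z => (t - s) * P (move A y z) - c) (hN.x_pos _ (by omega) hmK) hE.integrable
      (((linGrowth_u (μ := μ) hM' hL (m + 1)).exp_tame x).comp_move A y).integrable
      (hE.mul (((hP.comp_move A y).const_mul _).sub (tame_const c))).integrable
      (IsProbabilityMeasure.ne_zero _) fun z => by linarith [hPs t (move A y z)]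
    refine le_trans ?_ key
    simp only [mul_sub, mul_left_comm (Real.exp _) (t - s)]
    rw [integral_sub ((hE.mul (hP.comp_move A y)).const_mul _).integrable
        (hE.mul (tame_const c)).integrable, integral_const_mul, integral_mul_const, sub_div,
      mul_div_assoc, mul_div_cancel_left₀ _ (integral_exp_pos hE.integrable).ne']
    exact le_of_eq (add_sub_assoc _ _ _)

omit [DecidableEq ι] in
lemma integral_coord_sq (i : ι) : ∫ z, z i * z i ∂gauss ι = 1 := by
  rw [gauss, integral_comp_eval (μ := fun _ : ι => gaussianReal 0 1) (i := i)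
    (f := fun x : ℝ => x * x) (by fun_prop)]
  have := variance_id_gaussianReal (μ := 0) (v := 1)
  rw [variance_eq_sub (memLp_id_gaussianReal 2)] at this
  simpa [sq, integral_id_gaussianReal] using this

include hN hL hS hcard hb in
/-- The free energy has supporting parabolas in every amplitude of a block. -/
theorem free_support {l : ℕ} (hl : l ≤ N.K) {s : ℝ} (hs : |s| ≤ R) :
    ∃ p, ∀ t, (N.withAmp S l s).free L μ + (t - s) * p - Conc.convConst Γ R * D * (t - s) ^ 2 ≤
      (N.withAmp S l t).free L μ := by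
  have hint : ∀ (a : ι → ℝ) {f : (ι → ℝ) → ℝ}, Tame f → Tame fun z => f fun i => a i * z i :=
    fun a f hf => (funext fun z => congrArg f (funext fun i => zero_add _) :
      (fun z => f (move a 0 z)) = fun z => f fun i => a i * z i) ▸ hf.comp_move a 0
  rcases Nat.eq_zero_or_pos l with rfl | hpos
  · set U := N.u (L.logZ μ) 0
    have hu : ∀ r, (N.withAmp S 0 r).u (L.logZ μ) 0 = U := fun r =>
      Conc.withAmp_u N S _ _ _ _ le_rfl
    set a := (N.withAmp S 0 s).amp 0
    have tzG : ∀ i, Tame fun z : ι → ℝ => z i * N.grad L μ 0 i fun k => a k * z k := fun i =>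
      (tame_coord i).mul (hint a (grad_tame hN hL (Nat.zero_le _) i))
    refine ⟨∑ i ∈ S, ∫ z, z i * N.grad L μ 0 i (fun k => a k * z k) ∂gauss ι, fun t => ?_⟩
    simp only [Nest.free, Nest.mean, hu]
    set b := (N.withAmp S 0 t).amp 0
    have hpt : ∀ z : ι → ℝ, U (fun i => a i * z i) + ((∑ i ∈ S, (t - s) *
        (z i * N.grad L μ 0 i fun k => a k * z k)) - ∑ i ∈ S, Γ * (t - s) ^ 2 * (z i * z i)) ≤
          U fun i => b i * z i := by
      intro z
      have h := line_lower (μ := μ) hN hL hS (Nat.zero_le _) (fun i => a i * z i)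
        (fun i => if i ∈ S then (t - s) * z i else 0) (fun i hi => if_neg hi)
      rw [show (fun i => a i * z i + if i ∈ S then (t - s) * z i else 0) = fun i => b i * z i from
        funext fun i => by by_cases hi : i ∈ S <;> simp [a, b, Nest.withAmp, hi] <;> ring] at h
      refine le_trans (le_of_eq ?_) h
      simp only [U, mul_sum]
      rw [add_sub_assoc']
      refine congrArg₂ _ (congrArg _ (sum_congr rfl fun i hi => ?_))
        (sum_congr rfl fun i hi => ?_) <;> simp only [if_pos hi] <;> ring
    have hg : Tame fun z : ι → ℝ => (∑ i ∈ S, (t - s) * (z i * N.grad L μ 0 i fun k => a k * z k)) -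
        ∑ i ∈ S, Γ * (t - s) ^ 2 * (z i * z i) :=
      (tame_sum S fun i _ => (tzG i).const_mul _).sub
        (tame_sum S fun i _ => ((tame_coord i).mul (tame_coord i)).const_mul _)
    have hU : Tame U := u_tame hN hL 0
    have h := integral_mono ((hint a hU).integrable.add hg.integrable) (hint b hU).integrable hpt
    refine le_trans ?_ h
    simp only [Pi.add_apply]
    rw [integral_add (hint a hU).integrable hg.integrable,
      integral_sub (tame_sum S fun i _ => (tzG i).const_mul _).integrable
        (tame_sum S fun i _ => ((tame_coord i).mul (tame_coord i)).const_mul _).integrable,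
      integral_finsetSum _ fun i _ => ((tzG i).const_mul _).integrable,
      integral_finsetSum _ fun i _ => (((tame_coord i).mul (tame_coord i)).const_mul _).integrable]
    simp only [integral_const_mul, integral_coord_sq, ← mul_sum, sum_const, nsmul_eq_mul, mul_one]
    have hΓD : 0 ≤ Γ * D := (Nat.cast_nonneg _).trans hcard
    have h1 : Γ * (S.card : ℝ) ≤ Conc.convConst Γ R * D := by
      have h2 := mul_le_mul_of_nonneg_left hcard hS.1
      have h3 : 0 ≤ Γ * R ^ 2 * (2 * (Γ * D) + Γ * (Γ * D)) :=
        mul_nonneg (mul_nonneg hS.1 (sq_nonneg R))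
          (add_nonneg (by linarith) (mul_nonneg hS.1 hΓD))
      simp only [Conc.convConst, Conc.heatConst]
      linarith
    have := mul_le_mul_of_nonneg_right h1 (sq_nonneg (t - s))
    linarith
  · obtain ⟨k, rfl⟩ : ∃ k, l = k + 1 := ⟨l - 1, by omega⟩
    obtain ⟨P, hP, hPs⟩ := support_path (μ := μ) hN hL hS hcard hb hl hs k 0 (zero_add k)
    refine ⟨∫ z, P (fun i => N.amp 0 i * z i) ∂gauss ι, fun t => ?_⟩
    have h0 : ∀ r, (N.withAmp S (k + 1) r).amp 0 = N.amp 0 := fun r =>
      Conc.withAmp_amp_ne N S (by omega) r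
    simp only [Nest.free, Nest.mean, h0]
    set c := Conc.convConst Γ R * D * (t - s) ^ 2
    have t1 := hint (N.amp 0) (u_tame (μ := μ) (Conc.withAmp_good hN S (k + 1) s) hL 0)
    have t2 := (hint (N.amp 0) hP).const_mul (t - s)
    have h := integral_mono ((t1.add t2).sub (tame_const c)).integrable
      (hint (N.amp 0) (u_tame (μ := μ) (Conc.withAmp_good hN S (k + 1) t) hL 0)).integrable
      fun z => hPs t _
    rw [integral_sub (t1.add t2).integrable (integrable_const c),
      integral_add t1.integrable t2.integrable, integral_const_mul, integral_const,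
      probReal_univ, one_smul] at h
    exact h

end Vale.Agent.P157.Parisi.Box
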