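import Vale.Agent.P157.Parisi.Quad

/-!
The algebra of the quadratic bound for the sphere: the Crisanti-Sommers expression is the value of
the exact quadratic hierarchy at its optimal multiplier.
-/

namespace Vale.Agent.P157.Parisi

open MeasureTheory ProbabilityTheory Finset

variable {K : ℕ} {q h : ℕ → ℝ}

/-- The amplitudes of a variance path. -/
noncomputable def aOf (h : ℕ → ℝ) (l : ℕ) : ℝ :=
  if l = 0 then Real.sqrt (h 0) else Real.sqrt (h l - h (l - 1))

lemma blockNest_eq (n K : ℕ) (h : ℕ → ℝ) : blockNest n K h = sphNest n K (aOf h) := rfl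

lemma aOf_smul {c : ℝ} (hc : 0 ≤ c) (h : ℕ → ℝ) :
    aOf (fun l => c * h l) = fun l => Real.sqrt c * aOf h l := by
  funext l
  simp only [aOf, ← mul_sub]
  split_ifs <;> rw [Real.sqrt_mul hc]

lemma aOf_sq_succ (hh : IsPath h) (i : ℕ) : aOf h (i + 1) ^ 2 = h (i + 1) - h i := by
  simp only [aOf, if_neg (Nat.succ_ne_zero i), Nat.add_sub_cancel]
  exact Real.sq_sqrt (sub_nonneg.2 (hh.1 (Nat.le_succ i)))

lemma aOf_sq_zero (hh : IsPath h) : aOf h 0 ^ 2 = h 0 := by
  simp only [aOf, if_pos]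
  exact Real.sq_sqrt hh.2

lemma IsPath.nonneg (hh : IsPath h) (l : ℕ) : 0 ≤ h l := hh.2.trans (hh.1 (Nat.zero_le l))

lemma IsPath.smul (hh : IsPath h) {c : ℝ} (hc : 0 ≤ c) : IsPath fun l => c * h l :=
  ⟨fun _ _ hab => mul_le_mul_of_nonneg_left (hh.1 hab) hc, mul_nonneg hc hh.2⟩

lemma IsPath.add_const (hh : IsPath h) {c : ℝ} (hc : 0 ≤ c) : IsPath fun l => h l + c :=
  ⟨fun _ _ hab => add_le_add (hh.1 hab) le_rfl, add_nonneg hh.2 hc⟩

/-- The value of the exact quadratic hierarchy, per coordinate. -/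
noncomputable def gQ (K : ℕ) (h : ℕ → ℝ) (b : ℝ) : ℝ :=
  h 0 / (2 * dq K (aOf h) b 0) + cq K (aOf h) b 0 - Real.log b / 2

/-- The coupling of a field with a path. -/
noncomputable def pairing (K : ℕ) (h q : ℕ → ℝ) : ℝ :=
  (∑ l ∈ range (K + 1), h l * q l) / (2 * ((K : ℝ) + 1))

lemma pairing_smul (c : ℝ) (h q : ℕ → ℝ) :
    pairing K (fun l => c * h l) q = c * pairing K h q := by
  simp only [pairing, mul_assoc, ← mul_sum, mul_div_assoc]

lemma pairing_nonneg (hh : IsPath h) (hq : IsPath q) : 0 ≤ pairing K h q :=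
  div_nonneg (sum_nonneg fun l _ => mul_nonneg (hh.nonneg l) (hq.nonneg l)) (by positivity)

lemma tailMass_succ {l : ℕ} (hl : l < K) :
    tailMass K q l = tailMass K q (l + 1) + lvl K (l + 1) * (q (l + 1) - q l) := by
  unfold tailMass
  rw [sum_eq_sum_Ico_succ_bot hl]
  ring

lemma tailMass_top : tailMass K q K = 1 - q K := by simp [tailMass]

lemma tailMass_ge (hq : IsPath q) (l : ℕ) : 1 - q K ≤ tailMass K q l :=
  le_add_of_nonneg_right (sum_nonneg fun m _ =>
    mul_nonneg (lvl_nonneg _ _) (sub_nonneg.2 (hq.1 (Nat.le_succ m))))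

lemma tailMass_pos (hq : IsPath q) (h1 : q K < 1) (l : ℕ) : 0 < tailMass K q l :=
  (sub_pos.2 h1).trans_le (tailMass_ge hq l)

lemma tailMass_antitone (hq : IsPath q) {i : ℕ} (hi : i < K) :
    tailMass K q (i + 1) ≤ tailMass K q i := by
  rw [tailMass_succ hi]
  exact le_add_of_nonneg_right (mul_nonneg (lvl_nonneg _ _) (sub_nonneg.2 (hq.1 (Nat.le_succ i))))

lemma tailMass_zero_le (hq : IsPath q) : tailMass K q 0 ≤ 1 - q 0 := by
  have : ∑ m ∈ Ico 0 K, lvl K (m + 1) * (q (m + 1) - q m) ≤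
      ∑ m ∈ Ico 0 K, (q (m + 1) - q m) := by
    refine sum_le_sum fun m hm => mul_le_of_le_one_left (sub_nonneg.2 (hq.1 (Nat.le_succ m))) ?_
    exact lvl_le_one (by have := (mem_Ico.1 hm).2; omega)
  rw [Nat.Ico_zero_eq_range, sum_range_sub q] at this
  rw [tailMass, Nat.Ico_zero_eq_range]
  linarith

lemma tailMass_zero_ge (hq : IsPath q) (h1 : q K < 1) :
    (1 - q 0) / ((K : ℝ) + 1) ≤ tailMass K q 0 := by
  have : ∑ m ∈ Ico 0 K, ((K : ℝ) + 1)⁻¹ * (q (m + 1) - q m) ≤
      ∑ m ∈ Ico 0 K, lvl K (m + 1) * (q (m + 1) - q m) := by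
    refine sum_le_sum fun m _ => mul_le_mul_of_nonneg_right ?_
      (sub_nonneg.2 (hq.1 (Nat.le_succ m)))
    rw [lvl, inv_eq_one_div]
    gcongr
    simp
  rw [← mul_sum, Nat.Ico_zero_eq_range, sum_range_sub q] at this
  rw [tailMass, Nat.Ico_zero_eq_range]
  have h2 : ((K : ℝ) + 1)⁻¹ * (1 - q K) ≤ 1 - q K :=
    mul_le_of_le_one_left (sub_nonneg.2 h1.le) (inv_le_one_of_one_le₀ (by simp))
  rw [div_eq_inv_mul]
  nlinarith

lemma dq_aOf (hh : IsPath h) (b : ℝ) (l : ℕ) :
    dq K (aOf h) b l = b - ∑ i ∈ Ico l K, lvl K (i + 1) * (h (i + 1) - h i) := by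
  simp only [dq, aOf_sq_succ hh]

/-- The deficit at one level. -/
noncomputable def deficit (K : ℕ) (h q : ℕ → ℝ) (b : ℝ) (l : ℕ) : ℝ :=
  dq K (aOf h) b l * tailMass K q l - 1 - Real.log (dq K (aOf h) b l * tailMass K q l)

lemma deficit_nonneg (hq : IsPath q) (h1 : q K < 1) {b : ℝ} (hb : 0 < dq K (aOf h) b 0) (l : ℕ) :
    0 ≤ deficit K h q b l := by
  have := Real.log_le_sub_one_of_pos (mul_pos (dq_pos hb l) (tailMass_pos hq h1 l))
  rw [deficit]; linarith

/-- The weighted increments of the deficit. -/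
noncomputable def deficitSum (K : ℕ) (h q : ℕ → ℝ) (b : ℝ) (k : ℕ) : ℝ :=
  ∑ i ∈ range k, (deficit K h q b (i + 1) - deficit K h q b i) / lvl K (i + 1)

lemma abel_identity (hh : IsPath h) (b : ℝ) :
    ∀ k ≤ K, -h k * (tailMass K q k + lvl K k * q k) +
        (∑ j ∈ range k, h j * q j) / ((K : ℝ) + 1) + dq K (aOf h) b k * q k +
        ∑ i ∈ range k, (dq K (aOf h) b (i + 1) * tailMass K q (i + 1) -
          dq K (aOf h) b i * tailMass K q i) / lvl K (i + 1) =
      -h 0 * tailMass K q 0 + dq K (aOf h) b 0 * q 0 := by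
  intro k
  induction k with
  | zero => intro _; simp [lvl]
  | succ k ih =>
    intro hk
    have hk' : k < K := hk
    rw [← ih hk'.le, sum_range_succ, sum_range_succ, dq_succ (aOf h) b hk', aOf_sq_succ hh,
      tailMass_succ hk']
    have hK : (K : ℝ) + 1 ≠ 0 := by positivity
    have hk1 : (k : ℝ) + 1 ≠ 0 := by positivity
    simp only [lvl, Nat.cast_add, Nat.cast_one]
    field_simp
    ring

/-- The exact identity. -/
lemma gQ_identity (hh : IsPath h) (hq : IsPath q) (h1 : q K < 1) {b : ℝ}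
    (hb : 0 < dq K (aOf h) b 0) :
    2 * (gQ K h b + (b - 1) / 2 - h K / 2 + pairing K h q) =
      2 * sphereEntropy K q + deficit K h q b K - deficitSum K h q b K +
        h 0 * (1 / dq K (aOf h) b 0 - tailMass K q 0) +
        (dq K (aOf h) b 0 * q 0 - q 0 / tailMass K q 0) := by
  have hA := abel_identity (q := q) hh b K le_rfl
  rw [dq_top, tailMass_top] at hA
  have hb0 : 0 < b := by simpa [dq_top] using dq_pos hb K
  have e1 : ∀ i, (deficit K h q b (i + 1) - deficit K h q b i) / lvl K (i + 1) =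
      (dq K (aOf h) b (i + 1) * tailMass K q (i + 1) - dq K (aOf h) b i * tailMass K q i) /
          lvl K (i + 1) -
        2 * (Real.log (dq K (aOf h) b (i + 1) / dq K (aOf h) b i) / (2 * lvl K (i + 1))) +
        (lvl K (i + 1))⁻¹ * Real.log (tailMass K q i / tailMass K q (i + 1)) := by
    intro i
    have p1 := dq_pos hb i
    have p2 := dq_pos hb (i + 1)
    have p3 := tailMass_pos hq h1 i
    have p4 := tailMass_pos hq h1 (i + 1)
    have := lvl_succ_pos K i
    rw [deficit, deficit, Real.log_mul p2.ne' p4.ne', Real.log_mul p1.ne' p3.ne',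
      Real.log_div p2.ne' p1.ne', Real.log_div p3.ne' p4.ne']
    field_simp
    ring
  have e2 : pairing K h q * 2 = (∑ j ∈ range K, h j * q j) / ((K : ℝ) + 1) +
      h K * q K / ((K : ℝ) + 1) := by
    rw [pairing, sum_range_succ]
    field_simp
  have hK : (K : ℝ) + 1 ≠ 0 := by positivity
  have e3 : -h K * (1 - q K + lvl K K * q K) = -h K + h K * q K / ((K : ℝ) + 1) := by
    unfold lvl
    field_simp
    ring
  have e4 : h 0 * (1 / dq K (aOf h) b 0) = 2 * (h 0 / (2 * dq K (aOf h) b 0)) := by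
    field_simp
  simp only [deficitSum, e1, sum_add_distrib, sum_sub_distrib, ← mul_sum]
  rw [gQ, deficit, dq_top, tailMass_top, Real.log_mul hb0.ne' (sub_pos.2 h1).ne', sphereEntropy]
  simp only [cq, Nat.Ico_zero_eq_range]
  linarith

lemma deficit_le_sum (hq : IsPath q) (h1 : q K < 1) {b : ℝ} (hb : 0 < dq K (aOf h) b 0)
    (h0 : deficit K h q b 0 = 0) :
    ∀ k, 0 ≤ deficitSum K h q b k ∧
      deficit K h q b k ≤ lvl K k * deficitSum K h q b k := by
  intro k
  induction k with
  | zero => simp [deficitSum, h0, lvl]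
  | succ k ih =>
    obtain ⟨hS, hE⟩ := ih
    have hm := lvl_succ_pos K k
    have hmono : lvl K k ≤ lvl K (k + 1) := by unfold lvl; gcongr; simp
    have key : deficit K h q b (k + 1) ≤ lvl K (k + 1) * deficitSum K h q b (k + 1) := by
      have : deficitSum K h q b (k + 1) = deficitSum K h q b k +
          (deficit K h q b (k + 1) - deficit K h q b k) / lvl K (k + 1) := by
        simp [deficitSum, sum_range_succ]
      rw [this, mul_add, mul_div_cancel₀ _ hm.ne']
      have := mul_le_mul_of_nonneg_right hmono hS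
      linarith
    refine ⟨?_, key⟩
    exact nonneg_of_mul_nonneg_right ((deficit_nonneg hq h1 hb _).trans key) hm

/-- The quadratic bound with its best multiplier is below the Crisanti-Sommers expression. -/
lemma gQ_le_sphereEntropy (hh : IsPath h) (hq : IsPath q) (h1 : q K < 1) :
    ∃ b, 1 ≤ b ∧ b ≤ 1 / tailMass K q 0 + h K ∧ 0 < dq K (aOf h) b 0 ∧
      gQ K h b + (b - 1) / 2 - h K / 2 + pairing K h q ≤ sphereEntropy K q := by
  set t0 := tailMass K q 0
  have ht0 : 0 < t0 := tailMass_pos hq h1 0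
  have ht1 : t0 ≤ 1 := (tailMass_zero_le hq).trans (by linarith [hq.2])
  set S := ∑ i ∈ Ico 0 K, lvl K (i + 1) * (h (i + 1) - h i)
  have hS0 : 0 ≤ S := sum_nonneg fun i _ =>
    mul_nonneg (lvl_nonneg _ _) (sub_nonneg.2 (hh.1 (Nat.le_succ i)))
  have hS : S ≤ h K := by
    refine (sum_le_sum fun i hi => mul_le_of_le_one_left (sub_nonneg.2 (hh.1 (Nat.le_succ i)))
      (lvl_le_one (by have := (mem_Ico.1 hi).2; omega))).trans ?_
    rw [Nat.Ico_zero_eq_range, sum_range_sub h]
    linarith [hh.2]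
  have hd : dq K (aOf h) (1 / t0 + S) 0 = 1 / t0 := by rw [dq_aOf hh]; simp [S]
  have hb : 0 < dq K (aOf h) (1 / t0 + S) 0 := by rw [hd]; positivity
  have h1t : 1 ≤ 1 / t0 := by rw [le_div_iff₀ ht0]; linarith
  refine ⟨1 / t0 + S, by linarith, by linarith, hb, ?_⟩
  have hid := gQ_identity hh hq h1 hb
  have h0 : deficit K h q (1 / t0 + S) 0 = 0 := by
    rw [deficit, hd, one_div_mul_cancel ht0.ne', Real.log_one]; ring
  obtain ⟨hSum, hE⟩ := deficit_le_sum hq h1 hb h0 K
  have hle := mul_le_of_le_one_left hSum (lvl_le_one (K := K) (l := K) (by omega))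
  have z1 : 1 / dq K (aOf h) (1 / t0 + S) 0 - t0 = 0 := by rw [hd, one_div_one_div, sub_self]
  have z2 : dq K (aOf h) (1 / t0 + S) 0 * q 0 - q 0 / t0 = 0 := by rw [hd]; ring
  rw [z1, z2] at hid
  linarith

/-- The maximising field. -/
noncomputable def hStar (K : ℕ) (q : ℕ → ℝ) (l : ℕ) : ℝ :=
  q 0 / tailMass K q 0 ^ 2 + ∑ i ∈ range (min l K),
    (1 / tailMass K q (i + 1) - 1 / tailMass K q i) / lvl K (i + 1)

lemma isPath_hStar (hq : IsPath q) (h1 : q K < 1) : IsPath (hStar K q) := by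
  refine ⟨fun a b hab => ?_, by simpa [hStar] using div_nonneg hq.2 (sq_nonneg _)⟩
  refine add_le_add le_rfl (sum_le_sum_of_subset_of_nonneg
    (range_subset_range.2 (min_le_min_right K hab)) fun i hi _ => ?_)
  have hiK : i < K := lt_of_lt_of_le (mem_range.1 hi) (min_le_right _ _)
  refine div_nonneg (sub_nonneg.2 ?_) (lvl_nonneg _ _)
  exact one_div_le_one_div_of_le (tailMass_pos hq h1 _) (tailMass_antitone hq hiK)

lemma dq_hStar (hq : IsPath q) (h1 : q K < 1) {l : ℕ} (hl : l ≤ K) :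
    dq K (aOf (hStar K q)) (1 / (1 - q K)) l = 1 / tailMass K q l := by
  rw [dq_aOf (isPath_hStar hq h1)]
  have e : ∀ i ∈ Ico l K, lvl K (i + 1) * (hStar K q (i + 1) - hStar K q i) =
      1 / tailMass K q (i + 1) - 1 / tailMass K q i := by
    intro i hi
    have hiK : i < K := (mem_Ico.1 hi).2
    rw [hStar, hStar, min_eq_left hiK, min_eq_left hiK.le, sum_range_succ]
    have := lvl_succ_pos K i
    field_simp
    ring
  rw [sum_congr rfl e, sum_Ico_eq_sub _ hl, sum_range_sub (fun i => 1 / tailMass K q i),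
    sum_range_sub (fun i => 1 / tailMass K q i), tailMass_top]
  ring

/-- At the maximising field the quadratic value equals the Crisanti-Sommers expression. -/
lemma gQ_hStar (hq : IsPath q) (h1 : q K < 1) :
    gQ K (hStar K q) (1 / (1 - q K)) + (1 / (1 - q K) - 1) / 2 - hStar K q K / 2 +
      pairing K (hStar K q) q = sphereEntropy K q := by
  have hd := fun l (hl : l ≤ K) => dq_hStar hq h1 hl
  have hb : 0 < dq K (aOf (hStar K q)) (1 / (1 - q K)) 0 := by
    rw [hd 0 (Nat.zero_le K)]; exact div_pos one_pos (tailMass_pos hq h1 0)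
  have hz : ∀ l ≤ K, deficit K (hStar K q) q (1 / (1 - q K)) l = 0 := fun l hl => by
    rw [deficit, hd l hl, one_div_mul_cancel (tailMass_pos hq h1 l).ne', Real.log_one]; ring
  have hs : deficitSum K (hStar K q) q (1 / (1 - q K)) K = 0 := sum_eq_zero fun i hi => by
    rw [hz _ (mem_range.1 hi), hz _ (mem_range.1 hi).le]; simp
  have hid := gQ_identity (isPath_hStar hq h1) hq h1 hb
  rw [hz K le_rfl, hs, hd 0 (Nat.zero_le K), one_div_one_div] at hid
  have : 1 / tailMass K q 0 * q 0 - q 0 / tailMass K q 0 = 0 := by ring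
  rw [this] at hid
  linarith

lemma hStar_le (hq : IsPath q) (h1 : q K < 1) {θ : ℝ} (hθ : 0 < θ) (hθ' : θ ≤ 1 - q K) :
    hStar K q 0 ≤ 1 / θ ^ 2 ∧ hStar K q K ≤ 1 / θ ^ 2 + ((K : ℝ) + 1) / θ := by
  have ht : θ ≤ tailMass K q 0 := hθ'.trans (tailMass_ge hq 0)
  have h0 : q 0 / tailMass K q 0 ^ 2 ≤ 1 / θ ^ 2 := by
    gcongr
    exact (hq.1 (Nat.zero_le K)).trans h1.le
  refine ⟨by simpa [hStar] using h0, ?_⟩
  rw [hStar, min_self]
  refine add_le_add h0 ?_
  calc ∑ i ∈ range K, (1 / tailMass K q (i + 1) - 1 / tailMass K q i) / lvl K (i + 1) ≤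
        ∑ i ∈ range K, ((K : ℝ) + 1) * (1 / tailMass K q (i + 1) - 1 / tailMass K q i) := by
        refine sum_le_sum fun i hi => ?_
        rw [lvl, div_div_eq_mul_div, mul_comm]
        refine div_le_self (mul_nonneg (by positivity) (sub_nonneg.2 ?_)) (by simp)
        exact one_div_le_one_div_of_le (tailMass_pos hq h1 _)
          (tailMass_antitone hq (mem_range.1 hi))
    _ ≤ ((K : ℝ) + 1) / θ := by
        rw [← mul_sum, sum_range_sub (fun i => 1 / tailMass K q i), tailMass_top,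
          div_eq_mul_inv ((K : ℝ) + 1) θ, ← one_div θ]
        refine mul_le_mul_of_nonneg_left ?_ (by positivity)
        have := one_div_le_one_div_of_le hθ hθ'
        have : 0 ≤ 1 / tailMass K q 0 := by have := tailMass_pos hq h1 0; positivity
        linarith

lemma sphereEntropy_zero (K : ℕ) : sphereEntropy K (fun _ => 0) = 0 := by
  simp [sphereEntropy, tailMass]

/-- A bound on the Crisanti-Sommers expression keeps the path away from one. -/
lemma exists_gap (K : ℕ) {C : ℝ} (hC : 0 ≤ C) :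
    ∃ θ > 0, ∀ q, IsPath q → q K < 1 → sphereEntropy K q ≤ C → θ ≤ 1 - q K := by
  set L := Real.log ((K : ℝ) + 1)
  have hL : 0 ≤ L := Real.log_nonneg (by simp)
  set C' := 2 * C + L
  have hC' : 0 ≤ C' := by positivity
  refine ⟨1 / ((2 + C') ^ 2 * ((K : ℝ) + 1)) * Real.exp (-(K * C')), by positivity,
    fun q hq h1 hS => ?_⟩
  set x := 1 - q 0
  have hx : 0 < x := sub_pos.2 ((hq.1 (Nat.zero_le K)).trans_lt h1)
  set t0 := tailMass K q 0
  have ht0 : 0 < t0 := tailMass_pos hq h1 0
  have hlo : x / ((K : ℝ) + 1) ≤ t0 := tailMass_zero_ge hq h1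
  have hup : t0 ≤ x := tailMass_zero_le hq
  have h2 : Real.log x - L ≤ Real.log t0 := by
    have := Real.log_le_log (div_pos hx (by positivity)) hlo
    rwa [Real.log_div hx.ne' (by positivity)] at this
  have h3 : 1 / x - 1 ≤ q 0 / t0 := by
    refine le_trans (le_of_eq ?_) (div_le_div_of_nonneg_left hq.2 ht0 hup)
    simp only [x] at hx ⊢
    field_simp
    ring
  have hnn : 0 ≤ 1 / x - 1 + Real.log x := by
    have h := Real.log_le_sub_one_of_pos (one_div_pos.2 hx)
    rw [one_div, Real.log_inv] at h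
    rw [one_div]
    linarith
  set R := ∑ i ∈ range K,
    (lvl K (i + 1))⁻¹ * Real.log (tailMass K q i / tailMass K q (i + 1))
  set D := Real.log t0 - Real.log (1 - q K)
  have hterm : ∀ i ∈ range K, 0 ≤ Real.log (tailMass K q i / tailMass K q (i + 1)) := fun i hi => by
    refine Real.log_nonneg ?_
    rw [le_div_iff₀ (tailMass_pos hq h1 _), one_mul]
    exact tailMass_antitone hq (mem_range.1 hi)
  have hR : ((K : ℝ) + 1) * D ≤ K * R := by
    have hD : D = ∑ i ∈ range K, Real.log (tailMass K q i / tailMass K q (i + 1)) := by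
      rw [sum_congr rfl fun i _ => Real.log_div (tailMass_pos hq h1 i).ne'
        (tailMass_pos hq h1 (i + 1)).ne', sum_range_sub' (fun i => Real.log (tailMass K q i)),
        tailMass_top]
    rw [hD, mul_sum, mul_sum]
    refine sum_le_sum fun i hi => ?_
    rw [lvl, inv_div, ← mul_assoc]
    refine mul_le_mul_of_nonneg_right ?_ (hterm i hi)
    rw [mul_div_assoc', le_div_iff₀ (by positivity), mul_comm]
    have hiK : ((i + 1 : ℕ) : ℝ) ≤ K := by exact_mod_cast mem_range.1 hi
    exact mul_le_mul_of_nonneg_right hiK (by positivity)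
  have hS' : q 0 / t0 + R + Real.log (1 - q K) ≤ 2 * C := by
    simp only [sphereEntropy] at hS
    linarith
  have hD0 : 0 ≤ D := by
    have := Real.log_le_log (sub_pos.2 h1) (tailMass_ge hq 0)
    simp only [D]; linarith
  have hRD : D ≤ R := by
    rcases Nat.eq_zero_or_pos K with hK | hK
    · subst hK; simp [R, D, t0, tailMass]
    · have : (0 : ℝ) < K := by exact_mod_cast hK
      nlinarith
  have hx' : 1 / (2 + C') ^ 2 ≤ x := by
    have hb : 1 / x - 1 + Real.log x ≤ C' := by simp only [C', D] at *; linarith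
    set u := 1 / Real.sqrt x
    have hsx : 0 < Real.sqrt x := Real.sqrt_pos.2 hx
    have hu : u ^ 2 = 1 / x := by rw [div_pow, one_pow, Real.sq_sqrt hx.le]
    have hlog := Real.log_le_sub_one_of_pos (one_div_pos.2 hsx)
    rw [one_div, Real.log_inv, Real.log_sqrt hx.le] at hlog
    have hu1 : (u - 1) ^ 2 ≤ C' := by
      simp only [u, one_div] at hu hb ⊢
      nlinarith
    have hu2 : u ≤ 2 + C' := by nlinarith [sq_nonneg (u - 2)]
    have hu3 : u ^ 2 ≤ (2 + C') ^ 2 := pow_le_pow_left₀ (by positivity) hu2 2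
    rw [hu] at hu3
    rw [div_le_iff₀ (by positivity)]
    rwa [div_le_iff₀ hx, mul_comm] at hu3
  have hD : D ≤ K * C' := by
    have : (K : ℝ) * (R - D) ≤ K * C' := by
      refine mul_le_mul_of_nonneg_left ?_ (Nat.cast_nonneg K)
      simp only [C', D] at *
      linarith
    nlinarith
  have hfin : t0 * Real.exp (-(K * C')) ≤ 1 - q K := by
    rw [← Real.exp_log ht0, ← Real.exp_log (sub_pos.2 h1), ← Real.exp_add, Real.exp_le_exp]
    simp only [D] at hD
    linarith
  refine le_trans (mul_le_mul_of_nonneg_right ?_ (Real.exp_pos _).le) hfin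
  rw [← div_div]
  exact (div_le_div_of_nonneg_right hx' (by positivity)).trans hlo

end Vale.Agent.P157.Parisi
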