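import Vale.Agent.P157.Parisi.CalcAmpTame

/-!
Continuity of the hierarchy in the amplitudes, and bounds which are uniform in them.
-/

namespace Vale.Agent.P157.Parisi

open MeasureTheory ProbabilityTheory Finset Topology Filter

variable {ι : Type} [Fintype ι] {Ω κ : Type} [Fintype κ] [MeasurableSpace Ω]
variable {N : Nest ι} {L : Leaf Ω κ ι} {μ : Measure Ω} [IsProbabilityMeasure μ] {B : ℝ}

/-- The mean of the heat quantity at the leaf. -/
noncomputable def Nest.heatTop (N : Nest ι) (L : Leaf Ω κ ι) (μ : Measure Ω) (i : ι) : ℝ :=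
  N.mean (L.logZ μ) N.K (N.heat L μ N.K i)

omit [Fintype ι] in
lemma Nest.Good.setAmp (hN : N.Good) (A : ℕ → ι → ℝ) : (N.setAmp A).Good :=
  ⟨hN.x_zero, hN.x_last, hN.x_pos, hN.x_mono⟩

/-- Descending induction from the top level. -/
lemma levels_induction {K : ℕ} {P : ℕ → Prop} (top : P K)
    (step : ∀ l, l < K → P (l + 1) → P l) {l : ℕ} (hl : l ≤ K) : P l := by
  obtain ⟨d, rfl⟩ : ∃ d, l = K - d := ⟨K - l, by omega⟩
  clear hl
  induction d with
  | zero => exact top
  | succ d ih =>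
    by_cases h : d < K
    · refine step _ (by omega) ?_
      rwa [show K - (d + 1) + 1 = K - d by omega]
    · rwa [show K - (d + 1) = K - d by omega]

lemma Leaf.vec_abs_le (hL : L.Good B) (i : ι) (ω : Ω) (y : ι → ℝ) :
    |L.vec i ω y| ≤ Fintype.card κ * B * B := by
  refine (abs_sum_le_sum_abs _ _).trans
    ((sum_le_sum fun j _ => (?_ : _ ≤ B * B)).trans_eq ?_)
  · rw [abs_mul]
    exact mul_le_mul (hL.bound1 j _) (hL.bound ω j i) (abs_nonneg _) hL.nonneg
  · rw [sum_const, card_univ, nsmul_eq_mul, mul_assoc]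

variable (hN : N.Good) (hL : L.Good B)

include hN hL

/-! ### Uniform bounds -/

lemma node_bound {l : ℕ} (hl : l ≤ N.K) {f : Ω → (ι → ℝ) → ℝ} (hf : Obs f) {c : ℝ}
    (hb : ∀ ω y, |f ω y| ≤ c) (y : ι → ℝ) : |N.node L μ l f y| ≤ c := by
  have hobs : ∀ a : ℝ, Obs (fun (_ : Ω) (_ : ι → ℝ) => a) :=
    fun a => ⟨fun _ => measurable_const, fun _ => continuous_const, |a|, fun _ _ => le_rfl⟩
  refine abs_le.2 ⟨?_, ?_⟩
  · exact (node_const (μ := μ) hN hL hl (-c) y).symm.trans_le
      (node_mono hN hL hl (hobs _) hf (fun ω v => (abs_le.1 (hb ω v)).1) y)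
  · exact (node_mono hN hL hl hf (hobs _) (fun ω v => (abs_le.1 (hb ω v)).2) y).trans_eq
      (node_const hN hL hl c y)

lemma grad_bound {l : ℕ} (hl : l ≤ N.K) (i : ι) (y : ι → ℝ) :
    |N.grad L μ l i y| ≤ Fintype.card κ * B * B :=
  node_bound hN hL hl (vec_obs hN hL i) (L.vec_abs_le hL i) y

lemma avg_bound {l : ℕ} (hl : l < N.K) {f : (ι → ℝ) → ℝ} (hf : Tame f) {c : ℝ}
    (hb : ∀ y, |f y| ≤ c) (y : ι → ℝ) : |N.avg (L.logZ μ) l f y| ≤ c := by
  have ht : ∀ a : ℝ, Tame (fun _ : ι → ℝ => a) :=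
    fun a => ⟨continuous_const, |a|, 0, fun y => by simp⟩
  refine abs_le.2 ⟨?_, ?_⟩
  · exact (avg_const (μ := μ) hN hL hl (-c) y).symm.trans_le
      (avg_mono hN hL hl (ht _) hf (fun v => (abs_le.1 (hb v)).1) y)
  · exact (avg_mono hN hL hl hf (ht _) (fun v => (abs_le.1 (hb v)).2) y).trans_eq
      (avg_const hN hL hl c y)

lemma heat_top_obs (i : ι) :
    Obs (fun ω v => (∑ j, L.φ2 j (L.loc ω v j) * L.a ω j i ^ 2) + L.vec i ω v ^ 2) ∧
      ∀ ω v, |(∑ j, L.φ2 j (L.loc ω v j) * L.a ω j i ^ 2) + L.vec i ω v ^ 2| ≤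
        Fintype.card κ * B ^ 3 + (Fintype.card κ * B * B) ^ 2 := by
  have hb : ∀ ω v, |(∑ j, L.φ2 j (L.loc ω v j) * L.a ω j i ^ 2) + L.vec i ω v ^ 2| ≤
      Fintype.card κ * B ^ 3 + (Fintype.card κ * B * B) ^ 2 := by
    intro ω v
    refine (abs_add_le _ _).trans (add_le_add ((abs_sum_le_sum_abs _ _).trans
      ((sum_le_sum fun j _ => (?_ : _ ≤ B ^ 3)).trans_eq ?_)) ?_)
    · rw [abs_mul, abs_pow, pow_succ' B 2]
      exact mul_le_mul (hL.bound2 j _) (pow_le_pow_left₀ (abs_nonneg _) (hL.bound ω j i) 2)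
        (by positivity) hL.nonneg
    · rw [sum_const, card_univ, nsmul_eq_mul]
    · rw [abs_pow]; exact pow_le_pow_left₀ (abs_nonneg _) (L.vec_abs_le hL i ω v) 2
  refine ⟨⟨fun v => ?_, fun ω => ?_, _, hb⟩, hb⟩
  · have := hL.meas
    exact (Finset.measurable_sum _ fun j _ => ((hL.cont2 j).measurable.comp
      (measurable_loc hL v j)).mul ((hL.meas j i).pow_const 2)).add
      (((vec_obs hN hL i).1 v).pow_const 2)
  · refine (continuous_finsetSum _ fun j _ => ((hL.cont2 j).comp ?_).mul continuous_const).add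
      (((vec_obs hN hL i).2.1 ω).pow 2)
    unfold Leaf.loc
    fun_prop

lemma heat_bound (i : ι) : ∃ c : ℝ, ∀ A : ℕ → ι → ℝ, ∀ l ≤ N.K, ∀ y,
    |(N.setAmp A).heat L μ l i y| ≤ c := by
  suffices ∀ l ≤ N.K, ∃ c : ℝ, ∀ A : ℕ → ι → ℝ, ∀ y, |(N.setAmp A).heat L μ l i y| ≤ c by
    choose c hc using this
    exact ⟨∑ l ∈ (range (N.K + 1)).attach, |c l.1 (Nat.lt_succ_iff.1 (mem_range.1 l.2))|,
      fun A l hl y => (hc l hl A y).trans ((le_abs_self _).trans
        (single_le_sum
          (f := fun x : {x // x ∈ range (N.K + 1)} =>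
            |c x.1 (Nat.lt_succ_iff.1 (mem_range.1 x.2))|)
          (fun _ _ => abs_nonneg _) (mem_attach _ ⟨l, mem_range.2 (Nat.lt_succ_of_le hl)⟩)))⟩
  intro l hl
  refine levels_induction (P := fun l => ∃ c : ℝ, ∀ A : ℕ → ι → ℝ, ∀ y,
    |(N.setAmp A).heat L μ l i y| ≤ c)
    ⟨Fintype.card κ * B ^ 3 + (Fintype.card κ * B * B) ^ 2, fun A y => ?_⟩ (fun m hm ⟨c, hc⟩ => ?_) hl
  · have h := heat_top (μ := μ) (hN.setAmp A) hL i y
    rw [← node_top (μ := μ) (hN.setAmp A) hL] at h
    show |(N.setAmp A).heat L μ (N.setAmp A).K i y| ≤ _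
    rw [h]
    exact node_bound (hN.setAmp A) hL le_rfl (heat_top_obs hN hL i).1 (heat_top_obs hN hL i).2 y
  · refine ⟨c + |N.w (m + 1)| * (Fintype.card κ * B * B) ^ 2, fun A y => ?_⟩
    rw [heat_succ (μ := μ) (hN.setAmp A) hL (show m < (N.setAmp A).K from hm) i y]
    have hg := grad_tame (μ := μ) (hN.setAmp A) hL (show m + 1 ≤ (N.setAmp A).K from hm) i
    refine (abs_sub _ _).trans (add_le_add (avg_bound (hN.setAmp A) hL hm
      (heat_tame (hN.setAmp A) hL (show m + 1 ≤ (N.setAmp A).K from hm) i) (hc A) y) ?_)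
    rw [abs_mul]
    refine mul_le_mul_of_nonneg_left (avg_bound (hN.setAmp A) hL hm ?_ (fun v => ?_) y)
      (abs_nonneg _)
    · have := (ptame_const (T := Unit) hg).mul (ptame_const hg) |>.tame ()
      simpa only [sq] using this
    · rw [abs_pow]
      exact pow_le_pow_left₀ (abs_nonneg _) (grad_bound (hN.setAmp A) hL hm i v) 2

/-! ### Continuity -/

variable {T : Type} [TopologicalSpace T] [FirstCountableTopology T]
variable {A : T → ℕ → ι → ℝ} (hA : ∀ l ≤ N.K, ∀ i, Continuous fun t => A t l i)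

include hA

set_option linter.unusedSectionVars false in
lemma plin_u {l : ℕ} (hl : l ≤ N.K) : PLin fun t => (N.setAmp (A t)).u (L.logZ μ) l := by
  refine levels_induction (P := fun l => PLin fun t => (N.setAmp (A t)).u (L.logZ μ) l) ?_
    (fun m hm ih => ?_) hl
  · have h : (fun t => (N.setAmp (A t)).u (L.logZ μ) N.K) = fun _ : T => L.logZ μ :=
      funext fun t => u_top (N := N.setAmp (A t)) le_rfl _
    rw [h]
    obtain ⟨hc, C, k, hC, hk, hb⟩ := linGrowth_logZ (μ := μ) hL
    exact ⟨hc.comp continuous_snd, fun _ => ⟨C, k, hC, hk, .of_forall fun _ => hb⟩⟩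
  · have h : (fun t => (N.setAmp (A t)).u (L.logZ μ) m) = fun t =>
        stepLog (N.x (m + 1)) (A t (m + 1)) ((N.setAmp (A t)).u (L.logZ μ) (m + 1)) :=
      funext fun t => u_succ (N := N.setAmp (A t)) hm _
    rw [h]
    exact plin_stepLog ih (hA (m + 1) hm) _

lemma ptame_avg {l : ℕ} (hl : l < N.K) {f : T → (ι → ℝ) → ℝ} (hf : PTame f) :
    PTame fun t => (N.setAmp (A t)).avg (L.logZ μ) l (f t) :=
  ptame_tilt (plin_u hN hL hA hl) (hA (l + 1) hl) _ hf

lemma continuous_mean {l : ℕ} (hl : l ≤ N.K) {f : T → (ι → ℝ) → ℝ} (hf : PTame f) :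
    Continuous fun t => (N.setAmp (A t)).mean (L.logZ μ) l (f t) := by
  induction l generalizing f with
  | zero => exact hf.continuous_integral (hA 0 hl)
  | succ l ih => exact ih (Nat.le_of_succ_le hl) (ptame_avg hN hL hA hl hf)

lemma ptame_node {l : ℕ} (hl : l ≤ N.K) {f : Ω → (ι → ℝ) → ℝ} (hf : Obs f) :
    PTame fun t => (N.setAmp (A t)).node L μ l f := by
  refine levels_induction (P := fun l => PTame fun t => (N.setAmp (A t)).node L μ l f) ?_
    (fun m hm ih => ?_) hl
  · have h : (fun t => (N.setAmp (A t)).node L μ N.K f) = fun _ : T => L.gibbs μ f :=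
      funext fun t => node_top (hN.setAmp (A t)) hL f
    rw [h]
    refine ptame_const ?_
    have := node_tame (μ := μ) hN hL le_rfl hf
    rwa [node_top hN hL] at this
  · have h : (fun t => (N.setAmp (A t)).node L μ m f) = fun t =>
        (N.setAmp (A t)).avg (L.logZ μ) m ((N.setAmp (A t)).node L μ (m + 1) f) :=
      funext fun t => node_succ (hN.setAmp (A t)) hL hm f
    rw [h]
    exact ptame_avg hN hL hA hm ih

lemma ptame_grad {l : ℕ} (hl : l ≤ N.K) (i : ι) :
    PTame fun t => (N.setAmp (A t)).grad L μ l i :=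
  ptame_node hN hL hA hl (vec_obs hN hL i)

theorem continuous_free : Continuous fun t => (N.setAmp (A t)).free L μ :=
  continuous_mean hN hL hA (Nat.zero_le _) (plin_u hN hL hA (Nat.zero_le _)).ptame

theorem continuous_sqGrad {m : ℕ} (hm : m ≤ N.K) (i : ι) :
    Continuous fun t => (N.setAmp (A t)).sqGrad L μ m i := by
  refine continuous_mean hN hL hA hm ?_
  simpa only [sq] using (ptame_grad hN hL hA hm i).mul (ptame_grad hN hL hA hm i)

theorem continuous_heatTop (i : ι) : Continuous fun t => (N.setAmp (A t)).heatTop L μ i := by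
  have h : ∀ t, (N.setAmp (A t)).heat L μ N.K i =
      N.heat L μ N.K i := fun t => funext fun y =>
    (heat_top (hN.setAmp (A t)) hL i y).trans (heat_top hN hL i y).symm
  have := continuous_mean (μ := μ) hN hL hA le_rfl
    (ptame_const (T := T) (heat_tame (μ := μ) hN hL le_rfl i))
  refine this.congr fun t => ?_
  show _ = (N.setAmp (A t)).mean (L.logZ μ) N.K ((N.setAmp (A t)).heat L μ N.K i)
  rw [h t]

lemma ptame_hess {l : ℕ} (hl : l ≤ N.K) (i k : ι) :
    PTame fun t => (N.setAmp (A t)).hess L μ l i k := by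
  refine levels_induction (P := fun l => PTame fun t => (N.setAmp (A t)).hess L μ l i k) ?_
    (fun m hm ih => ?_) hl
  · have h : (fun t => (N.setAmp (A t)).hess L μ N.K i k) = fun _ : T => N.hess L μ N.K i k :=
      funext fun t => funext fun y =>
        (hess_top (N := N.setAmp (A t)) i k y).trans (hess_top i k y).symm
    rw [h]
    exact ptame_const (hess_tame hN hL le_rfl i k)
  · have h : (fun t => (N.setAmp (A t)).hess L μ m i k) = fun t y =>
        (N.setAmp (A t)).avg (L.logZ μ) m ((N.setAmp (A t)).hess L μ (m + 1) i k) y +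
          N.x (m + 1) * ((N.setAmp (A t)).avg (L.logZ μ) m
              (fun v => (N.setAmp (A t)).grad L μ (m + 1) i v *
                (N.setAmp (A t)).grad L μ (m + 1) k v) y -
            (N.setAmp (A t)).grad L μ m i y * (N.setAmp (A t)).grad L μ m k y) :=
      funext fun t => funext fun y => hess_succ (N := N.setAmp (A t)) hm i k y
    rw [h]
    exact (ptame_avg hN hL hA hm ih).add (((ptame_avg hN hL hA hm
      ((ptame_grad hN hL hA hm i).mul (ptame_grad hN hL hA hm k))).sub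
      ((ptame_grad hN hL hA hm.le i).mul (ptame_grad hN hL hA hm.le k))).const_mul _)

lemma ptame_heat {l : ℕ} (hl : l ≤ N.K) (i : ι) :
    PTame fun t => (N.setAmp (A t)).heat L μ l i := by
  have h := (ptame_hess (μ := μ) hN hL hA hl i i).add
    (((ptame_grad (μ := μ) hN hL hA hl i).mul (ptame_grad (μ := μ) hN hL hA hl i)).const_mul (N.x (l + 1)))
  simp only [← sq] at h
  exact h

lemma ptame_heatSum {l : ℕ} (hl : l ≤ N.K) (S : Finset ι) (D : ℝ) :
    PTame fun t => (N.setAmp (A t)).heatSum L μ S D l := by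
  have h := (ptame_sum S fun i _ => ptame_heat (μ := μ) hN hL hA hl i).const_mul D⁻¹
  simp only [inv_mul_eq_div] at h
  exact h

theorem continuous_ovl {m : ℕ} (hm : m ≤ N.K) (S : Finset ι) (D : ℝ) :
    Continuous fun t => (N.setAmp (A t)).ovl L μ S D m :=
  (continuous_finsetSum _ fun i _ => continuous_sqGrad hN hL hA hm i).div_const D

theorem continuous_heatDev {m : ℕ} (hm : m ≤ N.K) (S : Finset ι) (D : ℝ) :
    Continuous fun t => (N.setAmp (A t)).heatDev L μ S D m :=
  continuous_mean hN hL hA hm ((ptame_heatSum hN hL hA hm S D).sub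
    (ptame_param (continuous_mean hN hL hA hm (ptame_heatSum hN hL hA hm S D)))).abs

end Vale.Agent.P157.Parisi
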