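import Vale.Agent.P157.Parisi.CalcAmpCont

/-!
The derivative of the free energy along a curve of amplitudes.
-/

namespace Vale.Agent.P157.Parisi

open MeasureTheory ProbabilityTheory Finset Topology Filter

variable {ι : Type} [Fintype ι]

/-- The chain rule for a function of a parameter and of a state which moves with it. -/
lemma hasDerivAt_state {f : ℝ → (ι → ℝ) → ℝ} {G : ℝ → ι → (ι → ℝ) → ℝ} {g : ℝ → ι → ℝ}
    {t₁ ft : ℝ} {g' : ι → ℝ} (ht : HasDerivAt (fun t => f t (g t₁)) ft t₁)
    (hy : ∀ t (y v : ι → ℝ), HasDerivAt (fun s : ℝ => f t fun i => y i + s * v i) (∑ i, v i * G t i y) 0)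
    (hG : ∀ i, Continuous fun p : ℝ × (ι → ℝ) => G p.1 i p.2)
    (hg : ∀ i, HasDerivAt (fun t => g t i) (g' i) t₁) :
    HasDerivAt (fun t => f t (g t)) (ft + ∑ i, g' i * G t₁ i (g t₁)) t₁ := by
  have hmvt : ∀ t, ∃ c ∈ Set.Ioo (0 : ℝ) 1, f t (g t) - f t (g t₁) =
      ∑ i, (g t i - g t₁ i) * G t i (fun j => g t₁ j + c * (g t j - g t₁ j)) := by
    intro t
    have hd : ∀ s : ℝ, HasDerivAt (fun s : ℝ => f t fun i => g t₁ i + s * (g t i - g t₁ i))
        (∑ i, (g t i - g t₁ i) * G t i (fun j => g t₁ j + s * (g t j - g t₁ j))) s := by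
      intro s
      have h := hy t (fun j => g t₁ j + s * (g t j - g t₁ j)) (fun j => g t j - g t₁ j)
      rw [← sub_self s] at h
      refine (h.comp_sub_const s s).congr_of_eventuallyEq
        (.of_forall fun s' => congrArg (f t) (funext fun i => ?_))
      ring
    obtain ⟨c, hc, he⟩ := exists_hasDerivAt_eq_slope _ _ zero_lt_one
      (continuous_iff_continuousAt.2 fun s => (hd s).continuousAt).continuousOn fun s _ => hd s
    refine ⟨c, hc, ?_⟩
    rw [he]
    simp
  choose c hc hD using hmvt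
  have h2 : HasDerivAt (fun t => f t (g t) - f t (g t₁)) (∑ i, g' i * G t₁ i (g t₁)) t₁ := by
    rw [hasDerivAt_iff_tendsto_slope]
    have hξ : Tendsto (fun t => (t, fun j => g t₁ j + c t * (g t j - g t₁ j))) (𝓝[≠] t₁)
        (𝓝 (t₁, g t₁)) := by
      refine Tendsto.prodMk_nhds (tendsto_id.mono_left nhdsWithin_le_nhds) (tendsto_pi_nhds.2 fun j => ?_)
      have h0 : Tendsto (fun t => g t j - g t₁ j) (𝓝[≠] t₁) (𝓝 0) := by
        have := ((hg j).continuousAt.tendsto.sub_const (g t₁ j)).mono_left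
          (nhdsWithin_le_nhds (s := {t₁}ᶜ))
        rwa [sub_self] at this
      have : Tendsto (fun t => c t * (g t j - g t₁ j)) (𝓝[≠] t₁) (𝓝 0) := by
        refine squeeze_zero_norm (fun t => ?_) (by simpa using h0.norm)
        rw [norm_mul, Real.norm_eq_abs (c t), abs_of_pos (hc t).1]
        exact mul_le_of_le_one_left (norm_nonneg _) (hc t).2.le
      simpa using this.const_add (g t₁ j)
    have : Tendsto (fun t => ∑ i, slope (fun s => g s i) t₁ t *
        G t i (fun j => g t₁ j + c t * (g t j - g t₁ j))) (𝓝[≠] t₁)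
        (𝓝 (∑ i, g' i * G t₁ i (g t₁))) :=
      tendsto_finsetSum _ fun i _ => (hg i).tendsto_slope.mul
        (((hG i).tendsto (t₁, g t₁)).comp hξ)
    refine this.congr fun t => ?_
    rw [slope_def_field, sub_self, sub_zero, hD, sum_div]
    exact sum_congr rfl fun i _ => by rw [slope_def_field]; ring
  have h := ht.add h2
  refine h.congr_of_eventuallyEq (.of_forall fun t => ?_)
  simp

variable {Ω κ : Type} [Fintype κ] [MeasurableSpace Ω]
variable {N : Nest ι} {L : Leaf Ω κ ι} {μ : Measure Ω} [IsProbabilityMeasure μ] {B : ℝ}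
variable (hN : N.Good) (hL : L.Good B)

include hN hL

lemma mean_finsum {l : ℕ} (hl : l ≤ N.K) {β : Type} (s : Finset β) {f : β → (ι → ℝ) → ℝ}
    (hf : ∀ b ∈ s, Tame (f b)) :
    N.mean (L.logZ μ) l (fun y => ∑ b ∈ s, f b y) = ∑ b ∈ s, N.mean (L.logZ μ) l (f b) := by
  classical
  induction s using Finset.induction with
  | empty => simpa using mean_const (μ := μ) hN hL hl 0
  | insert a s ha ih =>
    simp only [sum_insert ha]
    have hs : ∀ b ∈ s, Tame (f b) := fun b hb => hf b (mem_insert_of_mem hb)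
    rw [mean_add hN hL hl (hf a (mem_insert_self _ _)) (tame_sum s hs), ih hs]

lemma mean_heat {l : ℕ} (hl : l ≤ N.K) (i : ι) :
    N.mean (L.logZ μ) l (N.heat L μ l i) =
      N.heatTop L μ i - ∑ m ∈ Icc (l + 1) N.K, N.w m * N.sqGrad L μ m i := by
  refine levels_induction (P := fun l => N.mean (L.logZ μ) l (N.heat L μ l i) =
    N.heatTop L μ i - ∑ m ∈ Icc (l + 1) N.K, N.w m * N.sqGrad L μ m i) ?_ (fun m hm ih => ?_) hl
  · simp [Nest.heatTop]
  · have hh := heat_tame (μ := μ) hN hL (show m + 1 ≤ N.K from hm) i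
    have hg := Tame.sq (grad_tame (μ := μ) hN hL (show m + 1 ≤ N.K from hm) i)
    have he : N.heat L μ m i = fun y => N.avg (L.logZ μ) m (N.heat L μ (m + 1) i) y +
        -N.w (m + 1) * N.avg (L.logZ μ) m (fun v => N.grad L μ (m + 1) i v ^ 2) y :=
      funext fun y => (heat_succ hN hL hm i y).trans (by ring)
    rw [he, mean_add hN hL hm.le (avg_tame hN hL hm hh)
      (Tame.const_mul (avg_tame hN hL hm hg) _), mean_const_mul hN hL]
    show N.mean (L.logZ μ) (m + 1) (N.heat L μ (m + 1) i) + -N.w (m + 1) *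
      N.sqGrad L μ (m + 1) i = _
    rw [ih, ← Finset.insert_Icc_succ_left_eq_Icc (show m + 1 ≤ N.K from hm),
      sum_insert (by simp), Order.succ_eq_add_one]
    ring

variable {A A' : ℝ → ℕ → ι → ℝ} {t₀ r M : ℝ}

lemma hasDerivAt_level (hA : ∀ l ≤ N.K, ∀ i, Continuous fun t => A t l i)
    (hd : ∀ l ≤ N.K, ∀ i, ∀ t, |t - t₀| < r → HasDerivAt (fun s => A s l i) (A' t l i) t)
    (hM : ∀ l ≤ N.K, ∀ i, ∀ t, |t - t₀| < r → |A' t l i| ≤ M ∧ |A t l i| ≤ M)
    {l : ℕ} (hl : l ≤ N.K) :
    ∃ du : ℝ → (ι → ℝ) → ℝ, ∃ c : ℝ, ∀ t, |t - t₀| < r →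
      Tame (du t) ∧ (∀ y, |du t y| ≤ c) ∧
      (∀ y, HasDerivAt (fun s => (N.setAmp (A s)).u (L.logZ μ) l y) (du t y) t) ∧
      (N.setAmp (A t)).mean (L.logZ μ) l (du t) = ∑ m ∈ Ico l N.K, ∑ i,
        A' t (m + 1) i * A t (m + 1) i *
          (N.setAmp (A t)).mean (L.logZ μ) m ((N.setAmp (A t)).heat L μ m i) := by
  refine levels_induction (P := fun l => ∃ du : ℝ → (ι → ℝ) → ℝ, ∃ c : ℝ, ∀ t, |t - t₀| < r →
      Tame (du t) ∧ (∀ y, |du t y| ≤ c) ∧
      (∀ y, HasDerivAt (fun s => (N.setAmp (A s)).u (L.logZ μ) l y) (du t y) t) ∧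
      (N.setAmp (A t)).mean (L.logZ μ) l (du t) = ∑ m ∈ Ico l N.K, ∑ i,
        A' t (m + 1) i * A t (m + 1) i *
          (N.setAmp (A t)).mean (L.logZ μ) m ((N.setAmp (A t)).heat L μ m i)) ?_ ?_ hl
  · refine ⟨fun _ _ => 0, 0, fun t _ => ⟨tame_const 0, fun y => by simp, fun y => ?_, ?_⟩⟩
    · have : (fun s => (N.setAmp (A s)).u (L.logZ μ) N.K y) = fun _ => L.logZ μ y :=
        funext fun s => congrFun (u_top (N := N.setAmp (A s)) le_rfl _) y
      rw [this]
      exact hasDerivAt_const t _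
    · rw [Ico_self, sum_empty]
      exact mean_const (hN.setAmp (A t)) hL le_rfl 0
  rintro m hm ⟨du, c, hdu⟩
  set s : ℝ → ι → ℝ := fun t => A t (m + 1)
  set G : ℝ → ι → (ι → ℝ) → ℝ := fun t i => (N.setAmp (A t)).grad L μ (m + 1) i
  set u : ℝ → (ι → ℝ) → ℝ := fun t => (N.setAmp (A t)).u (L.logZ μ) (m + 1)
  set x := N.x (m + 1)
  set Bg := (Fintype.card κ : ℝ) * B * B
  have hx : x ≠ 0 := (hN.x_pos _ (Nat.le_add_left 1 m) hm).ne'
  have hu : PLin u := plin_u hN hL hA hm
  have hG : ∀ i, PTame fun t => G t i := fun i => ptame_grad hN hL hA hm i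
  choose ch hch using fun i => heat_bound (μ := μ) hN hL i
  set D : ℝ → (ι → ℝ) → (ι → ℝ) → ℝ := fun t y z =>
    du t (move (s t) y z) + ∑ i, A' t (m + 1) i * (z i * G t i (move (s t) y z))
  have hD : ∀ t, |t - t₀| < r → ∀ y z,
      |D t y z| ≤ c + |M| * Bg * l1 z := by
    intro t ht y z
    refine (abs_add_le _ _).trans (add_le_add ((hdu t ht).2.1 _) ?_)
    refine (abs_sum_le_sum_abs _ _).trans ?_
    rw [l1, mul_sum]
    refine sum_le_sum fun i _ => ?_
    rw [abs_mul, abs_mul, mul_assoc, mul_comm Bg]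
    exact mul_le_mul (((hM (m + 1) hm i t ht).1).trans (le_abs_self _))
      (mul_le_mul_of_nonneg_left (grad_bound (hN.setAmp (A t)) hL hm i _) (abs_nonneg _))
      (by positivity) (abs_nonneg _)
  refine ⟨fun t y => (N.setAmp (A t)).avg (L.logZ μ) m (du t) y +
      ∑ i, A' t (m + 1) i * A t (m + 1) i * (N.setAmp (A t)).heat L μ m i y,
    c + ∑ i, M * M * |ch i|, fun t ht => ?_⟩
  have hN' := hN.setAmp (A t)
  have hav : Tame ((N.setAmp (A t)).avg (L.logZ μ) m (du t)) :=
    avg_tame hN' hL hm (hdu t ht).1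
  have hht : ∀ i, Tame fun y => A' t (m + 1) i * A t (m + 1) i *
      (N.setAmp (A t)).heat L μ m i y := fun i => Tame.const_mul (heat_tame hN' hL hm.le i) _
  refine ⟨hav.add (tame_sum univ fun i _ => hht i),
    fun y => (abs_add_le _ _).trans (add_le_add (avg_bound hN' hL hm (hdu t ht).1 (hdu t ht).2.1 y)
      ((abs_sum_le_sum_abs _ _).trans (sum_le_sum fun i _ => ?_))), fun y => ?_, ?_⟩
  · obtain ⟨h1, h2⟩ := hM (m + 1) hm i t ht
    rw [abs_mul, abs_mul]
    exact mul_le_mul (mul_le_mul h1 h2 (abs_nonneg _) ((abs_nonneg _).trans h1))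
      ((hch i (A t) m hm.le y).trans (le_abs_self _)) (abs_nonneg _)
      (mul_nonneg ((abs_nonneg _).trans h1) ((abs_nonneg _).trans h1))
  · -- the derivative of one step
    have hs : ∀ i, Continuous fun t => s t i := hA (m + 1) hm
    obtain ⟨C, k, k', -, -, hbnd⟩ := exp_step_bounds hu hs x t
    obtain ⟨r₁, hr₁, hball⟩ := Metric.eventually_nhds_iff.1 hbnd
    set r₂ := min r₁ (r - |t - t₀|) with hr₂
    have hr₂0 : 0 < r₂ := lt_min hr₁ (by linarith)
    have hin : ∀ t', |t' - t| < r₂ → |t' - t₀| < r := fun t' h' => by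
      linarith [abs_sub_le t' t t₀, min_le_right r₁ (r - |t - t₀|)]
    have hF : ∀ t', Continuous fun z => Real.exp (x * u t' (move (s t') y z)) := fun t' =>
      Real.continuous_exp.comp (continuous_const.mul ((hu.1.comp (continuous_pmove hs)).comp
        (by fun_prop : Continuous fun z : ι → ℝ => ((t', y), z))))
    have hmv : Continuous fun z => move (s t) y z := by unfold move; fun_prop
    have hcdu : Continuous fun z => du t (move (s t) y z) := (hdu t ht).1.1.comp hmv
    have hcG : ∀ i, Continuous fun z => z i * G t i (move (s t) y z) := fun i =>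
      (continuous_apply i).mul (((hG i).tame t).1.comp hmv)
    have hbound : ∀ t', |t' - t| < r₂ → ∀ z,
        |Real.exp (x * u t' (move (s t') y z))| ≤
          Real.exp (C + k * l1 y) * Real.exp (k' * l1 z) := by
      intro t' h' z
      rw [Real.abs_exp, ← Real.exp_add]
      exact Real.exp_le_exp.2 ((le_abs_self _).trans (hball
        (by rw [Real.dist_eq]; exact h'.trans_le (min_le_left _ _)) y z))
    have hderiv : ∀ t', |t' - t| < r₂ → ∀ z, HasDerivAt
        (fun t'' => Real.exp (x * u t'' (move (s t'') y z)))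
        (Real.exp (x * u t' (move (s t') y z)) * (x * D t' y z)) t' := by
      intro t' h' z
      have h := hasDerivAt_state (f := u) (G := fun t i => G t i) (g := fun t => move (s t) y z)
        ((hdu t' (hin t' h')).2.2.1 _)
        (fun t y v => hasDerivAt_u (hN.setAmp (A t)) hL hm y v) (fun i => (hG i).1)
        (fun i => ((hd (m + 1) hm i t' (hin t' h')).mul_const (z i)).const_add (y i))
      refine ((h.const_mul x).exp).congr_deriv ?_
      simp only [D, mul_assoc]
    have hc0 : 0 ≤ c := (abs_nonneg _).trans ((hdu t ht).2.1 0)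
    have hI := hasDerivAt_gauss_integral
      (F := fun t' z => Real.exp (x * u t' (move (s t') y z)))
      (F' := fun t' z => Real.exp (x * u t' (move (s t') y z)) * (x * D t' y z))
      (C := Real.exp (C + k * l1 y) * (1 + |x| * (c + |M| * Bg))) (k := |k'| + 1) hr₂0
      (fun t' _ => hF t')
      ((hF t).mul (continuous_const.mul (hcdu.add (continuous_finsetSum _ fun i _ =>
        continuous_const.mul (hcG i))))) hderiv ?_ ?_
    · have hpos := den_pos hu hs x t y
      have hint : ∀ {f : (ι → ℝ) → ℝ}, Continuous f → (∀ z, |f z| ≤ 1 + |c| + l1 z * |Bg|) →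
          Integrable (fun z => Real.exp (x * u t (move (s t) y z)) * f z) (gauss ι) := by
        intro f hf hfb
        refine integrable_of_exp_bound ((hF t).mul hf)
          (C := Real.exp (C + k * l1 y) * (1 + |c| + |Bg|)) (k := k' + 1) fun z => ?_
        have hE : Real.exp ((k' + 1) * l1 z) = Real.exp (k' * l1 z) * Real.exp (1 * l1 z) := by
          rw [add_mul, Real.exp_add]
        rw [abs_mul, hE, mul_mul_mul_comm]
        refine mul_le_mul (hbound t (by simpa using hr₂0) z) ((hfb z).trans ?_) (abs_nonneg _)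
          (by positivity)
        have := add_mul_le_exp (show 0 ≤ 1 + |c| by positivity) (abs_nonneg Bg) (l1_nonneg z)
        linarith
      have i1 := hint hcdu fun z => ((hdu t ht).2.1 _).trans (by
        linarith [le_abs_self c, mul_nonneg (l1_nonneg z) (abs_nonneg Bg)])
      have i2 : ∀ i, Integrable (fun z => Real.exp (x * u t (move (s t) y z)) *
          (z i * G t i (move (s t) y z))) (gauss ι) := fun i => hint (hcG i) fun z => by
        rw [abs_mul]
        refine (mul_le_mul (abs_le_l1 z i) ((grad_bound hN' hL hm i _).trans (le_abs_self Bg))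
          (abs_nonneg _) (l1_nonneg z)).trans ?_
        linarith [abs_nonneg c]
      have hfun : (fun s' => (N.setAmp (A s')).u (L.logZ μ) m y) = fun s' =>
          x⁻¹ * Real.log (∫ z, Real.exp (x * u s' (move (s s') y z)) ∂gauss ι) := by
        funext s'
        rw [u_succ (N := N.setAmp (A s')) hm]
        rfl
      rw [hfun]
      refine ((hI.log hpos.ne').const_mul x⁻¹).congr_deriv ?_
      have hsum : ∫ z, Real.exp (x * u t (move (s t) y z)) * (x * D t y z) ∂gauss ι =
          x * ((∫ z, Real.exp (x * u t (move (s t) y z)) * du t (move (s t) y z) ∂gauss ι) +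
            ∑ i, A' t (m + 1) i * ∫ z, Real.exp (x * u t (move (s t) y z)) *
              (z i * G t i (move (s t) y z)) ∂gauss ι) := by
        simp only [← integral_const_mul]
        rw [← integral_finsetSum _ fun i _ => (i2 i).const_mul _,
          ← integral_add i1 (integrable_finsetSum _ fun i _ => (i2 i).const_mul _),
          ← integral_const_mul]
        refine integral_congr_ae (.of_forall fun z => ?_)
        simp only [D, mul_add, mul_sum]
        exact congrArg₂ _ (by ring) (sum_congr rfl fun i _ => by ring)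
      rw [hsum, mul_div_assoc, ← mul_assoc, inv_mul_cancel₀ hx, one_mul, add_div, sum_div]
      refine congrArg₂ _ rfl (sum_congr rfl fun i _ => ?_)
      rw [mul_div_assoc, mul_assoc (A' t (m + 1) i)]
      refine congrArg _ ?_
      refine (tilt_z_grad (μ := μ) hN' hL hm i i y).trans ?_
      simp only [Nest.heat, Nest.setAmp]
      ring
    · intro z
      refine (hbound t (by simpa using hr₂0) z).trans ?_
      rw [mul_assoc]
      refine mul_le_mul_of_nonneg_left ?_ (Real.exp_pos _).le
      refine (Real.exp_le_exp.2 (?_ : k' * l1 z ≤ (|k'| + 1) * l1 z)).trans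
        (le_mul_of_one_le_left (Real.exp_pos _).le (le_add_of_nonneg_right ?_))
      · exact mul_le_mul_of_nonneg_right ((le_abs_self k').trans (le_add_of_nonneg_right zero_le_one))
          (l1_nonneg z)
      · have := hL.nonneg; positivity
    · intro t' h' z
      rw [abs_mul, abs_mul]
      refine (mul_le_mul (hbound t' h' z) (mul_le_mul_of_nonneg_left (hD t' (hin t' h') y z)
        (abs_nonneg x)) (by positivity) (by positivity)).trans ?_
      show _ ≤ _ * Real.exp ((|k'| + 1) * l1 z)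
      rw [mul_assoc (Real.exp (C + k * l1 y)), mul_assoc (Real.exp (C + k * l1 y))]
      refine mul_le_mul_of_nonneg_left ?_ (Real.exp_pos _).le
      have hBg : 0 ≤ |M| * Bg := by have := hL.nonneg; positivity
      calc Real.exp (k' * l1 z) * (|x| * (c + |M| * Bg * l1 z))
          ≤ Real.exp (|k'| * l1 z) * (|x| * ((c + |M| * Bg) * Real.exp (1 * l1 z))) := by
            refine mul_le_mul (Real.exp_le_exp.2 ?_)
              (mul_le_mul_of_nonneg_left (add_mul_le_exp hc0 hBg (l1_nonneg z)) (abs_nonneg x))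
              (mul_nonneg (abs_nonneg x) (add_nonneg hc0 (mul_nonneg hBg (l1_nonneg z))))
              (Real.exp_pos _).le
            exact mul_le_mul_of_nonneg_right (le_abs_self k') (l1_nonneg z)
        _ = |x| * (c + |M| * Bg) * Real.exp ((|k'| + 1) * l1 z) := by
            rw [add_mul |k'|, Real.exp_add]; ring
        _ ≤ _ := mul_le_mul_of_nonneg_right (le_add_of_nonneg_left zero_le_one) (Real.exp_pos _).le
  · rw [mean_add hN' hL hm.le hav (tame_sum univ fun i _ => hht i),
      mean_finsum hN' hL hm.le univ fun i _ => hht i]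
    simp only [mean_const_mul hN' hL]
    show (N.setAmp (A t)).mean (L.logZ μ) (m + 1) (du t) + _ = _
    rw [(hdu t ht).2.2.2, sum_eq_sum_Ico_succ_bot hm]
    ring

lemma hasDerivAt_free_aux (hr : 0 < r) (hA : ∀ l ≤ N.K, ∀ i, Continuous fun t => A t l i)
    (hd : ∀ l ≤ N.K, ∀ i, ∀ t, |t - t₀| < r → HasDerivAt (fun s => A s l i) (A' t l i) t)
    (hM : ∀ l ≤ N.K, ∀ i, ∀ t, |t - t₀| < r → |A' t l i| ≤ M ∧ |A t l i| ≤ M) :
    HasDerivAt (fun t => (N.setAmp (A t)).free L μ)
      (∑ l ∈ range (N.K + 1), ∑ i, A' t₀ l i * A t₀ l i *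
        ((N.setAmp (A t₀)).heatTop L μ i -
          ∑ m ∈ Icc l N.K, N.w m * (N.setAmp (A t₀)).sqGrad L μ m i)) t₀ := by
  classical
  obtain ⟨du, c, hdu⟩ := hasDerivAt_level hN hL hA hd hM (Nat.zero_le N.K) (μ := μ)
  have ht₀ : |t₀ - t₀| < r := by simpa using hr
  have hN' := hN.setAmp (A t₀)
  set Bg := (Fintype.card κ : ℝ) * B * B
  set s : ℝ → ι → ℝ := fun t => A t 0
  set G : ℝ → ι → (ι → ℝ) → ℝ := fun t i => (N.setAmp (A t)).grad L μ 0 i
  set u : ℝ → (ι → ℝ) → ℝ := fun t => (N.setAmp (A t)).u (L.logZ μ) 0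
  have hu : PLin u := plin_u hN hL hA (Nat.zero_le _)
  have hG : ∀ i, PTame fun t => G t i := fun i => ptame_grad hN hL hA (Nat.zero_le _) i
  have hsz : ∀ t, Continuous fun z : ι → ℝ => fun i => s t i * z i := fun t => by fun_prop
  have hl1 : ∀ t, |t - t₀| < r → ∀ z : ι → ℝ, l1 (fun i => s t i * z i) ≤ |M| * l1 z := by
    intro t ht z
    rw [l1, l1, mul_sum]
    refine sum_le_sum fun i _ => ?_
    rw [abs_mul]
    exact mul_le_mul_of_nonneg_right ((hM 0 (Nat.zero_le _) i t ht).2.trans (le_abs_self M))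
      (abs_nonneg _)
  obtain ⟨C, k, hC, hk, hub⟩ := hu.2 t₀
  have hderiv : ∀ t, |t - t₀| < r → ∀ z : ι → ℝ,
      HasDerivAt (fun t' => u t' fun i => s t' i * z i)
      (du t (fun i => s t i * z i) + ∑ i, A' t 0 i * (z i * G t i fun i => s t i * z i)) t := by
    intro t ht z
    have h := hasDerivAt_state (f := u) (G := fun t i => G t i)
      (g := fun t i => s t i * z i) ((hdu t ht).2.2.1 _)
      (fun t y v => hasDerivAt_u (hN.setAmp (A t)) hL (Nat.zero_le _) y v) (fun i => (hG i).1)
      (fun i => (hd 0 (Nat.zero_le _) i t ht).mul_const (z i))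
    refine h.congr_deriv ?_
    simp only [mul_assoc]
  have hc0 : 0 ≤ c := (abs_nonneg _).trans ((hdu t₀ ht₀).2.1 0)
  have hBg : 0 ≤ |M| * Bg := by have := hL.nonneg; positivity
  have hcdu : Continuous fun z : ι → ℝ => du t₀ fun i => s t₀ i * z i :=
    (hdu t₀ ht₀).1.1.comp (hsz t₀)
  have hcG : ∀ i, Continuous fun z : ι → ℝ => G t₀ i fun i => s t₀ i * z i := fun i =>
    ((hG i).tame t₀).1.comp (hsz t₀)
  have hI := hasDerivAt_gauss_integral
    (F := fun t z => u t fun i => s t i * z i)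
    (F' := fun t z => du t (fun i => s t i * z i) +
      ∑ i, A' t 0 i * (z i * G t i fun i => s t i * z i))
    (C := C + c + k * |M| + |M| * Bg) (k := 1) hr
    (fun t _ => hu.1.comp (continuous_const.prodMk (hsz t)))
    (hcdu.add (continuous_finsetSum _ fun i _ =>
      continuous_const.mul ((continuous_apply i).mul (hcG i)))) hderiv ?_ ?_
  · refine hI.congr_deriv ?_
    have i1 : Integrable (fun z => du t₀ fun i => s t₀ i * z i) (gauss ι) :=
      integrable_of_exp_bound hcdu (C := c) (k := 0) fun z => by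
        simpa using (hdu t₀ ht₀).2.1 _
    have i2 : ∀ i, Integrable (fun z => z i * G t₀ i fun i => s t₀ i * z i) (gauss ι) := fun i =>
      integrable_of_exp_bound ((continuous_apply i).mul (hcG i)) (C := Bg) (k := 1) fun z => by
        rw [abs_mul, one_mul, mul_comm Bg]
        exact mul_le_mul ((abs_le_l1 z i).trans
          ((le_add_of_nonneg_right zero_le_one).trans (Real.add_one_le_exp _)))
          (grad_bound hN' hL (Nat.zero_le _) i _) (abs_nonneg _) (Real.exp_pos _).le
    rw [integral_add i1 (integrable_finsetSum _ fun i _ => (i2 i).const_mul _),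
      integral_finsetSum _ fun i _ => (i2 i).const_mul _]
    simp only [integral_const_mul]
    have hibp : ∀ i, ∫ z, z i * G t₀ i (fun i => s t₀ i * z i) ∂gauss ι =
        A t₀ 0 i * (N.setAmp (A t₀)).mean (L.logZ μ) 0 ((N.setAmp (A t₀)).hess L μ 0 i i) := by
      intro i
      have hsc : ∀ {f : (ι → ℝ) → ℝ}, Tame f → Tame fun z => f fun j => s t₀ j * z j := by
        intro f hf
        obtain ⟨C, k, hC, hk, h⟩ := hf.bound
        refine tame_of_bound (hf.1.comp (hsz t₀)) (C := C) (k := k * l1 (s t₀))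
          fun z => (h _).trans (mul_le_mul_of_nonneg_left (Real.exp_le_exp.2 ?_) hC)
        rw [mul_assoc]
        exact mul_le_mul_of_nonneg_left (l1_scale_le _ _) hk
      refine (gauss_ibp (F := fun z => G t₀ i fun j => s t₀ j * z j)
        (G := fun j z => s t₀ j *
          (N.setAmp (A t₀)).hess L μ 0 i j (fun k => s t₀ k * z k))
        (hsc (grad_tame hN' hL (Nat.zero_le _) i))
        (fun j => Tame.const_mul (hsc (hess_tame hN' hL (Nat.zero_le _) i j)) _)
        (fun z v => ?_) i).trans ?_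
      · have h := hasDerivAt_grad (μ := μ) hN' hL (Nat.zero_le _) i (fun j => s t₀ j * z j)
          (fun j => s t₀ j * v j)
        refine (h.congr_of_eventuallyEq (.of_forall fun t => congrArg (G t₀ i)
          (funext fun j => ?_))).congr_deriv (sum_congr rfl fun j _ => by ring)
        ring
      · rw [integral_const_mul]
        rfl
    simp only [hibp]
    have hh0 : ∀ i, (N.setAmp (A t₀)).mean (L.logZ μ) 0 ((N.setAmp (A t₀)).hess L μ 0 i i) =
        (N.setAmp (A t₀)).heatTop L μ i -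
          ∑ m ∈ Icc 0 N.K, N.w m * (N.setAmp (A t₀)).sqGrad L μ m i := by
      intro i
      have he : (N.setAmp (A t₀)).hess L μ 0 i i = fun v => (N.setAmp (A t₀)).heat L μ 0 i v +
          -N.x 1 * (N.setAmp (A t₀)).grad L μ 0 i v ^ 2 := funext fun v => by
        simp only [Nest.heat, Nest.setAmp]; ring
      rw [he, mean_add hN' hL (Nat.zero_le _) (heat_tame hN' hL (Nat.zero_le _) i)
        (Tame.const_mul (Tame.sq (grad_tame hN' hL (Nat.zero_le _) i)) _),
        mean_const_mul hN' hL, mean_heat hN' hL (Nat.zero_le _)]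
      show _ - ∑ m ∈ Icc (0 + 1) N.K, N.w m * _ + -N.x 1 * (N.setAmp (A t₀)).sqGrad L μ 0 i = _
      rw [← Finset.insert_Icc_succ_left_eq_Icc (Nat.zero_le N.K), sum_insert (by simp),
        Order.succ_eq_add_one]
      simp only [Nest.w, hN.x_zero]
      ring
    show (N.setAmp (A t₀)).mean (L.logZ μ) 0 (du t₀) + _ = _
    rw [(hdu t₀ ht₀).2.2.2, sum_range_succ', Nat.Ico_zero_eq_range]
    refine congrArg₂ _ (sum_congr rfl fun m hm => sum_congr rfl fun i _ => ?_)
      (sum_congr rfl fun i _ => ?_)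
    · rw [mean_heat hN' hL (mem_range.1 hm).le]
      rfl
    · rw [hh0 i]; ring
  · intro z
    refine (hub.self_of_nhds _).trans ?_
    calc C + k * l1 (fun i => s t₀ i * z i) ≤ C + (k * |M|) * l1 z := by
          rw [mul_assoc]; gcongr; exact hl1 t₀ ht₀ z
      _ ≤ (C + k * |M|) * Real.exp (1 * l1 z) := add_mul_le_exp hC (by positivity) (l1_nonneg z)
      _ ≤ _ := mul_le_mul_of_nonneg_right (by linarith) (Real.exp_pos _).le
  · intro t ht z
    refine (abs_add_le _ _).trans ((add_le_add ((hdu t ht).2.1 _)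
      ((abs_sum_le_sum_abs _ _).trans (?_ : _ ≤ |M| * Bg * l1 z))).trans
      ((add_mul_le_exp hc0 hBg (l1_nonneg z)).trans
        (mul_le_mul_of_nonneg_right ?_ (Real.exp_pos _).le)))
    · rw [l1, mul_sum]
      refine sum_le_sum fun i _ => ?_
      rw [abs_mul, abs_mul, mul_assoc, mul_comm Bg]
      exact mul_le_mul (((hM 0 (Nat.zero_le _) i t ht).1).trans (le_abs_self _))
        (mul_le_mul_of_nonneg_left (grad_bound (hN.setAmp (A t)) hL (Nat.zero_le _) i _)
          (abs_nonneg _)) (by positivity) (abs_nonneg _)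
    · linarith [mul_nonneg hk (abs_nonneg M)]

theorem free_deriv {A A' : ℝ → ℕ → ι → ℝ} {t₀ r : ℝ} (hr : 0 < r)
    (hA : ∀ l ≤ N.K, ∀ i, ∀ t, |t - t₀| < r → HasDerivAt (fun s => A s l i) (A' t l i) t)
    (hA' : ∀ l ≤ N.K, ∀ i, ContinuousAt (fun t => A' t l i) t₀) :
    HasDerivAt (fun t => (N.setAmp (A t)).free L μ)
      (∑ l ∈ range (N.K + 1), ∑ i, A' t₀ l i * A t₀ l i *
        ((N.setAmp (A t₀)).heatTop L μ i -
          ∑ m ∈ Icc l N.K, N.w m * (N.setAmp (A t₀)).sqGrad L μ m i)) t₀ := by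
  set M : ℝ := 1 + ∑ l ∈ range (N.K + 1), ∑ i, (|A' t₀ l i| + |A t₀ l i|) with hMdef
  have hev : ∀ᶠ t in 𝓝 t₀, ∀ l ∈ range (N.K + 1), ∀ i, |A' t l i| ≤ M ∧ |A t l i| ≤ M := by
    refine (Filter.eventually_all_finset _).2 fun l hl => eventually_all.2 fun i => ?_
    have hl' := Nat.lt_succ_iff.1 (mem_range.1 hl)
    have h1 : |A' t₀ l i| + |A t₀ l i| < M := by
      refine lt_of_le_of_lt ?_ (lt_one_add _)
      refine le_trans ?_ (single_le_sum (fun j _ => sum_nonneg fun _ _ => by positivity) hl)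
      exact single_le_sum (f := fun i => |A' t₀ l i| + |A t₀ l i|) (fun _ _ => by positivity)
        (mem_univ i)
    refine ((((hA' l hl' i).abs).eventually_lt_const (u := M) ?_).and
      (((hA l hl' i t₀ (by simpa using hr)).continuousAt.abs).eventually_lt_const (u := M) ?_)).mono
      fun t ht => ⟨ht.1.le, ht.2.le⟩ <;> linarith [abs_nonneg (A' t₀ l i), abs_nonneg (A t₀ l i)]
  obtain ⟨r₁, hr₁, hb⟩ := Metric.eventually_nhds_iff.1 hev
  set ρ := min r₁ r / 2 with hρ
  have hρ0 : 0 < ρ := by rw [hρ]; have := lt_min hr₁ hr; linarith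
  set π : ℝ → ℝ := fun t => max (t₀ - ρ) (min (t₀ + ρ) t)
  have hπ : ∀ t, |π t - t₀| ≤ ρ := fun t => abs_le.2
    ⟨by linarith [le_max_left (t₀ - ρ) (min (t₀ + ρ) t)],
      by linarith [max_le (show t₀ - ρ ≤ t₀ + ρ by linarith) (min_le_left (t₀ + ρ) t)]⟩
  have hπ' : ∀ t, |t - t₀| < ρ → π t = t := fun t ht => by
    have := abs_lt.1 ht
    simp only [π]
    rw [min_eq_right (by linarith), max_eq_right (by linarith)]
  have hlt : ∀ t, |t - t₀| < ρ → (fun s => A (π s)) =ᶠ[𝓝 t] fun s => A s := by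
    intro t ht
    filter_upwards [(continuous_abs.comp (continuous_id.sub continuous_const)).continuousAt
      |>.eventually_lt_const (u := ρ) ht] with s hs
    rw [hπ' s hs]
  have hρr : ρ < r := by rw [hρ]; linarith [min_le_right r₁ r]
  have hρ1 : ρ < r₁ := by rw [hρ]; linarith [min_le_left r₁ r]
  have h := hasDerivAt_free_aux (μ := μ) (A := fun t => A (π t)) (A' := A') (t₀ := t₀) (r := ρ)
    (M := M) hN hL hρ0 (fun l hl i => continuous_iff_continuousAt.2 fun t =>
      ((hA l hl i (π t) ((hπ t).trans_lt hρr)).continuousAt).comp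
        (show ContinuousAt π t by fun_prop))
    (fun l hl i t ht => by
      refine (hA l hl i t (ht.trans hρr)).congr_of_eventuallyEq ?_
      exact (hlt t ht).mono fun s hs => congrFun (congrFun hs l) i)
    (fun l hl i t ht => by
      rw [hπ' t ht]
      exact hb (by rw [Real.dist_eq]; exact ht.trans hρ1) l
        (mem_range.2 (Nat.lt_succ_of_le hl)) i)
  rw [hπ' t₀ (by simpa using hρ0)] at h
  exact h.congr_of_eventuallyEq ((hlt t₀ (by simpa using hρ0)).mono fun s hs => by
    simp only [hs])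

end Vale.Agent.P157.Parisi
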