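import Vale.Agent.P157.Parisi.CalcIBP

/-!
Functions of a parameter and of the state, of exponential growth locally uniformly in the parameter,
and their Gaussian averages.
-/

namespace Vale.Agent.P157.Parisi

open MeasureTheory ProbabilityTheory Finset Topology Filter

variable {ι : Type} [Fintype ι] {T : Type} [TopologicalSpace T]

lemma integrable_of_exp_bound {f : (ι → ℝ) → ℝ} (hf : Continuous f) {C k : ℝ}
    (hb : ∀ z, |f z| ≤ C * Real.exp (k * l1 z)) : Integrable f (gauss ι) :=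
  ((integrable_exp_l1 k).const_mul C).mono' hf.aestronglyMeasurable (.of_forall hb)

/-- Continuous, with exponential growth in the state, locally uniformly in the parameter. -/
def PTame (F : T → (ι → ℝ) → ℝ) : Prop :=
  Continuous (fun p : T × (ι → ℝ) => F p.1 p.2) ∧
    ∀ t₀, ∃ C k : ℝ, 0 ≤ C ∧ 0 ≤ k ∧
      ∀ᶠ t in 𝓝 t₀, ∀ y, |F t y| ≤ C * Real.exp (k * l1 y)

/-- Continuous, with linear growth in the state, locally uniformly in the parameter. -/
def PLin (F : T → (ι → ℝ) → ℝ) : Prop :=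
  Continuous (fun p : T × (ι → ℝ) => F p.1 p.2) ∧
    ∀ t₀, ∃ C k : ℝ, 0 ≤ C ∧ 0 ≤ k ∧ ∀ᶠ t in 𝓝 t₀, ∀ y, |F t y| ≤ C + k * l1 y

lemma add_mul_le_exp {C k r : ℝ} (hC : 0 ≤ C) (hk : 0 ≤ k) (hr : 0 ≤ r) :
    C + k * r ≤ (C + k) * Real.exp (1 * r) := by
  have := Real.add_one_le_exp r
  rw [one_mul]
  nlinarith [mul_nonneg hC hr]

lemma PLin.ptame {F : T → (ι → ℝ) → ℝ} (hF : PLin F) : PTame F := by
  refine ⟨hF.1, fun t₀ => ?_⟩
  obtain ⟨C, k, hC, hk, h⟩ := hF.2 t₀
  exact ⟨C + k, 1, by positivity, zero_le_one,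
    h.mono fun t ht y => (ht y).trans (add_mul_le_exp hC hk (l1_nonneg y))⟩

lemma PTame.tame {F : T → (ι → ℝ) → ℝ} (hF : PTame F) (t : T) : Tame (F t) := by
  obtain ⟨C, k, -, -, h⟩ := hF.2 t
  exact ⟨hF.1.comp (by fun_prop : Continuous fun y : ι → ℝ => (t, y)), C, k, h.self_of_nhds⟩

lemma ptame_const {f : (ι → ℝ) → ℝ} (hf : Tame f) : PTame (fun _ : T => f) := by
  obtain ⟨hc, C, k, h⟩ := hf
  refine ⟨hc.comp continuous_snd, fun _ => ⟨|C|, |k|, abs_nonneg _, abs_nonneg _,
    .of_forall fun t y => (h y).trans ?_⟩⟩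
  refine mul_le_mul (le_abs_self _) (Real.exp_le_exp.2 ?_) (Real.exp_pos _).le (abs_nonneg _)
  exact mul_le_mul_of_nonneg_right (le_abs_self _) (l1_nonneg y)

lemma PTame.mul {F G : T → (ι → ℝ) → ℝ} (hF : PTame F) (hG : PTame G) :
    PTame (fun t y => F t y * G t y) := by
  refine ⟨hF.1.mul hG.1, fun t₀ => ?_⟩
  obtain ⟨C, k, hC, hk, h⟩ := hF.2 t₀
  obtain ⟨C', k', hC', hk', h'⟩ := hG.2 t₀
  refine ⟨C * C', k + k', by positivity, by positivity, (h.and h').mono fun t ht y => ?_⟩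
  rw [abs_mul, add_mul, Real.exp_add, mul_mul_mul_comm]
  exact mul_le_mul (ht.1 y) (ht.2 y) (abs_nonneg _) (by positivity)

lemma PTame.add {F G : T → (ι → ℝ) → ℝ} (hF : PTame F) (hG : PTame G) :
    PTame (fun t y => F t y + G t y) := by
  refine ⟨hF.1.add hG.1, fun t₀ => ?_⟩
  obtain ⟨C, k, hC, hk, h⟩ := hF.2 t₀
  obtain ⟨C', k', hC', hk', h'⟩ := hG.2 t₀
  refine ⟨C + C', k + k', by positivity, by positivity, (h.and h').mono fun t ht y => ?_⟩
  rw [add_mul C C']
  refine (abs_add_le _ _).trans (add_le_add ((ht.1 y).trans ?_) ((ht.2 y).trans ?_))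
  · exact mul_le_mul_of_nonneg_left (Real.exp_le_exp.2
      (mul_le_mul_of_nonneg_right (le_add_of_nonneg_right hk') (l1_nonneg y))) hC
  · exact mul_le_mul_of_nonneg_left (Real.exp_le_exp.2
      (mul_le_mul_of_nonneg_right (le_add_of_nonneg_left hk) (l1_nonneg y))) hC'

/-- A continuous function of the parameter alone. -/
lemma ptame_param {g : T → ℝ} (hg : Continuous g) : PTame (fun t (_ : ι → ℝ) => g t) := by
  refine ⟨hg.comp continuous_fst, fun t₀ => ⟨|g t₀| + 1, 0, by positivity, le_rfl, ?_⟩⟩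
  filter_upwards [hg.abs.continuousAt.eventually_lt_const (lt_add_one |g t₀|)] with t ht y
  simpa using ht.le

lemma PTame.const_mul {F : T → (ι → ℝ) → ℝ} (hF : PTame F) (c : ℝ) :
    PTame (fun t y => c * F t y) :=
  (ptame_param (g := fun _ => c) continuous_const).mul hF

lemma PTame.sub {F G : T → (ι → ℝ) → ℝ} (hF : PTame F) (hG : PTame G) :
    PTame (fun t y => F t y - G t y) := by
  simpa only [neg_one_mul, ← sub_eq_add_neg] using hF.add (hG.const_mul (-1))

lemma PTame.abs {F : T → (ι → ℝ) → ℝ} (hF : PTame F) : PTame (fun t y => |F t y|) :=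
  ⟨hF.1.abs, fun t₀ => by simpa only [abs_abs] using hF.2 t₀⟩

lemma ptame_sum {β : Type*} (S : Finset β) {F : β → T → (ι → ℝ) → ℝ}
    (hF : ∀ b ∈ S, PTame (F b)) : PTame (fun t y => ∑ b ∈ S, F b t y) := by
  classical
  induction S using Finset.induction with
  | empty => simpa using ptame_param (ι := ι) (T := T) (g := fun _ => (0 : ℝ)) continuous_const
  | insert a S ha ih =>
    simp only [sum_insert ha]
    exact (hF a (mem_insert_self a S)).add (ih fun b hb => hF b (mem_insert_of_mem hb))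

variable [FirstCountableTopology T]

lemma ptame_gauss_integral {Φ : T × (ι → ℝ) → (ι → ℝ) → ℝ}
    (hc : Continuous (Function.uncurry Φ))
    (hb : ∀ t₀, ∃ C k k' : ℝ, 0 ≤ C ∧ 0 ≤ k ∧
      ∀ᶠ t in 𝓝 t₀, ∀ y z, |Φ (t, y) z| ≤ C * Real.exp (k * l1 y) * Real.exp (k' * l1 z)) :
    PTame (fun t y => ∫ z, Φ (t, y) z ∂gauss ι) := by
  refine ⟨continuous_iff_continuousAt.2 fun p => ?_, fun t₀ => ?_⟩
  · obtain ⟨C, k, k', hC, hk, h⟩ := hb p.1
    have hy : ∀ᶠ y in 𝓝 p.2, l1 y < l1 p.2 + 1 :=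
      continuous_l1.continuousAt.eventually (eventually_lt_nhds (lt_add_one _))
    refine continuousAt_of_dominated (F := fun q z => Φ q z)
      (bound := fun z => C * Real.exp (k * (l1 p.2 + 1)) * Real.exp (k' * l1 z))
      (.of_forall fun q => (hc.comp (by fun_prop : Continuous fun z : ι → ℝ => (q, z)))
        |>.aestronglyMeasurable) ?_ ((integrable_exp_l1 k').const_mul _)
      (.of_forall fun z => (hc.comp (by fun_prop : Continuous fun q : T × (ι → ℝ) => (q, z)))
        |>.continuousAt)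
    rw [nhds_prod_eq]
    filter_upwards [h.prod_mk hy] with q hq
    refine .of_forall fun z => (hq.1 q.2 z).trans ?_
    gcongr
    exact hq.2.le
  · obtain ⟨C, k, k', hC, hk, h⟩ := hb t₀
    refine ⟨C * ∫ z, Real.exp (k' * l1 z) ∂gauss ι, k,
      mul_nonneg hC (integral_nonneg fun z => (Real.exp_pos _).le), hk, h.mono fun t ht y => ?_⟩
    have := norm_integral_le_of_norm_le ((integrable_exp_l1 (ι := ι) k').const_mul
      (C * Real.exp (k * l1 y))) (f := fun z => Φ (t, y) z)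
      (.of_forall fun z => (Real.norm_eq_abs _).trans_le (ht y z))
    rw [integral_const_mul] at this
    exact this.trans_eq (by ring)

lemma PTame.continuous_integral {F : T → (ι → ℝ) → ℝ} (hF : PTame F) {s : T → ι → ℝ}
    (hs : ∀ i, Continuous fun t => s t i) :
    Continuous fun t => ∫ z, F t (fun i => s t i * z i) ∂gauss ι := by
  have h : Continuous (Function.uncurry fun (p : T × (ι → ℝ)) (z : ι → ℝ) =>
      F p.1 fun i => s p.1 i * z i) := by
    exact hF.1.comp (by fun_prop : Continuous fun q : (T × (ι → ℝ)) × (ι → ℝ) =>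
      (q.1.1, fun i => s q.1.1 i * q.2 i))
  refine (ptame_gauss_integral h fun t₀ => ?_).1.comp
    (by fun_prop : Continuous fun t : T => (t, (0 : ι → ℝ)))
  obtain ⟨C, k, hC, hk, hF'⟩ := hF.2 t₀
  have hs' : ∀ᶠ t in 𝓝 t₀, l1 (s t) < l1 (s t₀) + 1 :=
    (continuous_l1.comp (continuous_pi hs)).continuousAt.eventually
      (eventually_lt_nhds (lt_add_one _))
  refine ⟨C, 0, k * (l1 (s t₀) + 1), hC, le_rfl, (hF'.and hs').mono fun t ht y z => ?_⟩
  rw [zero_mul, Real.exp_zero, mul_one]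
  refine (ht.1 _).trans ?_
  refine mul_le_mul_of_nonneg_left (Real.exp_le_exp.2 ?_) hC
  rw [mul_assoc]
  refine mul_le_mul_of_nonneg_left ?_ hk
  show ∑ i, |s t i * z i| ≤ (l1 (s t₀) + 1) * ∑ i, |z i|
  rw [mul_sum]
  refine sum_le_sum fun i _ => ?_
  rw [abs_mul]
  exact mul_le_mul_of_nonneg_right ((abs_le_l1 _ i).trans ht.2.le) (abs_nonneg _)

omit [Fintype ι] [FirstCountableTopology T] in
lemma continuous_pmove {s : T → ι → ℝ} (hs : ∀ i, Continuous fun t => s t i) :
    Continuous fun q : (T × (ι → ℝ)) × (ι → ℝ) => (q.1.1, move (s q.1.1) q.1.2 q.2) := by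
  refine continuous_fst.fst.prodMk (continuous_pi fun i => ?_)
  exact ((continuous_apply i).comp continuous_fst.snd).add
    (((hs i).comp continuous_fst.fst).mul ((continuous_apply i).comp continuous_snd))

section step

variable {u : T → (ι → ℝ) → ℝ} {s : T → ι → ℝ} (hu : PLin u) (hs : ∀ i, Continuous fun t => s t i)

include hu hs

omit [FirstCountableTopology T] in
lemma exp_step_bounds (m : ℝ) (t₀ : T) : ∃ C k k' : ℝ, 0 ≤ C ∧ 0 ≤ k ∧
    ∀ᶠ t in 𝓝 t₀, ∀ y z, |m * u t (move (s t) y z)| ≤ C + k * l1 y + k' * l1 z := by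
  obtain ⟨C, k, hC, hk, h⟩ := hu.2 t₀
  have hs' : ∀ᶠ t in 𝓝 t₀, l1 (s t) < l1 (s t₀) + 1 :=
    (continuous_l1.comp (continuous_pi hs)).continuousAt.eventually
      (eventually_lt_nhds (lt_add_one _))
  refine ⟨|m| * C, |m| * k, |m| * k * (l1 (s t₀) + 1), by positivity, by positivity,
    (h.and hs').mono fun t ht y z => ?_⟩
  rw [abs_mul]
  calc |m| * |u t (move (s t) y z)| ≤ |m| * (C + k * l1 (move (s t) y z)) := by
        gcongr; exact ht.1 _
    _ ≤ |m| * (C + k * (l1 y + (l1 (s t₀) + 1) * l1 z)) := by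
        refine mul_le_mul_of_nonneg_left (add_le_add le_rfl (mul_le_mul_of_nonneg_left ?_ hk))
          (abs_nonneg _)
        refine (l1_move_le _ _ _).trans ?_
        gcongr
        · exact l1_nonneg _
        · exact ht.2.le
    _ = _ := by ring

lemma ptame_num (m : ℝ) {f : T → (ι → ℝ) → ℝ} (hf : PTame f) :
    PTame fun t y => ∫ z, Real.exp (m * u t (move (s t) y z)) * f t (move (s t) y z) ∂gauss ι := by
  refine ptame_gauss_integral (Φ := fun p z =>
      Real.exp (m * u p.1 (move (s p.1) p.2 z)) * f p.1 (move (s p.1) p.2 z))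
    ((Real.continuous_exp.comp (continuous_const.mul (hu.1.comp (continuous_pmove hs)))).mul
      (hf.1.comp (continuous_pmove hs))) fun t₀ => ?_
  obtain ⟨C, k, k', hC, hk, h⟩ := exp_step_bounds hu hs m t₀
  obtain ⟨D, j, hD, hj, hf'⟩ := hf.2 t₀
  have hs' : ∀ᶠ t in 𝓝 t₀, l1 (s t) < l1 (s t₀) + 1 :=
    (continuous_l1.comp (continuous_pi hs)).continuousAt.eventually
      (eventually_lt_nhds (lt_add_one _))
  refine ⟨Real.exp C * D, k + j, k' + j * (l1 (s t₀) + 1), by positivity, by positivity,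
    ((h.and hf').and hs').mono fun t ht y z => ?_⟩
  rw [abs_mul, Real.abs_exp]
  calc Real.exp (m * u t (move (s t) y z)) * |f t (move (s t) y z)|
      ≤ Real.exp (C + k * l1 y + k' * l1 z) *
          (D * Real.exp (j * (l1 y + (l1 (s t₀) + 1) * l1 z))) := by
        refine mul_le_mul (Real.exp_le_exp.2 ((le_abs_self _).trans (ht.1.1 y z)))
          ((ht.1.2 _).trans ?_) (abs_nonneg _) (Real.exp_pos _).le
        gcongr
        refine (l1_move_le _ _ _).trans ?_
        gcongr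
        · exact l1_nonneg _
        · exact ht.2.le
    _ = _ := by simp only [add_mul, mul_add, Real.exp_add]; ring_nf

lemma ptame_den (m : ℝ) :
    PTame fun t y => ∫ z, Real.exp (m * u t (move (s t) y z)) ∂gauss ι := by
  simpa using ptame_num hu hs m (f := fun _ _ => 1)
    (ptame_const ⟨continuous_const, 1, 0, fun y => by simp⟩)

omit [FirstCountableTopology T] in
lemma integrable_den (m : ℝ) (t : T) (y : ι → ℝ) :
    Integrable (fun z => Real.exp (m * u t (move (s t) y z))) (gauss ι) := by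
  obtain ⟨C, k, k', -, -, h⟩ := exp_step_bounds hu hs m t
  have h' := h.self_of_nhds y
  refine integrable_of_exp_bound ?_ (C := Real.exp (C + k * l1 y)) (k := k') fun z => ?_
  · exact Real.continuous_exp.comp (continuous_const.mul ((hu.1.comp (continuous_pmove hs)).comp
      (by fun_prop : Continuous fun z : ι → ℝ => ((t, y), z))))
  · rw [Real.abs_exp, ← Real.exp_add]
    exact Real.exp_le_exp.2 ((le_abs_self _).trans (h' z))

omit [FirstCountableTopology T] in
lemma den_lower (m : ℝ) (t₀ : T) : ∃ c k : ℝ, 0 < c ∧ 0 ≤ k ∧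
    ∀ᶠ t in 𝓝 t₀, ∀ y,
      c * Real.exp (-(k * l1 y)) ≤ ∫ z, Real.exp (m * u t (move (s t) y z)) ∂gauss ι := by
  obtain ⟨C, k, k', -, hk, h⟩ := exp_step_bounds hu hs m t₀
  refine ⟨Real.exp (-C) * ∫ z, Real.exp (-k' * l1 z) ∂gauss ι, k,
    mul_pos (Real.exp_pos _) (integral_exp_pos (integrable_exp_l1 _)), hk,
    h.mono fun t ht y => ?_⟩
  rw [mul_right_comm, ← integral_const_mul]
  refine integral_mono ((integrable_exp_l1 _).const_mul _) (integrable_den hu hs m t y)
    fun z => ?_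
  simp only [← Real.exp_add]
  exact Real.exp_le_exp.2 (by linarith [abs_le.1 (ht y z)])

omit [FirstCountableTopology T] in
lemma den_pos (m : ℝ) (t : T) (y : ι → ℝ) :
    0 < ∫ z, Real.exp (m * u t (move (s t) y z)) ∂gauss ι :=
  integral_exp_pos (integrable_den hu hs m t y)

lemma plin_stepLog (m : ℝ) : PLin fun t y => stepLog m (s t) (u t) y := by
  refine ⟨continuous_const.mul ((ptame_den hu hs m).1.log fun p => (den_pos hu hs m p.1 p.2).ne'),
    fun t₀ => ?_⟩
  obtain ⟨c, k, hc, hk, hlo⟩ := den_lower hu hs m t₀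
  obtain ⟨C, k', hC, hk', hup⟩ := (ptame_den hu hs m).2 t₀
  refine ⟨|m⁻¹| * (|Real.log c| + |Real.log C|), |m⁻¹| * (k + k'), by positivity, by positivity,
    (hlo.and hup).mono fun t ht y => ?_⟩
  have hd := den_pos hu hs m t y
  have h1 := Real.log_le_log (by positivity) (ht.1 y)
  have h2 : ∫ z, Real.exp (m * u t (move (s t) y z)) ∂gauss ι ≤ C * Real.exp (k' * l1 y) :=
    (le_abs_self _).trans (ht.2 y)
  have hC0 : 0 < C := by
    by_contra hC0
    nlinarith [Real.exp_pos (k' * l1 y)]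
  have h3 := Real.log_le_log hd h2
  rw [Real.log_mul hc.ne' (Real.exp_ne_zero _), Real.log_exp] at h1
  rw [Real.log_mul hC0.ne' (Real.exp_ne_zero _), Real.log_exp] at h3
  simp only [stepLog]
  rw [abs_mul, mul_assoc, ← mul_add]
  refine mul_le_mul_of_nonneg_left (abs_le.2 ⟨?_, ?_⟩) (abs_nonneg _)
  · nlinarith [neg_abs_le (Real.log c), abs_nonneg (Real.log C), mul_nonneg hk' (l1_nonneg y)]
  · nlinarith [le_abs_self (Real.log C), abs_nonneg (Real.log c), mul_nonneg hk (l1_nonneg y)]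

lemma ptame_tilt (m : ℝ) {f : T → (ι → ℝ) → ℝ} (hf : PTame f) :
    PTame fun t y => tilt m (s t) (u t) (fun v z => f t (move (s t) v z)) y := by
  refine ⟨(ptame_num hu hs m hf).1.div (ptame_den hu hs m).1
    fun p => (den_pos hu hs m p.1 p.2).ne', fun t₀ => ?_⟩
  obtain ⟨c, k, hc, hk, hlo⟩ := den_lower hu hs m t₀
  obtain ⟨C, k', hC, hk', hup⟩ := (ptame_num hu hs m hf).2 t₀
  refine ⟨C / c, k + k', by positivity, by positivity, (hlo.and hup).mono fun t ht y => ?_⟩
  simp only [tilt]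
  rw [abs_div, abs_of_pos (den_pos hu hs m t y)]
  refine (div_le_div₀ (by positivity) (ht.2 y) (by positivity) (ht.1 y)).trans_eq ?_
  rw [Real.exp_neg, add_mul, Real.exp_add]
  field_simp

end step

end Vale.Agent.P157.Parisi
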