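import Vale.Agent.P157.Parisi.CalcStep

/-!
Module A1: averages along the hierarchy and derivatives in the state.
-/

set_option linter.unusedSectionVars false

namespace Vale.Agent.P157.Parisi

open MeasureTheory ProbabilityTheory Finset

variable {ι : Type} [Fintype ι] {Ω κ : Type} [Fintype κ] [MeasurableSpace Ω]
variable {N : Nest ι} {L : Leaf Ω κ ι} {μ : Measure Ω} {B : ℝ}

lemma avg_eq_stepAvg (N : Nest ι) (U : (ι → ℝ) → ℝ) (l : ℕ) (f : (ι → ℝ) → ℝ) :
    N.avg U l f = stepAvg (N.x (l + 1)) (N.amp (l + 1)) (N.u U (l + 1)) f := rfl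

lemma u_succ {l : ℕ} (hl : l < N.K) (U : (ι → ℝ) → ℝ) :
    N.u U l = stepLog (N.x (l + 1)) (N.amp (l + 1)) (N.u U (l + 1)) := by
  have e : N.K - l = N.K - (l + 1) + 1 := by omega
  have e2 : N.K - (N.K - (l + 1)) = l + 1 := by omega
  simp only [Nest.u, e, Nest.uUp, e2]

lemma u_top {l : ℕ} (hl : N.K ≤ l) (U : (ι → ℝ) → ℝ) : N.u U l = U := by
  simp [Nest.u, Nat.sub_eq_zero_of_le hl, Nest.uUp]

lemma down_succ {l : ℕ} (hl : l < N.K) (U f : (ι → ℝ) → ℝ) :
    N.down U l f = N.avg U l (N.down U (l + 1) f) := by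
  have e : N.K - l = N.K - (l + 1) + 1 := by omega
  have e2 : N.K - (N.K - (l + 1) + 1) = l := by omega
  simp only [Nest.down, e, Nest.downUp, e2]

lemma down_top {l : ℕ} (hl : N.K ≤ l) (U f : (ι → ℝ) → ℝ) : N.down U l f = f := by
  simp [Nest.down, Nat.sub_eq_zero_of_le hl, Nest.downUp]

lemma hess_succ {l : ℕ} (hl : l < N.K) (i k : ι) (y : ι → ℝ) :
    N.hess L μ l i k y = N.avg (L.logZ μ) l (N.hess L μ (l + 1) i k) y +
      N.x (l + 1) *
        (N.avg (L.logZ μ) l (fun v => N.grad L μ (l + 1) i v * N.grad L μ (l + 1) k v) y -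
          N.grad L μ l i y * N.grad L μ l k y) := by
  have e : N.K - l = N.K - (l + 1) + 1 := by omega
  have e2 : N.K - (N.K - (l + 1) + 1) = l := by omega
  have e3 : N.K - (N.K - (l + 1)) = l + 1 := by omega
  simp only [Nest.hess, e, Nest.hessUp, e2, e3]

lemma hess_top (i k : ι) (y : ι → ℝ) :
    N.hess L μ N.K i k y =
      L.gibbs μ (fun ω y => (∑ j, L.φ2 j (L.loc ω y j) * L.a ω j i * L.a ω j k)
          + L.vec i ω y * L.vec k ω y) y -
        L.gibbs μ (L.vec i) y * L.gibbs μ (L.vec k) y := by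
  simp [Nest.hess, Nest.hessUp]

variable [IsProbabilityMeasure μ] (hN : N.Good) (hL : L.Good B)

include hN hL

omit hL in
lemma x_succ_pos {l : ℕ} (hl : l < N.K) : 0 < N.x (l + 1) := hN.x_pos _ (by omega) (by omega)

/-! ### Averages -/

theorem logZ_tame : Tame (L.logZ μ) := (linGrowth_logZ hL).tame

lemma linGrowth_u (l : ℕ) : LinGrowth (N.u (L.logZ μ) l) := by
  suffices h : ∀ d l, N.K - l = d → LinGrowth (N.u (L.logZ μ) l) from h _ l rfl
  intro d
  induction d with
  | zero => intro l hl; rw [u_top (by omega)]; exact linGrowth_logZ hL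
  | succ d ih =>
    intro l hl
    rw [u_succ (by omega)]
    exact linGrowth_stepLog (ih (l + 1) (by omega)) _ _

theorem u_tame (l : ℕ) : Tame (N.u (L.logZ μ) l) := (linGrowth_u hN hL l).tame

theorem avg_tame {l : ℕ} (hl : l < N.K) {f : (ι → ℝ) → ℝ} (hf : Tame f) :
    Tame (N.avg (L.logZ μ) l f) :=
  tame_stepAvg (linGrowth_u hN hL (l + 1)) _ _ hf

theorem avg_add {l : ℕ} (hl : l < N.K) {f g : (ι → ℝ) → ℝ} (hf : Tame f) (hg : Tame g)
    (y : ι → ℝ) :
    N.avg (L.logZ μ) l (fun v => f v + g v) y =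
      N.avg (L.logZ μ) l f y + N.avg (L.logZ μ) l g y :=
  stepAvg_add (linGrowth_u hN hL (l + 1)) _ _ hf hg y

theorem avg_const_mul {l : ℕ} (c : ℝ) (f : (ι → ℝ) → ℝ) (y : ι → ℝ) :
    N.avg (L.logZ μ) l (fun v => c * f v) y = c * N.avg (L.logZ μ) l f y :=
  stepAvg_const_mul _ _ _ c f y

theorem avg_const {l : ℕ} (hl : l < N.K) (c : ℝ) (y : ι → ℝ) :
    N.avg (L.logZ μ) l (fun _ => c) y = c :=
  stepAvg_const (linGrowth_u hN hL (l + 1)) _ _ c y

theorem avg_mono {l : ℕ} (hl : l < N.K) {f g : (ι → ℝ) → ℝ} (hf : Tame f) (hg : Tame g)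
    (h : ∀ v, f v ≤ g v) (y : ι → ℝ) :
    N.avg (L.logZ μ) l f y ≤ N.avg (L.logZ μ) l g y :=
  stepAvg_mono (linGrowth_u hN hL (l + 1)) _ _ hf hg h y

/-- A square of the average is at most the average of the square. -/
theorem avg_sq_ge {l : ℕ} (hl : l < N.K) {f : (ι → ℝ) → ℝ} (hf : Tame f) (y : ι → ℝ) :
    N.avg (L.logZ μ) l f y ^ 2 ≤ N.avg (L.logZ μ) l (fun v => f v ^ 2) y := by
  set c := N.avg (L.logZ μ) l f y
  have h := avg_mono (μ := μ) hN hL hl (hf.const_mul (2 * c)) (hf.sq.add (tame_const (c ^ 2)))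
    (fun v => by nlinarith [sq_nonneg (f v - c)]) y
  rw [avg_const_mul (μ := μ) hN hL, avg_add hN hL hl hf.sq (tame_const _), avg_const hN hL hl] at h
  nlinarith

theorem avg_sum {β : Type*} {l : ℕ} (hl : l < N.K) (T : Finset β) {f : β → (ι → ℝ) → ℝ}
    (hf : ∀ b ∈ T, Tame (f b)) (y : ι → ℝ) :
    N.avg (L.logZ μ) l (fun v => ∑ b ∈ T, f b v) y = ∑ b ∈ T, N.avg (L.logZ μ) l (f b) y := by
  classical
  induction T using Finset.induction with
  | empty => simpa using avg_const hN hL hl (l := l) 0 y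
  | insert a T ha ih =>
    have hT : ∀ b ∈ T, Tame (f b) := fun b hb => hf b (mem_insert_of_mem hb)
    simp only [sum_insert ha]
    rw [avg_add hN hL hl (hf a (mem_insert_self a T)) (tame_sum T hT), ih hT]

theorem mean_add {l : ℕ} (hl : l ≤ N.K) {f g : (ι → ℝ) → ℝ} (hf : Tame f) (hg : Tame g) :
    N.mean (L.logZ μ) l (fun v => f v + g v) =
      N.mean (L.logZ μ) l f + N.mean (L.logZ μ) l g := by
  induction l generalizing f g with
  | zero =>
    have e : ∀ h : (ι → ℝ) → ℝ, Tame h → Integrable (fun z => h fun i => N.amp 0 i * z i) (gauss ι) :=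
      fun h hh => by
        convert (hh.comp_move (N.amp 0) 0).integrable using 3 with z
        funext i
        simp [move]
    exact integral_add (e f hf) (e g hg)
  | succ l ih =>
    simp only [Nest.mean]
    rw [show N.avg (L.logZ μ) l (fun v => f v + g v) =
        fun y => N.avg (L.logZ μ) l f y + N.avg (L.logZ μ) l g y from
      funext (avg_add hN hL (by omega) hf hg)]
    exact ih (by omega) (avg_tame hN hL (by omega) hf) (avg_tame hN hL (by omega) hg)

theorem mean_const_mul (l : ℕ) (c : ℝ) (f : (ι → ℝ) → ℝ) :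
    N.mean (L.logZ μ) l (fun v => c * f v) = c * N.mean (L.logZ μ) l f := by
  induction l generalizing f with
  | zero => exact integral_const_mul c _
  | succ l ih =>
    simp only [Nest.mean]
    rw [show N.avg (L.logZ μ) l (fun v => c * f v) = fun y => c * N.avg (L.logZ μ) l f y from
      funext (avg_const_mul hN hL c f)]
    exact ih _

theorem mean_const {l : ℕ} (hl : l ≤ N.K) (c : ℝ) :
    N.mean (L.logZ μ) l (fun _ => c) = c := by
  induction l with
  | zero => simp [Nest.mean]
  | succ l ih =>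
    simp only [Nest.mean]
    rw [show N.avg (L.logZ μ) l (fun _ => c) = fun _ => c from
      funext (avg_const hN hL (by omega) c)]
    exact ih (by omega)

theorem mean_mono {l : ℕ} (hl : l ≤ N.K) {f g : (ι → ℝ) → ℝ} (hf : Tame f) (hg : Tame g)
    (h : ∀ v, f v ≤ g v) : N.mean (L.logZ μ) l f ≤ N.mean (L.logZ μ) l g := by
  induction l generalizing f g with
  | zero =>
    have e : ∀ h : (ι → ℝ) → ℝ, Tame h → Integrable (fun z => h fun i => N.amp 0 i * z i) (gauss ι) :=
      fun h hh => by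
        convert (hh.comp_move (N.amp 0) 0).integrable using 3 with z
        funext i
        simp [move]
    exact integral_mono (e f hf) (e g hg) fun z => h _
  | succ l ih =>
    exact ih (by omega) (avg_tame hN hL (by omega) hf) (avg_tame hN hL (by omega) hg)
      (avg_mono hN hL (by omega) hf hg h)

omit hN hL in
theorem node_succ_eq {l : ℕ} (hl : l < N.K) (f : Ω → (ι → ℝ) → ℝ) :
    N.node L μ l f = N.avg (L.logZ μ) l (N.node L μ (l + 1) f) :=
  down_succ hl _ _

theorem node_succ {l : ℕ} (hl : l < N.K) (f : Ω → (ι → ℝ) → ℝ) :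
    N.node L μ l f = N.avg (L.logZ μ) l (N.node L μ (l + 1) f) :=
  down_succ hl _ _

theorem node_top (f : Ω → (ι → ℝ) → ℝ) : N.node L μ N.K f = L.gibbs μ f :=
  down_top le_rfl _ _

theorem node_tame {l : ℕ} (hl : l ≤ N.K) {f : Ω → (ι → ℝ) → ℝ} (hf : Obs f) :
    Tame (N.node L μ l f) := by
  induction hl using Nat.decreasingInduction with
  | self => rw [node_top hN hL]; exact tame_gibbs hL hf
  | of_succ l hl ih => rw [node_succ hN hL hl]; exact avg_tame hN hL hl ih

theorem node_add {l : ℕ} (hl : l ≤ N.K) {f g : Ω → (ι → ℝ) → ℝ} (hf : Obs f) (hg : Obs g)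
    (y : ι → ℝ) :
    N.node L μ l (fun ω v => f ω v + g ω v) y = N.node L μ l f y + N.node L μ l g y := by
  induction hl using Nat.decreasingInduction generalizing y with
  | self => simp only [node_top hN hL]; exact gibbs_add hL hf hg y
  | of_succ l hl ih =>
    simp only [node_succ hN hL hl]
    rw [show N.node L μ (l + 1) (fun ω v => f ω v + g ω v) =
        fun y => N.node L μ (l + 1) f y + N.node L μ (l + 1) g y from funext ih]
    exact avg_add hN hL hl (node_tame hN hL hl hf) (node_tame hN hL hl hg) y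

theorem node_const_mul (l : ℕ) (c : ℝ) (f : Ω → (ι → ℝ) → ℝ) (y : ι → ℝ) :
    N.node L μ l (fun ω v => c * f ω v) y = c * N.node L μ l f y := by
  suffices h : ∀ d l, N.K - l = d → ∀ y,
      N.node L μ l (fun ω v => c * f ω v) y = c * N.node L μ l f y from h _ l rfl y
  intro d
  induction d with
  | zero =>
    intro l hl y
    simp only [Nest.node, down_top (show N.K ≤ l by omega)]
    exact gibbs_const_mul c f y
  | succ d ih =>
    intro l hl y
    simp only [node_succ_eq (show l < N.K by omega)]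
    rw [show N.node L μ (l + 1) (fun ω v => c * f ω v) = fun y => c * N.node L μ (l + 1) f y from
      funext (ih (l + 1) (by omega))]
    exact avg_const_mul hN hL c _ y

theorem node_const {l : ℕ} (hl : l ≤ N.K) (c : ℝ) (y : ι → ℝ) :
    N.node L μ l (fun _ _ => c) y = c := by
  induction hl using Nat.decreasingInduction generalizing y with
  | self => simp only [node_top hN hL]; exact gibbs_const hL c y
  | of_succ l hl ih =>
    simp only [node_succ hN hL hl]
    rw [show N.node L μ (l + 1) (fun _ _ => c) = fun _ => c from funext ih]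
    exact avg_const hN hL hl c y

theorem node_mono {l : ℕ} (hl : l ≤ N.K) {f g : Ω → (ι → ℝ) → ℝ} (hf : Obs f) (hg : Obs g)
    (h : ∀ ω v, f ω v ≤ g ω v) (y : ι → ℝ) : N.node L μ l f y ≤ N.node L μ l g y := by
  induction hl using Nat.decreasingInduction generalizing y with
  | self => simp only [node_top hN hL]; exact gibbs_mono hL hf hg h y
  | of_succ l hl ih =>
    simp only [node_succ hN hL hl]
    exact avg_mono hN hL hl (node_tame hN hL hl hf) (node_tame hN hL hl hg) ih y

theorem node_sum {β : Type*} {l : ℕ} (hl : l ≤ N.K) (T : Finset β)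
    {f : β → Ω → (ι → ℝ) → ℝ} (hf : ∀ b, Obs (f b)) (y : ι → ℝ) :
    N.node L μ l (fun ω v => ∑ b ∈ T, f b ω v) y = ∑ b ∈ T, N.node L μ l (f b) y := by
  classical
  induction T using Finset.induction with
  | empty => simpa using node_const hN hL hl 0 y
  | insert a T ha ih =>
    simp only [sum_insert ha]
    rw [node_add hN hL hl (hf a) (obs_sum T hf), ih]

theorem vec_obs (i : ι) : Obs (L.vec i) := obs_vec hL i

theorem grad_tame {l : ℕ} (hl : l ≤ N.K) (i : ι) : Tame (N.grad L μ l i) :=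
  node_tame hN hL hl (obs_vec hL i)

theorem grad_succ {l : ℕ} (hl : l < N.K) (i : ι) :
    N.grad L μ l i = N.avg (L.logZ μ) l (N.grad L μ (l + 1) i) :=
  node_succ hN hL hl _

theorem grad_top (i : ι) : N.grad L μ N.K i = L.gibbs μ (L.vec i) := node_top hN hL _

theorem hess_tame {l : ℕ} (hl : l ≤ N.K) (i k : ι) : Tame (N.hess L μ l i k) := by
  induction hl using Nat.decreasingInduction with
  | self =>
    rw [show N.hess L μ N.K i k = _ from funext (hess_top i k)]
    exact (tame_gibbs hL ((obs_curv hL i k).add ((obs_vec hL i).mul (obs_vec hL k)))).sub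
      ((tame_gibbs hL (obs_vec hL i)).mul (tame_gibbs hL (obs_vec hL k)))
  | of_succ l hl ih =>
    rw [show N.hess L μ l i k = _ from funext (hess_succ hl i k)]
    exact (avg_tame hN hL hl ih).add (((avg_tame hN hL hl
      ((grad_tame hN hL hl i).mul (grad_tame hN hL hl k))).sub
      ((grad_tame hN hL hl.le i).mul (grad_tame hN hL hl.le k))).const_mul _)

theorem heat_tame {l : ℕ} (hl : l ≤ N.K) (i : ι) : Tame (N.heat L μ l i) :=
  (hess_tame hN hL hl i i).add ((grad_tame hN hL hl i).sq.const_mul _)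

/-! ### Derivatives in the state -/

theorem gradOf_u {l : ℕ} (hl : l ≤ N.K) :
    GradOf (N.u (L.logZ μ) l) fun i => N.grad L μ l i := by
  induction hl using Nat.decreasingInduction with
  | self =>
    simp only [u_top le_rfl, grad_top hN hL]
    exact gradOf_logZ hL
  | of_succ l hl ih =>
    simp only [u_succ hl, grad_succ hN hL hl]
    exact gradOf_stepLog (linGrowth_u hN hL (l + 1)) _ _ (grad_tame hN hL hl) ih
      (x_succ_pos hN hl).ne'

theorem gradOf_grad {l : ℕ} (hl : l ≤ N.K) (i : ι) :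
    GradOf (N.grad L μ l i) fun k => N.hess L μ l i k := by
  induction hl using Nat.decreasingInduction with
  | self =>
    have h := gradOf_gibbs (μ := μ) hL (obs_vec hL i) (fun k => obs_curv hL i k)
      (fun ω => gradOf_vec hL ω i)
    rw [grad_top hN hL]
    intro y v
    refine (h y v).congr_deriv (sum_congr rfl fun k _ => ?_)
    dsimp only
    rw [hess_top]
    congr 3
    funext ω v
    ring
  | of_succ l hl ih =>
    have h := gradOf_stepAvg (linGrowth_u (μ := μ) hN hL (l + 1)) (N.x (l + 1)) (N.amp (l + 1))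
      (grad_tame hN hL hl) (gradOf_u hN hL hl) (grad_tame hN hL hl i) (hess_tame hN hL hl i) ih
    simp only [← avg_eq_stepAvg] at h
    rw [grad_succ hN hL hl]
    intro y v
    refine (h y v).congr_deriv (sum_congr rfl fun k _ => ?_)
    dsimp only
    rw [hess_succ hl, grad_succ hN hL hl, grad_succ hN hL hl]

theorem hasDerivAt_u {l : ℕ} (hl : l ≤ N.K) (y v : ι → ℝ) :
    HasDerivAt (fun t : ℝ => N.u (L.logZ μ) l fun i => y i + t * v i)
      (∑ i, v i * N.grad L μ l i y) 0 :=
  gradOf_u hN hL hl y v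

theorem hasDerivAt_grad {l : ℕ} (hl : l ≤ N.K) (i : ι) (y v : ι → ℝ) :
    HasDerivAt (fun t : ℝ => N.grad L μ l i fun j => y j + t * v j)
      (∑ k, v k * N.hess L μ l i k y) 0 :=
  gradOf_grad hN hL hl i y v

theorem hess_symm {l : ℕ} (hl : l ≤ N.K) (i k : ι) (y : ι → ℝ) :
    N.hess L μ l i k y = N.hess L μ l k i y := by
  induction hl using Nat.decreasingInduction generalizing y with
  | self =>
    simp only [hess_top]
    rw [mul_comm (L.gibbs μ (L.vec i) y)]
    congr 2
    funext ω v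
    rw [mul_comm (L.vec i ω v)]
    congr 1
    exact sum_congr rfl fun j _ => by ring
  | of_succ l hl ih =>
    simp only [hess_succ hl]
    rw [funext ih, mul_comm (N.grad L μ l i y)]
    congr 4
    funext v
    exact mul_comm _ _

/-- The recursion for the node covariance. -/
theorem cov_succ {l : ℕ} (hl : l < N.K) (i k : ι) (y : ι → ℝ) :
    N.cov L μ l i k y = N.avg (L.logZ μ) l (N.cov L μ (l + 1) i k) y +
      (N.avg (L.logZ μ) l (fun v => N.grad L μ (l + 1) i v * N.grad L μ (l + 1) k v) y -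
          N.grad L μ l i y * N.grad L μ l k y) := by
  have hp : Obs fun ω y' => L.vec i ω y' * L.vec k ω y' := (obs_vec hL i).mul (obs_vec hL k)
  have hg := (grad_tame (μ := μ) hN hL (l := l + 1) hl i).mul (grad_tame (μ := μ) hN hL (l := l + 1) hl k)
  have hc : Tame (N.cov L μ (l + 1) i k) := (node_tame hN hL hl hp).sub hg
  have h := avg_add (μ := μ) hN hL hl hc hg y
  have e : (fun v => N.cov L μ (l + 1) i k v + N.grad L μ (l + 1) i v * N.grad L μ (l + 1) k v) =
      N.node L μ (l + 1) fun ω y' => L.vec i ω y' * L.vec k ω y' := by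
    funext v; simp [Nest.cov]
  rw [e, ← node_succ hN hL hl] at h
  simp only [Nest.cov] at h ⊢
  linarith

theorem cov_tame {l : ℕ} (hl : l ≤ N.K) (i k : ι) : Tame (N.cov L μ l i k) :=
  (node_tame hN hL hl ((obs_vec hL i).mul (obs_vec hL k))).sub
    ((grad_tame hN hL hl i).mul (grad_tame hN hL hl k))

/-- The node covariance as a quadratic form is a variance. -/
theorem cov_form {l : ℕ} (hl : l ≤ N.K) (S : Finset ι) (v : ι → ℝ) (y : ι → ℝ) :
    ∑ i ∈ S, ∑ k ∈ S, v i * v k * N.cov L μ l i k y =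
      N.node L μ l (fun ω y' => (∑ i ∈ S, v i * L.vec i ω y') ^ 2) y -
        N.node L μ l (fun ω y' => ∑ i ∈ S, v i * L.vec i ω y') y ^ 2 := by
  have o1 : ∀ i, Obs fun ω y' => v i * L.vec i ω y' := fun i => (obs_const (v i)).mul (obs_vec hL i)
  have e1 : N.node L μ l (fun ω y' => ∑ i ∈ S, v i * L.vec i ω y') y =
      ∑ i ∈ S, v i * N.grad L μ l i y := by
    rw [node_sum hN hL hl S o1]
    exact sum_congr rfl fun i _ => node_const_mul hN hL l _ _ y
  rw [e1]
  simp only [pow_two, sum_mul_sum]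
  rw [node_sum hN hL hl S (fun i => obs_sum S fun k => (o1 i).mul (o1 k)), ← sum_sub_distrib]
  refine sum_congr rfl fun i _ => ?_
  rw [node_sum hN hL hl S (fun k => (o1 i).mul (o1 k)), ← sum_sub_distrib]
  refine sum_congr rfl fun k _ => ?_
  have : (fun ω y' => v i * L.vec i ω y' * (v k * L.vec k ω y')) =
      fun ω y' => v i * v k * (L.vec i ω y' * L.vec k ω y') := by funext ω y'; ring
  rw [this, node_const_mul (μ := μ) hN hL, Nest.cov]
  ring

theorem node_sq_ge {l : ℕ} (hl : l ≤ N.K) {f : Ω → (ι → ℝ) → ℝ} (hf : Obs f) (y : ι → ℝ) :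
    N.node L μ l f y ^ 2 ≤ N.node L μ l (fun ω v => f ω v ^ 2) y := by
  set c := N.node L μ l f y
  have h2 : Obs fun ω v => f ω v ^ 2 := by simpa [pow_two] using hf.mul hf
  have h := node_mono (μ := μ) hN hL hl ((obs_const (2 * c)).mul hf) (h2.add (obs_const (c ^ 2)))
    (fun ω v => by nlinarith [sq_nonneg (f ω v - c)]) y
  rw [node_const_mul (μ := μ) hN hL, node_add hN hL hl h2 (obs_const _), node_const hN hL hl] at h
  nlinarith

theorem cov_nonneg {l : ℕ} (hl : l ≤ N.K) (S : Finset ι) (v : ι → ℝ) (y : ι → ℝ) :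
    0 ≤ ∑ i ∈ S, ∑ k ∈ S, v i * v k * N.cov L μ l i k y := by
  rw [cov_form hN hL hl]
  have := node_sq_ge (μ := μ) hN hL hl (f := fun ω y' => ∑ i ∈ S, v i * L.vec i ω y')
    (obs_sum S fun i => (obs_const (v i)).mul (obs_vec hL i)) y
  linarith

theorem hess_ge {l : ℕ} (hl : l ≤ N.K) {S : Finset ι} {Λ : ℝ} (hS : L.CurvLower S Λ)
    (v : ι → ℝ) (y : ι → ℝ) :
    N.x (l + 1) * (∑ i ∈ S, ∑ k ∈ S, v i * v k * N.cov L μ l i k y) - Λ * ∑ i ∈ S, v i ^ 2 ≤
      ∑ i ∈ S, ∑ k ∈ S, v i * v k * N.hess L μ l i k y := by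
  classical
  induction hl using Nat.decreasingInduction generalizing y with
  | self =>
    have hxx : N.x (N.K + 1) = 1 := hN.x_last
    rw [hxx, one_mul]
    set v' : ι → ℝ := fun i => if i ∈ S then v i else 0
    have hsum : ∀ g : ι → ℝ, ∑ i, g i * v' i = ∑ i ∈ S, g i * v i := by
      intro g
      simp [v', mul_ite, Finset.sum_ite_mem]
    have hsq : ∑ i ∈ S, v' i ^ 2 = ∑ i ∈ S, v i ^ 2 :=
      sum_congr rfl fun i hi => by simp [v', hi]
    have key : ∀ ω y', -(Λ * ∑ i ∈ S, v i ^ 2) ≤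
        ∑ j, L.φ2 j (L.loc ω y' j) * (∑ i ∈ S, L.a ω j i * v i) ^ 2 := by
      intro ω y'
      have := hS.2 ω y' v' (fun i hi => by simp [v', hi])
      simpa only [hsum, hsq] using this
    have oc : ∀ i k, Obs fun ω y' => v i * v k *
        ∑ j, L.φ2 j (L.loc ω y' j) * L.a ω j i * L.a ω j k :=
      fun i k => (obs_const _).mul (obs_curv hL i k)
    have e : ∑ i ∈ S, ∑ k ∈ S, v i * v k * N.hess L μ N.K i k y =
        N.node L μ N.K (fun ω y' => ∑ i ∈ S, ∑ k ∈ S, v i * v k *
          ∑ j, L.φ2 j (L.loc ω y' j) * L.a ω j i * L.a ω j k) y +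
        ∑ i ∈ S, ∑ k ∈ S, v i * v k * N.cov L μ N.K i k y := by
      rw [node_sum hN hL le_rfl S fun i => obs_sum S (oc i), ← sum_add_distrib]
      refine sum_congr rfl fun i _ => ?_
      rw [node_sum hN hL le_rfl S (oc i), ← sum_add_distrib]
      refine sum_congr rfl fun k _ => ?_
      rw [node_const_mul (μ := μ) hN hL, hess_top, Nest.cov, grad_top hN hL, grad_top hN hL,
        node_top hN hL, node_top hN hL,
        gibbs_add hL (obs_curv hL i k) ((obs_vec hL i).mul (obs_vec hL k))]
      ring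
    have h := node_mono (μ := μ) hN hL le_rfl (obs_const (-(Λ * ∑ i ∈ S, v i ^ 2)))
      (obs_sum S fun i => obs_sum S (oc i)) (fun ω y' => ?_) y
    · rw [node_const hN hL le_rfl] at h
      linarith
    · refine (key ω y').trans (le_of_eq ?_)
      simp only [pow_two]
      simp only [sum_mul_sum]
      simp only [mul_sum]
      rw [sum_comm]
      refine sum_congr rfl fun i _ => ?_
      rw [sum_comm]
      exact sum_congr rfl fun k _ => sum_congr rfl fun j _ => by ring
  | of_succ l hl ih =>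
    have hx := (x_succ_pos hN hl).le
    have hxm : N.x (l + 1) ≤ N.x (l + 1 + 1) := hN.x_mono (l + 1) hl
    have tc : ∀ i ∈ S, Tame fun y => ∑ k ∈ S, v i * v k * N.cov L μ (l + 1) i k y :=
      fun i _ => tame_sum S fun k _ => (cov_tame hN hL hl i k).const_mul _
    have th : ∀ i ∈ S, Tame fun y => ∑ k ∈ S, v i * v k * N.hess L μ (l + 1) i k y :=
      fun i _ => tame_sum S fun k _ => (hess_tame hN hL hl i k).const_mul _
    set D := ∑ i ∈ S, ∑ k ∈ S, v i * v k *
      (N.avg (L.logZ μ) l (fun v => N.grad L μ (l + 1) i v * N.grad L μ (l + 1) k v) y -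
          N.grad L μ l i y * N.grad L μ l k y) with hD
    have e1 : ∑ i ∈ S, ∑ k ∈ S, v i * v k * N.hess L μ l i k y =
        N.avg (L.logZ μ) l (fun y => ∑ i ∈ S, ∑ k ∈ S, v i * v k * N.hess L μ (l + 1) i k y) y +
          N.x (l + 1) * D := by
      rw [avg_sum hN hL hl S th, hD, mul_sum, ← sum_add_distrib]
      refine sum_congr rfl fun i hi => ?_
      rw [avg_sum hN hL hl S fun k _ => (hess_tame hN hL hl i k).const_mul _, mul_sum,
        ← sum_add_distrib]
      refine sum_congr rfl fun k _ => ?_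
      rw [avg_const_mul (μ := μ) hN hL, hess_succ hl]
      ring
    have e2 : ∑ i ∈ S, ∑ k ∈ S, v i * v k * N.cov L μ l i k y =
        N.avg (L.logZ μ) l (fun y => ∑ i ∈ S, ∑ k ∈ S, v i * v k * N.cov L μ (l + 1) i k y) y +
          D := by
      rw [avg_sum hN hL hl S tc, hD, ← sum_add_distrib]
      refine sum_congr rfl fun i hi => ?_
      rw [avg_sum hN hL hl S fun k _ => (cov_tame hN hL hl i k).const_mul _, ← sum_add_distrib]
      refine sum_congr rfl fun k _ => ?_
      rw [avg_const_mul (μ := μ) hN hL, cov_succ hN hL hl]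
      ring
    have h := avg_mono (μ := μ) hN hL hl
      (((tame_sum S tc).const_mul (N.x (l + 1))).add (tame_const (-(Λ * ∑ i ∈ S, v i ^ 2))))
      (tame_sum S th) (fun w => le_trans (by
        have := mul_le_mul_of_nonneg_right hxm (cov_nonneg (μ := μ) hN hL hl S v w)
        linarith) (ih w)) y
    rw [avg_add hN hL hl ((tame_sum S tc).const_mul _) (tame_const _), avg_const_mul hN hL,
      avg_const hN hL hl] at h
    rw [e1, e2]
    linarith [mul_add (N.x (l + 1))
      (N.avg (L.logZ μ) l (fun y => ∑ i ∈ S, ∑ k ∈ S, v i * v k * N.cov L μ (l + 1) i k y) y) D]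

end Vale.Agent.P157.Parisi
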