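import Vale.Agent.P157.Parisi.CalcGauss

/-!
One step of the recursion and the leaf: bounds, continuity and directional derivatives.
-/

set_option linter.unusedSectionVars false

namespace Vale.Agent.P157.Parisi

open MeasureTheory ProbabilityTheory Finset Filter Topology

variable {ι : Type} [Fintype ι]

/-- A continuous function of at most linear growth. -/
def LinGrowth (u : (ι → ℝ) → ℝ) : Prop :=
  Continuous u ∧ ∃ C k : ℝ, 0 ≤ C ∧ 0 ≤ k ∧ ∀ y, |u y| ≤ C + k * l1 y

lemma LinGrowth.tame {u : (ι → ℝ) → ℝ} (hu : LinGrowth u) : Tame u := by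
  obtain ⟨hc, C, k, hC, hk, h⟩ := hu
  refine tame_of_bound hc (C := C + 1) (k := k) fun y => (h y).trans ?_
  have h1 := Real.add_one_le_exp (k * l1 y)
  have h2 : (1 : ℝ) ≤ Real.exp (k * l1 y) :=
    Real.one_le_exp (mul_nonneg hk (l1_nonneg y))
  nlinarith

lemma LinGrowth.exp_tame {u : (ι → ℝ) → ℝ} (hu : LinGrowth u) (m : ℝ) :
    Tame fun y => Real.exp (m * u y) := by
  obtain ⟨hc, C, k, -, -, h⟩ := hu
  refine tame_of_bound (Real.continuous_exp.comp (continuous_const.mul hc))
    (C := Real.exp (|m| * C)) (k := |m| * k) fun y => ?_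
  rw [abs_of_pos (Real.exp_pos _), ← Real.exp_add]
  refine Real.exp_le_exp.2 ((le_abs_self _).trans ?_)
  rw [abs_mul]
  have := mul_le_mul_of_nonneg_left (h y) (abs_nonneg m)
  linarith

/-- The average over one tilted increment. -/
noncomputable def stepAvg (m : ℝ) (s : ι → ℝ) (u f : (ι → ℝ) → ℝ) (y : ι → ℝ) : ℝ :=
  tilt m s u (fun y z => f (move s y z)) y

section step

variable {u : (ι → ℝ) → ℝ} (hu : LinGrowth u) (m : ℝ) (s : ι → ℝ)

include hu

lemma stepDen_pos (y : ι → ℝ) : 0 < ∫ z, Real.exp (m * u (move s y z)) ∂gauss ι :=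
  integral_exp_pos ((hu.exp_tame m).comp_move s y).integrable

lemma stepDen_bounds : ∃ a C k : ℝ, 0 < a ∧ 0 ≤ C ∧ 0 ≤ k ∧ ∀ y,
    a * Real.exp (-(k * l1 y)) ≤ ∫ z, Real.exp (m * u (move s y z)) ∂gauss ι ∧
      ∫ z, Real.exp (m * u (move s y z)) ∂gauss ι ≤ C * Real.exp (k * l1 y) := by
  obtain ⟨hc, C, k, hC, hk, h⟩ := id hu
  have hb : ∀ y z, |m * u (move s y z)| ≤ |m| * C + |m| * k * l1 y + |m| * k * l1 s * l1 z := by
    intro y z
    rw [abs_mul]
    have h1 := mul_le_mul_of_nonneg_left (h (move s y z)) (abs_nonneg m)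
    have h2 := mul_le_mul_of_nonneg_left (l1_move_le s y z) (mul_nonneg (abs_nonneg m) hk)
    linarith
  have i1 := integrable_exp_l1 (ι := ι) (-(|m| * k * l1 s))
  have i2 := integrable_exp_l1 (ι := ι) (|m| * k * l1 s)
  refine ⟨Real.exp (-(|m| * C)) * ∫ z, Real.exp (-(|m| * k * l1 s) * l1 z) ∂gauss ι,
    Real.exp (|m| * C) * ∫ z, Real.exp (|m| * k * l1 s * l1 z) ∂gauss ι, |m| * k,
    mul_pos (Real.exp_pos _) (integral_exp_pos i1),
    (mul_pos (Real.exp_pos _) (integral_exp_pos i2)).le, by positivity, fun y => ⟨?_, ?_⟩⟩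
  · rw [mul_right_comm, ← integral_const_mul]
    refine integral_mono (i1.const_mul _) ((hu.exp_tame m).comp_move s y).integrable fun z => ?_
    rw [← Real.exp_add, ← Real.exp_add]
    refine Real.exp_le_exp.2 ?_
    have := (abs_le.1 (hb y z)).1
    linarith
  · rw [mul_right_comm, ← integral_const_mul]
    refine integral_mono ((hu.exp_tame m).comp_move s y).integrable (i2.const_mul _) fun z => ?_
    rw [← Real.exp_add, ← Real.exp_add]
    refine Real.exp_le_exp.2 ?_
    have := (abs_le.1 (hb y z)).2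
    linarith

lemma integrable_exp_move (y : ι → ℝ) :
    Integrable (fun z => Real.exp (m * u (move s y z))) (gauss ι) :=
  ((hu.exp_tame m).comp_move s y).integrable

lemma linGrowth_stepLog : LinGrowth (stepLog m s u) := by
  obtain ⟨a, C, k, ha, hC, hk, h⟩ := stepDen_bounds hu m s
  refine ⟨continuous_const.mul ((continuous_gauss_integral (hu.exp_tame m) s).log
    fun y => (stepDen_pos hu m s y).ne'), |m⁻¹| * (|Real.log a| + |Real.log C|), |m⁻¹| * k,
    by positivity, by positivity, fun y => ?_⟩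
  obtain ⟨h1, h2⟩ := h y
  have hp : 0 < a * Real.exp (-(k * l1 y)) := mul_pos ha (Real.exp_pos _)
  have hC' : C ≠ 0 := by
    intro h0
    rw [h0, zero_mul] at h2
    linarith [stepDen_pos hu m s y]
  have e1 := Real.log_le_log hp h1
  have e2 := Real.log_le_log (stepDen_pos hu m s y) h2
  rw [Real.log_mul ha.ne' (Real.exp_ne_zero _), Real.log_exp] at e1
  rw [Real.log_mul hC' (Real.exp_ne_zero _), Real.log_exp] at e2
  rw [stepLog, abs_mul, mul_assoc, ← mul_add]
  refine mul_le_mul_of_nonneg_left ?_ (abs_nonneg _)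
  have := le_abs_self (Real.log C)
  have := neg_abs_le (Real.log a)
  have := abs_nonneg (Real.log C)
  have := abs_nonneg (Real.log a)
  rw [abs_le]
  constructor <;> linarith

lemma tame_stepAvg {f : (ι → ℝ) → ℝ} (hf : Tame f) : Tame (stepAvg m s u f) := by
  have hnum := ((hu.exp_tame m).mul hf).gauss_step s
  obtain ⟨C, k, hC, hk, hb⟩ := hnum.bound
  obtain ⟨a, D, l, ha, -, hl, h⟩ := stepDen_bounds hu m s
  refine tame_of_bound (hnum.1.div (continuous_gauss_integral (hu.exp_tame m) s)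
    fun y => (stepDen_pos hu m s y).ne') (C := C / a) (k := k + l) fun y => ?_
  have hp := stepDen_pos hu m s y
  simp only [stepAvg, tilt, abs_div, abs_of_pos hp]
  rw [div_le_iff₀ hp]
  calc |∫ z, Real.exp (m * u (move s y z)) * f (move s y z) ∂gauss ι|
      ≤ C * Real.exp (k * l1 y) := hb y
    _ = C / a * Real.exp ((k + l) * l1 y) * (a * Real.exp (-(l * l1 y))) := by
        rw [show (k + l) * l1 y = k * l1 y + l * l1 y by ring, Real.exp_add, Real.exp_neg]
        field_simp
    _ ≤ _ := mul_le_mul_of_nonneg_left (h y).1 (by positivity)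

lemma stepAvg_add {f g : (ι → ℝ) → ℝ} (hf : Tame f) (hg : Tame g) (y : ι → ℝ) :
    stepAvg m s u (fun v => f v + g v) y = stepAvg m s u f y + stepAvg m s u g y := by
  simp only [stepAvg, tilt, mul_add]
  rw [← add_div, integral_add (((hu.exp_tame m).mul hf).comp_move s y).integrable
    (((hu.exp_tame m).mul hg).comp_move s y).integrable]

lemma stepAvg_const (c : ℝ) (y : ι → ℝ) : stepAvg m s u (fun _ => c) y = c := by
  simp only [stepAvg, tilt, integral_mul_const]
  rw [mul_div_cancel_left₀ c (stepDen_pos hu m s y).ne']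

lemma stepAvg_mono {f g : (ι → ℝ) → ℝ} (hf : Tame f) (hg : Tame g) (h : ∀ v, f v ≤ g v)
    (y : ι → ℝ) : stepAvg m s u f y ≤ stepAvg m s u g y :=
  div_le_div_of_nonneg_right (integral_mono (((hu.exp_tame m).mul hf).comp_move s y).integrable
    (((hu.exp_tame m).mul hg).comp_move s y).integrable
    fun z => mul_le_mul_of_nonneg_left (h _) (Real.exp_pos _).le) (stepDen_pos hu m s y).le

lemma gradOf_stepLog {g : ι → (ι → ℝ) → ℝ} (hg : ∀ i, Tame (g i)) (h : GradOf u g) (hm : m ≠ 0) :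
    GradOf (stepLog m s u) fun i => stepAvg m s u (g i) := by
  intro y v
  have hd := ((h.exp m).gauss_step (hu.exp_tame m)
    (fun i => (hu.exp_tame m).mul ((hg i).const_mul m)) s y v)
  have := (hd.log (by simpa using (stepDen_pos hu m s y).ne')).const_mul m⁻¹
  refine this.congr_deriv ?_
  simp only [zero_mul, add_zero, stepAvg, tilt, sum_div, mul_sum]
  refine sum_congr rfl fun i _ => ?_
  simp only [← mul_assoc _ m, mul_comm _ m, mul_assoc m, integral_const_mul]
  have := (stepDen_pos hu m s y).ne'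
  field_simp

lemma gradOf_stepAvg {g h : ι → (ι → ℝ) → ℝ} {f : (ι → ℝ) → ℝ} (hg : ∀ i, Tame (g i))
    (hug : GradOf u g) (hf : Tame f) (hh : ∀ i, Tame (h i)) (hfh : GradOf f h) :
    GradOf (stepAvg m s u f) fun i y => stepAvg m s u (h i) y +
      m * (stepAvg m s u (fun v => f v * g i v) y -
        stepAvg m s u f y * stepAvg m s u (g i) y) := by
  intro y v
  have hE := hu.exp_tame m
  have h1 := ((hug.exp m).mul hfh).gauss_step (hE.mul hf)
    (fun i => ((hE.mul ((hg i).const_mul m)).mul hf).add (hE.mul (hh i))) s y v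
  have h2 := (hug.exp m).gauss_step hE (fun i => hE.mul ((hg i).const_mul m)) s y v
  have := h1.fun_div h2 (by simpa using (stepDen_pos hu m s y).ne')
  refine this.congr_deriv ?_
  simp only [zero_mul, add_zero, stepAvg, tilt]
  rw [sum_mul, mul_sum, ← sum_sub_distrib, sum_div]
  refine sum_congr rfl fun i _ => ?_
  rw [integral_add (((hE.mul ((hg i).const_mul m)).mul hf).comp_move s y).integrable
    ((hE.mul (hh i)).comp_move s y).integrable]
  have e1 : ∫ z, Real.exp (m * u (move s y z)) * (m * g i (move s y z)) * f (move s y z) ∂gauss ι =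
      m * ∫ z, Real.exp (m * u (move s y z)) * (f (move s y z) * g i (move s y z)) ∂gauss ι := by
    rw [← integral_const_mul]
    exact integral_congr_ae (.of_forall fun z => by ring)
  have e2 : ∫ z, Real.exp (m * u (move s y z)) * (m * g i (move s y z)) ∂gauss ι =
      m * ∫ z, Real.exp (m * u (move s y z)) * g i (move s y z) ∂gauss ι := by
    rw [← integral_const_mul]
    exact integral_congr_ae (.of_forall fun z => by ring)
  rw [e1, e2]
  have := (stepDen_pos hu m s y).ne'
  field_simp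
  ring

end step

lemma stepAvg_const_mul (m : ℝ) (s : ι → ℝ) (u : (ι → ℝ) → ℝ) (c : ℝ) (f : (ι → ℝ) → ℝ)
    (y : ι → ℝ) : stepAvg m s u (fun v => c * f v) y = c * stepAvg m s u f y := by
  simp only [stepAvg, tilt, mul_left_comm _ c, integral_const_mul, mul_div_assoc]

lemma stepLog_mono {m : ℝ} (s : ι → ℝ) {u v : (ι → ℝ) → ℝ} (hu : LinGrowth u) (hv : LinGrowth v)
    (hm : 0 < m) (h : ∀ w, u w ≤ v w) (y : ι → ℝ) : stepLog m s u y ≤ stepLog m s v y :=
  mul_le_mul_of_nonneg_left (Real.log_le_log (stepDen_pos hu m s y)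
    (integral_mono (integrable_exp_move hu m s y) (integrable_exp_move hv m s y) fun _ =>
      Real.exp_le_exp.2 (mul_le_mul_of_nonneg_left (h _) hm.le))) (inv_nonneg.2 hm.le)

/-! ### The leaf -/

variable {Ω κ : Type} [Fintype κ] [MeasurableSpace Ω] {L : Leaf Ω κ ι} {B : ℝ}
  {μ : Measure Ω} [IsProbabilityMeasure μ]

lemma Obs.bound {f : Ω → (ι → ℝ) → ℝ} (hf : Obs f) : ∃ C, 0 ≤ C ∧ ∀ ω y, |f ω y| ≤ C := by
  obtain ⟨-, -, C, h⟩ := hf
  exact ⟨max C 0, le_max_right _ _, fun ω y => (h ω y).trans (le_max_left _ _)⟩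

omit [Fintype ι] in
lemma obs_const (c : ℝ) : Obs (fun (_ : Ω) (_ : ι → ℝ) => c) :=
  ⟨fun _ => measurable_const, fun _ => continuous_const, |c|, fun _ _ => le_rfl⟩

omit [Fintype ι] in
lemma Obs.add {f g : Ω → (ι → ℝ) → ℝ} (hf : Obs f) (hg : Obs g) :
    Obs fun ω y => f ω y + g ω y := by
  obtain ⟨m1, c1, C, b1⟩ := hf
  obtain ⟨m2, c2, D, b2⟩ := hg
  exact ⟨fun y => (m1 y).add (m2 y), fun ω => (c1 ω).add (c2 ω), C + D,
    fun ω y => (abs_add_le _ _).trans (add_le_add (b1 ω y) (b2 ω y))⟩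

omit [Fintype ι] in
lemma Obs.mul {f g : Ω → (ι → ℝ) → ℝ} (hf : Obs f) (hg : Obs g) :
    Obs fun ω y => f ω y * g ω y := by
  obtain ⟨m1, c1, C, b1⟩ := hf
  obtain ⟨m2, c2, D, b2⟩ := hg
  exact ⟨fun y => (m1 y).mul (m2 y), fun ω => (c1 ω).mul (c2 ω), C * D, fun ω y => by
    rw [abs_mul]
    exact mul_le_mul (b1 ω y) (b2 ω y) (abs_nonneg _) ((abs_nonneg _).trans (b1 ω y))⟩

omit [Fintype ι] in
lemma obs_sum {β : Type*} (T : Finset β) {f : β → Ω → (ι → ℝ) → ℝ} (hf : ∀ b, Obs (f b)) :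
    Obs fun ω y => ∑ b ∈ T, f b ω y := by
  classical
  induction T using Finset.induction with
  | empty => simpa using obs_const (Ω := Ω) (ι := ι) 0
  | insert a T ha ih =>
    simp only [sum_insert ha]
    exact (hf a).add ih

/-- The tilted integral of an observable at the leaf. -/
noncomputable def Leaf.zint (L : Leaf Ω κ ι) (μ : Measure Ω) (f : Ω → (ι → ℝ) → ℝ) (y : ι → ℝ) :
    ℝ :=
  ∫ ω, Real.exp (L.ham ω y) * f ω y ∂μ

lemma gibbs_eq_zint (f : Ω → (ι → ℝ) → ℝ) (y : ι → ℝ) :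
    L.gibbs μ f y = L.zint μ f y / L.zint μ (fun _ _ => 1) y := by
  simp [Leaf.gibbs, Leaf.zint]

lemma gibbs_const_mul (c : ℝ) (f : Ω → (ι → ℝ) → ℝ) (y : ι → ℝ) :
    L.gibbs μ (fun ω v => c * f ω v) y = c * L.gibbs μ f y := by
  simp only [Leaf.gibbs, mul_left_comm _ c, integral_const_mul, mul_div_assoc]

section leaf

variable (hL : L.Good B)

include hL

lemma measurable_loc (y : ι → ℝ) (j : κ) : Measurable fun ω => L.loc ω y j :=
  Finset.measurable_sum _ fun i _ => (hL.meas j i).mul_const _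

lemma abs_loc_le (ω : Ω) (y : ι → ℝ) (j : κ) : |L.loc ω y j| ≤ B * l1 y := by
  refine (abs_sum_le_sum_abs _ _).trans ?_
  rw [l1, mul_sum]
  refine sum_le_sum fun i _ => ?_
  rw [abs_mul]
  exact mul_le_mul_of_nonneg_right (hL.bound ω j i) (abs_nonneg _)

omit hL in
lemma continuous_loc (ω : Ω) (j : κ) : Continuous fun y => L.loc ω y j := by
  unfold Leaf.loc; fun_prop

lemma continuous_phi (j : κ) : Continuous (L.φ j) :=
  continuous_iff_continuousAt.2 fun z => (hL.deriv1 j z).continuousAt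

lemma continuous_phi1 (j : κ) : Continuous (L.φ1 j) :=
  continuous_iff_continuousAt.2 fun z => (hL.deriv2 j z).continuousAt

lemma abs_phi_le (j : κ) (z : ℝ) : |L.φ j z| ≤ |L.φ j 0| + B * |z| := by
  have := Convex.norm_image_sub_le_of_norm_hasDerivWithin_le (f := L.φ j) (f' := L.φ1 j)
    (fun w _ => (hL.deriv1 j w).hasDerivWithinAt)
    (fun w _ => by simpa [Real.norm_eq_abs] using hL.bound1 j w)
    convex_univ (Set.mem_univ 0) (Set.mem_univ z)
  simp only [Real.norm_eq_abs, sub_zero] at this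
  linarith [abs_sub_abs_le_abs_sub (L.φ j z) (L.φ j 0)]

lemma abs_ham_le : ∃ C k : ℝ, 0 ≤ C ∧ 0 ≤ k ∧ ∀ ω y, |L.ham ω y| ≤ C + k * l1 y := by
  refine ⟨∑ j, |L.φ j 0|, (Fintype.card κ : ℝ) * (B * B), sum_nonneg fun _ _ => abs_nonneg _,
    by have := hL.nonneg; positivity, fun ω y => ?_⟩
  refine (abs_sum_le_sum_abs _ _).trans ?_
  calc ∑ j, |L.φ j (L.loc ω y j)| ≤ ∑ j, (|L.φ j 0| + B * (B * l1 y)) :=
        sum_le_sum fun j _ => (abs_phi_le hL j _).trans
          (add_le_add_right (mul_le_mul_of_nonneg_left (abs_loc_le hL ω y j) hL.nonneg) _)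
    _ = _ := by rw [sum_add_distrib, sum_const, card_univ, nsmul_eq_mul]; ring

lemma measurable_ham (y : ι → ℝ) : Measurable fun ω => L.ham ω y :=
  Finset.measurable_sum _ fun j _ =>
    (continuous_phi hL j).measurable.comp (measurable_loc hL y j)

lemma continuous_ham (ω : Ω) : Continuous (L.ham ω) :=
  continuous_finsetSum _ fun j _ => (continuous_phi hL j).comp (continuous_loc ω j)

lemma obs_phi1 (j : κ) : Obs fun ω y => L.φ1 j (L.loc ω y j) :=
  ⟨fun y => (continuous_phi1 hL j).measurable.comp (measurable_loc hL y j),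
    fun ω => (continuous_phi1 hL j).comp (continuous_loc ω j), B, fun _ _ => hL.bound1 _ _⟩

lemma obs_phi2 (j : κ) : Obs fun ω y => L.φ2 j (L.loc ω y j) :=
  ⟨fun y => (hL.cont2 j).measurable.comp (measurable_loc hL y j),
    fun ω => (hL.cont2 j).comp (continuous_loc ω j), B, fun _ _ => hL.bound2 _ _⟩

lemma obs_coef (j : κ) (i : ι) : Obs fun ω (_ : ι → ℝ) => L.a ω j i :=
  ⟨fun _ => hL.meas j i, fun _ => continuous_const, B, fun ω _ => hL.bound ω j i⟩

lemma obs_vec (i : ι) : Obs (L.vec i) :=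
  obs_sum _ fun j => (obs_phi1 hL j).mul (obs_coef hL j i)

lemma obs_curv (i k : ι) : Obs fun ω y => ∑ j, L.φ2 j (L.loc ω y j) * L.a ω j i * L.a ω j k :=
  obs_sum _ fun j => ((obs_phi2 hL j).mul (obs_coef hL j i)).mul (obs_coef hL j k)

lemma gradOf_ham (ω : Ω) : GradOf (L.ham ω) fun i => L.vec i ω := by
  intro y v
  have hloc : ∀ j, HasDerivAt (fun t : ℝ => L.loc ω (fun i => y i + t * v i) j)
      (∑ i, L.a ω j i * v i) 0 := by
    intro j
    simp only [Leaf.loc]
    refine HasDerivAt.fun_sum fun i _ => ?_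
    simpa using (((hasDerivAt_id (0 : ℝ)).mul_const (v i)).const_add (y i)).const_mul (L.a ω j i)
  have := HasDerivAt.fun_sum fun j (_ : j ∈ (univ : Finset κ)) =>
    (hL.deriv1 j (L.loc ω (fun i => y i + 0 * v i) j)).comp (0 : ℝ) (hloc j)
  refine HasDerivAt.congr_deriv (f := fun t : ℝ => L.ham ω fun i => y i + t * v i) this ?_
  simp only [zero_mul, add_zero, Leaf.vec, mul_sum]
  rw [sum_comm]
  exact sum_congr rfl fun j _ => sum_congr rfl fun i _ => by ring

lemma gradOf_vec (ω : Ω) (i : ι) :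
    GradOf (L.vec i ω) fun k y => ∑ j, L.φ2 j (L.loc ω y j) * L.a ω j i * L.a ω j k := by
  intro y v
  have hloc : ∀ j, HasDerivAt (fun t : ℝ => L.loc ω (fun i => y i + t * v i) j)
      (∑ i, L.a ω j i * v i) 0 := by
    intro j
    simp only [Leaf.loc]
    refine HasDerivAt.fun_sum fun i _ => ?_
    simpa using (((hasDerivAt_id (0 : ℝ)).mul_const (v i)).const_add (y i)).const_mul (L.a ω j i)
  have := HasDerivAt.fun_sum fun j (_ : j ∈ (univ : Finset κ)) =>
    ((hL.deriv2 j (L.loc ω (fun i => y i + 0 * v i) j)).comp (0 : ℝ) (hloc j)).mul_const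
      (L.a ω j i)
  refine HasDerivAt.congr_deriv (f := fun t : ℝ => L.vec i ω fun i => y i + t * v i) this ?_
  simp only [zero_mul, add_zero, mul_sum, sum_mul]
  rw [sum_comm]
  exact sum_congr rfl fun j _ => sum_congr rfl fun i _ => by ring

lemma integrable_zint {f : Ω → (ι → ℝ) → ℝ} (hf : Obs f) (y : ι → ℝ) :
    Integrable (fun ω => Real.exp (L.ham ω y) * f ω y) μ := by
  obtain ⟨C, k, -, -, hH⟩ := abs_ham_le hL
  obtain ⟨D, -, hD⟩ := hf.bound
  refine Integrable.of_bound ((measurable_ham hL y).exp.mul (hf.1 y)).aestronglyMeasurable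
    (Real.exp (C + k * l1 y) * D) (.of_forall fun ω => ?_)
  rw [Real.norm_eq_abs, abs_mul, abs_of_pos (Real.exp_pos _)]
  exact mul_le_mul (Real.exp_le_exp.2 (abs_le.1 (hH ω y)).2) (hD ω y) (abs_nonneg _)
    (Real.exp_pos _).le

lemma zint_one_pos (y : ι → ℝ) : 0 < L.zint μ (fun _ _ => 1) y := by
  have := integral_exp_pos (f := fun ω => L.ham ω y)
    (by simpa using integrable_zint (μ := μ) hL (obs_const 1) y)
  simpa [Leaf.zint] using this

lemma continuous_zint {f : Ω → (ι → ℝ) → ℝ} (hf : Obs f) : Continuous (L.zint μ f) := by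
  obtain ⟨C, k, -, hk, hH⟩ := abs_ham_le hL
  obtain ⟨D, -, hD⟩ := hf.bound
  refine continuous_iff_continuousAt.2 fun y₀ => ?_
  refine continuousAt_of_dominated (bound := fun _ => Real.exp (C + k * (l1 y₀ + 1)) * D)
    (.of_forall fun y => (integrable_zint hL hf y).aestronglyMeasurable) ?_ (integrable_const _)
    (.of_forall fun ω =>
      ((Real.continuous_exp.comp (continuous_ham hL ω)).mul (hf.2.1 ω)).continuousAt)
  have : ∀ᶠ y in 𝓝 y₀, l1 y < l1 y₀ + 1 :=
    (continuous_l1.tendsto y₀).eventually (eventually_lt_nhds (by linarith))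
  filter_upwards [this] with y hy
  refine .of_forall fun ω => ?_
  rw [Real.norm_eq_abs, abs_mul, abs_of_pos (Real.exp_pos _)]
  refine mul_le_mul (Real.exp_le_exp.2 ?_) (hD ω y) (abs_nonneg _) (Real.exp_pos _).le
  have := (abs_le.1 (hH ω y)).2
  have := mul_le_mul_of_nonneg_left hy.le hk
  linarith

lemma linGrowth_logZ : LinGrowth (L.logZ μ) := by
  obtain ⟨C, k, hC, hk, hH⟩ := abs_ham_le hL
  have e : L.logZ μ = fun y => Real.log (L.zint μ (fun _ _ => 1) y) := by
    funext y; simp [Leaf.logZ, Leaf.zint]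
  refine ⟨e ▸ (continuous_zint hL (obs_const 1)).log fun y => (zint_one_pos hL y).ne',
    C, k, hC, hk, fun y => ?_⟩
  have hi : Integrable (fun ω => Real.exp (L.ham ω y)) μ := by
    simpa using integrable_zint (μ := μ) hL (obs_const 1) y
  have h1 : Real.exp (-(C + k * l1 y)) ≤ ∫ ω, Real.exp (L.ham ω y) ∂μ := by
    simpa using integral_mono (integrable_const _) hi fun ω =>
      Real.exp_le_exp.2 (abs_le.1 (hH ω y)).1
  have h2 : ∫ ω, Real.exp (L.ham ω y) ∂μ ≤ Real.exp (C + k * l1 y) := by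
    simpa using integral_mono hi (integrable_const _) fun ω =>
      Real.exp_le_exp.2 (abs_le.1 (hH ω y)).2
  rw [Leaf.logZ, abs_le]
  refine ⟨?_, ?_⟩
  · simpa using Real.log_le_log (Real.exp_pos _) h1
  · simpa using Real.log_le_log (lt_of_lt_of_le (Real.exp_pos _) h1) h2

lemma gibbs_add {f g : Ω → (ι → ℝ) → ℝ} (hf : Obs f) (hg : Obs g) (y : ι → ℝ) :
    L.gibbs μ (fun ω v => f ω v + g ω v) y = L.gibbs μ f y + L.gibbs μ g y := by
  simp only [Leaf.gibbs, mul_add]
  rw [← add_div, integral_add (integrable_zint hL hf y) (integrable_zint hL hg y)]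

lemma gibbs_const (c : ℝ) (y : ι → ℝ) : L.gibbs μ (fun _ _ => c) y = c := by
  simp only [Leaf.gibbs, integral_mul_const]
  rw [mul_div_cancel_left₀]
  simpa [Leaf.zint] using (zint_one_pos (μ := μ) hL y).ne'

lemma gibbs_mono {f g : Ω → (ι → ℝ) → ℝ} (hf : Obs f) (hg : Obs g) (h : ∀ ω v, f ω v ≤ g ω v)
    (y : ι → ℝ) : L.gibbs μ f y ≤ L.gibbs μ g y :=
  div_le_div_of_nonneg_right (integral_mono (integrable_zint hL hf y) (integrable_zint hL hg y)
    fun ω => mul_le_mul_of_nonneg_left (h ω y) (Real.exp_pos _).le)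
    (integral_nonneg fun _ => (Real.exp_pos _).le)

lemma tame_gibbs {f : Ω → (ι → ℝ) → ℝ} (hf : Obs f) : Tame (L.gibbs μ f) := by
  obtain ⟨D, -, hD⟩ := hf.bound
  refine tame_of_bounded ?_ (C := D) fun y => abs_le.2 ⟨?_, ?_⟩
  · rw [show L.gibbs μ f = _ from funext (gibbs_eq_zint f)]
    exact (continuous_zint hL hf).div (continuous_zint hL (obs_const 1))
      fun y => (zint_one_pos hL y).ne'
  · simpa [gibbs_const hL] using
      gibbs_mono (μ := μ) hL (obs_const (-D)) hf (fun ω v => (abs_le.1 (hD ω v)).1) y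
  · simpa [gibbs_const hL] using
      gibbs_mono (μ := μ) hL hf (obs_const D) (fun ω v => (abs_le.1 (hD ω v)).2) y

lemma hasDerivAt_zint {f : Ω → (ι → ℝ) → ℝ} {f' : ι → Ω → (ι → ℝ) → ℝ} (hf : Obs f)
    (hf' : ∀ i, Obs (f' i)) (hd : ∀ ω, GradOf (f ω) fun i => f' i ω) :
    GradOf (L.zint μ f) fun i => L.zint μ fun ω y => L.vec i ω y * f ω y + f' i ω y := by
  intro y v
  have hg : ∀ i, Obs fun ω y => L.vec i ω y * f ω y + f' i ω y :=
    fun i => ((obs_vec hL i).mul hf).add (hf' i)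
  have hsum : Obs fun ω y => ∑ i, v i * (L.vec i ω y * f ω y + f' i ω y) :=
    obs_sum _ fun i => (obs_const (v i)).mul (hg i)
  obtain ⟨C, k, -, hk, hH⟩ := abs_ham_le hL
  obtain ⟨D, -, hD⟩ := hsum.bound
  have key : ∀ ω, ∀ t : ℝ,
      HasDerivAt (fun t : ℝ => Real.exp (L.ham ω fun i => y i + t * v i) *
          f ω (fun i => y i + t * v i))
        (Real.exp (L.ham ω fun i => y i + t * v i) *
          ∑ i, v i * (L.vec i ω (fun i => y i + t * v i) * f ω (fun i => y i + t * v i) +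
            f' i ω (fun i => y i + t * v i))) t := by
    intro ω t
    refine (((gradOf_ham hL ω).line y v t).exp.fun_mul ((hd ω).line y v t)).congr_deriv ?_
    simp only [mul_sum, sum_mul, ← sum_add_distrib]
    exact sum_congr rfl fun i _ => by ring
  have := (hasDerivAt_integral_of_dominated_loc_of_deriv_le (μ := μ) (x₀ := (0 : ℝ))
    (F := fun t ω => Real.exp (L.ham ω fun i => y i + t * v i) * f ω (fun i => y i + t * v i))
    (F' := fun t ω => Real.exp (L.ham ω fun i => y i + t * v i) *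
      ∑ i, v i * (L.vec i ω (fun i => y i + t * v i) * f ω (fun i => y i + t * v i) +
        f' i ω (fun i => y i + t * v i)))
    (bound := fun _ => Real.exp (C + k * (l1 y + l1 v)) * D)
    (Metric.ball_mem_nhds (0 : ℝ) one_pos)
    (.of_forall fun t => (integrable_zint hL hf _).aestronglyMeasurable)
    (integrable_zint hL hf _) (integrable_zint hL hsum _).aestronglyMeasurable
    (.of_forall fun ω t ht => ?_) (integrable_const _) (.of_forall fun ω t _ => key ω t)).2
  · refine this.congr_deriv ?_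
    simp only [zero_mul, add_zero, Leaf.zint, mul_sum]
    rw [integral_finsetSum]
    · refine sum_congr rfl fun i _ => ?_
      rw [← integral_const_mul]
      exact integral_congr_ae (.of_forall fun ω => by ring)
    · intro i _
      exact ((integrable_zint hL (hg i) y).const_mul (v i)).congr (.of_forall fun ω => by ring)
  · rw [Real.norm_eq_abs, abs_mul, abs_of_pos (Real.exp_pos _)]
    refine mul_le_mul (Real.exp_le_exp.2 ?_) (hD ω _) (abs_nonneg _) (Real.exp_pos _).le
    have h1 := (abs_le.1 (hH ω fun i => y i + t * v i)).2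
    have h2 := l1_add_le y fun i => t * v i
    rw [l1_smul] at h2
    have ht' : |t| ≤ 1 := by simpa [Real.dist_eq] using (Metric.mem_ball.1 ht).le
    have h3 := mul_le_mul_of_nonneg_right ht' (l1_nonneg v)
    have h4 := mul_le_mul_of_nonneg_left (h2.trans (by linarith : _ ≤ l1 y + l1 v)) hk
    linarith

lemma gradOf_logZ : GradOf (L.logZ μ) fun i => L.gibbs μ (L.vec i) := by
  intro y v
  have h := hasDerivAt_zint (μ := μ) hL (obs_const 1) (fun _ => obs_const 0)
    (fun _ y v => by simpa using hasDerivAt_const (0 : ℝ) (1 : ℝ)) y v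
  have h2 := h.log (zint_one_pos hL _).ne'
  have e : ∀ w, Real.log (L.zint μ (fun _ _ => 1) w) = L.logZ μ w := fun w => by
    simp [Leaf.logZ, Leaf.zint]
  simp only [e] at h2
  refine h2.congr_deriv ?_
  simp only [zero_mul, add_zero, mul_one, gibbs_eq_zint, sum_div, mul_div_assoc]

lemma gradOf_gibbs {f : Ω → (ι → ℝ) → ℝ} {f' : ι → Ω → (ι → ℝ) → ℝ} (hf : Obs f)
    (hf' : ∀ i, Obs (f' i)) (hd : ∀ ω, GradOf (f ω) fun i => f' i ω) :
    GradOf (L.gibbs μ f) fun i y => L.gibbs μ (fun ω y => L.vec i ω y * f ω y + f' i ω y) y -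
      L.gibbs μ f y * L.gibbs μ (L.vec i) y := by
  intro y v
  have h1 := hasDerivAt_zint (μ := μ) hL hf hf' hd y v
  have h2 := hasDerivAt_zint (μ := μ) hL (obs_const 1) (fun _ => obs_const 0)
    (fun _ y v => by simpa using hasDerivAt_const (0 : ℝ) (1 : ℝ)) y v
  have := h1.fun_div h2 (zint_one_pos hL _).ne'
  simp only [← gibbs_eq_zint] at this
  refine this.congr_deriv ?_
  simp only [zero_mul, add_zero, mul_one]
  rw [sum_mul, mul_sum, ← sum_sub_distrib, sum_div]
  refine sum_congr rfl fun i _ => ?_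
  have := (zint_one_pos (μ := μ) hL y).ne'
  simp only [gibbs_eq_zint]
  field_simp

end leaf

end Vale.Agent.P157.Parisi
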