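import Vale.Agent.P157.Parisi.Pin

/-! The weighted product error over a uniform grid of levels. -/

namespace Vale.Agent.P157.Parisi

open MeasureTheory ProbabilityTheory Finset Pin

/-- The product error at level `l`. -/
noncomputable def Nest.prodErr {ι Ω κ γ : Type} [Fintype ι] [Fintype κ] [MeasurableSpace Ω]
    [Fintype γ] (N : Nest ι) (L : Leaf Ω κ ι) (μ : Measure Ω) (S : Finset ι) (D : ℝ)
    (b : γ → Ω → (ι → ℝ) → ℝ) (l : ℕ) : ℝ :=
  N.mean (L.logZ μ) l fun y =>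
    |(∑ c, ∑ i ∈ S, N.node L μ l (fun ω v => L.vec i ω v * b c ω v) y ^ 2) / D -
      N.ovl L μ S D l * ∑ c, N.node L μ l (b c) y ^ 2|

/-- The arithmetic of the weighted sum. -/
lemma Pin.grid_arith {n : ℕ} {e η a δ : ℕ → ℝ} {w Γ β r Δ en en' : ℝ}
    (hw0 : 0 ≤ w) (hw1 : w ≤ 1) (hwn : w * n ≤ 1) (hΓ : 1 ≤ Γ) (hβ : 0 ≤ β) (hr : 0 ≤ r)
    (hΔ : 0 ≤ Δ) (hη : ∀ l, η l = δ l + r) (hδ : ∀ l < n, 0 ≤ δ l)
    (hsum : ∑ l ∈ range n, δ l ≤ Γ) (ha : ∑ l ∈ range n, a l ≤ 2 * Δ)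
    (he : ∀ l < n, e l ≤ β * (w * η l + 2 * Real.sqrt Γ * (w * Real.sqrt (η l)) + a l +
      2 * (w * δ l))) (hen : en ≤ w * (Γ * β)) (hen' : en' ≤ w * (Γ * β)) :
    ∑ l ∈ range n, e l + en + en' ≤ 20 * Γ * β * (Real.sqrt w + Real.sqrt r + r + Δ) := by
  set sw := Real.sqrt w with hsw
  have hwsw : w ≤ sw := by rw [hsw, Real.le_sqrt hw0 hw0]; nlinarith
  have hsw0 : 0 ≤ sw := Real.sqrt_nonneg _
  have hsr : 0 ≤ Real.sqrt r := Real.sqrt_nonneg _
  have hδ0 : 0 ≤ ∑ l ∈ range n, δ l := sum_nonneg fun l hl => hδ l (mem_range.1 hl)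
  have hη0 : ∀ l ∈ range n, 0 ≤ η l := fun l hl => by
    rw [hη]; exact add_nonneg (hδ l (mem_range.1 hl)) hr
  have hsumη : w * ∑ l ∈ range n, η l ≤ w * Γ + r := by
    simp only [hη]
    rw [sum_add_distrib, sum_const, card_range, nsmul_eq_mul, mul_add, ← mul_assoc]
    exact add_le_add (mul_le_mul_of_nonneg_left hsum hw0) (mul_le_of_le_one_left hr hwn)
  have hsqrt : w * ∑ l ∈ range n, Real.sqrt (η l) ≤ Real.sqrt Γ * sw + Real.sqrt r := by
    have h1 : (∑ l ∈ range n, Real.sqrt (η l)) ^ 2 ≤ n * ∑ l ∈ range n, η l := by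
      refine (sq_sum_le_card_mul_sum_sq (f := fun l => Real.sqrt (η l))).trans (le_of_eq ?_)
      rw [card_range]
      exact congrArg _ (sum_congr rfl fun l hl => Real.sq_sqrt (hη0 l hl))
    refine le_of_sq_le_sq ?_ (by positivity)
    have hS0 : 0 ≤ w * ∑ l ∈ range n, η l := mul_nonneg hw0 (sum_nonneg hη0)
    calc (w * ∑ l ∈ range n, Real.sqrt (η l)) ^ 2
        ≤ w * n * (w * ∑ l ∈ range n, η l) := by
          rw [mul_pow]; nlinarith [mul_le_mul_of_nonneg_left h1 (sq_nonneg w)]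
      _ ≤ 1 * (w * Γ + r) := mul_le_mul hwn hsumη hS0 zero_le_one
      _ ≤ _ := by
          rw [add_sq, mul_pow, Real.sq_sqrt (by linarith : (0:ℝ) ≤ Γ), Real.sq_sqrt hw0,
            Real.sq_sqrt hr]
          nlinarith [mul_nonneg (mul_nonneg (Real.sqrt_nonneg Γ) hsw0) hsr]
  have h := sum_le_sum fun l (hl : l ∈ range n) => he l (mem_range.1 hl)
  simp only [← mul_sum, sum_add_distrib] at h
  have hG : Real.sqrt Γ * Real.sqrt Γ = Γ := Real.mul_self_sqrt (by linarith)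
  have hsG : Real.sqrt Γ ≤ Γ := by nlinarith [Real.one_le_sqrt.2 hΓ]
  have p1 : 2 * Real.sqrt Γ * (w * ∑ l ∈ range n, Real.sqrt (η l)) ≤
      2 * Γ * sw + 2 * Γ * Real.sqrt r := by
    refine (mul_le_mul_of_nonneg_left hsqrt (by positivity)).trans ?_
    have := mul_le_mul_of_nonneg_right hsG hsr
    nlinarith
  have p2 : w * ∑ l ∈ range n, δ l ≤ Γ * sw := by
    rw [mul_comm Γ]; exact mul_le_mul hwsw hsum hδ0 hsw0
  have p3 : w * Γ ≤ Γ * sw := by rw [mul_comm]; exact mul_le_mul_of_nonneg_left hwsw (by linarith)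
  have p4 : r ≤ Γ * r := le_mul_of_one_le_left hr hΓ
  have p5 : Δ ≤ Γ * Δ := le_mul_of_one_le_left hΔ hΓ
  have q1 : 0 ≤ Γ * sw := by positivity
  have q2 : 0 ≤ Γ * Real.sqrt r := by positivity
  have fin : w * ∑ l ∈ range n, η l +
      2 * Real.sqrt Γ * (w * ∑ l ∈ range n, Real.sqrt (η l)) + ∑ l ∈ range n, a l +
      2 * (w * ∑ l ∈ range n, δ l) + 2 * (w * Γ) ≤
        20 * Γ * (sw + Real.sqrt r + r + Δ) := by
    linarith [hsumη, p1, p2, p3, ha]
  have := mul_le_mul_of_nonneg_left fin hβ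
  linarith

theorem prodErr_sum {ι Ω κ γ : Type} [Fintype ι] [Fintype κ] [MeasurableSpace Ω] [Fintype γ]
    {N : Nest ι} {L : Leaf Ω κ ι} {μ : Measure Ω} [IsProbabilityMeasure μ] {B : ℝ}
    (hN : N.Good) (hL : L.Good B) {K : ℕ} (hK : N.K = K + 1)
    (hx : ∀ l ≤ K + 1, N.x l = (l : ℝ) / ((K : ℝ) + 1))
    (S : Finset ι) {Γ D β σ₀ : ℝ} (hD : 1 ≤ D) (hΓ : 1 ≤ Γ) (hS : L.CurvLower S Γ) (hσ : 0 < σ₀)
    (hamp : ∀ l, 1 ≤ l → l ≤ K → ∃ σ, σ₀ ≤ σ ∧ ∀ i ∈ S, N.amp l i = σ)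
    (hT : ∀ ω y, ∑ i ∈ S, L.vec i ω y ^ 2 ≤ Γ * D)
    {b : γ → Ω → (ι → ℝ) → ℝ} (hb : ∀ c, Obs (b c)) (hβ : ∀ ω y, ∑ c, b c ω y ^ 2 ≤ β)
    {r : ℝ} (hr : r = Γ * (((K : ℝ) + 1) / σ₀ + ((K : ℝ) + 1)) / Real.sqrt D) :
    ∑ l ∈ range (K + 1), N.w l * N.prodErr L μ S D b l ≤
      20 * Γ * β * (Real.sqrt (((K : ℝ) + 1)⁻¹) + Real.sqrt r + r +
        ∑ l ∈ range K, N.heatDev L μ S D l) := by
  have hD0 : 0 < D := by linarith
  have hK1 : (0 : ℝ) < (K : ℝ) + 1 := by positivity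
  set w : ℝ := ((K : ℝ) + 1)⁻¹
  have hw : ∀ l ≤ K, N.w l = w := by
    intro l hl
    rw [Nest.w, hx _ (by omega), hx _ (by omega)]
    push_cast
    field_simp
    simp only [w]
    field_simp
    ring
  have hw0 : 0 < w := inv_pos.2 hK1
  have hw1 : w ≤ 1 := inv_le_one_of_one_le₀ (by linarith [(Nat.cast_nonneg K : (0 : ℝ) ≤ K)])
  have hβ0 : 0 ≤ β := by
    rcases isEmpty_or_nonempty Ω with hΩ | ⟨⟨ω⟩⟩
    · exact absurd (Measure.eq_zero_of_isEmpty μ) (IsProbabilityMeasure.ne_zero μ)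
    · exact le_trans (sum_nonneg fun c _ => sq_nonneg _) (hβ ω 0)
  have hr0 : 0 ≤ r := by rw [hr]; positivity
  set q := fun l => N.ovl L μ S D l
  have hmean : ∀ l ≤ K, N.mean (L.logZ μ) l (N.sqSum L μ S l) = ∑ i ∈ S, N.sqGrad L μ l i :=
    fun l hl => Pin.mean_sum hN hL (μ := μ) (by omega) S fun i _ => by
      simpa [sq] using Tame.mul (grad_tame hN hL (μ := μ) (show l ≤ N.K by omega) i)
        (grad_tame hN hL (μ := μ) (show l ≤ N.K by omega) i)
  have hqle : ∀ l ≤ K, q l ≤ Γ ∧ 0 ≤ q l := by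
    intro l hl
    have hlN : l ≤ N.K := by omega
    have h1 := mean_mono hN hL (μ := μ) hlN (tame_sqSum hN hL (μ := μ) hlN S) (tame_const (Γ * D))
      fun v => (sqSum_le hN hL (μ := μ) hlN hT v).1.trans (sqSum_le hN hL (μ := μ) hlN hT v).2
    have h2 := mean_mono hN hL (μ := μ) hlN (tame_const 0) (tame_sqSum hN hL (μ := μ) hlN S)
      fun v => sum_nonneg fun i _ => sq_nonneg _
    rw [mean_const hN hL (μ := μ) hlN, hmean l hl] at h1 h2
    exact ⟨(div_le_iff₀ hD0).2 h1, div_nonneg h2 hD0.le⟩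
  have hmono : ∀ l, l + 1 ≤ K → 0 ≤ q (l + 1) - q l := by
    intro l hl
    have hlN : l < N.K := by omega
    have h := mean_mono hN hL (μ := μ) hlN.le (tame_const 0) (tame_gap hN hL (μ := μ) hlN S)
      (gap_nonneg hN hL (μ := μ) hlN S)
    rw [mean_const hN hL (μ := μ) hlN.le, mean_gap hN hL (μ := μ) hlN] at h
    simp only [q, Nest.ovl, ← sub_div]
    exact div_nonneg h hD0.le
  have hdev0 : ∀ l ≤ K, 0 ≤ N.heatDev L μ S D l := by
    intro l hl
    have hlN : l ≤ N.K := by omega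
    have ht : Tame (N.heatSum L μ S D l) := by
      have := tame_const_mul D⁻¹ (tame_sum S fun i _ => heat_tame hN hL (μ := μ) hlN i)
      exact (show N.heatSum L μ S D l = fun y => D⁻¹ * ∑ i ∈ S, N.heat L μ l i y from
        funext fun y => by simp [Nest.heatSum, div_eq_inv_mul]) ▸ this
    have h := mean_mono hN hL (μ := μ) hlN (tame_const 0) (Tame.abs (Tame.sub ht (tame_const
      (N.mean (L.logZ μ) l (N.heatSum L μ S D l))))) fun v => abs_nonneg _
    rwa [mean_const hN hL (μ := μ) hlN] at h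
  -- one level
  set η := fun l => q (l + 1) - q l + r with hη
  have step : ∀ l, l + 1 < K → w * N.prodErr L μ S D b l ≤ β * (w * η l +
      2 * Real.sqrt Γ * (w * Real.sqrt (η l)) +
        (N.heatDev L μ S D l + N.heatDev L μ S D (l + 1)) + 2 * (w * (q (l + 1) - q l))) := by
    intro l hl
    obtain ⟨σ, hσσ, hσS⟩ := hamp (l + 1) (by omega) (by omega)
    have hσpos : 0 < σ := hσ.trans_le hσσ
    have hlN : l < N.K := by omega
    have hwl : N.w (l + 1) = w := hw _ (by omega)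
    have h := pinned_product hN hL (μ := μ) hlN (by rw [hwl]; exact hw0) hS hσpos hD hΓ le_rfl hσS
      hT hb hβ _ rfl
    rw [hwl] at h
    set e := (q (l + 1) - q l) +
      (Real.sqrt Γ / (σ * N.x (l + 1)) + Γ / Real.sqrt (N.x (l + 1))) / Real.sqrt D
    have he : e ≤ η l := by
      refine add_le_add le_rfl ?_
      rw [hr]
      refine div_le_div_of_nonneg_right ?_ (Real.sqrt_nonneg _)
      have hx1 : ((K : ℝ) + 1)⁻¹ ≤ N.x (l + 1) := by
        rw [hx _ (by omega), inv_eq_one_div]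
        exact div_le_div_of_nonneg_right (by push_cast; linarith [(Nat.cast_nonneg l : (0:ℝ) ≤ l)])
          hK1.le
      have hxpos : 0 < N.x (l + 1) := hw0.trans_le hx1
      have hinv : (N.x (l + 1))⁻¹ ≤ (K : ℝ) + 1 := by
        rw [inv_le_comm₀ hxpos hK1]; exact hx1
      have hsG : Real.sqrt Γ ≤ Γ := by
        rw [Real.sqrt_le_iff]; exact ⟨by linarith, by nlinarith⟩
      rw [mul_add]
      refine add_le_add ?_ ?_
      · rw [div_eq_mul_inv, mul_inv, div_eq_mul_inv ((K : ℝ) + 1), mul_comm σ⁻¹]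
        gcongr
      · rw [div_eq_mul_inv]
        refine mul_le_mul_of_nonneg_left ?_ (by linarith)
        rw [← Real.sqrt_inv, Real.sqrt_le_iff]
        exact ⟨hK1.le, hinv.trans (by nlinarith [(Nat.cast_nonneg K : (0 : ℝ) ≤ K)])⟩
    change N.prodErr L μ S D b l ≤ _ at h
    have h' : N.prodErr L μ S D b l ≤ β * (η l + 2 * Real.sqrt Γ * Real.sqrt (η l) +
        (N.heatDev L μ S D l + N.heatDev L μ S D (l + 1)) / w + 2 * (q (l + 1) - q l)) := by
      refine h.trans (mul_le_mul_of_nonneg_left ?_ hβ0)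
      gcongr
    refine (mul_le_mul_of_nonneg_left h' hw0.le).trans (le_of_eq ?_)
    field_simp
  have triv : ∀ l ≤ K, w * N.prodErr L μ S D b l ≤ w * (Γ * β) := fun l hl =>
    mul_le_mul_of_nonneg_left
      (Pin.prod_trivial hN hL (μ := μ) (by omega) S hD0 hT hb hβ) hw0.le
  rw [sum_congr rfl fun l hl => by rw [hw l (Nat.le_of_lt_succ (mem_range.1 hl))]]
  set Δ := ∑ l ∈ range K, N.heatDev L μ S D l
  have hΔ : 0 ≤ Δ := sum_nonneg fun l hl => hdev0 l (mem_range.1 hl).le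
  rcases Nat.eq_zero_or_pos K with hK0 | hKpos
  · subst hK0
    rw [sum_range_one]
    have h := Pin.grid_arith (n := 0) (e := fun _ => 0) (η := fun _ => r) (a := fun _ => 0)
      (δ := fun _ => 0) (en := w * N.prodErr L μ S D b 0) (en' := 0) (Δ := Δ) hw0.le hw1
      (by simp) hΓ hβ0 hr0 hΔ (fun _ => (zero_add _).symm) (fun l hl => le_rfl)
      (by simp; linarith) (by simpa using hΔ) (fun l hl => absurd hl (Nat.not_lt_zero _))
      (triv 0 le_rfl) (by positivity)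
    simpa using h
  obtain ⟨n, rfl⟩ : ∃ n, K = n + 1 := ⟨K - 1, by omega⟩
  rw [sum_range_succ, sum_range_succ]
  have hwn : w * n ≤ 1 := by
    simp only [w]
    rw [inv_mul_le_iff₀ (by positivity)]
    push_cast; linarith
  refine Pin.grid_arith (η := η) (δ := fun l => q (l + 1) - q l)
    (a := fun l => N.heatDev L μ S D l + N.heatDev L μ S D (l + 1)) hw0.le hw1 hwn hΓ hβ0 hr0 hΔ
    (fun l => rfl) (fun l hl => hmono l (by omega)) ?_ ?_ (fun l hl => step l (by omega))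
    (triv n (by omega)) (triv (n + 1) le_rfl)
  · rw [sum_range_sub q n]
    linarith [(hqle n (by omega)).1, (hqle 0 (by omega)).2]
  · have a1 : ∑ l ∈ range n, N.heatDev L μ S D l ≤ Δ := by
      simp only [Δ]; rw [sum_range_succ]
      linarith [hdev0 n (by omega)]
    have a2 : ∑ l ∈ range n, N.heatDev L μ S D (l + 1) ≤ Δ := by
      simp only [Δ]; rw [sum_range_succ']
      linarith [hdev0 0 (by omega)]
    rw [sum_add_distrib]
    linarith

end Vale.Agent.P157.Parisi
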