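import Vale.Agent.P157.Parisi.Insert
import Vale.Agent.P157.Parisi.PinSum

/-! The cavity in the coordinates: derivative, endpoints and the symmetry between blocks. -/

namespace Vale.Agent.P157.Parisi

open MeasureTheory ProbabilityTheory Finset

lemma cav_sphereUnif_prob {n : ℕ} (hn : 0 < n) : IsProbabilityMeasure (sphereUnif n) := by
  have : Nonempty (Fin n) := ⟨⟨0, hn⟩⟩
  have hscale : Measurable fun a : Fin n → ℝ => fun i => Real.sqrt n * a i := by fun_prop
  have h : sphereUnif n = (unitUnif (Fin n)).map fun a i => Real.sqrt n * a i := by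
    rw [unitUnif, Measure.map_smul, Measure.map_map hscale measurable_sphereCoord, sphereUnif]
    rfl
  rw [h]
  exact Measure.isProbabilityMeasure_map hscale.aemeasurable

lemma cav_measurable_normBlock {n : ℕ} (i : Fin n) : Measurable fun σ : Fin n → ℝ => normBlock σ i := by
  unfold normBlock
  refine Measurable.ite (measurableSet_eq_fun (by fun_prop) measurable_const) measurable_const ?_
  fun_prop

lemma normBlock_bound {n : ℕ} (hn : 0 < n) (σ : Fin n → ℝ) (i : Fin n) :
    |normBlock σ i| ≤ Real.sqrt n :=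
  (blockSpin_sys (n := n) (N := 1) hn).1.bound (fun _ => σ) ((0 : Fin 1), i)

lemma sum_normBlock_sq {n : ℕ} (hn : 0 < n) (σ : Fin n → ℝ) :
    ∑ i, normBlock σ i ^ 2 = (n : ℝ) := by
  have h := (blockSpin_sys (n := n) (N := 1) hn).1.norm_sq (fun _ => σ)
  simpa [Fintype.sum_prod_type, blockSpin] using h

lemma blockLeaf_good {n : ℕ} (hn : 0 < n) : (blockLeaf n).Good (max (Real.sqrt n) 1) where
  nonneg := le_trans (Real.sqrt_nonneg _) (le_max_left _ _)
  meas _ i := cav_measurable_normBlock i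
  bound ω _ i := (normBlock_bound hn ω i).trans (le_max_left _ _)
  deriv1 _ z := hasDerivAt_id z
  deriv2 _ z := hasDerivAt_const z (1 : ℝ)
  cont2 _ := continuous_const
  bound1 _ z := by simp [blockLeaf]
  bound2 _ z := by simp [blockLeaf]

/-- The free energy depends only on the parameters and amplitudes of the levels up to `K`. -/
lemma uUp_congr {ι : Type} [Fintype ι] (N N' : Nest ι) (U : (ι → ℝ) → ℝ) (hK : N'.K = N.K)
    (hx : ∀ l ≤ N.K, N'.x l = N.x l) (hamp : ∀ l ≤ N.K, N'.amp l = N.amp l) :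
    ∀ d, N'.uUp U d = N.uUp U d
  | 0 => rfl
  | d + 1 => by
    simp only [Nest.uUp]
    rw [uUp_congr N N' U hK hx hamp d, hK, hx _ (Nat.sub_le _ _), hamp _ (Nat.sub_le _ _)]

lemma stepLog_zero {ι : Type} [Fintype ι] (U : (ι → ℝ) → ℝ) :
    stepLog 1 (fun _ => 0) U = U := by
  funext y
  have : ∀ z : ι → ℝ, move (fun _ => 0) y z = y := fun z => by funext i; simp [move]
  simp [stepLog, this]

/-- A last level of amplitude zero and parameter one can be dropped. -/
lemma free_drop_last {ι Ω κ : Type} [Fintype ι] [Fintype κ] [MeasurableSpace Ω] (N N' : Nest ι)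
    (L : Leaf Ω κ ι) (μ : Measure Ω) (hK : N.K = N'.K + 1) (hx : ∀ l ≤ N'.K, N.x l = N'.x l)
    (hx1 : N.x (N'.K + 1) = 1) (hamp : ∀ l ≤ N'.K, N.amp l = N'.amp l)
    (hamp1 : N.amp (N'.K + 1) = fun _ => 0) :
    N.free L μ = N'.free L μ := by
  have key : ∀ d, N.uUp (L.logZ μ) (d + 1) = N'.uUp (L.logZ μ) d := by
    intro d
    induction d with
    | zero => simp only [Nest.uUp, hK, Nat.sub_zero, hx1, hamp1, stepLog_zero]
    | succ d ih =>
      rw [Nest.uUp, ih, Nest.uUp, hK, Nat.add_sub_add_right,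
        hx _ (Nat.sub_le _ _), hamp _ (Nat.sub_le _ _)]
  simp only [Nest.free, Nest.mean, Nest.u, Nat.sub_zero, hK, key, hamp 0 (Nat.zero_le _)]

/-- A single block with one additional level of amplitude zero. -/
lemma single_block {n : ℕ} (hn : 0 < n) (K : ℕ) {h : ℕ → ℝ} (a : ℕ → ℝ)
    (ha : ∀ l ≤ K, a l = if l = 0 then Real.sqrt (h 0) else Real.sqrt (h l - h (l - 1)))
    (ha1 : a (K + 1) = 0) :
    ({ K := K + 1, x := gridX K, amp := fun l _ => a l } : Nest (Fin n)).free (blockLeaf n)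
        (sphereUnif n) = n * (blockField n K h + h K / 2) := by
  rw [free_drop_last ({ K := K + 1, x := gridX K, amp := fun l _ => a l } : Nest (Fin n))
    (blockNest n K h) (blockLeaf n) (sphereUnif n) rfl (fun l _ => rfl) ?_
    (fun l hl => funext fun _ => ha l hl) (funext fun _ => ha1)]
  · unfold blockField
    have : (n : ℝ) ≠ 0 := by positivity
    field_simp
    ring
  · simp only [blockNest, gridX, lvl]
    rw [Nat.cast_add_one, div_self (by positivity), min_self]

section Ham

variable {Ω δ : Type} [Fintype δ] {φ φ1 φ2 : ℝ → ℝ} {spin : Ω → δ → ℝ} {M : ℕ}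

lemma perc_loc_inl (ω : Ω) (y : PIdx M δ → ℝ) (a : Fin M) :
    (percLeaf φ φ1 φ2 spin M).loc ω y (Sum.inl a) =
      ∑ p, spin ω p * y (Sum.inl (a, p)) + y (Sum.inr (Sum.inr a)) := by
  simp [Leaf.loc, percLeaf, percCoef, Fintype.sum_sum_type, Fintype.sum_prod_type,
    Finset.sum_ite_eq]

lemma perc_loc_inr (ω : Ω) (y : PIdx M δ → ℝ) :
    (percLeaf φ φ1 φ2 spin M).loc ω y (Sum.inr ()) =
      ∑ p, spin ω p * y (Sum.inr (Sum.inl p)) := by
  simp [Leaf.loc, percLeaf, percCoef, Fintype.sum_sum_type]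

lemma perc_ham (ω : Ω) (y : PIdx M δ → ℝ) :
    (percLeaf φ φ1 φ2 spin M).ham ω y =
      ∑ a, φ (∑ p, spin ω p * y (Sum.inl (a, p)) + y (Sum.inr (Sum.inr a))) +
        ∑ p, spin ω p * y (Sum.inr (Sum.inl p)) := by
  rw [← perc_loc_inr (φ := φ) (φ1 := φ1) (φ2 := φ2) ω y]
  simp only [Leaf.ham, Fintype.sum_sum_type, perc_loc_inl]
  simp [percLeaf]

lemma perc_heat_inl (ω : Ω) (y : PIdx M δ → ℝ) (a : Fin M) (p : δ) :
    (∑ j, (percLeaf φ φ1 φ2 spin M).φ2 j ((percLeaf φ φ1 φ2 spin M).loc ω y j) *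
        (percLeaf φ φ1 φ2 spin M).a ω j (Sum.inl (a, p)) ^ 2) +
      (percLeaf φ φ1 φ2 spin M).vec (Sum.inl (a, p)) ω y ^ 2 =
    spin ω p ^ 2 * (φ2 ((percLeaf φ φ1 φ2 spin M).loc ω y (Sum.inl a)) +
      φ1 ((percLeaf φ φ1 φ2 spin M).loc ω y (Sum.inl a)) ^ 2) := by
  simp [percLeaf, percCoef, Leaf.vec, Fintype.sum_sum_type, ite_pow]
  ring

lemma perc_heat_y (ω : Ω) (y : PIdx M δ → ℝ) (p : δ) :
    (∑ j, (percLeaf φ φ1 φ2 spin M).φ2 j ((percLeaf φ φ1 φ2 spin M).loc ω y j) *
        (percLeaf φ φ1 φ2 spin M).a ω j (Sum.inr (Sum.inl p)) ^ 2) +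
      (percLeaf φ φ1 φ2 spin M).vec (Sum.inr (Sum.inl p)) ω y ^ 2 =
    spin ω p ^ 2 := by
  simp [percLeaf, percCoef, Leaf.vec, Fintype.sum_sum_type]

end Ham

/-- Finite weighted sums of leaf heat quantities. -/
lemma sum_heatTop {ι Ω κ γ : Type} [Fintype ι] [Fintype κ] [MeasurableSpace Ω]
    {N : Nest ι} {L : Leaf Ω κ ι} {μ : Measure Ω} [IsProbabilityMeasure μ] {B : ℝ}
    (hN : N.Good) (hL : L.Good B) (s : Finset γ) (e : γ → ι) (w : γ → ℝ)
    (f : γ → Ω → (ι → ℝ) → ℝ) (hf : ∀ c, Obs (f c))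
    (he : ∀ c ω y, (∑ j, L.φ2 j (L.loc ω y j) * L.a ω j (e c) ^ 2) + L.vec (e c) ω y ^ 2
      = f c ω y) :
    (∀ c, N.heatTop L μ (e c) = N.mean (L.logZ μ) N.K (N.node L μ N.K (f c))) ∧
    Obs (fun ω y => ∑ c ∈ s, w c * f c ω y) ∧
      ∑ c ∈ s, w c * N.heatTop L μ (e c) =
        N.mean (L.logZ μ) N.K (N.node L μ N.K fun ω y => ∑ c ∈ s, w c * f c ω y) := by
  classical
  have h1 : ∀ c, N.heatTop L μ (e c) = N.mean (L.logZ μ) N.K (N.node L μ N.K (f c)) := by
    intro c
    rw [node_top hN hL (f c)]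
    unfold Nest.heatTop
    congr 1
    funext y
    rw [heat_top hN hL (e c) y]
    congr 1
    funext ω v
    exact he c ω v
  refine ⟨h1, ?_⟩
  induction s using Finset.induction_on with
  | empty =>
    simp only [Finset.sum_empty]
    refine ⟨⟨fun _ => measurable_const, fun _ => continuous_const, 0, fun _ _ => by simp⟩, ?_⟩
    rw [show (N.node L μ N.K fun _ _ => (0:ℝ)) = fun _ => 0 from
      funext fun y => node_const hN hL le_rfl 0 y]
    exact (mean_const hN hL le_rfl 0).symm
  | @insert c s hc ih =>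
    obtain ⟨ho, hs⟩ := ih
    obtain ⟨hm, hcts, C, hC⟩ := hf c
    obtain ⟨hm', hcts', C', hC'⟩ := ho
    have hwc : Obs (fun ω y => w c * f c ω y) :=
      ⟨fun y => (hm y).const_mul _, fun ω => continuous_const.mul (hcts ω), |w c| * C,
        fun ω y => by rw [abs_mul]; exact mul_le_mul_of_nonneg_left (hC ω y) (abs_nonneg _)⟩
    have hho : Obs (fun ω y => ∑ d ∈ s, w d * f d ω y) := ⟨hm', hcts', C', hC'⟩
    simp only [Finset.sum_insert hc]
    refine ⟨⟨fun y => ((hm y).const_mul _).add (hm' y),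
      fun ω => (continuous_const.mul (hcts ω)).add (hcts' ω), |w c| * C + C',
      fun ω y => (abs_add_le _ _).trans (add_le_add
        (by rw [abs_mul]; exact mul_le_mul_of_nonneg_left (hC ω y) (abs_nonneg _)) (hC' ω y))⟩, ?_⟩
    rw [show (N.node L μ N.K fun ω y => w c * f c ω y + ∑ d ∈ s, w d * f d ω y) =
        fun y => N.node L μ N.K (fun ω y => w c * f c ω y) y +
          N.node L μ N.K (fun ω y => ∑ d ∈ s, w d * f d ω y) y from
      funext fun y => node_add hN hL le_rfl hwc hho y]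
    rw [mean_add hN hL le_rfl (node_tame hN hL le_rfl hwc) (node_tame hN hL le_rfl hho), ← hs, h1 c,
      show (N.node L μ N.K fun ω y => w c * f c ω y) = fun y => w c * N.node L μ N.K (f c) y from
        funext fun y => node_const_mul hN hL N.K (w c) (f c) y,
      mean_const_mul hN hL]

lemma hasDerivAt_sqrt_affine {a b t : ℝ} (h : 0 < a + b * t ∨ b = 0) :
    HasDerivAt (fun s => Real.sqrt (a + b * s)) (b / (2 * Real.sqrt (a + b * t))) t := by
  rcases h with h | h
  · have := ((hasDerivAt_id t).const_mul b).const_add a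
    simpa using this.sqrt h.ne'
  · subst h
    simpa using hasDerivAt_const t (Real.sqrt a)

lemma continuousAt_sqrt_affine {a b t : ℝ} (h : 0 < a + b * t ∨ b = 0) :
    ContinuousAt (fun s => b / (2 * Real.sqrt (a + b * s))) t := by
  rcases h with h | h
  · refine ContinuousAt.div continuousAt_const (by fun_prop) ?_
    have := Real.sqrt_pos.2 h
    positivity
  · subst h
    simpa using continuousAt_const

lemma sqrt_affine_deriv_mul {a b t : ℝ} (h : 0 < a + b * t ∨ b = 0) :
    b / (2 * Real.sqrt (a + b * t)) * Real.sqrt (a + b * t) = b / 2 := by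
  rcases h with h | h
  · have := Real.sqrt_pos.2 h
    field_simp
  · simp [h]

/-- The increments of a variance path. -/
def incr (K : ℕ) (h : ℕ → ℝ) (l : ℕ) : ℝ := if l = 0 then h 0 else if l ≤ K then h l - h (l - 1) else 0

lemma incr_nonneg {K : ℕ} {h : ℕ → ℝ} (hh : IsPath h) (l : ℕ) : 0 ≤ incr K h l := by
  unfold incr
  split_ifs with h0
  · exact hh.2
  · exact sub_nonneg.2 (hh.1 (Nat.sub_le _ _))
  · exact le_rfl

lemma sum_incr (K : ℕ) (h : ℕ → ℝ) : ∀ m, ∑ l ∈ range (m + 1), incr K h l = h (min m K)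
  | 0 => by simp [incr]
  | m + 1 => by
    rw [Finset.sum_range_succ, sum_incr K h m, incr, if_neg (Nat.succ_ne_zero m)]
    split_ifs with hm
    · rw [min_eq_left hm, min_eq_left (Nat.le_of_succ_le hm), Nat.add_sub_cancel]; ring
    · rw [min_eq_right (by omega), min_eq_right (by omega), add_zero]

/-- Exchange of a sum over levels with the tail sums. -/
lemma sum_tail {K : ℕ} (h : ℕ → ℝ) (w P : ℕ → ℝ) (hw : w (K + 1) = 0) :
    ∑ l ∈ range (K + 2), incr K h l * ∑ m ∈ Icc l (K + 1), w m * P m =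
      ∑ m ∈ range (K + 1), w m * (h m * P m) := by
  calc ∑ l ∈ range (K + 2), incr K h l * ∑ m ∈ Icc l (K + 1), w m * P m
      = ∑ l ∈ range (K + 2), ∑ m ∈ Icc l (K + 1), incr K h l * (w m * P m) := by
        simp only [Finset.mul_sum]
    _ = ∑ m ∈ range (K + 2), ∑ l ∈ range (m + 1), incr K h l * (w m * P m) := by
        refine Finset.sum_comm' fun l m => ?_
        simp only [Finset.mem_range, Finset.mem_Icc]
        omega
    _ = ∑ m ∈ range (K + 1), w m * (h m * P m) := by
        simp only [← Finset.sum_mul, sum_incr]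
        rw [Finset.sum_range_succ, hw]
        simp only [zero_mul, mul_zero, add_zero]
        refine Finset.sum_congr rfl fun m hm => ?_
        rw [min_eq_left (Nat.lt_succ_iff.1 (Finset.mem_range.1 hm))]
        ring

lemma exp_integral_pos {ι Ω κ : Type} [Fintype ι] [Fintype κ] [MeasurableSpace Ω]
    {L : Leaf Ω κ ι} {B : ℝ} (hL : L.Good B) (μ : Measure Ω) [IsProbabilityMeasure μ]
    (y : ι → ℝ) : 0 < ∫ ω, Real.exp (L.ham ω y) ∂μ := by
  have hc : ∀ j, Continuous (L.φ j) := fun j =>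
    continuous_iff_continuousAt.2 fun z => (hL.deriv1 j z).continuousAt
  have hm : Measurable fun ω => L.ham ω y :=
    Finset.measurable_sum _ fun j _ => (hc j).measurable.comp
      (Finset.measurable_sum _ fun i _ => (hL.meas j i).mul_const _)
  set R := B * ∑ i, |y i|
  have hb : ∀ ω j, L.loc ω y j ∈ Set.Icc (-R) R := fun ω j => by
    rw [Set.mem_Icc, ← abs_le]
    calc |L.loc ω y j| ≤ ∑ i, |L.a ω j i * y i| := Finset.abs_sum_le_sum_abs _ _
      _ ≤ R := by
        simp only [R, Finset.mul_sum, abs_mul]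
        exact Finset.sum_le_sum fun i _ =>
          mul_le_mul_of_nonneg_right (hL.bound ω j i) (abs_nonneg _)
  choose C hC using fun j => (isCompact_Icc (a := -R) (b := R)).exists_bound_of_continuousOn
    (hc j).continuousOn
  refine integral_exp_pos (Integrable.of_bound hm.exp.aestronglyMeasurable
    (Real.exp (∑ j, C j)) (.of_forall fun ω => ?_))
  rw [Real.norm_eq_abs, Real.abs_exp, Real.exp_le_exp]
  exact Finset.sum_le_sum fun j _ => (le_abs_self _).trans (hC j _ (hb ω j))

/-- A last block without pattern entries splits off. -/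
lemma split_last {φ φ1 φ2 : ℝ → ℝ} {B : ℝ} (hφ : PhiGood φ φ1 φ2 B) {n Nb : ℕ} (hn : 0 < n)
    (K M : ℕ) (G : Fin M → Fin (Nb + 1) × Fin n → ℝ) (S : ℕ → Fin (Nb + 1) × Fin n → ℝ)
    (c : ℕ → Fin M → ℝ) (a : ℕ → ℝ) (hG : ∀ b i, G b (Fin.last Nb, i) = 0)
    (hS : ∀ l i, S l (Fin.last Nb, i) = a l) :
    (percNest K G S c).free (percLeaf φ φ1 φ2 (blockSpin n (Nb + 1)) M) (blockLaw n (Nb + 1)) =
      (percNest K (fun b (p : Fin Nb × Fin n) => G b (p.1.castSucc, p.2))
          (fun l p => S l (p.1.castSucc, p.2)) c).free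
          (percLeaf φ φ1 φ2 (blockSpin n Nb) M) (blockLaw n Nb) +
        ({ K := K + 1, x := gridX K, amp := fun l _ => a l } : Nest (Fin n)).free (blockLeaf n)
          (sphereUnif n) := by
  obtain ⟨hsys, hprob, -⟩ := blockSpin_sys (n := n) (N := Nb + 1) hn
  obtain ⟨hsys', hprob', -⟩ := blockSpin_sys (n := n) (N := Nb) hn
  have hsph := cav_sphereUnif_prob hn
  refine free_add (percNest_good hφ hsys K M G S c) (perc_good hφ hsys M) (μ := blockLaw n (Nb + 1))
    (perc_good hφ hsys' M) (blockLeaf_good hn)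
    ⟨Sum.map (Prod.map id (Prod.map Fin.castSucc id)) (Sum.map (Prod.map Fin.castSucc id) id),
      (Function.injective_id.prodMap ((Fin.castSucc_injective _).prodMap
        Function.injective_id)).sumMap
        (((Fin.castSucc_injective _).prodMap Function.injective_id).sumMap Function.injective_id)⟩
    ⟨fun i => Sum.inr (Sum.inl (Fin.last Nb, i)), fun i j h => by simpa using h⟩
    ?_ rfl rfl rfl rfl ?_ (fun l i => hS l i) ?_
  · rintro (⟨b, ⟨x, i⟩⟩ | ⟨x, i⟩ | b) j h <;>
      simp [DFunLike.coe, Fin.castSucc_ne_last] at h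
  · rintro l (⟨b, p⟩ | p | b) <;> rfl
  intro y hy
  have hy0 : ∀ b i, y (Sum.inl (b, (Fin.last Nb, i))) = 0 := fun b i =>
    hy _ fun l _ => by simp [percNest, percAmp, hG]
  simp only [Leaf.logZ, Function.Embedding.coeFn_mk]
  set y1 : PIdx M (Fin Nb × Fin n) → ℝ := fun i => y (Sum.map (Prod.map id (Prod.map Fin.castSucc id))
    (Sum.map (Prod.map Fin.castSucc id) id) i) with hy1
  set y2 : Fin n → ℝ := fun i => y (Sum.inr (Sum.inl (Fin.last Nb, i))) with hy2
  have hham : ∀ ω : Fin (Nb + 1) → Fin n → ℝ,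
      (percLeaf φ φ1 φ2 (blockSpin n (Nb + 1)) M).ham ω y =
        (percLeaf φ φ1 φ2 (blockSpin n Nb) M).ham (fun b => ω b.castSucc) y1 +
          (blockLeaf n).ham (ω (Fin.last Nb)) y2 := by
    intro ω
    rw [perc_ham, perc_ham]
    simp only [Leaf.ham, Leaf.loc, blockLeaf, hy1, hy2, Fintype.sum_prod_type,
      Fin.sum_univ_castSucc, blockSpin, hy0, mul_zero, Finset.sum_const_zero, add_zero,
      Sum.map_inl, Sum.map_inr, Prod.map_apply, id_eq, Finset.sum_const, Finset.card_univ,
      Fintype.card_unit, one_smul]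
    ring
  simp only [hham, Real.exp_add]
  have hmp := measurePreserving_piFinSuccAbove (fun _ : Fin (Nb + 1) => sphereUnif n) (Fin.last Nb)
  have key := hmp.integral_comp'
    (g := fun p : (Fin n → ℝ) × (Fin Nb → Fin n → ℝ) =>
      Real.exp ((blockLeaf n).ham p.1 y2) *
        Real.exp ((percLeaf φ φ1 φ2 (blockSpin n Nb) M).ham p.2 y1))
  rw [integral_prod_mul (fun σ => Real.exp ((blockLeaf n).ham σ y2))
    (fun ω => Real.exp ((percLeaf φ φ1 φ2 (blockSpin n Nb) M).ham ω y1))] at key
  simp only [MeasurableEquiv.piFinSuccAbove_apply, Fin.insertNthEquiv_symm_apply,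
    Fin.removeNth_last, Fin.init_def] at key
  rw [show ∫ ω, Real.exp ((percLeaf φ φ1 φ2 (blockSpin n Nb) M).ham (fun b => ω b.castSucc) y1) *
      Real.exp ((blockLeaf n).ham (ω (Fin.last Nb)) y2) ∂blockLaw n (Nb + 1) =
      (∫ σ, Real.exp ((blockLeaf n).ham σ y2) ∂sphereUnif n) *
        ∫ ω, Real.exp ((percLeaf φ φ1 φ2 (blockSpin n Nb) M).ham ω y1) ∂blockLaw n Nb from
    (integral_congr_ae (.of_forall fun ω => mul_comm _ _)).trans key]
  rw [Real.log_mul (exp_integral_pos (blockLeaf_good hn) _ y2).ne'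
    (exp_integral_pos (perc_good hφ hsys' M) _ y1).ne', add_comm]
  rfl

/-- The free energy of old blocks and `m` blocks without pattern entries. -/
lemma split_all {φ φ1 φ2 : ℝ → ℝ} {B : ℝ} (hφ : PhiGood φ φ1 φ2 B) {n : ℕ} (hn : 0 < n)
    (K M : ℕ) (g : ℝ) (s a : ℕ → ℝ) (c : ℕ → Fin M → ℝ) (N : ℕ) : ∀ m,
    (percNest K (fun _ : Fin M => fun p : Fin (N + m) × Fin n => if (p.1 : ℕ) < N then g else 0)
        (fun l p => if (p.1 : ℕ) < N then s l else a l) c).free
        (percLeaf φ φ1 φ2 (blockSpin n (N + m)) M) (blockLaw n (N + m)) =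
      (percNest K (fun _ : Fin M => fun _ : Fin N × Fin n => g) (fun l _ => s l) c).free
          (percLeaf φ φ1 φ2 (blockSpin n N) M) (blockLaw n N) +
        m * ({ K := K + 1, x := gridX K, amp := fun l _ => a l } : Nest (Fin n)).free (blockLeaf n)
          (sphereUnif n)
  | 0 => by
    simp only [Nat.cast_zero, zero_mul, add_zero]
    congr 2
    · funext b p; exact if_pos p.1.2
    · funext l p; exact if_pos p.1.2
  | m + 1 => by
    have h := split_last hφ hn (Nb := N + m) K M
      (fun _ p => if (p.1 : ℕ) < N then g else 0) (fun l p => if (p.1 : ℕ) < N then s l else a l) c a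
      (fun b i => if_neg (by simp [Fin.val_last]))
      (fun l i => if_neg (by simp [Fin.val_last]))
    refine h.trans ?_
    simp only [Fin.val_castSucc]
    rw [split_all hφ hn K M g s a c N m]
    push_cast
    ring

section

variable {φ φ1 φ2 : ℝ → ℝ} {B : ℝ} (hφ : PhiGood φ φ1 φ2 B) {n N m : ℕ}
variable (hn : 0 < n) (hN : 0 < N) (hm : 0 < m)

include hφ hn hN hm

theorem cavity_continuous (K M : ℕ) (s e : ℕ → ℝ) {h : ℕ → ℝ} (hh : IsPath h)
    (c : ℕ → Fin M → ℝ) :
    ContinuousOn (fun t => (cavNest n N m K M s e h c t).free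
      (percLeaf φ φ1 φ2 (blockSpin n (N + m)) M) (blockLaw n (N + m))) (Set.Icc 0 1) := by
  obtain ⟨hsys, hprob, -⟩ := blockSpin_sys (n := n) (N := N + m) hn
  have hG : ∀ t, (cavNest n N m K M s e h c t).Good := fun t => percNest_good hφ hsys K M _ _ _
  have := continuous_free (hG 0) (perc_good hφ hsys M) (μ := blockLaw n (N + m)) (T := ℝ)
    (A := fun t => (cavNest n N m K M s e h c t).amp) ?_
  · exact this.continuousOn
  intro l _ i
  rcases i with ⟨a, p⟩ | p | a <;>
    simp only [cavNest, percNest, percAmp, cavG, cavS]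
  · split_ifs <;> fun_prop
  · split_ifs <;> fun_prop
  · fun_prop

theorem cavity_deriv (K M : ℕ) (s e : ℕ → ℝ) {h : ℕ → ℝ} (hh : IsPath h) (c : ℕ → Fin M → ℝ)
    {t : ℝ} (ht : t ∈ Set.Ioo (0 : ℝ) 1) :
    HasDerivAt (fun t => (cavNest n N m K M s e h c t).free
        (percLeaf φ φ1 φ2 (blockSpin n (N + m)) M) (blockLaw n (N + m)))
      (-(1 / 2) * (h K * (n * m)) + (1 / 2) * ∑ l ∈ range (K + 1),
        (cavNest n N m K M s e h c t).w l * ∑ p : Fin (N + m) × Fin n,
          if (p.1 : ℕ) < N then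
            cavT N m / ((n : ℝ) * N) * ∑ a, (cavNest n N m K M s e h c t).sqGrad
              (percLeaf φ φ1 φ2 (blockSpin n (N + m)) M) (blockLaw n (N + m)) l (Sum.inl (a, p))
          else
            h l * (cavNest n N m K M s e h c t).sqGrad
              (percLeaf φ φ1 φ2 (blockSpin n (N + m)) M) (blockLaw n (N + m)) l
                (Sum.inr (Sum.inl p)) -
            cavT N m / ((n : ℝ) * m) * ∑ a, (cavNest n N m K M s e h c t).sqGrad
              (percLeaf φ φ1 φ2 (blockSpin n (N + m)) M) (blockLaw n (N + m)) l (Sum.inl (a, p)))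
      t := by
  obtain ⟨hsys, hprob, -⟩ := blockSpin_sys (n := n) (N := N + m) hn
  set L := percLeaf φ φ1 φ2 (blockSpin n (N + m)) M with hLdef
  set μ := blockLaw n (N + m) with hμ
  have hL : L.Good (max (Real.sqrt n) B) := perc_good hφ hsys M
  set Nt := cavNest n N m K M s e h c t with hNt
  have hNtG : Nt.Good := percNest_good hφ hsys K M _ _ _
  set τ := cavT N m with hτdef
  have hnR : (0:ℝ) < n := by exact_mod_cast hn
  have hNR : (0:ℝ) < N := by exact_mod_cast hN
  have hmR : (0:ℝ) < m := by exact_mod_cast hm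
  have hτ0 : 0 < τ := by rw [hτdef, cavT]; positivity
  have hτ1 : τ < 1 := by rw [hτdef, cavT, div_lt_one (by positivity)]; linarith
  -- affine squares of the moving amplitudes
  let aG : Fin (N + m) × Fin n → ℝ := fun p => if (p.1 : ℕ) < N then 1 / ((n:ℝ) * N) else 0
  let bG : Fin (N + m) × Fin n → ℝ := fun p =>
    if (p.1 : ℕ) < N then -τ / ((n:ℝ) * N) else τ / ((n:ℝ) * m)
  let A' : ℝ → ℕ → PIdx M (Fin (N + m) × Fin n) → ℝ := fun u l i => match i with
    | Sum.inl (_, p) => if l = 0 then bG p / (2 * Real.sqrt (aG p + bG p * u)) else 0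
    | Sum.inr (Sum.inl p) => if (p.1 : ℕ) < N then 0 else
        -incr K h l / (2 * Real.sqrt (e l ^ 2 + incr K h l + -incr K h l * u))
    | Sum.inr (Sum.inr _) => 0
  have hposG : ∀ u, 0 < u → u < 1 → ∀ p, 0 < aG p + bG p * u := by
    intro u hu0 hu1 p
    simp only [aG, bG]
    split_ifs
    · rw [div_mul_eq_mul_div, ← add_div]
      refine div_pos ?_ (by positivity)
      nlinarith
    · rw [zero_add]
      exact mul_pos (by positivity) hu0
  have hposY : ∀ u, 0 < u → u < 1 → ∀ l,
      0 < e l ^ 2 + incr K h l + -incr K h l * u ∨ -incr K h l = 0 := by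
    intro u hu0 hu1 l
    rcases eq_or_lt_of_le (incr_nonneg (K := K) hh l) with h0 | h0
    · exact Or.inr (by rw [← h0, neg_zero])
    · left
      have := mul_pos h0 (sub_pos.2 hu1)
      have := sq_nonneg (e l)
      linarith
  have hGeq : ∀ u (a : Fin M) p, cavG n N m M u a p = Real.sqrt (aG p + bG p * u) := by
    intro u a p
    simp only [cavG, aG, bG, ← hτdef]
    split_ifs <;> congr 1 <;> ring
  have hYeq : ∀ u l p, cavS n N m K s e h u l p = if (p.1 : ℕ) < N then s l
      else Real.sqrt (e l ^ 2 + incr K h l + -incr K h l * u) := by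
    intro u l p
    simp only [cavS]
    refine ite_congr rfl (fun _ => rfl) fun _ => ?_
    unfold incr
    congr 1
    ring
  set r : ℝ := min t (1 - t) with hr
  have hr0 : 0 < r := lt_min ht.1 (sub_pos.2 ht.2)
  have hin : ∀ u, |u - t| < r → 0 < u ∧ u < 1 := by
    intro u hu
    rw [abs_lt] at hu
    constructor <;> linarith [min_le_left t (1 - t), min_le_right t (1 - t), hu.1, hu.2]
  have hd := free_deriv hNtG hL (μ := μ) (A := fun u => (cavNest n N m K M s e h c u).amp)
    (A' := A') (t₀ := t) hr0 ?_ ?_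
  swap
  · intro l _ i u hu
    obtain ⟨hu0, hu1⟩ := hin u hu
    rcases i with ⟨a, p⟩ | p | a
    · simp only [cavNest, percNest, percAmp, A', hGeq]
      split_ifs with hl
      · exact hasDerivAt_sqrt_affine (Or.inl (hposG u hu0 hu1 p))
      · exact hasDerivAt_const u (0:ℝ)
    · simp only [cavNest, percNest, percAmp, A', hYeq]
      split_ifs
      · exact hasDerivAt_const u (s l)
      · exact hasDerivAt_sqrt_affine (hposY u hu0 hu1 l)
    · exact hasDerivAt_const u (c l a)
  swap
  · intro l _ i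
    rcases i with ⟨a, p⟩ | p | a
    · simp only [A']
      split_ifs
      · exact continuousAt_sqrt_affine (Or.inl (hposG t ht.1 ht.2 p))
      · exact continuousAt_const
    · simp only [A']
      split_ifs
      · exact continuousAt_const
      · exact continuousAt_sqrt_affine (hposY t ht.1 ht.2 l)
    · exact continuousAt_const
  refine hd.congr_deriv ?_
  show ∑ l ∈ range (Nt.K + 1), ∑ i, A' t l i * Nt.amp l i *
      (Nt.heatTop L μ i - ∑ k ∈ Icc l Nt.K, Nt.w k * Nt.sqGrad L μ k i) = _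
  have hK : Nt.K = K + 1 := rfl
  have hw : Nt.w (K + 1) = 0 := by
    have e1 : gridX K (K + 1) = 1 := by
      simp only [gridX, lvl]
      rw [Nat.cast_add_one, div_self (by positivity), min_self]
    have e2 : gridX K (K + 1 + 1) = 1 := by
      simp only [gridX, lvl]
      refine min_eq_left ?_
      rw [le_div_iff₀ (by positivity)]
      push_cast
      linarith
    simp only [Nest.w, hNt, cavNest, percNest, e1, e2, sub_self]
  have hAG : ∀ l a p, A' t l (Sum.inl (a, p)) * Nt.amp l (Sum.inl (a, p)) =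
      if l = 0 then bG p / 2 else 0 := by
    intro l a p
    simp only [hNt, cavNest, percNest, percAmp, A', hGeq]
    split_ifs
    · exact sqrt_affine_deriv_mul (Or.inl (hposG t ht.1 ht.2 p))
    · simp
  have hAY : ∀ l p, A' t l (Sum.inr (Sum.inl p)) * Nt.amp l (Sum.inr (Sum.inl p)) =
      if (p.1 : ℕ) < N then 0 else -incr K h l / 2 := by
    intro l p
    simp only [hNt, cavNest, percNest, percAmp, A', hYeq]
    split_ifs
    · simp
    · exact sqrt_affine_deriv_mul (hposY t ht.1 ht.2 l)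
  have hAC : ∀ l a, A' t l (Sum.inr (Sum.inr a)) = 0 := fun _ _ => rfl
  set P := fun k i => Nt.sqGrad L μ k i with hP
  -- the three families of coordinates
  simp only [Fintype.sum_sum_type, Fintype.sum_prod_type (α₁ := Fin M), hAG, hAY, hAC, zero_mul,
    Finset.sum_const_zero, add_zero, ite_mul, Finset.sum_add_distrib, hK]
  -- leaf heat
  have hsig : ∀ ω, (∀ b : Fin (N + m), ∑ i, blockSpin n (N + m) ω (b, i) ^ 2 = (n:ℝ)) :=
    fun ω b => sum_normBlock_sq hn (ω b)
  have hcardold : (Finset.univ.filter fun b : Fin (N + m) => (b : ℕ) < N).card = N := by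
    rw [show (Finset.univ.filter fun b : Fin (N + m) => (b : ℕ) < N)
        = Finset.univ.map (Fin.castAddEmb m) by
      ext b
      simp only [Finset.mem_filter, Finset.mem_univ, true_and, Finset.mem_map, Fin.castAddEmb_apply]
      exact ⟨fun hb => ⟨⟨b, hb⟩, rfl⟩, fun ⟨a, ha⟩ => ha ▸ a.2⟩]
    simp
  have hsum0 : ∀ a : Fin M, ∑ p, bG p / 2 * Nt.heatTop L μ (Sum.inl (a, p)) = 0 := by
    intro a
    have hloc : ∀ y, Measurable fun ω => L.loc ω y (Sum.inl a) := fun y => by
      simp only [hLdef, perc_loc_inl]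
      exact (Finset.measurable_sum _ fun p _ => (hsys.meas p).mul_const _).add_const _
    have hc1 : Continuous φ1 := continuous_iff_continuousAt.2 fun z => (hφ.deriv2 z).continuousAt
    have hc0 := hφ.cont2
    have hobs : ∀ p, Obs fun ω y => blockSpin n (N + m) ω p ^ 2 *
        (φ2 (L.loc ω y (Sum.inl a)) + φ1 (L.loc ω y (Sum.inl a)) ^ 2) := by
      intro p
      refine ⟨fun y => ((hsys.meas p).pow_const 2).mul
        ((hc0.measurable.comp (hloc y)).add ((hc1.measurable.comp (hloc y)).pow_const 2)),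
        fun ω => ?_, Real.sqrt n ^ 2 * (B + B ^ 2), fun ω y => ?_⟩
      · have : Continuous fun y => L.loc ω y (Sum.inl a) := by
          unfold Leaf.loc; fun_prop
        fun_prop
      · rw [abs_mul, abs_pow]
        gcongr
        · exact hsys.bound ω p
        · refine (abs_add_le _ _).trans (add_le_add (hφ.bound2 _) ?_)
          rw [abs_pow]
          exact pow_le_pow_left₀ (abs_nonneg _) (hφ.bound1 _) 2
    obtain ⟨-, -, hs⟩ := sum_heatTop (μ := μ) hNtG hL Finset.univ
      (fun p => Sum.inl (a, p)) (fun p => bG p / 2)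
      (fun p ω y => blockSpin n (N + m) ω p ^ 2 *
        (φ2 (L.loc ω y (Sum.inl a)) + φ1 (L.loc ω y (Sum.inl a)) ^ 2)) hobs
      (fun p ω y => perc_heat_inl ω y a p)
    rw [hs, show (fun ω y => ∑ p, bG p / 2 * (blockSpin n (N + m) ω p ^ 2 *
        (φ2 (L.loc ω y (Sum.inl a)) + φ1 (L.loc ω y (Sum.inl a)) ^ 2))) = fun _ _ => 0 from
      funext fun ω => funext fun y => ?_]
    · rw [show (Nt.node L μ Nt.K fun _ _ => (0:ℝ)) = fun _ => 0 from
        funext fun y => node_const hNtG hL le_rfl 0 y]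
      exact mean_const hNtG hL le_rfl 0
    simp only [← mul_assoc, ← Finset.sum_mul]
    refine mul_eq_zero_of_left ?_ _
    rw [Fintype.sum_prod_type]
    rw [Finset.sum_congr rfl fun (b : Fin (N + m)) _ => show ∑ i, bG (b, i) / 2 * blockSpin n (N + m) ω (b, i) ^ 2
        = if (b : ℕ) < N then -τ / ((n:ℝ) * N) / 2 * n else τ / ((n:ℝ) * m) / 2 * n by
      simp only [bG]; split_ifs <;> rw [← Finset.mul_sum, hsig ω b]]
    rw [Finset.sum_ite, Finset.sum_const, Finset.sum_const, Finset.filter_not,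
      Finset.card_sdiff_of_subset (Finset.filter_subset _ _), Finset.card_univ, Fintype.card_fin,
      hcardold, Nat.add_sub_cancel_left, nsmul_eq_mul, nsmul_eq_mul]
    field_simp; ring
  have hsumY : ∑ p : Fin (N + m) × Fin n, (if (p.1 : ℕ) < N then 0 else
      Nt.heatTop L μ (Sum.inr (Sum.inl p))) = (n:ℝ) * m := by
    have hobs : ∀ p, Obs fun ω (_ : PIdx M (Fin (N + m) × Fin n) → ℝ) =>
        blockSpin n (N + m) ω p ^ 2 := by
      intro p
      exact ⟨fun _ => (hsys.meas p).pow_const 2, fun _ => continuous_const, Real.sqrt n ^ 2,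
        fun ω _ => by rw [abs_pow]; exact pow_le_pow_left₀ (abs_nonneg _) (hsys.bound ω p) 2⟩
    obtain ⟨-, -, hs⟩ := sum_heatTop (μ := μ) hNtG hL Finset.univ
      (fun p => Sum.inr (Sum.inl p)) (fun p => if (p.1 : ℕ) < N then 0 else 1)
      (fun p ω _ => blockSpin n (N + m) ω p ^ 2) hobs (fun p ω y => perc_heat_y ω y p)
    simp only [ite_mul, zero_mul, one_mul] at hs
    rw [hs, show (fun ω (_ : PIdx M (Fin (N + m) × Fin n) → ℝ) => ∑ p : Fin (N + m) × Fin n,
        if (p.1 : ℕ) < N then 0 else blockSpin n (N + m) ω p ^ 2) = fun _ _ => (n:ℝ) * m from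
      funext fun ω => funext fun y => ?_]
    · rw [show (Nt.node L μ Nt.K fun _ _ => (n:ℝ) * m) = fun _ => (n:ℝ) * m from
        funext fun y => node_const hNtG hL le_rfl _ y]
      exact mean_const hNtG hL le_rfl _
    rw [Fintype.sum_prod_type, Finset.sum_congr rfl fun (b : Fin (N + m)) _ => show (∑ i,
        if (b : ℕ) < N then 0 else blockSpin n (N + m) ω (b, i) ^ 2)
        = if (b : ℕ) < N then 0 else (n:ℝ) by
      split_ifs
      · simp
      · exact hsig ω b]
    rw [Finset.sum_ite, Finset.sum_const_zero, zero_add, Finset.sum_const, Finset.filter_not,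
      Finset.card_sdiff_of_subset (Finset.filter_subset _ _), Finset.card_univ, Fintype.card_fin,
      hcardold, Nat.add_sub_cancel_left, nsmul_eq_mul]
    ring
  have hIcc : Icc 0 (K + 1) = range (K + 1 + 1) := by
    ext x; simp only [Finset.mem_Icc, Finset.mem_range]; omega
  -- pattern entries
  have hG : ∑ l ∈ range (K + 1 + 1), ∑ a, ∑ p, (if l = 0 then
        bG p / 2 * (Nt.heatTop L μ (Sum.inl (a, p)) -
          ∑ k ∈ Icc l (K + 1), Nt.w k * P k (Sum.inl (a, p))) else 0) =
      -∑ k ∈ range (K + 1), Nt.w k * ∑ p, bG p / 2 * ∑ a, P k (Sum.inl (a, p)) := by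
    rw [Finset.sum_eq_single 0 (fun l _ hl => by simp [hl]) (fun h0 => by simp at h0)]
    simp only [if_true, mul_sub, Finset.sum_sub_distrib, hsum0, zero_sub, Finset.sum_neg_distrib,
      hIcc]
    congr 1
    have hlast : ∀ a p, ∑ k ∈ range (K + 1 + 1), Nt.w k * P k (Sum.inl (a, p)) =
        ∑ k ∈ range (K + 1), Nt.w k * P k (Sum.inl (a, p)) := fun a p => by
      rw [Finset.sum_range_succ, hw, zero_mul, add_zero]
    simp only [hlast, Finset.mul_sum]
    rw [Finset.sum_comm (γ := ℕ) (s := range (K + 1))]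
    rw [Finset.sum_comm]
    refine Finset.sum_congr rfl fun p _ => ?_
    rw [Finset.sum_comm]
    refine Finset.sum_congr rfl fun k _ => Finset.sum_congr rfl fun a _ => ?_
    ring
  -- configuration fields
  have hY : ∑ l ∈ range (K + 1 + 1), ∑ p : Fin (N + m) × Fin n, (if (p.1 : ℕ) < N then 0 else
        -incr K h l / 2 * (Nt.heatTop L μ (Sum.inr (Sum.inl p)) -
          ∑ k ∈ Icc l (K + 1), Nt.w k * P k (Sum.inr (Sum.inl p)))) =
      -(1 / 2) * (h K * (n * m)) + (1 / 2) * ∑ k ∈ range (K + 1), Nt.w k *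
        ∑ p : Fin (N + m) × Fin n, (if (p.1 : ℕ) < N then 0
          else h k * P k (Sum.inr (Sum.inl p))) := by
    rw [Finset.sum_comm]
    have hp : ∀ p : Fin (N + m) × Fin n, ∑ l ∈ range (K + 1 + 1), (if (p.1 : ℕ) < N then 0 else
        -incr K h l / 2 * (Nt.heatTop L μ (Sum.inr (Sum.inl p)) -
          ∑ k ∈ Icc l (K + 1), Nt.w k * P k (Sum.inr (Sum.inl p)))) =
        -(1 / 2) * h K * (if (p.1 : ℕ) < N then 0 else Nt.heatTop L μ (Sum.inr (Sum.inl p))) +
          (1 / 2) * ∑ k ∈ range (K + 1), Nt.w k * (if (p.1 : ℕ) < N then 0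
            else h k * P k (Sum.inr (Sum.inl p))) := by
      intro p
      split_ifs
      · simp
      · rw [← sum_tail h (fun k => Nt.w k) (fun k => P k (Sum.inr (Sum.inl p))) hw]
        have := sum_incr K h (K + 1)
        rw [min_eq_right (Nat.le_succ K)] at this
        rw [← this, Finset.mul_sum, Finset.sum_mul, Finset.mul_sum, ← Finset.sum_add_distrib]
        exact Finset.sum_congr rfl fun l _ => by ring
    simp only [hp, Finset.sum_add_distrib, ← Finset.mul_sum, hsumY]
    rw [Finset.sum_comm]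
    simp only [← Finset.mul_sum]
    ring
  rw [hG, hY]
  rw [show ∀ a b d : ℝ, -a + (b + d) = b + (d - a) from fun a b d => by ring]
  congr 1
  simp only [Finset.mul_sum, ← Finset.sum_sub_distrib]
  refine Finset.sum_congr rfl fun k _ => Finset.sum_congr rfl fun p _ => ?_
  simp only [bG, hP, ← Finset.mul_sum]
  split_ifs <;> ring

theorem cavity_zero (K M : ℕ) (s e : ℕ → ℝ) (he : e (K + 1) = 0) {h : ℕ → ℝ} (hh : IsPath h)
    (c : ℕ → Fin M → ℝ) :
    (cavNest n N m K M s e h c 0).free (percLeaf φ φ1 φ2 (blockSpin n (N + m)) M)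
        (blockLaw n (N + m)) =
      (percNest K (fun _ : Fin M => fun _ : Fin N × Fin n => (Real.sqrt ((n : ℝ) * N))⁻¹)
          (fun l _ => s l) c).free (percLeaf φ φ1 φ2 (blockSpin n N) M) (blockLaw n N) +
        (n * m : ℝ) * (blockField n K (fun l => h l + ∑ i ∈ range (l + 1), e i ^ 2) +
          (h K + ∑ i ∈ range (K + 1), e i ^ 2) / 2) := by
  set a : ℕ → ℝ := fun l => Real.sqrt (e l ^ 2 + incr K h l) with ha
  have hnest : cavNest n N m K M s e h c 0 = percNest K
      (fun _ : Fin M => fun p : Fin (N + m) × Fin n =>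
        if (p.1 : ℕ) < N then (Real.sqrt ((n : ℝ) * N))⁻¹ else 0)
      (fun l p => if (p.1 : ℕ) < N then s l else a l) c := by
    unfold cavNest
    congr 1
    · funext b p
      simp [cavG, Real.sqrt_inv]
    · funext l p
      simp [cavS, ha, incr]
  rw [hnest, split_all hφ hn K M _ s a c N m,
    single_block hn K (h := fun l => h l + ∑ i ∈ range (l + 1), e i ^ 2) a ?_ ?_]
  · ring
  · intro l hl
    rcases eq_or_ne l 0 with rfl | hl0
    · simp [ha, incr, add_comm]
    · obtain ⟨k, rfl⟩ := Nat.exists_eq_succ_of_ne_zero hl0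
      simp only [ha, incr, if_neg hl0, if_pos hl]
      congr 1
      rw [Nat.succ_eq_add_one, Nat.add_sub_cancel, Finset.sum_range_succ _ (k + 1)]
      ring
  · simp [ha, incr, he]

theorem block_symm (K M : ℕ) (g : ℝ) (s : ℕ → ℝ) (c : ℕ → Fin M → ℝ) {l : ℕ} (hl : l ≤ K + 1)
    (b b' : Fin N) :
    ∑ i, (percNest K (fun _ : Fin M => fun _ : Fin N × Fin n => g) (fun l _ => s l) c).sqGrad
        (percLeaf φ φ1 φ2 (blockSpin n N) M) (blockLaw n N) l (Sum.inr (Sum.inl (b, i))) =
      ∑ i, (percNest K (fun _ : Fin M => fun _ : Fin N × Fin n => g) (fun l _ => s l) c).sqGrad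
        (percLeaf φ φ1 φ2 (blockSpin n N) M) (blockLaw n N) l (Sum.inr (Sum.inl (b', i))) := by
  obtain ⟨hsys, hprob, -⟩ := blockSpin_sys (n := n) (N := N) hn
  have hsph := cav_sphereUnif_prob hn
  set σ : Fin N ≃ Fin N := Equiv.swap b b' with hσ
  set T : (Fin N → Fin n → ℝ) → (Fin N → Fin n → ℝ) := fun ω j => ω (σ j) with hT
  have hTm : Measurable T := measurable_pi_lambda _ fun j => measurable_pi_apply _
  have hTeq : (blockLaw n N).map T = blockLaw n N := by
    have h := (measurePreserving_piCongrLeft (fun _ : Fin N => sphereUnif n) σ.symm).map_eq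
    rw [blockLaw]
    convert h using 2
    funext ω j
    have h' := MeasurableEquiv.piCongrLeft_apply_apply (β := fun _ : Fin N => Fin n → ℝ) σ.symm ω (σ j)
    rw [Equiv.symm_apply_apply] at h'
    exact h'.symm
  have h := (free_map (percNest_good hφ hsys K M (fun _ _ => g) (fun l _ => s l) c)
    (perc_good hφ hsys M) (μ := blockLaw n N)
    (percNest K (fun _ : Fin M => fun _ : Fin N × Fin n => g) (fun l _ => s l) c)
    (percLeaf φ φ1 φ2 (blockSpin n N) M)
    (Equiv.sumCongr ((Equiv.refl (Fin M)).prodCongr (σ.prodCongr (Equiv.refl (Fin n))))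
      (Equiv.sumCongr (σ.prodCongr (Equiv.refl (Fin n))) (Equiv.refl (Fin M))))
    (Equiv.refl _) T hTm rfl rfl ?_ (fun _ => rfl) (fun _ => rfl) (fun _ => rfl) ?_
    (perc_good hφ hsys M)).2
  · refine Finset.sum_congr rfl fun i _ => ?_
    have h1 := h l hl (Sum.inr (Sum.inl (b, i)))
    rw [hTeq] at h1
    simpa [hσ] using h1.symm
  · rintro l (⟨x, p⟩ | p | x) <;> rfl
  · rintro ω (x | u) (⟨y, p⟩ | p | y) <;>
      simp [percLeaf, percCoef, blockSpin, T, hσ]

end

end Vale.Agent.P157.Parisi
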