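import Vale.Agent.P157.Parisi.ConcPath
import Vale.Agent.P157.Parisi.EfronStein

/-!
Module C: the mean absolute deviation of the heat quantity is small on average over the amplitude.
-/

namespace Vale.Agent.P157.Parisi

open MeasureTheory ProbabilityTheory Finset

namespace Conc

variable {ι : Type} [Fintype ι]

lemma integrable_tame_comp {f : (ι → ℝ) → ℝ} (hf : Tame f) (a : ι → ℝ) :
    Integrable (fun z => f fun i => a i * z i) (gauss ι) := by
  obtain ⟨hc, C, k, hb⟩ := hf
  refine integrable_of_exp_bound (hc.comp (by fun_prop)) (C := C) (k := |k| * n1 a) fun z => ?_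
  refine (hb _).trans (mul_le_mul_of_nonneg_left ?_ (tame_bound_nonneg hb))
  refine (exp_sum_mono _ (le_abs_self k)).trans (Real.exp_le_exp.2 ?_)
  rw [mul_assoc]
  exact mul_le_mul_of_nonneg_left (n1_smul_le a z (abs_le_n1 a)) (abs_nonneg k)

lemma abs_le_amgm {lam t : ℝ} (hlam : 0 < lam) : |t| ≤ lam / 2 * t ^ 2 + 1 / (2 * lam) := by
  have : lam / 2 * t ^ 2 + 1 / (2 * lam) - |t| = (lam * |t| - 1) ^ 2 / (2 * lam) := by
    rw [← sq_abs t]; field_simp; ring
  linarith [div_nonneg (sq_nonneg (lam * |t| - 1)) (show (0 : ℝ) ≤ 2 * lam by linarith)]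

/-- The first two derivatives of the recursion at the root and of the free energy in the
amplitude of level `l + 1`. -/
lemma free_derivs [DecidableEq ι] {Ω κ : Type} [Fintype κ] [MeasurableSpace Ω] {N : Nest ι}
    {L : Leaf Ω κ ι} {μ : Measure Ω} [IsProbabilityMeasure μ] {B : ℝ} {S : Finset ι}
    {Γ D ξ R : ℝ} {l : ℕ} (hN : N.Good) (hL : L.Good B) (hS : L.CurvLower S Γ)
    (hcard : (S.card : ℝ) ≤ Γ * D)
    (hb : ∀ ω y, |∑ i ∈ S, ((∑ j, L.φ2 j (L.loc ω y j) * L.a ω j i ^ 2) + L.vec i ω y ^ 2)|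
      ≤ Γ * D) (hl : l < N.K) (hξ : 0 ≤ ξ) (hξj : ∀ j, 1 ≤ j → j ≤ N.K → ξ ≤ N.x j) :
    let M : ℝ → Nest ι := fun s => N.withAmp S (l + 1) s
    let W1 : ℝ → (ι → ℝ) → ℝ := fun s => iterAvg (M s) (L.logZ μ) 0 l (hTop N L μ S l s)
    let Q : ℝ → (ι → ℝ) → ℝ := fun s =>
      iterAvg (M s) (L.logZ μ) 0 l (fun v => hTop N L μ S l s v ^ 2)
    let p : (ι → ℝ) → ι → ℝ := fun z i => N.amp 0 i * z i
    (∀ s y, W1 s y ^ 2 ≤ Q s y) ∧
    ∃ W2 : ℝ → (ι → ℝ) → ℝ,
      (∀ y t, |t| < R → HasDerivAt (fun u => (M u).u (L.logZ μ) 0 y) (W1 t y) t) ∧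
      (∀ y t, |t| < R → HasDerivAt (fun u => W1 u y) (W2 t y) t) ∧
      (∀ y t, |t| < R → -(convConst Γ R * D) ≤ W2 t y) ∧
      (∀ t, |t| < R → HasDerivAt (fun u => (M u).free L μ) (∫ z, W1 t (p z) ∂gauss ι) t) ∧
      (∀ t, |t| < R → HasDerivAt (fun u => ∫ z, W1 u (p z) ∂gauss ι)
        (∫ z, W2 t (p z) ∂gauss ι) t) ∧
      (∀ t, |t| < R → ξ * ∫ z, (Q t (p z) - W1 t (p z) ^ 2) ∂gauss ι ≤
        (∫ z, W2 t (p z) ∂gauss ι) + convConst Γ R * D) ∧
      ∀ t, |t| < R → ∀ y, |W1 t y| ≤ R * (heatConst Γ * D) := by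
  intro M W1 Q p
  set U := L.logZ μ
  obtain ⟨W2, h1, h2, h3, ⟨C, k, hk, hW⟩, h5⟩ :=
    path_deriv (μ := μ) (R := R) hN hL hS hcard hb hl hξj l 0 (zero_add l)
  have hMg : ∀ s, (M s).Good := fun s => withAmp_good hN S (l + 1) s
  have hlK : l ≤ N.K := hl.le
  have h0l : 0 + l ≤ N.K := by omega
  have hpc : Continuous p := by simp only [p]; fun_prop
  have hW1t : ∀ s, Tame (W1 s) := fun s => iter_tame (hMg s) hL (hTop_tame hN hL hl s) l 0 h0l
  set c₀ := R * (heatConst Γ * D) with hc₀
  have hW1b : ∀ s, |s| < R → ∀ y, |W1 s y| ≤ c₀ := fun s hs y =>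
    abs_iter_le (hMg s) hL (hTop_tame hN hL hl s) (abs_hTop_le hN hL hS hcard hb hl hs.le) h0l y
  have hW2t : ∀ s, |s| < R → Tame (W2 s) := fun s hs => ⟨h3 s hs, C, k, hW s hs⟩
  have hmean : ∀ s f, (M s).mean U 0 f = ∫ z, f (p z) ∂gauss ι := by
    intro s f
    simp only [M, Nest.mean, withAmp_amp_ne N S (show 0 ≠ l + 1 by omega) s, p]
  have hut : ∀ s, Tame ((M s).u U 0) := fun s => u_tame (hMg s) hL 0
  set Φ : ℝ → ℝ := fun s => (M s).free L μ with hΦ
  set Φ' : ℝ → ℝ := fun s => ∫ z, W1 s (p z) ∂gauss ι with hΦ'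
  set Φ'' : ℝ → ℝ := fun s => ∫ z, W2 s (p z) ∂gauss ι with hΦ''
  set C2 := convConst Γ R
  -- derivatives of the free energy
  have hd1 : ∀ s, |s| < R → HasDerivAt Φ (Φ' s) s := by
    intro s hs
    obtain ⟨hc, Cu, ku, hu⟩ := hut s
    have hCu : 0 ≤ Cu := tame_bound_nonneg hu
    have h := hasDerivAt_gauss_integral (F := fun t z => (M t).u U 0 (p z))
      (F' := fun t z => W1 t (p z)) (t₀ := s) (C := Cu + |c₀|) (k := |ku| * n1 (N.amp 0))
      (show 0 < R - |s| by linarith) (fun t _ => (hut t).1.comp hpc) ((hW1t s).1.comp hpc)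
      (fun t ht z => h1 (p z) t (by linarith [abs_sub_abs_le_abs_sub t s]))
      (fun z => by
        refine (hu _).trans (mul_le_mul (le_add_of_nonneg_right (abs_nonneg _)) ?_
          (Real.exp_pos _).le (by positivity))
        refine (exp_sum_mono _ (le_abs_self ku)).trans (Real.exp_le_exp.2 ?_)
        rw [mul_assoc]
        exact mul_le_mul_of_nonneg_left (n1_smul_le _ z (abs_le_n1 _)) (abs_nonneg ku))
      (fun t ht z => by
        refine ((hW1b t (by linarith [abs_sub_abs_le_abs_sub t s]) _).trans (le_abs_self _)).trans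
          ((le_add_of_nonneg_left hCu).trans (le_mul_of_one_le_right (by positivity)
            (Real.one_le_exp ?_)))
        exact mul_nonneg (mul_nonneg (abs_nonneg _) (n1_nonneg _)) (sum_nonneg fun _ _ => abs_nonneg _))
    exact h.congr_of_eventuallyEq (.of_forall fun t => hmean t _)
  have hd2 : ∀ s, |s| < R → HasDerivAt Φ' (Φ'' s) s := by
    intro s hs
    have hC : 0 ≤ C := tame_bound_nonneg (k := k) (hW s hs)
    exact hasDerivAt_gauss_integral (F := fun t z => W1 t (p z)) (F' := fun t z => W2 t (p z))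
      (t₀ := s) (C := C + |c₀|) (k := k * n1 (N.amp 0)) (show 0 < R - |s| by linarith)
      (fun t _ => (hW1t t).1.comp hpc) ((h3 s hs).comp hpc)
      (fun t ht z => h2 (p z) t (by linarith [abs_sub_abs_le_abs_sub t s]))
      (fun z => ((hW1b s hs _).trans (le_abs_self _)).trans
        ((le_add_of_nonneg_left hC).trans (le_mul_of_one_le_right (by positivity)
          (Real.one_le_exp (mul_nonneg (mul_nonneg hk (n1_nonneg _))
            (sum_nonneg fun _ _ => abs_nonneg _))))))
      (fun t ht z => by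
        refine (hW t (by linarith [abs_sub_abs_le_abs_sub t s]) _).trans
          (mul_le_mul (le_add_of_nonneg_right (abs_nonneg _)) (Real.exp_le_exp.2 ?_)
            (Real.exp_pos _).le (by positivity))
        rw [mul_assoc]
        exact mul_le_mul_of_nonneg_left (n1_smul_le _ z (abs_le_n1 _)) hk)
  -- the variance along the path
  have hQt : ∀ s, Tame (Q s) := fun s =>
    iter_tame (hMg s) hL (tame_sq (hTop_tame hN hL hl s)) l 0 h0l
  have hjen : ∀ s y, W1 s y ^ 2 ≤ Q s y := by
    intro s y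
    set c := W1 s y with hc
    have := iter_mono (μ := μ) (hMg s) hL
      (tame_add (tame_const_mul (hTop_tame hN hL hl s) (2 * c)) (tame_const (-c ^ 2)))
      (tame_sq (hTop_tame hN hL hl s))
      (fun v => by nlinarith [sq_nonneg (hTop N L μ S l s v - c)]) l 0 h0l y
    rw [iter_add (hMg s) hL (tame_const_mul (hTop_tame hN hL hl s) _) (tame_const _) l 0 h0l,
      iter_const_mul (hMg s) hL, iter_const (hMg s) hL _ l 0 h0l] at this
    change 2 * c * W1 s y + -c ^ 2 ≤ Q s y at this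
    rw [← hc] at this
    nlinarith
  have hvar : ∀ s, |s| < R → ξ * ∫ z, (Q s (p z) - W1 s (p z) ^ 2) ∂gauss ι ≤
      Φ'' s + C2 * D := by
    intro s hs
    have i1 : Integrable (fun z => Q s (p z) - W1 s (p z) ^ 2) (gauss ι) :=
      integrable_tame_comp (tame_sub (hQt s) (tame_sq (hW1t s))) _
    have := integral_mono (μ := gauss ι) ((integrable_const (-(C2 * D))).add (i1.const_mul ξ))
      (integrable_tame_comp (hW2t s hs) (N.amp 0)) fun z => h5 s hs (p z)
    rw [integral_add' (integrable_const _) (i1.const_mul ξ), integral_const_mul] at this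
    simp only [integral_const, probReal_univ, one_smul] at this
    linarith
  exact ⟨hjen, W2, h1, h2, fun y t ht => by
    linarith [h5 t ht y, mul_nonneg hξ (sub_nonneg.2 (hjen t y))], hd1, hd2, hvar, hW1b⟩

/-- The derivative in the amplitude of the free energy, shifted to be increasing, is an upper
bound for the mean deviation of the heat quantity. -/
lemma heatDev_le [DecidableEq ι] {Ω κ : Type} [Fintype κ] [MeasurableSpace Ω] {N : Nest ι}
    {L : Leaf Ω κ ι} {μ : Measure Ω} [IsProbabilityMeasure μ] {B : ℝ} {S : Finset ι}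
    {Γ D ξ R δ d a b : ℝ} {l : ℕ} (hN : N.Good) (hL : L.Good B) (hS : L.CurvLower S Γ)
    (hcard : (S.card : ℝ) ≤ Γ * D)
    (hb : ∀ ω y, |∑ i ∈ S, ((∑ j, L.φ2 j (L.loc ω y j) * L.a ω j i ^ 2) + L.vec i ω y ^ 2)|
      ≤ Γ * D) (hl : l < N.K) (hξ : 0 < ξ) (hξj : ∀ j, 1 ≤ j → j ≤ N.K → ξ ≤ N.x j)
    (hD : 1 ≤ D) (hd : 0 < d) (ha : 0 < a) (hlo : -R < a - d) (hhi : b + d < R)
    (hconc : ∀ s ∈ Set.Icc (a - d) (b + d),
        (N.withAmp S (l + 1) s).mean (L.logZ μ) 0
          (fun y => |(N.withAmp S (l + 1) s).u (L.logZ μ) 0 y -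
            (N.withAmp S (l + 1) s).free L μ|) ≤ δ * D) :
    ∃ g g' : ℝ → ℝ, (∀ s, |s| < R → HasDerivAt g (g' s) s) ∧ (∀ s, |s| < R → 0 ≤ g' s) ∧
      (∀ s, |s| < R → |g s| ≤ (R * heatConst Γ + convConst Γ R * R) * D) ∧
      ∀ s ∈ Set.Icc a b, (N.withAmp S (l + 1) s).heatDev L μ S D l ≤
        g' s / (2 * ξ * a ^ 2 * D * Real.sqrt D) + 1 / (2 * Real.sqrt D) +
          (1 / (a * D)) * (4 * δ * D / d + (g (s + d) - g (s - d))) := by
  set U := L.logZ μ
  obtain ⟨hjen, W2, h1, h2, hW2ge, hd1, hd2, hvar, hW1b⟩ :=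
    free_derivs (μ := μ) (R := R) hN hL hS hcard hb hl hξ.le hξj
  set M : ℝ → Nest ι := fun s => N.withAmp S (l + 1) s with hM
  have hMg : ∀ s, (M s).Good := fun s => withAmp_good hN S (l + 1) s
  have hlK : l ≤ N.K := hl.le
  have h0l : 0 + l ≤ N.K := by omega
  set p : (ι → ℝ) → ι → ℝ := fun z i => N.amp 0 i * z i with hp
  set W1 : ℝ → (ι → ℝ) → ℝ := fun s => iterAvg (M s) U 0 l (hTop N L μ S l s) with hW1
  have hW1t : ∀ s, Tame (W1 s) := fun s => iter_tame (hMg s) hL (hTop_tame hN hL hl s) l 0 h0l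
  set c₀ := R * (heatConst Γ * D) with hc₀
  have hmean : ∀ s f, (M s).mean U 0 f = ∫ z, f (p z) ∂gauss ι := by
    intro s f
    simp only [M, Nest.mean, withAmp_amp_ne N S (show 0 ≠ l + 1 by omega) s, p]
  have hut : ∀ s, Tame ((M s).u U 0) := fun s => u_tame (hMg s) hL 0
  set Φ : ℝ → ℝ := fun s => (M s).free L μ with hΦ
  set Φ' : ℝ → ℝ := fun s => ∫ z, W1 s (p z) ∂gauss ι with hΦ'
  set Φ'' : ℝ → ℝ := fun s => ∫ z, W2 s (p z) ∂gauss ι with hΦ''
  set C2 := convConst Γ R
  set Q : ℝ → (ι → ℝ) → ℝ := fun s => iterAvg (M s) U 0 l (fun v => hTop N L μ S l s v ^ 2)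
  -- semiconvexity of the recursion and of the free energy
  have mono : ∀ f f' : ℝ → ℝ, (∀ t, |t| < R → HasDerivAt f (f' t) t) →
      (∀ t, |t| < R → -(C2 * D) ≤ f' t) →
      MonotoneOn (fun t => f t + C2 * D * t) (Set.Ioo (-R) R) := by
    intro f f' hf hge
    have hder : ∀ t ∈ Set.Ioo (-R) R, HasDerivAt (fun t => f t + C2 * D * t) (f' t + C2 * D) t :=
      fun t ht => by
        exact ((hf t (abs_lt.2 ht)).add ((hasDerivAt_id' t).const_mul (C2 * D))).congr_deriv
          (by simp)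
    refine monotoneOn_of_hasDerivWithinAt_nonneg (f' := fun t => f' t + C2 * D) (convex_Ioo _ _)
      (fun t ht => (hder t ht).continuousAt.continuousWithinAt)
      (fun t ht => (hder t (interior_subset ht)).hasDerivWithinAt)
      fun t ht => ?_
    linarith [hge t (abs_lt.2 (interior_subset (s := Set.Ioo (-R) R) ht))]
  have hΦge : ∀ t, |t| < R → -(C2 * D) ≤ Φ'' t := fun t ht => by
    linarith [hvar t ht, mul_nonneg hξ.le (integral_nonneg (μ := gauss ι)
      fun z => sub_nonneg.2 (hjen t (p z)))]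
  refine ⟨fun s => Φ' s + C2 * D * s, fun s => Φ'' s + C2 * D, fun s hs => ?_, fun s hs => ?_,
    fun s hs => ?_, fun s hs => ?_⟩
  · exact ((hd2 s hs).add ((hasDerivAt_id' s).const_mul (C2 * D))).congr_deriv (by simp [Φ''])
  · linarith [hΦge s hs]
  · have e : |Φ' s| ≤ c₀ := by
      simpa using norm_integral_le_of_norm_le_const (μ := gauss ι) (f := fun z => W1 s (p z))
        (.of_forall fun z => hW1b s hs (p z))
    refine (abs_add_le _ _).trans ?_
    rw [abs_mul]
    have hC2 : 0 ≤ C2 * D := by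
      have hh := (abs_nonneg _).trans (abs_heat_le (μ := μ) hN hL hS hcard hb hl s 0)
      have : C2 * D = Γ * (Γ * D + R ^ 2 * (heatConst Γ * D)) := by
        simp only [C2, convConst]; ring
      rw [this]
      exact mul_nonneg hS.1 (add_nonneg (mul_nonneg hS.1 (by linarith))
        (mul_nonneg (sq_nonneg _) hh))
    rw [abs_of_nonneg hC2]
    have := mul_le_mul_of_nonneg_left hs.le hC2
    linarith
  have hsR : |s| < R := abs_lt.2 ⟨by linarith [hs.1], by linarith [hs.2]⟩
  have hs0 : 0 < s := lt_of_lt_of_le ha hs.1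
  set H := (M s).heatSum L μ S D l with hH
  have hHt : Tame H := tame_heatSum (hMg s) hL S D (show l ≤ (M s).K from hlK)
  have hhH : hTop N L μ S l s = fun v => s * D * H v := by
    funext v
    simp only [hTop, H, Nest.heatSum, M]
    field_simp
  set P := iterAvg (M s) U 0 l H with hP
  set QH := iterAvg (M s) U 0 l (fun v => H v ^ 2) with hQH
  have hPt : Tame P := iter_tame (hMg s) hL hHt l 0 h0l
  have hQHt : Tame QH := iter_tame (hMg s) hL (tame_sq hHt) l 0 h0l
  have eW1 : ∀ y, W1 s y = s * D * P y := fun y => by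
    simp only [W1, hhH]
    exact iter_const_mul (hMg s) hL (s * D) H l 0 y
  have eQ : ∀ y, Q s y = (s * D) ^ 2 * QH y := fun y => by
    simp only [Q, hhH, mul_pow]
    exact iter_const_mul (hMg s) hL (s ^ 2 * D ^ 2) (fun v => H v ^ 2) l 0 y
  set c := (M s).mean U l H with hc
  have emean : ∀ f, (M s).mean U l f = ∫ z, iterAvg (M s) U 0 l f (p z) ∂gauss ι := fun f => by
    rw [← hmean s, mean_iterAvg, zero_add]
  have eΦ' : Φ' s = s * D * c := by
    simp only [Φ', eW1, integral_const_mul, hc, emean, hP]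
  set lam := Real.sqrt D with hlam
  have hlam0 : 0 < lam := Real.sqrt_pos.2 (by linarith)
  have hpt : ∀ y, iterAvg (M s) U 0 l (fun v => |H v - c|) y ≤
      lam / 2 * (QH y - P y ^ 2) + 1 / (2 * lam) + |P y - c| := by
    intro y
    set q := P y with hq
    have hpoly : Tame fun v =>
        lam / 2 * H v ^ 2 + (-(lam * q) * H v + (lam / 2 * q ^ 2 + 1 / (2 * lam) + |q - c|)) :=
      tame_add (tame_const_mul (tame_sq hHt) _)
        (tame_add (tame_const_mul hHt _) (tame_const _))
    refine (iter_mono (hMg s) hL (tame_abs (tame_sub hHt (tame_const c))) hpoly (fun v => ?_)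
      l 0 h0l y).trans (le_of_eq ?_)
    · have := abs_sub_le (H v) q c
      have := abs_le_amgm (t := H v - q) hlam0
      nlinarith
    · rw [iter_add (hMg s) hL (tame_const_mul (tame_sq hHt) _)
          (tame_add (tame_const_mul hHt _) (tame_const _)) l 0 h0l,
        iter_add (hMg s) hL (tame_const_mul hHt _) (tame_const _) l 0 h0l,
        iter_const_mul (hMg s) hL, iter_const_mul (hMg s) hL, iter_const (hMg s) hL _ l 0 h0l]
      simp only [QH, q, P]
      ring
  have iv : Integrable (fun z => QH (p z) - P (p z) ^ 2) (gauss ι) :=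
    integrable_tame_comp (tame_sub hQHt (tame_sq hPt)) _
  have ic : Integrable (fun z => |P (p z) - c|) (gauss ι) :=
    integrable_tame_comp (tame_abs (tame_sub hPt (tame_const c))) _
  have hdev : (M s).heatDev L μ S D l ≤ lam / 2 * (∫ z, (QH (p z) - P (p z) ^ 2) ∂gauss ι) +
      1 / (2 * lam) + ∫ z, |P (p z) - c| ∂gauss ι := by
    show (M s).mean U l (fun v => |H v - c|) ≤ _
    rw [emean]
    have i1 : Integrable (fun z => lam / 2 * (QH (p z) - P (p z) ^ 2) + 1 / (2 * lam)) (gauss ι) :=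
      (iv.const_mul _).add (integrable_const _)
    refine (integral_mono (integrable_tame_comp (iter_tame (hMg s) hL
      (tame_abs (tame_sub hHt (tame_const c))) l 0 h0l) _) (i1.add ic) fun z => hpt (p z)).trans
      (le_of_eq ?_)
    rw [integral_add' i1 ic, integral_add (iv.const_mul _) (integrable_const _), integral_const_mul]
    simp
  -- the variance term
  have hterm1 : lam / 2 * (∫ z, (QH (p z) - P (p z) ^ 2) ∂gauss ι) ≤
      (Φ'' s + C2 * D) / (2 * ξ * a ^ 2 * D * lam) := by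
    have h := hvar s hsR
    have e : ∀ z, Q s (p z) - W1 s (p z) ^ 2 = (s * D) ^ 2 * (QH (p z) - P (p z) ^ 2) := fun z => by
      rw [eQ, eW1]; ring
    simp only [e, integral_const_mul] at h
    set V := ∫ z, (QH (p z) - P (p z) ^ 2) ∂gauss ι
    have hV : 0 ≤ V := integral_nonneg fun z => by
      have := hjen s (p z)
      rw [eQ, eW1, mul_pow] at this
      exact sub_nonneg.2 (le_of_mul_le_mul_left this (by positivity))
    rw [le_div_iff₀ (by positivity)]
    have hl2 : lam * lam = D := Real.mul_self_sqrt (by linarith)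
    have h' : ξ * ((a * D) ^ 2 * V) ≤ ξ * ((s * D) ^ 2 * V) := by
      gcongr
      exact hs.1
    calc lam / 2 * V * (2 * ξ * a ^ 2 * D * lam) = ξ * ((a * D) ^ 2 * V) := by
          linear_combination (V * ξ * a ^ 2 * D) * hl2
      _ ≤ Φ'' s + C2 * D := h'.trans h
  -- the root term
  have hterm2 : ∫ z, |P (p z) - c| ∂gauss ι ≤ (1 / (a * D)) * (4 * δ * D / d +
      (Φ' (s + d) + C2 * D * (s + d) - (Φ' (s - d) + C2 * D * (s - d)))) := by
    have hDs : ∀ t ∈ Set.Icc (a - d) (b + d),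
        ∫ z, |(M t).u U 0 (p z) - Φ t| ∂gauss ι ≤ δ * D := fun t ht =>
      (hmean t _).symm.trans_le (hconc t ht)
    have iD : ∀ t, Integrable (fun z => |(M t).u U 0 (p z) - Φ t|) (gauss ι) := fun t =>
      integrable_tame_comp (tame_abs (tame_sub (hut t) (tame_const (Φ t)))) _
    set osc := Φ' (s + d) + C2 * D * (s + d) - (Φ' (s - d) + C2 * D * (s - d))
    have hsub : Set.Icc (s - d) (s + d) ⊆ Set.Ioo (-R) R := fun t ht =>
      ⟨by linarith [ht.1, hs.1], by linarith [ht.2, hs.2]⟩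
    have hz : ∀ z, |W1 s (p z) - Φ' s| ≤
        d⁻¹ * (|(M (s + d)).u U 0 (p z) - Φ (s + d)| + 2 * |(M s).u U 0 (p z) - Φ s| +
          |(M (s - d)).u U 0 (p z) - Φ (s - d)|) + osc := fun z => by
      refine (deriv_sub_le (φ := fun t => (M t).u U 0 (p z)) (φ' := fun t => W1 t (p z))
        (c := C2 * D) hd hsub (fun t ht => h1 (p z) t (abs_lt.2 ht))
        (fun t ht => hd1 t (abs_lt.2 ht)) (mono _ _ (fun t ht => h2 (p z) t ht) (hW2ge (p z)))
        (mono _ _ hd2 hΦge)).trans (le_of_eq ?_)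
      rw [div_eq_inv_mul]
    have isum : Integrable (fun z => d⁻¹ * (|(M (s + d)).u U 0 (p z) - Φ (s + d)| +
        2 * |(M s).u U 0 (p z) - Φ s| + |(M (s - d)).u U 0 (p z) - Φ (s - d)|)) (gauss ι) :=
      (((iD _).add ((iD _).const_mul 2)).add (iD _)).const_mul _
    have hroot : ∫ z, |W1 s (p z) - Φ' s| ∂gauss ι ≤ 4 * δ * D / d + osc := by
      refine (integral_mono (integrable_tame_comp (tame_abs (tame_sub (hW1t s) (tame_const _))) _)
        (isum.add (integrable_const osc)) hz).trans ?_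
      have e1 : Integrable (fun z => |(M (s + d)).u U 0 (p z) - Φ (s + d)| +
          2 * |(M s).u U 0 (p z) - Φ s|) (gauss ι) := (iD _).add ((iD _).const_mul 2)
      rw [integral_add' isum (integrable_const _), integral_const_mul,
        integral_add e1 (iD _), integral_add (iD _) ((iD _).const_mul 2), integral_const_mul]
      simp only [integral_const, probReal_univ, one_smul]
      have := hDs (s + d) ⟨by linarith [hs.1], by linarith [hs.2]⟩
      have := hDs s ⟨by linarith [hs.1], by linarith [hs.2]⟩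
      have := hDs (s - d) ⟨by linarith [hs.1], by linarith [hs.2]⟩
      rw [div_eq_inv_mul]
      have : d⁻¹ * ((∫ z, |(M (s + d)).u U 0 (p z) - Φ (s + d)| ∂gauss ι) +
          2 * (∫ z, |(M s).u U 0 (p z) - Φ s| ∂gauss ι) +
          ∫ z, |(M (s - d)).u U 0 (p z) - Φ (s - d)| ∂gauss ι) ≤ d⁻¹ * (4 * δ * D) :=
        mul_le_mul_of_nonneg_left (by linarith) (by positivity)
      linarith
    have hsD : 0 < s * D := by positivity
    have e : ∀ z, |W1 s (p z) - Φ' s| = s * D * |P (p z) - c| := fun z => by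
      rw [eW1, eΦ', ← mul_sub, abs_mul, abs_of_pos hsD]
    simp only [e, integral_const_mul] at hroot
    have hI : 0 ≤ ∫ z, |P (p z) - c| ∂gauss ι := integral_nonneg fun z => abs_nonneg _
    rw [one_div, ← div_eq_inv_mul, le_div_iff₀ (by positivity)]
    refine le_trans ?_ hroot
    rw [mul_comm]
    gcongr
    exact hs.1
  show (M s).heatDev L μ S D l ≤ (Φ'' s + C2 * D) / (2 * ξ * a ^ 2 * D * lam) + 1 / (2 * lam) +
    (1 / (a * D)) * (4 * δ * D / d +
      (Φ' (s + d) + C2 * D * (s + d) - (Φ' (s - d) + C2 * D * (s - d))))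
  linarith

end Conc

open Conc in
theorem heatDev_integral_le (K : ℕ) (a b ξ Γ : ℝ) (ha : 0 < a) (hab : a < b) (hξ : 0 < ξ) :
    ∃ Cst : ℝ, ∀ {ι Ω κ : Type} [Fintype ι] [DecidableEq ι] [Fintype κ] [MeasurableSpace Ω]
      (N : Nest ι) (L : Leaf Ω κ ι) (μ : Measure Ω) (S : Finset ι) (B D δ d : ℝ) (l : ℕ),
      IsProbabilityMeasure μ → L.Good B → N.Good → N.K ≤ K → l < N.K →
      (∀ j, 1 ≤ j → j ≤ N.K → ξ ≤ N.x j) → 1 ≤ D → (S.card : ℝ) ≤ Γ * D → 0 < d → d ≤ a / 2 →
      L.CurvLower S Γ →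
      (∀ ω y, |∑ i ∈ S, ((∑ j, L.φ2 j (L.loc ω y j) * L.a ω j i ^ 2) + L.vec i ω y ^ 2)| ≤ Γ * D) →
      (∀ s ∈ Set.Icc (a - d) (b + d),
        (N.withAmp S (l + 1) s).mean (L.logZ μ) 0
          (fun y => |(N.withAmp S (l + 1) s).u (L.logZ μ) 0 y - (N.withAmp S (l + 1) s).free L μ|)
            ≤ δ * D) →
      ∫ s in a..b, (N.withAmp S (l + 1) s).heatDev L μ S D l ≤
        Cst * (δ / d + d + 1 / Real.sqrt D) := by
  set R := 2 * b with hR
  set C3 := R * heatConst Γ + convConst Γ R * R with hC3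
  set A1 := C3 / (ξ * a ^ 2) + (b - a) / 2 with hA1
  set A2 := 4 * (b - a) / a with hA2
  set A3 := 4 * C3 / a with hA3
  refine ⟨A1 + A2 + A3, ?_⟩
  intro ι Ω κ _ _ _ _ N L μ S B D δ d l hμ hL hN _ hl hξj hD hcard hd hda hS hb hconc
  obtain ⟨g, g', hg, hg0, hgb, hdev⟩ := heatDev_le (μ := μ) (R := R) hN hL hS hcard hb hl hξ hξj
    hD hd ha (a := a) (b := b) (δ := δ) (by linarith) (by linarith) hconc
  have hR0 : 0 < R := by linarith
  have hC3 : 0 ≤ C3 := nonneg_of_mul_nonneg_left ((abs_nonneg _).trans (hgb 0 (by simpa using hR0)))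
    (by linarith)
  have hlam : 0 < Real.sqrt D := Real.sqrt_pos.2 (by linarith)
  have hδ : 0 ≤ δ := by
    refine nonneg_of_mul_nonneg_left (le_trans ?_ (hconc a ⟨by linarith, by linarith⟩))
      (show 0 < D by linarith)
    exact integral_nonneg fun z => abs_nonneg _
  have hA1 : 0 ≤ A1 := add_nonneg (div_nonneg hC3 (by positivity)) (by linarith)
  have hA2 : 0 ≤ A2 := div_nonneg (by linarith) ha.le
  have hA3 : 0 ≤ A3 := div_nonneg (by linarith) ha.le
  have t1 : 0 ≤ δ / d := div_nonneg hδ hd.le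
  have t3 : 0 ≤ 1 / Real.sqrt D := by positivity
  have hfin : A1 * (1 / Real.sqrt D) + A2 * (δ / d) + A3 * d ≤
      (A1 + A2 + A3) * (δ / d + d + 1 / Real.sqrt D) := by
    have := mul_nonneg hA1 (add_nonneg t1 hd.le)
    have := mul_nonneg hA2 (add_nonneg hd.le t3)
    have := mul_nonneg hA3 (add_nonneg t1 t3)
    linarith
  refine le_trans ?_ hfin
  have hRHS : 0 ≤ A1 * (1 / Real.sqrt D) + A2 * (δ / d) + A3 * d :=
    add_nonneg (add_nonneg (mul_nonneg hA1 t3) (mul_nonneg hA2 t1)) (mul_nonneg hA3 hd.le)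
  by_cases hint : IntervalIntegrable (fun s => (N.withAmp S (l + 1) s).heatDev L μ S D l) volume a b
  swap
  · rw [intervalIntegral.integral_undef hint]; exact hRHS
  have hcont : ContinuousOn g (Set.Icc (a - d) (b + d)) := fun t ht =>
    (hg t (abs_lt.2 ⟨by linarith [ht.1], by linarith [ht.2]⟩)).continuousAt.continuousWithinAt
  have hii : ∀ u v, a - d ≤ u → u ≤ b + d → a - d ≤ v → v ≤ b + d →
      IntervalIntegrable g volume u v := fun u v h1 h2 h3 h4 =>
    (hcont.mono (Set.uIcc_subset_Icc ⟨h1, h2⟩ ⟨h3, h4⟩)).intervalIntegrable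
  have hinR : ∀ t ∈ Set.Icc a b, |t| < R := fun t ht =>
    abs_lt.2 ⟨by linarith [ht.1], by linarith [ht.2]⟩
  have ig' : IntervalIntegrable g' volume a b := by
    refine intervalIntegral.intervalIntegrable_deriv_of_nonneg
      (hcont.mono (Set.uIcc_subset_Icc ⟨by linarith, by linarith⟩ ⟨by linarith, by linarith⟩))
      (fun t ht => hg t (hinR t ?_)) (fun t ht => hg0 t (hinR t ?_)) <;>
    · rw [min_eq_left hab.le, max_eq_right hab.le] at ht
      exact ⟨ht.1.le, ht.2.le⟩
  have ip : IntervalIntegrable (fun s => g (s + d)) volume a b := by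
    simpa using (hii (a + d) (b + d) (by linarith) (by linarith) (by linarith) le_rfl).comp_add_right d
  have im : IntervalIntegrable (fun s => g (s - d)) volume a b := by
    simpa using (hii (a - d) (b - d) le_rfl (by linarith) (by linarith) (by linarith)).comp_sub_right d
  have iW : IntervalIntegrable (fun s => g' s / (2 * ξ * a ^ 2 * D * Real.sqrt D) +
      1 / (2 * Real.sqrt D) + (1 / (a * D)) * (4 * δ * D / d + (g (s + d) - g (s - d)))) volume a b :=
    ((ig'.div_const _).add intervalIntegrable_const).add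
      ((intervalIntegrable_const.add (ip.sub im)).const_mul _)
  refine (intervalIntegral.integral_mono_on hab.le hint iW hdev).trans ?_
  rw [intervalIntegral.integral_add ((ig'.div_const _).add intervalIntegrable_const)
      ((intervalIntegrable_const.add (ip.sub im)).const_mul _),
    intervalIntegral.integral_add (ig'.div_const _) intervalIntegrable_const,
    intervalIntegral.integral_div, intervalIntegral.integral_const_mul,
    intervalIntegral.integral_add intervalIntegrable_const (ip.sub im),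
    intervalIntegral.integral_sub ip im, intervalIntegral.integral_const,
    intervalIntegral.integral_const, intervalIntegral.integral_comp_add_right,
    intervalIntegral.integral_comp_sub_right,
    intervalIntegral.integral_eq_sub_of_hasDerivAt
      (fun t ht => hg t (hinR t (by rwa [Set.uIcc_of_le hab.le] at ht))) ig']
  simp only [smul_eq_mul]
  have hosc : (∫ x in a + d..b + d, g x) - ∫ x in a - d..b - d, g x ≤ 4 * d * (C3 * D) := by
    have e1 := intervalIntegral.integral_add_adjacent_intervals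
      (hii (a - d) (a + d) le_rfl (by linarith) (by linarith) (by linarith))
      (hii (a + d) (b + d) (by linarith) (by linarith) (by linarith) le_rfl)
    have e2 := intervalIntegral.integral_add_adjacent_intervals
      (hii (a - d) (b - d) le_rfl (by linarith) (by linarith) (by linarith))
      (hii (b - d) (b + d) (by linarith) (by linarith) (by linarith) le_rfl)
    have hbd : ∀ u v, a - d ≤ u → u ≤ v → v ≤ b + d → v - u = 2 * d →
        |∫ x in u..v, g x| ≤ C3 * D * (2 * d) := by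
      intro u v h1 h2 h3 h4
      have h := intervalIntegral.norm_integral_le_of_norm_le_const (a := u) (b := v) (f := g)
        (C := C3 * D) fun x hx => by
          rw [Set.uIoc_of_le h2] at hx
          exact hgb x (abs_lt.2 ⟨by linarith [hx.1], by linarith [hx.2]⟩)
      rwa [h4, abs_of_pos (show (0 : ℝ) < 2 * d by linarith), Real.norm_eq_abs] at h
    have b1 := hbd (a - d) (a + d) le_rfl (by linarith) (by linarith) (by ring)
    have b2 := hbd (b - d) (b + d) (by linarith) (by linarith) le_rfl (by ring)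
    linarith [abs_le.1 b1, abs_le.1 b2]
  have hgg : g b - g a ≤ 2 * (C3 * D) := by
    linarith [(abs_le.1 (hgb b (hinR b ⟨hab.le, le_rfl⟩))).2,
      (abs_le.1 (hgb a (hinR a ⟨le_rfl, hab.le⟩))).1]
  have hD0 : 0 < D := by linarith
  have p1 : (g b - g a) / (2 * ξ * a ^ 2 * D * Real.sqrt D) ≤
      C3 / (ξ * a ^ 2) * (1 / Real.sqrt D) := by
    refine (div_le_div_of_nonneg_right hgg (by positivity)).trans (le_of_eq ?_)
    field_simp
  have p2 : 1 / (a * D) * ((b - a) * (4 * δ * D / d) +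
      ((∫ x in a + d..b + d, g x) - ∫ x in a - d..b - d, g x)) ≤ A2 * (δ / d) + A3 * d := by
    refine (mul_le_mul_of_nonneg_left (add_le_add le_rfl hosc) (by positivity)).trans (le_of_eq ?_)
    simp only [A2, A3]
    field_simp
  have p3 : (b - a) * (1 / (2 * Real.sqrt D)) = (b - a) / 2 * (1 / Real.sqrt D) := by ring
  have : A1 * (1 / Real.sqrt D) =
      C3 / (ξ * a ^ 2) * (1 / Real.sqrt D) + (b - a) / 2 * (1 / Real.sqrt D) := by
    simp only [A1]; ring
  linarith

end Vale.Agent.P157.Parisi
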