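import Vale.Agent.P157.Parisi.CalcIBP

/-!
Module C, analytic tools: exponential moments, one step of the nested log-average as a function of
one parameter, and the comparison of derivatives of semiconvex functions.
-/

namespace Vale.Agent.P157.Parisi.Conc

open MeasureTheory ProbabilityTheory Finset

variable {ι : Type} [Fintype ι]

/-- The `ℓ¹` size of a vector. -/
def n1 (z : ι → ℝ) : ℝ := ∑ i, |z i|

lemma n1_nonneg (z : ι → ℝ) : 0 ≤ n1 z := sum_nonneg fun _ _ => abs_nonneg _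

lemma abs_le_n1 (z : ι → ℝ) (i : ι) : |z i| ≤ n1 z :=
  single_le_sum (f := fun j => |z j|) (fun j _ => abs_nonneg _) (mem_univ i)

@[fun_prop]
lemma continuous_n1 : Continuous (n1 : (ι → ℝ) → ℝ) := by
  unfold n1; fun_prop

lemma integrable_exp_n1 (k : ℝ) : Integrable (fun z => Real.exp (k * n1 z)) (gauss ι) := by
  have h1 : Integrable (fun x => Real.exp (k * |x|)) (gaussianReal 0 1) :=
    integrable_exp_mul_abs (integrable_exp_mul_gaussianReal k) (integrable_exp_mul_gaussianReal (-k))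
  refine (Integrable.fintype_prod (f := fun (_ : ι) x => Real.exp (k * |x|)) fun _ => h1).congr
    (.of_forall fun z => ?_)
  simp only [n1, mul_sum, Real.exp_sum]

lemma integrable_of_exp_bound {f : (ι → ℝ) → ℝ} (hf : Continuous f) {C k : ℝ}
    (hb : ∀ z, |f z| ≤ C * Real.exp (k * n1 z)) : Integrable f (gauss ι) :=
  ((integrable_exp_n1 k).const_mul C).mono' hf.aestronglyMeasurable (.of_forall hb)

/-- A function which varies at most linearly has exponential moments bounded around its value at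
the origin. -/
lemma exp_bounds {v : (ι → ℝ) → ℝ} {Lp x : ℝ} (hx0 : 0 ≤ x) (hx1 : x ≤ 1)
    (hlip : ∀ z, |v z - v 0| ≤ Lp * n1 z) (z : ι → ℝ) :
    Real.exp (x * v 0) * Real.exp (-(|Lp|) * n1 z) ≤ Real.exp (x * v z) ∧
      Real.exp (x * v z) ≤ Real.exp (x * v 0) * Real.exp (|Lp| * n1 z) := by
  have h : |x * (v z - v 0)| ≤ |Lp| * n1 z := by
    rw [abs_mul, abs_of_nonneg hx0]
    refine (mul_le_of_le_one_left (abs_nonneg _) hx1).trans ((hlip z).trans ?_)
    exact mul_le_mul_of_nonneg_right (le_abs_self _) (n1_nonneg z)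
  rw [← Real.exp_add, ← Real.exp_add, Real.exp_le_exp, Real.exp_le_exp]
  constructor <;> linarith [abs_le.1 h]

lemma integrable_weighted {v g : (ι → ℝ) → ℝ} {Lp x C k : ℝ} (hx0 : 0 ≤ x) (hx1 : x ≤ 1)
    (hv : Continuous v) (hg : Continuous g) (hlip : ∀ z, |v z - v 0| ≤ Lp * n1 z)
    (hb : ∀ z, |g z| ≤ C * Real.exp (k * n1 z)) :
    Integrable (fun z => Real.exp (x * v z) * g z) (gauss ι) := by
  refine integrable_of_exp_bound (by fun_prop) (C := Real.exp (x * v 0) * C) (k := |Lp| + k)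
    fun z => ?_
  have hC : 0 ≤ C * Real.exp (k * n1 z) := (abs_nonneg _).trans (hb z)
  rw [abs_mul, Real.abs_exp, add_mul, Real.exp_add]
  calc Real.exp (x * v z) * |g z| ≤
        Real.exp (x * v 0) * Real.exp (|Lp| * n1 z) * (C * Real.exp (k * n1 z)) :=
        mul_le_mul (exp_bounds hx0 hx1 hlip z).2 (hb z) (abs_nonneg _) (by positivity)
    _ = _ := by ring

lemma integrable_weight {v : (ι → ℝ) → ℝ} {Lp x : ℝ} (hx0 : 0 ≤ x) (hx1 : x ≤ 1)
    (hv : Continuous v) (hlip : ∀ z, |v z - v 0| ≤ Lp * n1 z) :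
    Integrable (fun z => Real.exp (x * v z)) (gauss ι) := by
  simpa using integrable_weighted (g := fun _ => (1 : ℝ)) (C := 1) (k := 0) hx0 hx1 hv
    continuous_const hlip (fun z => by simp)

lemma weight_pos {v : (ι → ℝ) → ℝ} {Lp x : ℝ} (hx0 : 0 ≤ x) (hx1 : x ≤ 1)
    (hv : Continuous v) (hlip : ∀ z, |v z - v 0| ≤ Lp * n1 z) :
    0 < ∫ z, Real.exp (x * v z) ∂gauss ι :=
  integral_exp_pos (integrable_weight hx0 hx1 hv hlip)

/-- A weighted average of a function of exponential growth is bounded, uniformly in the weight. -/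
lemma abs_weighted_le {v g : (ι → ℝ) → ℝ} {Lp x C k : ℝ} (hx0 : 0 ≤ x) (hx1 : x ≤ 1)
    (hv : Continuous v) (hlip : ∀ z, |v z - v 0| ≤ Lp * n1 z)
    (hb : ∀ z, |g z| ≤ C * Real.exp (k * n1 z)) :
    |(∫ z, Real.exp (x * v z) * g z ∂gauss ι) / ∫ z, Real.exp (x * v z) ∂gauss ι| ≤
      C * ((∫ z, Real.exp ((|Lp| + k) * n1 z) ∂gauss ι) /
        ∫ z, Real.exp (-(|Lp|) * n1 z) ∂gauss ι) := by
  set Z := ∫ z, Real.exp (x * v z) ∂gauss ι
  set Ma := ∫ z, Real.exp ((|Lp| + k) * n1 z) ∂gauss ι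
  set Mb := ∫ z, Real.exp (-(|Lp|) * n1 z) ∂gauss ι
  have hZ : 0 < Z := weight_pos hx0 hx1 hv hlip
  have hMb : 0 < Mb := integral_exp_pos (integrable_exp_n1 _)
  have hMa : 0 < Ma := integral_exp_pos (integrable_exp_n1 _)
  have hC : 0 ≤ C := by
    have := (abs_nonneg _).trans (hb 0)
    exact nonneg_of_mul_nonneg_left this (Real.exp_pos _)
  have hnum : |∫ z, Real.exp (x * v z) * g z ∂gauss ι| ≤ Real.exp (x * v 0) * C * Ma := by
    rw [← integral_const_mul]
    refine (norm_integral_le_of_norm_le (f := fun z => Real.exp (x * v z) * g z)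
      ((integrable_exp_n1 _).const_mul _) (.of_forall fun z => ?_))
    rw [Real.norm_eq_abs, abs_mul, Real.abs_exp, add_mul, Real.exp_add]
    calc Real.exp (x * v z) * |g z| ≤
          Real.exp (x * v 0) * Real.exp (|Lp| * n1 z) * (C * Real.exp (k * n1 z)) :=
          mul_le_mul (exp_bounds hx0 hx1 hlip z).2 (hb z) (abs_nonneg _) (by positivity)
      _ = _ := by ring
  have hden : Real.exp (x * v 0) * Mb ≤ Z := by
    rw [← integral_const_mul]
    exact integral_mono ((integrable_exp_n1 _).const_mul _) (integrable_weight hx0 hx1 hv hlip)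
      fun z => (exp_bounds hx0 hx1 hlip z).1
  rw [abs_div, abs_of_pos hZ, div_le_iff₀ hZ]
  refine hnum.trans ?_
  calc Real.exp (x * v 0) * C * Ma = C * (Ma / Mb) * (Real.exp (x * v 0) * Mb) := by
        field_simp
    _ ≤ C * (Ma / Mb) * Z := mul_le_mul_of_nonneg_left hden (by positivity)

/-- The two derivatives of one step of the nested log-average. -/
theorem step_deriv {v v1 v2 : ℝ → (ι → ℝ) → ℝ} {s₀ r C C₀ k Lp x : ℝ} (hr : 0 < r) (hx0 : 0 < x)
    (hx1 : x ≤ 1) (hc : ∀ t, |t - s₀| < r → Continuous (v t))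
    (hc1 : ∀ t, |t - s₀| < r → Continuous (v1 t)) (hc2 : ∀ t, |t - s₀| < r → Continuous (v2 t))
    (hd1 : ∀ t, |t - s₀| < r → ∀ z, HasDerivAt (fun u => v u z) (v1 t z) t)
    (hd2 : ∀ t, |t - s₀| < r → ∀ z, HasDerivAt (fun u => v1 u z) (v2 t z) t)
    (hlip : ∀ t, |t - s₀| < r → ∀ z, |v t z - v t 0| ≤ Lp * n1 z)
    (h0 : ∀ t, |t - s₀| < r → |v t 0| ≤ C₀)
    (hb1 : ∀ t, |t - s₀| < r → ∀ z, |v1 t z| ≤ C * Real.exp (k * n1 z))
    (hb2 : ∀ t, |t - s₀| < r → ∀ z, |v2 t z| ≤ C * Real.exp (k * n1 z)) :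
    let w : ℝ → ℝ := fun t => x⁻¹ * Real.log (∫ z, Real.exp (x * v t z) ∂gauss ι)
    let T : ℝ → ((ι → ℝ) → ℝ) → ℝ := fun t g =>
      (∫ z, Real.exp (x * v t z) * g z ∂gauss ι) / ∫ z, Real.exp (x * v t z) ∂gauss ι
    HasDerivAt w (T s₀ (v1 s₀)) s₀ ∧
      HasDerivAt (fun t => T t (v1 t))
        (T s₀ (fun z => v2 s₀ z + x * v1 s₀ z ^ 2) - x * T s₀ (v1 s₀) ^ 2) s₀ := by
  intro w T
  have hs : |s₀ - s₀| < r := by simpa using hr
  have hC : 0 ≤ C := nonneg_of_mul_nonneg_left ((abs_nonneg _).trans (hb1 s₀ hs 0)) (Real.exp_pos _)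
  set k' := 2 * |Lp| + 2 * |k|
  have hexp : ∀ t, |t - s₀| < r → ∀ z,
      Real.exp (x * v t z) ≤ Real.exp |C₀| * Real.exp (|Lp| * n1 z) := by
    intro t ht z
    refine (exp_bounds hx0.le hx1 (hlip t ht) z).2.trans (mul_le_mul_of_nonneg_right ?_ (Real.exp_pos _).le)
    rw [Real.exp_le_exp]
    have h1 : |x * v t 0| ≤ |C₀| := by
      rw [abs_mul, abs_of_pos hx0]
      exact (mul_le_of_le_one_left (abs_nonneg _) hx1).trans ((h0 t ht).trans (le_abs_self _))
    exact (le_abs_self _).trans h1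
  have hkmono : ∀ (z : ι → ℝ) (a : ℝ), a ≤ k' → Real.exp (a * n1 z) ≤ Real.exp (k' * n1 z) :=
    fun z a ha => Real.exp_le_exp.2 (mul_le_mul_of_nonneg_right ha (n1_nonneg z))
  have habs : ∀ (a : ℝ) (z : ι → ℝ), Real.exp (a * n1 z) ≤ Real.exp (|a| * n1 z) := fun a z =>
    Real.exp_le_exp.2 (mul_le_mul_of_nonneg_right (le_abs_self a) (n1_nonneg z))
  set C' := Real.exp |C₀| * (1 + C) ^ 2
  -- the partition function
  have hZ : ∀ t, |t - s₀| < r → HasDerivAt (fun u => ∫ z, Real.exp (x * v u z) ∂gauss ι)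
      (x * ∫ z, Real.exp (x * v t z) * v1 t z ∂gauss ι) t := by
    intro t ht
    have hr' : 0 < r - |t - s₀| := by linarith
    have hsub : ∀ u, |u - t| < r - |t - s₀| → |u - s₀| < r := fun u hu => by
      linarith [abs_sub_le u t s₀]
    have := hasDerivAt_gauss_integral (F := fun u z => Real.exp (x * v u z))
      (F' := fun u z => x * (Real.exp (x * v u z) * v1 u z)) (t₀ := t) (C := C') (k := k') hr'
      (fun u hu => by have := hc u (hsub u hu); fun_prop)
      (by have := hc t ht; have := hc1 t ht; fun_prop)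
      (fun u hu z => by
        convert ((hd1 u (hsub u hu) z).const_mul x).exp using 1
        ring)
      (fun z => by
        rw [Real.abs_exp]
        refine (hexp t ht z).trans (mul_le_mul (le_mul_of_one_le_right (Real.exp_pos _).le
          (one_le_pow₀ (by linarith))) (hkmono z _ ?_) (Real.exp_pos _).le (by positivity))
        simp only [k']; linarith [abs_nonneg Lp, abs_nonneg k])
      (fun u hu z => by
        have hu' := hsub u hu
        rw [abs_mul, abs_mul, Real.abs_exp, abs_of_pos hx0]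
        refine (mul_le_of_le_one_left (by positivity) hx1).trans ?_
        calc Real.exp (x * v u z) * |v1 u z| ≤
              Real.exp |C₀| * Real.exp (|Lp| * n1 z) * (C * Real.exp (|k| * n1 z)) :=
              mul_le_mul (hexp u hu' z) ((hb1 u hu' z).trans
                (mul_le_mul_of_nonneg_left (habs k z) hC)) (abs_nonneg _) (by positivity)
          _ = Real.exp |C₀| * C * Real.exp ((|Lp| + |k|) * n1 z) := by
              rw [add_mul, Real.exp_add]; ring
          _ ≤ _ := mul_le_mul (mul_le_mul_of_nonneg_left (by nlinarith) (Real.exp_pos _).le)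
              (hkmono z _ (by simp only [k']; linarith [abs_nonneg Lp, abs_nonneg k]))
              (Real.exp_pos _).le (by positivity))
    rwa [integral_const_mul] at this
  have hN : HasDerivAt (fun u => ∫ z, Real.exp (x * v u z) * v1 u z ∂gauss ι)
      (∫ z, Real.exp (x * v s₀ z) * (v2 s₀ z + x * v1 s₀ z ^ 2) ∂gauss ι) s₀ := by
    refine hasDerivAt_gauss_integral (F := fun u z => Real.exp (x * v u z) * v1 u z)
      (F' := fun u z => Real.exp (x * v u z) * (v2 u z + x * v1 u z ^ 2)) (C := C') (k := k') hr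
      (fun u hu => by have := hc u hu; have := hc1 u hu; fun_prop)
      (by have := hc s₀ hs; have := hc1 s₀ hs; have := hc2 s₀ hs; fun_prop)
      (fun u hu z => by
        exact ((((hd1 u hu z).const_mul x).exp).mul (hd2 u hu z)).congr_deriv (by ring))
      (fun z => ?_) (fun u hu z => ?_)
    · rw [abs_mul, Real.abs_exp]
      calc Real.exp (x * v s₀ z) * |v1 s₀ z| ≤
            Real.exp |C₀| * Real.exp (|Lp| * n1 z) * (C * Real.exp (|k| * n1 z)) :=
            mul_le_mul (hexp s₀ hs z) ((hb1 s₀ hs z).trans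
              (mul_le_mul_of_nonneg_left (habs k z) hC)) (abs_nonneg _) (by positivity)
        _ = Real.exp |C₀| * C * Real.exp ((|Lp| + |k|) * n1 z) := by
            rw [add_mul, Real.exp_add]; ring
        _ ≤ _ := mul_le_mul (mul_le_mul_of_nonneg_left (by nlinarith) (Real.exp_pos _).le)
            (hkmono z _ (by simp only [k']; linarith [abs_nonneg Lp, abs_nonneg k]))
            (Real.exp_pos _).le (by positivity)
    · have e1 : |v1 u z| ≤ C * Real.exp (|k| * n1 z) :=
        (hb1 u hu z).trans (mul_le_mul_of_nonneg_left (habs k z) hC)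
      have e2 : |v2 u z| ≤ C * Real.exp (|k| * n1 z) :=
        (hb2 u hu z).trans (mul_le_mul_of_nonneg_left (habs k z) hC)
      have e3 : (1 : ℝ) ≤ Real.exp (|k| * n1 z) :=
        Real.one_le_exp (mul_nonneg (abs_nonneg _) (n1_nonneg z))
      have e4 : |v2 u z + x * v1 u z ^ 2| ≤ (1 + C) ^ 2 * Real.exp (|k| * n1 z) ^ 2 := by
        refine (abs_add_le _ _).trans ?_
        rw [abs_mul, abs_of_pos hx0, abs_pow]
        have h2 : |v1 u z| ^ 2 ≤ (C * Real.exp (|k| * n1 z)) ^ 2 :=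
          pow_le_pow_left₀ (abs_nonneg _) e1 2
        have h3 : x * |v1 u z| ^ 2 ≤ |v1 u z| ^ 2 := mul_le_of_le_one_left (sq_nonneg _) hx1
        have h4 : C * Real.exp (|k| * n1 z) ≤ C * Real.exp (|k| * n1 z) ^ 2 :=
          mul_le_mul_of_nonneg_left (le_self_pow₀ e3 two_ne_zero) hC
        nlinarith [sq_nonneg (Real.exp (|k| * n1 z)), mul_nonneg hC (sq_nonneg (Real.exp (|k| * n1 z)))]
      rw [abs_mul, Real.abs_exp]
      calc Real.exp (x * v u z) * |v2 u z + x * v1 u z ^ 2| ≤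
            Real.exp |C₀| * Real.exp (|Lp| * n1 z) * ((1 + C) ^ 2 * Real.exp (|k| * n1 z) ^ 2) :=
            mul_le_mul (hexp u hu z) e4 (abs_nonneg _) (by positivity)
        _ = C' * Real.exp ((|Lp| + 2 * |k|) * n1 z) := by
            rw [add_mul, Real.exp_add, mul_assoc 2, two_mul (|k| * n1 z), Real.exp_add]
            simp only [C']; ring
        _ ≤ _ := mul_le_mul_of_nonneg_left
            (hkmono z _ (by simp only [k']; linarith [abs_nonneg Lp])) (by positivity)
  have hpos : 0 < ∫ z, Real.exp (x * v s₀ z) ∂gauss ι :=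
    weight_pos hx0.le hx1 (hc s₀ hs) (hlip s₀ hs)
  constructor
  · refine (((hZ s₀ hs).log hpos.ne').const_mul x⁻¹).congr_deriv ?_
    simp only [T]
    field_simp
  · refine (hN.div (hZ s₀ hs) hpos.ne').congr_deriv ?_
    simp only [T]
    field_simp

/-- Derivatives of two semiconvex functions differ by at most the oscillation of the second one
and the values of their difference nearby. -/
lemma deriv_sub_le {φ ψ φ' ψ' : ℝ → ℝ} {c a b s d : ℝ} (hd : 0 < d)
    (hsub : Set.Icc (s - d) (s + d) ⊆ Set.Ioo a b)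
    (hφ : ∀ t ∈ Set.Ioo a b, HasDerivAt φ (φ' t) t) (hψ : ∀ t ∈ Set.Ioo a b, HasDerivAt ψ (ψ' t) t)
    (mφ : MonotoneOn (fun t => φ' t + c * t) (Set.Ioo a b))
    (mψ : MonotoneOn (fun t => ψ' t + c * t) (Set.Ioo a b)) :
    |φ' s - ψ' s| ≤ (|φ (s + d) - ψ (s + d)| + 2 * |φ s - ψ s| + |φ (s - d) - ψ (s - d)|) / d
      + ((ψ' (s + d) + c * (s + d)) - (ψ' (s - d) + c * (s - d))) := by
  set F := fun t => φ t + c * t ^ 2 / 2
  set G := fun t => ψ t + c * t ^ 2 / 2
  have hF : ∀ t ∈ Set.Ioo a b, HasDerivAt F (φ' t + c * t) t := fun t ht => by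
    refine ((hφ t ht).add (((hasDerivAt_pow 2 t).const_mul c).div_const 2)).congr_deriv ?_
    simp; ring
  have hG : ∀ t ∈ Set.Ioo a b, HasDerivAt G (ψ' t + c * t) t := fun t ht => by
    refine ((hψ t ht).add (((hasDerivAt_pow 2 t).const_mul c).div_const 2)).congr_deriv ?_
    simp; ring
  have mean : ∀ (H H' : ℝ → ℝ), (∀ t ∈ Set.Ioo a b, HasDerivAt H (H' t) t) →
      MonotoneOn H' (Set.Ioo a b) → ∀ p q, p < q → Set.Icc p q ⊆ Set.Ioo a b →
      (q - p) * H' p ≤ H q - H p ∧ H q - H p ≤ (q - p) * H' q := by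
    intro H H' hH hm p q hpq hs
    obtain ⟨ξ, hξ, he⟩ := exists_hasDerivAt_eq_slope H H' hpq
      (fun t ht => (hH t (hs ht)).continuousAt.continuousWithinAt)
      (fun t ht => hH t (hs (Set.Ioo_subset_Icc_self ht)))
    rw [eq_div_iff (by linarith)] at he
    have h1 := hm (hs (Set.left_mem_Icc.2 hpq.le)) (hs (Set.Ioo_subset_Icc_self hξ)) hξ.1.le
    have h2 := hm (hs (Set.Ioo_subset_Icc_self hξ)) (hs (Set.right_mem_Icc.2 hpq.le)) hξ.2.le
    constructor <;> nlinarith
  have hsR : Set.Icc s (s + d) ⊆ Set.Ioo a b :=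
    fun t ht => hsub ⟨by linarith [ht.1], ht.2⟩
  have hsL : Set.Icc (s - d) s ⊆ Set.Ioo a b :=
    fun t ht => hsub ⟨ht.1, by linarith [ht.2]⟩
  obtain ⟨f1, -⟩ := mean F _ hF mφ s (s + d) (by linarith) hsR
  obtain ⟨g1, g2⟩ := mean G _ hG mψ s (s + d) (by linarith) hsR
  obtain ⟨-, f2⟩ := mean F _ hF mφ (s - d) s (by linarith) hsL
  obtain ⟨g3, g4⟩ := mean G _ hG mψ (s - d) s (by linarith) hsL
  have eF : ∀ t, F t - G t = φ t - ψ t := fun t => by simp only [F, G]; ring
  have a1 := abs_le.1 (le_refl |φ (s + d) - ψ (s + d)|)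
  have a2 := abs_le.1 (le_refl |φ s - ψ s|)
  have a3 := abs_le.1 (le_refl |φ (s - d) - ψ (s - d)|)
  have := eF (s + d); have := eF s; have := eF (s - d)
  have key : d * |φ' s - ψ' s| ≤ |φ (s + d) - ψ (s + d)| + 2 * |φ s - ψ s| +
      |φ (s - d) - ψ (s - d)| + d * ((ψ' (s + d) + c * (s + d)) - (ψ' (s - d) + c * (s - d))) := by
    rw [← abs_of_pos hd, ← abs_mul, abs_le, abs_of_pos hd]
    simp only [show s + d - s = d by ring, show s - (s - d) = d by ring] at f1 g1 g2 f2 g3 g4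
    have b1 : d * (ψ' (s - d) + c * (s - d)) ≤ d * (ψ' s + c * s) := mul_le_mul_of_nonneg_left
      (mψ (hsL (Set.left_mem_Icc.2 (by linarith))) (hsR (Set.left_mem_Icc.2 (by linarith)))
        (by linarith)) hd.le
    have b2 : d * (ψ' s + c * s) ≤ d * (ψ' (s + d) + c * (s + d)) := mul_le_mul_of_nonneg_left
      (mψ (hsR (Set.left_mem_Icc.2 (by linarith))) (hsR (Set.right_mem_Icc.2 (by linarith)))
        (by linarith)) hd.le
    constructor <;>
      nlinarith [abs_nonneg (φ (s + d) - ψ (s + d)), abs_nonneg (φ (s - d) - ψ (s - d)),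
        abs_nonneg (φ s - ψ s)]
  rw [div_add' _ _ _ hd.ne', le_div_iff₀ hd]
  linarith

end Vale.Agent.P157.Parisi.Conc
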