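import Vale.Agent.P157.Parisi.Conc

/-!
Module C: the free energy is semiconvex in the amplitude of one block at one level.
-/

namespace Vale.Agent.P157.Parisi

open MeasureTheory ProbabilityTheory Finset

namespace Conc

variable {ι : Type} [Fintype ι]

lemma convexOn_of_second_ge {f f' f'' : ℝ → ℝ} {R c : ℝ}
    (h1 : ∀ t, |t| < R → HasDerivAt f (f' t) t) (h2 : ∀ t, |t| < R → HasDerivAt f' (f'' t) t)
    (h : ∀ t, |t| < R → -c ≤ f'' t) :
    ConvexOn ℝ (Set.Ioo (-R) R) fun t => f t + c / 2 * t ^ 2 := by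
  have hd : ∀ t, |t| < R → HasDerivAt (fun t => f t + c / 2 * t ^ 2) (f' t + c * t) t :=
    fun t ht => ((h1 t ht).add ((hasDerivAt_pow 2 t).const_mul (c / 2))).congr_deriv
      (by simp; ring)
  have hd2 : ∀ t, |t| < R → HasDerivAt (fun t => f' t + c * t) (f'' t + c) t :=
    fun t ht => ((h2 t ht).add ((hasDerivAt_id' t).const_mul c)).congr_deriv (by simp)
  refine MonotoneOn.convexOn_of_deriv (convex_Ioo _ _)
    (fun t ht => (hd t (abs_lt.2 ht)).continuousAt.continuousWithinAt) ?_ ?_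
  · rw [interior_Ioo]
    exact fun t ht => (hd t (abs_lt.2 ht)).differentiableAt.differentiableWithinAt
  rw [interior_Ioo]
  have hm : MonotoneOn (fun t => f' t + c * t) (Set.Ioo (-R) R) := by
    refine monotoneOn_of_hasDerivWithinAt_nonneg (f' := fun t => f'' t + c) (convex_Ioo _ _)
      (fun t ht => (hd2 t (abs_lt.2 ht)).continuousAt.continuousWithinAt) ?_ ?_ <;>
    rw [interior_Ioo] <;> intro t ht
    · exact (hd2 t (abs_lt.2 ht)).hasDerivWithinAt
    · linarith [h t (abs_lt.2 ht)]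
  exact hm.congr fun t ht => ((hd t (abs_lt.2 ht)).deriv).symm

lemma integral_coord_sq (k : ι) : ∫ z, z k * z k ∂gauss ι = 1 := by
  have h : ∫ z, z k * z k ∂gauss ι = ∫ x, x * x ∂gaussianReal 0 1 :=
    integral_comp_eval (μ := fun _ : ι => gaussianReal 0 1) (i := k) (f := fun x : ℝ => x * x)
      (by fun_prop)
  rw [h]
  have h2 := variance_id_gaussianReal (μ := 0) (v := 1)
  rw [variance_eq_sub (by exact memLp_id_gaussianReal 2)] at h2
  simpa [sq] using h2

variable [DecidableEq ι] {Ω κ : Type} [Fintype κ] [MeasurableSpace Ω]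
variable {N : Nest ι} {L : Leaf Ω κ ι} {μ : Measure Ω} [IsProbabilityMeasure μ] {B : ℝ}
variable {S : Finset ι} {Γ D R : ℝ}

/-- The second derivative in the amplitude of the root level is bounded below. -/
lemma root_derivs (hN : N.Good) (hL : L.Good B) (hS : L.CurvLower S Γ) :
    ∃ f' f'' : ℝ → ℝ, (∀ t, |t| < R → HasDerivAt (fun u => (N.withAmp S 0 u).free L μ) (f' t) t) ∧
      (∀ t, |t| < R → HasDerivAt f' (f'' t) t) ∧
      ∀ t, |t| < R → -(Γ * S.card) ≤ f'' t := by
  have h0K : 0 ≤ N.K := Nat.zero_le _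
  set U := L.logZ μ
  set V := N.u U 0 with hV
  set a₀ := N.amp 0 with ha₀
  set A : ℝ → (ι → ℝ) → ι → ℝ := fun t z i => (if i ∈ S then t else a₀ i) * z i with hA
  have hAc : ∀ t, Continuous (A t) := fun t => by simp only [hA]; fun_prop
  set R' := |R| + n1 a₀ with hR'
  have hR0 : 0 ≤ R' := add_nonneg (abs_nonneg _) (n1_nonneg _)
  have hAn : ∀ t, |t| < R → ∀ z, n1 (A t z) ≤ R' * n1 z := fun t ht z =>
    n1_smul_le (fun i => if i ∈ S then t else a₀ i) z fun i => by
      split
      · exact (ht.le.trans (le_abs_self R)).trans (le_add_of_nonneg_right (n1_nonneg _))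
      · exact (abs_le_n1 a₀ i).trans (le_add_of_nonneg_left (abs_nonneg _))
  have hfree : ∀ t, (N.withAmp S 0 t).free L μ = ∫ z, V (A t z) ∂gauss ι := by
    intro t
    simp only [Nest.free, Nest.mean, withAmp_u N S (L.logZ μ) 0 t 0 le_rfl]
    refine integral_congr_ae (.of_forall fun z => ?_)
    show N.u U 0 _ = N.u U 0 _
    congr 1
    funext i
    simp [Nest.withAmp, A, a₀]
  set w : (ι → ℝ) → ι → ℝ := fun z i => if i ∈ S then z i else 0 with hw
  have hline : ∀ t u z, (fun i => A t z i + (u - t) * w z i) = A u z := by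
    intro t u z
    funext i
    simp only [A, w]
    split_ifs <;> ring
  set v1 : ℝ → (ι → ℝ) → ℝ := fun t z => ∑ i ∈ S, z i * N.grad L μ 0 i (A t z) with hv1
  set v2 : ℝ → (ι → ℝ) → ℝ := fun t z =>
    ∑ i ∈ S, ∑ k ∈ S, z i * z k * N.hess L μ 0 i k (A t z) with hv2
  have hd1 : ∀ t z, HasDerivAt (fun u => V (A u z)) (v1 t z) t := by
    intro t z
    have h := HasDerivAt.comp_sub_const (f := fun u : ℝ => V fun i => A t z i + u * w z i) t t
      (by rw [sub_self]; exact hasDerivAt_u hN hL h0K (A t z) (w z))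
    simp only [hline] at h
    exact h.congr_deriv (by simp [v1, hw, ite_mul, Finset.sum_ite_mem])
  have hd2 : ∀ t z, HasDerivAt (fun u => v1 u z) (v2 t z) t := by
    intro t z
    refine HasDerivAt.fun_sum fun i _ => ?_
    have h := HasDerivAt.comp_sub_const
      (f := fun u : ℝ => N.grad L μ 0 i fun j => A t z j + u * w z j) t t
      (by rw [sub_self]; exact hasDerivAt_grad hN hL h0K i (A t z) (w z))
    simp only [hline] at h
    exact (h.const_mul (z i)).congr_deriv
      (by simp [hw, ite_mul, Finset.sum_ite_mem, mul_sum, mul_assoc])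
  obtain ⟨hVc, Cu, ku, hu⟩ := u_tame (μ := μ) hN hL 0
  obtain ⟨-, Ch, kh, hh⟩ : Tame fun p => ∑ i ∈ S, ∑ k ∈ S, |N.hess L μ 0 i k p| :=
    tame_sum S fun i _ => tame_sum S fun k _ => tame_abs (hess_tame hN hL h0K i k)
  set C := |Cu| + gradBound κ B * S.card + 2 * |Ch| with hC
  set kk := |ku| * R' + |kh| * R' + 1 with hkk
  have hgB := gradBound_nonneg (κ := κ) hL
  have hk0 : 0 ≤ |ku| * R' := mul_nonneg (abs_nonneg _) hR0
  have hk1 : 0 ≤ |kh| * R' := mul_nonneg (abs_nonneg _) hR0
  have hexp : ∀ (k : ℝ) t z, |t| < R → Real.exp (k * n1 (A t z)) ≤ Real.exp (|k| * R' * n1 z) :=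
    fun k t z ht => (exp_sum_mono _ (le_abs_self k)).trans (Real.exp_le_exp.2 (by
      rw [mul_assoc]; exact mul_le_mul_of_nonneg_left (hAn t ht z) (abs_nonneg k)))
  have hle : ∀ (z : ι → ℝ) (k : ℝ), k ≤ kk → Real.exp (k * n1 z) ≤ Real.exp (kk * n1 z) := fun z k h =>
    Real.exp_le_exp.2 (mul_le_mul_of_nonneg_right h (n1_nonneg z))
  have bu : ∀ t z, |t| < R → |V (A t z)| ≤ C * Real.exp (kk * n1 z) := fun t z ht => by
    refine (hu _).trans (mul_le_mul ((le_abs_self Cu).trans ?_)
      ((hexp ku t z ht).trans (hle z _ ?_)) (Real.exp_pos _).le (by positivity))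
    · linarith [mul_nonneg hgB (Nat.cast_nonneg (α := ℝ) S.card), abs_nonneg Ch]
    · simp only [kk]; linarith
  have b1 : ∀ t z, |v1 t z| ≤ C * Real.exp (kk * n1 z) := fun t z => by
    refine (abs_sum_le_sum_abs _ _).trans ?_
    calc ∑ i ∈ S, |z i * N.grad L μ 0 i (A t z)| ≤ ∑ _i ∈ S, gradBound κ B * n1 z :=
          sum_le_sum fun i _ => by
            rw [abs_mul, mul_comm]
            exact mul_le_mul (abs_grad_le hN hL h0K i _) (abs_le_n1 z i) (abs_nonneg _) hgB
      _ = gradBound κ B * S.card * n1 z := by simp; ring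
      _ ≤ _ := by
        refine mul_le_mul ?_ ?_ (n1_nonneg z) (by positivity)
        · linarith [abs_nonneg Ch, abs_nonneg Cu]
        · have := Real.add_one_le_exp (n1 z)
          have := hle z 1 (by simp only [kk]; linarith)
          rw [one_mul] at this
          linarith
  have b2 : ∀ t z, |t| < R → |v2 t z| ≤ C * Real.exp (kk * n1 z) := fun t z ht => by
    refine (abs_sum_le_sum_abs _ _).trans ?_
    refine (sum_le_sum fun i _ => (abs_sum_le_sum_abs _ _).trans
      (sum_le_sum (g := fun k => n1 z ^ 2 * |N.hess L μ 0 i k (A t z)|) fun k _ => ?_)).trans ?_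
    · rw [abs_mul, abs_mul, sq]
      exact mul_le_mul_of_nonneg_right (mul_le_mul (abs_le_n1 z i) (abs_le_n1 z k)
        (abs_nonneg _) (n1_nonneg z)) (abs_nonneg _)
    simp only [← mul_sum]
    refine (mul_le_mul (sq_n1_le z) ((le_abs_self _).trans ((hh _).trans
      (mul_le_mul (le_abs_self Ch) (hexp kh t z ht) (Real.exp_pos _).le (abs_nonneg _))))
      (sum_nonneg fun _ _ => sum_nonneg fun _ _ => abs_nonneg _) (by positivity)).trans ?_
    calc 2 * Real.exp (n1 z) * (|Ch| * Real.exp (|kh| * R' * n1 z))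
        = 2 * |Ch| * Real.exp ((|kh| * R' + 1) * n1 z) := by
          rw [add_mul _ (1 : ℝ), one_mul, Real.exp_add]; ring
      _ ≤ _ := mul_le_mul
          (by linarith [mul_nonneg hgB (Nat.cast_nonneg (α := ℝ) S.card), abs_nonneg Cu])
          (hle z _ (by simp only [kk]; linarith)) (Real.exp_pos _).le (by positivity)
  have hc1 : ∀ t, Continuous (v1 t) := fun t => continuous_finsetSum _ fun i _ =>
    (continuous_apply i).mul ((grad_tame hN hL h0K i).1.comp (hAc t))
  have hc2 : ∀ t, Continuous (v2 t) := fun t => continuous_finsetSum _ fun i _ =>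
    continuous_finsetSum _ fun k _ => ((continuous_apply i).mul (continuous_apply k)).mul
      ((hess_tame hN hL h0K i k).1.comp (hAc t))
  have hsub : ∀ {t u : ℝ}, |u - t| < R - |t| → |u| < R := fun {t u} h => by
    linarith [abs_sub_abs_le_abs_sub u t]
  refine ⟨fun t => ∫ z, v1 t z ∂gauss ι, fun t => ∫ z, v2 t z ∂gauss ι, fun t ht => ?_,
    fun t ht => ?_, fun t ht => ?_⟩
  · exact (hasDerivAt_gauss_integral (F := fun u z => V (A u z)) (F' := v1) (C := C) (k := kk)
      (show 0 < R - |t| by linarith) (fun u _ => hVc.comp (hAc u)) (hc1 t) (fun u _ z => hd1 u z)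
      (fun z => bu t z ht) (fun u _ z => b1 u z)).congr_of_eventuallyEq (.of_forall hfree)
  · exact hasDerivAt_gauss_integral (F := v1) (F' := v2) (C := C) (k := kk)
      (show 0 < R - |t| by linarith) (fun u _ => hc1 u) (hc2 t) (fun u _ z => hd2 u z)
      (fun z => b1 t z) (fun u hu z => b2 u z (hsub hu))
  · have iz : ∀ k ∈ S, Integrable (fun z : ι → ℝ => z k * z k) (gauss ι) := fun k _ => by
      refine integrable_of_exp_bound (by fun_prop) (C := 2) (k := 1) fun z => ?_
      rw [abs_mul, one_mul, ← sq]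
      exact (pow_le_pow_left₀ (abs_nonneg _) (abs_le_n1 z k) 2).trans (sq_n1_le z)
    have i2 : Integrable (v2 t) (gauss ι) :=
      integrable_of_exp_bound (hc2 t) fun z => b2 t z ht
    calc -(Γ * S.card) = ∫ z, -(Γ * ∑ k ∈ S, z k * z k) ∂gauss ι := by
          rw [integral_neg, integral_const_mul, integral_finsetSum S iz]
          simp [integral_coord_sq]
      _ ≤ _ := by
        refine integral_mono (((integrable_finsetSum S iz).const_mul Γ).neg) i2 fun z => ?_
        have h1 := hess_ge (μ := μ) hN hL h0K hS z (A t z)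
        have h2 := mul_nonneg (x_nonneg hN (show 0 + 1 ≤ N.K + 1 by omega))
          (cov_nonneg (μ := μ) hN hL h0K S z (A t z))
        simp only [v2]
        simp only [sq] at h1
        linarith

end Conc

open Conc

/-- Semiconvexity of the free energy in the amplitude of the coordinates in `S` at one level;
the constant vanishes for `Γ = 0`. -/
theorem free_withAmp_convexOn {ι : Type} [Fintype ι] [DecidableEq ι] {Ω κ : Type} [Fintype κ]
    [MeasurableSpace Ω] {N : Nest ι} {L : Leaf Ω κ ι} {μ : Measure Ω} [IsProbabilityMeasure μ]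
    {B : ℝ} {S : Finset ι} {Γ D : ℝ} (hN : N.Good) (hL : L.Good B) (hS : L.CurvLower S Γ)
    (hcard : (S.card : ℝ) ≤ Γ * D)
    (hb : ∀ ω y, |∑ i ∈ S, ((∑ j, L.φ2 j (L.loc ω y j) * L.a ω j i ^ 2) + L.vec i ω y ^ 2)|
      ≤ Γ * D) (R : ℝ) {l : ℕ} (hl : l ≤ N.K) :
    ConvexOn ℝ (Set.Ioo (-R) R) fun s =>
      (N.withAmp S l s).free L μ + convConst Γ R * D / 2 * s ^ 2 := by
  have hΓD : 0 ≤ Γ * D := le_trans (Nat.cast_nonneg _) hcard
  rcases l with _ | m
  · obtain ⟨f', f'', h1, h2, h3⟩ := root_derivs (μ := μ) (R := R) hN hL hS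
    refine convexOn_of_second_ge h1 h2 fun t ht => le_trans ?_ (h3 t ht)
    have e : convConst Γ R * D = Γ * (Γ * D) + Γ * R ^ 2 * ((2 + Γ) * (Γ * D)) := by
      simp only [convConst, heatConst]; ring
    have h4 : Γ * (S.card : ℝ) ≤ Γ * (Γ * D) := mul_le_mul_of_nonneg_left hcard hS.1
    have h5 : 0 ≤ Γ * R ^ 2 * ((2 + Γ) * (Γ * D)) :=
      mul_nonneg (mul_nonneg hS.1 (sq_nonneg _)) (mul_nonneg (by linarith [hS.1]) hΓD)
    linarith
  · obtain ⟨hjen, W2, -, -, -, hd1, hd2, hvar, -⟩ := free_derivs (μ := μ) (R := R) (ξ := 0) hN hL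
      hS hcard hb (l := m) hl le_rfl fun j _ hj => x_nonneg hN (by omega)
    exact convexOn_of_second_ge hd1 hd2 fun t ht => by linarith [hvar t ht]

end Vale.Agent.P157.Parisi
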