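import Vale.Agent.P157.Parisi.ConcBase

/-!
Module C: facts about one hierarchy, and the dependence on one amplitude.
-/

namespace Vale.Agent.P157.Parisi.Conc

open MeasureTheory ProbabilityTheory Finset

variable {ι : Type} [Fintype ι]

lemma tame_const (c : ℝ) : Tame (fun _ : ι → ℝ => c) :=
  ⟨continuous_const, |c|, 0, fun y => by simp⟩

lemma tame_const_mul {f : (ι → ℝ) → ℝ} (hf : Tame f) (c : ℝ) : Tame (fun y => c * f y) := by
  obtain ⟨hc, C, k, hb⟩ := hf
  refine ⟨continuous_const.mul hc, |c| * C, k, fun y => ?_⟩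
  rw [abs_mul, mul_assoc]
  exact mul_le_mul_of_nonneg_left (hb y) (abs_nonneg c)

lemma tame_bound_nonneg {f : (ι → ℝ) → ℝ} {C k : ℝ}
    (hb : ∀ y, |f y| ≤ C * Real.exp (k * ∑ i, |y i|)) : 0 ≤ C :=
  nonneg_of_mul_nonneg_left ((abs_nonneg _).trans (hb 0)) (Real.exp_pos _)

lemma exp_sum_mono (y : ι → ℝ) {k k' : ℝ} (h : k ≤ k') :
    Real.exp (k * ∑ i, |y i|) ≤ Real.exp (k' * ∑ i, |y i|) :=
  Real.exp_le_exp.2 (mul_le_mul_of_nonneg_right h (sum_nonneg fun _ _ => abs_nonneg _))

lemma tame_add {f g : (ι → ℝ) → ℝ} (hf : Tame f) (hg : Tame g) : Tame (fun y => f y + g y) := by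
  obtain ⟨hc, C, k, hb⟩ := hf
  obtain ⟨hc', C', k', hb'⟩ := hg
  have h0 := tame_bound_nonneg hb
  have h0' := tame_bound_nonneg hb'
  refine ⟨hc.add hc', C + C', max k k', fun y => (abs_add_le _ _).trans ?_⟩
  rw [add_mul]
  gcongr
  · exact (hb y).trans (mul_le_mul_of_nonneg_left (exp_sum_mono y (le_max_left _ _)) h0)
  · exact (hb' y).trans (mul_le_mul_of_nonneg_left (exp_sum_mono y (le_max_right _ _)) h0')

lemma tame_mul {f g : (ι → ℝ) → ℝ} (hf : Tame f) (hg : Tame g) : Tame (fun y => f y * g y) := by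
  obtain ⟨hc, C, k, hb⟩ := hf
  obtain ⟨hc', C', k', hb'⟩ := hg
  refine ⟨hc.mul hc', C * C', k + k', fun y => ?_⟩
  rw [abs_mul, add_mul, Real.exp_add, mul_mul_mul_comm]
  exact mul_le_mul (hb y) (hb' y) (abs_nonneg _) ((abs_nonneg _).trans (hb y))

lemma tame_sub {f g : (ι → ℝ) → ℝ} (hf : Tame f) (hg : Tame g) : Tame (fun y => f y - g y) := by
  simpa [sub_eq_add_neg] using tame_add hf (tame_const_mul hg (-1))

lemma tame_sq {f : (ι → ℝ) → ℝ} (hf : Tame f) : Tame (fun y => f y ^ 2) := by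
  simpa [sq] using tame_mul hf hf

lemma tame_abs {f : (ι → ℝ) → ℝ} (hf : Tame f) : Tame (fun y => |f y|) := by
  obtain ⟨hc, C, k, hb⟩ := hf
  exact ⟨hc.abs, C, k, fun y => by rw [abs_abs]; exact hb y⟩

lemma tame_sum {α : Type} (s : Finset α) {f : α → (ι → ℝ) → ℝ} (hf : ∀ a ∈ s, Tame (f a)) :
    Tame (fun y => ∑ a ∈ s, f a y) := by
  classical
  induction s using Finset.induction_on with
  | empty => simpa using tame_const (ι := ι) 0
  | @insert a s ha ih =>
    simp only [sum_insert ha]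
    exact tame_add (hf a (mem_insert_self _ _)) (ih fun b hb => hf b (mem_insert_of_mem hb))

lemma continuous_move (s : ι → ℝ) (y : ι → ℝ) : Continuous fun z => move s y z :=
  continuous_pi fun i => continuous_const.add (continuous_const.mul (continuous_apply i))

lemma n1_move_le (s : ι → ℝ) (y z : ι → ℝ) {R : ℝ} (hR : ∀ i, |s i| ≤ R) :
    n1 (move s y z) ≤ n1 y + R * n1 z := by
  simp only [n1, move, mul_sum]
  rw [← sum_add_distrib]
  refine sum_le_sum fun i _ => (abs_add_le _ _).trans ?_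
  rw [abs_mul]
  gcongr
  exact hR i

/-! ### One hierarchy -/

section nest

variable {Ω κ : Type} [Fintype κ] [MeasurableSpace Ω]
variable {N : Nest ι} {L : Leaf Ω κ ι} {μ : Measure Ω} [IsProbabilityMeasure μ] {B : ℝ}

omit [IsProbabilityMeasure μ] [Fintype κ] [MeasurableSpace Ω] in
lemma u_step (N : Nest ι) (U : (ι → ℝ) → ℝ) {l : ℕ} (hl : l < N.K) :
    N.u U l = stepLog (N.x (l + 1)) (N.amp (l + 1)) (N.u U (l + 1)) := by
  have e : N.K - l = (N.K - (l + 1)) + 1 := by omega
  have e2 : N.K - (N.K - (l + 1)) = l + 1 := by omega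
  simp only [Nest.u, e, Nest.uUp, e2]

omit [IsProbabilityMeasure μ] [Fintype κ] [MeasurableSpace Ω] in
lemma down_step (N : Nest ι) (U f : (ι → ℝ) → ℝ) {l : ℕ} (hl : l < N.K) :
    N.down U l f = N.avg U l (N.down U (l + 1) f) := by
  have e : N.K - l = (N.K - (l + 1)) + 1 := by omega
  have e2 : N.K - (N.K - (l + 1) + 1) = l := by omega
  simp only [Nest.down, e, Nest.downUp, e2]

variable (hN : N.Good) (hL : L.Good B)

include hN in
lemma x_nonneg {l : ℕ} (hl : l ≤ N.K + 1) : 0 ≤ N.x l := by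
  rcases Nat.eq_zero_or_pos l with rfl | h
  · exact hN.x_zero.ge
  · rcases hl.lt_or_eq with h' | rfl
    · exact (hN.x_pos l h (by omega)).le
    · rw [hN.x_last]; exact zero_le_one

include hN in
lemma x_le_one : ∀ {l : ℕ}, l ≤ N.K + 1 → N.x l ≤ 1 := by
  suffices h : ∀ d l, l + d = N.K + 1 → N.x l ≤ 1 from fun {l} hl => h (N.K + 1 - l) l (by omega)
  intro d
  induction d with
  | zero =>
    intro l h
    rw [show l = N.K + 1 by omega, hN.x_last]
  | succ d ih => exact fun l h => (hN.x_mono l (by omega)).trans (ih (l + 1) (by omega))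

/-- The bound on one component of the gradient. -/
noncomputable def gradBound (κ : Type) [Fintype κ] (B : ℝ) : ℝ := (Fintype.card κ : ℝ) * B * B

include hL in
omit [IsProbabilityMeasure μ] in
lemma gradBound_nonneg : 0 ≤ gradBound κ B :=
  mul_nonneg (mul_nonneg (Nat.cast_nonneg _) hL.nonneg) hL.nonneg

include hL in
omit [IsProbabilityMeasure μ] in
lemma abs_vec_le (i : ι) (ω : Ω) (y : ι → ℝ) : |L.vec i ω y| ≤ gradBound κ B := by
  refine (abs_sum_le_sum_abs _ _).trans ?_
  calc ∑ j, |L.φ1 j (L.loc ω y j) * L.a ω j i| ≤ ∑ _j : κ, B * B :=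
        sum_le_sum fun j _ => by
          rw [abs_mul]
          exact mul_le_mul (hL.bound1 _ _) (hL.bound _ _ _) (abs_nonneg _) hL.nonneg
    _ = gradBound κ B := by simp [gradBound, mul_assoc]

omit [IsProbabilityMeasure μ] in
lemma obs_const (c : ℝ) : Obs (fun (_ : Ω) (_ : ι → ℝ) => c) :=
  ⟨fun _ => measurable_const, fun _ => continuous_const, |c|, fun _ _ => le_rfl⟩

include hN hL in
lemma abs_grad_le {l : ℕ} (hl : l ≤ N.K) (i : ι) (y : ι → ℝ) :
    |N.grad L μ l i y| ≤ gradBound κ B := by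
  rw [abs_le]
  constructor
  · have := node_mono (μ := μ) hN hL hl (obs_const (-gradBound κ B)) (vec_obs hN hL i)
      (fun ω v => (abs_le.1 (abs_vec_le hL i ω v)).1) y
    rwa [node_const hN hL hl] at this
  · have := node_mono (μ := μ) hN hL hl (vec_obs hN hL i) (obs_const (gradBound κ B))
      (fun ω v => (abs_le.1 (abs_vec_le hL i ω v)).2) y
    rwa [node_const hN hL hl] at this

include hN hL in
lemma u_lip {l : ℕ} (hl : l ≤ N.K) (y h : ι → ℝ) :
    |N.u (L.logZ μ) l (fun i => y i + h i) - N.u (L.logZ μ) l y| ≤ gradBound κ B * n1 h := by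
  set f : ℝ → ℝ := fun t => N.u (L.logZ μ) l fun i => y i + t * h i with hf
  have hd : ∀ t, HasDerivAt f (∑ i, h i * N.grad L μ l i fun i => y i + t * h i) t := by
    intro t
    have h0 := hasDerivAt_u (μ := μ) hN hL hl (fun i => y i + t * h i) h
    have h1 := HasDerivAt.comp_sub_const (f := fun u : ℝ =>
      N.u (L.logZ μ) l fun i => y i + t * h i + u * h i) t t (by rw [sub_self]; exact h0)
    refine h1.congr_of_eventuallyEq (.of_forall fun u => ?_)
    simp only [hf]
    congr 1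
    funext i
    ring
  have hb : ∀ t, |∑ i, h i * N.grad L μ l i fun i => y i + t * h i| ≤ gradBound κ B * n1 h := by
    intro t
    refine (abs_sum_le_sum_abs _ _).trans ?_
    rw [n1, mul_sum]
    refine sum_le_sum fun i _ => ?_
    rw [abs_mul, mul_comm]
    exact mul_le_mul_of_nonneg_right (abs_grad_le hN hL hl i _) (abs_nonneg _)
  have := (convex_univ (𝕜 := ℝ) (E := ℝ)).norm_image_sub_le_of_norm_hasDerivWithin_le
    (f := f) (fun t _ => (hd t).hasDerivWithinAt) (fun t _ => by simpa using hb t)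
    (Set.mem_univ 0) (Set.mem_univ 1)
  simpa [hf] using this

include hN hL in
lemma tame_gradSq (S : Finset ι) {l : ℕ} (hl : l ≤ N.K) :
    Tame fun y => ∑ i ∈ S, N.grad L μ l i y ^ 2 :=
  tame_sum S fun i _ => tame_sq (grad_tame hN hL hl i)

include hN hL in
lemma tame_heatSum (S : Finset ι) (D : ℝ) {l : ℕ} (hl : l ≤ N.K) :
    Tame (N.heatSum L μ S D l) := by
  have := tame_const_mul (tame_sum S fun i _ => heat_tame (μ := μ) hN hL hl i) D⁻¹
  exact (funext fun y => (div_eq_inv_mul _ _).symm : (fun y => D⁻¹ * _) = N.heatSum L μ S D l) ▸ this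

include hN hL in
lemma avg_sum {α : Type} (s : Finset α) {f : α → (ι → ℝ) → ℝ} (hf : ∀ a ∈ s, Tame (f a)) {l : ℕ}
    (hl : l < N.K) (y : ι → ℝ) :
    N.avg (L.logZ μ) l (fun v => ∑ a ∈ s, f a v) y = ∑ a ∈ s, N.avg (L.logZ μ) l (f a) y := by
  classical
  induction s using Finset.induction_on with
  | empty => simpa using avg_const (μ := μ) hN hL hl 0 y
  | @insert a s ha ih =>
    simp only [sum_insert ha]
    rw [avg_add hN hL hl (hf a (mem_insert_self _ _))
      (tame_sum s fun b hb => hf b (mem_insert_of_mem hb)), ih fun b hb => hf b (mem_insert_of_mem hb)]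

include hN hL in
lemma node_sum {α : Type} (s : Finset α) {f : α → Ω → (ι → ℝ) → ℝ} (hf : ∀ a ∈ s, Obs (f a))
    {l : ℕ} (hl : l ≤ N.K) (y : ι → ℝ) :
    N.node L μ l (fun ω v => ∑ a ∈ s, f a ω v) y = ∑ a ∈ s, N.node L μ l (f a) y := by
  classical
  induction s using Finset.induction_on with
  | empty => simpa using node_const (μ := μ) hN hL hl 0 y
  | @insert a s ha ih =>
    simp only [sum_insert ha]
    have ho : Obs fun ω v => ∑ b ∈ s, f b ω v := by
      refine ⟨fun v => Finset.measurable_sum _ fun b hb => (hf b (mem_insert_of_mem hb)).1 v,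
        fun ω => continuous_finsetSum _ fun b hb => (hf b (mem_insert_of_mem hb)).2.1 ω, ?_⟩
      choose! C hC using fun b (hb : b ∈ s) => (hf b (mem_insert_of_mem hb)).2.2
      exact ⟨∑ b ∈ s, C b, fun ω v => (abs_sum_le_sum_abs _ _).trans
        (sum_le_sum fun b hb => hC b hb ω v)⟩
    rw [node_add hN hL hl (hf a (mem_insert_self _ _)) ho,
      ih fun b hb => hf b (mem_insert_of_mem hb)]

include hN hL in
lemma gradSq_le {S : Finset ι} {Γ D : ℝ} (hS : L.CurvLower S Γ) (hcard : (S.card : ℝ) ≤ Γ * D)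
    (hb : ∀ ω y, |∑ i ∈ S, ((∑ j, L.φ2 j (L.loc ω y j) * L.a ω j i ^ 2) + L.vec i ω y ^ 2)|
      ≤ Γ * D) {l : ℕ} (hl : l ≤ N.K) (y : ι → ℝ) :
    ∑ i ∈ S, N.grad L μ l i y ^ 2 ≤ Γ * D + Γ * (Γ * D) := by
  classical
  have hΓ := hS.1
  have hvec : ∀ ω v, ∑ i ∈ S, L.vec i ω v ^ 2 ≤ Γ * D + Γ * (Γ * D) := by
    intro ω v
    have h1 := abs_le.1 (hb ω v)
    rw [sum_add_distrib] at h1
    have h2 : -(Γ * S.card) ≤ ∑ i ∈ S, ∑ j, L.φ2 j (L.loc ω v j) * L.a ω j i ^ 2 := by
      calc -(Γ * S.card) = ∑ _i ∈ S, -Γ := by simp; ring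
        _ ≤ _ := sum_le_sum fun i hi => by
            have h0 := hS.2 ω v (Pi.single i 1) (fun k hk => by
              rw [Pi.single_eq_of_ne (by rintro rfl; exact hk hi)])
            simpa [Pi.single_apply, ite_pow, hi] using h0
    have h3 : Γ * (S.card : ℝ) ≤ Γ * (Γ * D) := mul_le_mul_of_nonneg_left hcard hΓ
    linarith [h1.2]
  -- Jensen, through a linear lower bound
  have hobs : ∀ i ∈ S, Obs fun ω v => L.vec i ω v ^ 2 := fun i _ => by
    obtain ⟨a1, a2, C, a3⟩ := vec_obs hN hL i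
    refine ⟨fun v => (a1 v).pow_const 2, fun ω => (a2 ω).pow 2, C ^ 2, fun ω v => ?_⟩
    rw [abs_pow]
    exact pow_le_pow_left₀ (abs_nonneg _) (a3 ω v) 2
  calc ∑ i ∈ S, N.grad L μ l i y ^ 2
      ≤ ∑ i ∈ S, N.node L μ l (fun ω v => L.vec i ω v ^ 2) y := sum_le_sum fun i hi => by
        set g := N.grad L μ l i y with hg
        have ho : Obs fun ω v => 2 * g * L.vec i ω v := by
          obtain ⟨a1, a2, C, a3⟩ := vec_obs hN hL i
          refine ⟨fun v => (a1 v).const_mul _, fun ω => (a2 ω).const_smul (2 * g), |2 * g| * C,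
            fun ω v => ?_⟩
          rw [abs_mul]
          exact mul_le_mul_of_nonneg_left (a3 ω v) (abs_nonneg _)
        have ho2 : Obs fun ω v => L.vec i ω v ^ 2 + g ^ 2 := by
          obtain ⟨a1, a2, C, a3⟩ := hobs i hi
          exact ⟨fun v => (a1 v).add_const _, fun ω => (a2 ω).add continuous_const, C + g ^ 2,
            fun ω v => (abs_add_le _ _).trans (by
              rw [abs_of_nonneg (sq_nonneg g)]; linarith [a3 ω v])⟩
        have h1 := node_mono (μ := μ) hN hL hl ho ho2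
          (fun ω v => by nlinarith [sq_nonneg (L.vec i ω v - g)]) y
        rw [node_const_mul hN hL, node_add hN hL hl (hobs i hi) (obs_const _),
          node_const hN hL hl, ← Nest.grad, ← hg] at h1
        nlinarith
    _ = N.node L μ l (fun ω v => ∑ i ∈ S, L.vec i ω v ^ 2) y := (node_sum hN hL S hobs hl y).symm
    _ ≤ _ := by
        rw [← node_const (μ := μ) hN hL hl (Γ * D + Γ * (Γ * D)) y]
        refine node_mono hN hL hl ?_ (obs_const _) hvec y
        exact ⟨fun v => Finset.measurable_sum _ fun b hb => (hobs b hb).1 v,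
          fun ω => continuous_finsetSum _ fun b hb => (hobs b hb).2.1 ω, Γ * D + Γ * (Γ * D),
          fun ω v => by rw [abs_of_nonneg (sum_nonneg fun _ _ => sq_nonneg _)]; exact hvec ω v⟩

include hL in
omit [IsProbabilityMeasure μ] in
lemma abs_gibbs_le [IsProbabilityMeasure μ] {f : Ω → (ι → ℝ) → ℝ} {C : ℝ} (y : ι → ℝ)
    (hb : ∀ ω, |f ω y| ≤ C) (hC : 0 ≤ C) : |L.gibbs μ f y| ≤ C := by
  unfold Leaf.gibbs
  rcases eq_or_ne (∫ ω, Real.exp (L.ham ω y) ∂μ) 0 with h | h
  · simpa [h] using hC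
  have hi : Integrable (fun ω => Real.exp (L.ham ω y)) μ := by
    by_contra hni
    exact h (integral_undef hni)
  have hpos : 0 < ∫ ω, Real.exp (L.ham ω y) ∂μ := integral_exp_pos hi
  rw [abs_div, abs_of_pos hpos, div_le_iff₀ hpos, ← integral_const_mul]
  refine norm_integral_le_of_norm_le (f := fun ω => Real.exp (L.ham ω y) * f ω y)
    (hi.const_mul C) (.of_forall fun ω => ?_)
  rw [Real.norm_eq_abs, abs_mul, Real.abs_exp, mul_comm]
  exact mul_le_mul_of_nonneg_right (hb ω) (Real.exp_pos _).le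

include hN hL in
lemma abs_heat_sum_le {S : Finset ι} {Γ D : ℝ} (hS : L.CurvLower S Γ)
    (hcard : (S.card : ℝ) ≤ Γ * D)
    (hb : ∀ ω y, |∑ i ∈ S, ((∑ j, L.φ2 j (L.loc ω y j) * L.a ω j i ^ 2) + L.vec i ω y ^ 2)|
      ≤ Γ * D) :
    ∀ {l : ℕ}, l ≤ N.K → ∀ y, |∑ i ∈ S, N.heat L μ l i y| ≤
      Γ * D + (1 - N.x (l + 1)) * (Γ * D + Γ * (Γ * D)) := by
  suffices h : ∀ d l, l + d = N.K → ∀ y, |∑ i ∈ S, N.heat L μ l i y| ≤
      Γ * D + (1 - N.x (l + 1)) * (Γ * D + Γ * (Γ * D)) from
    fun {l} hl => h (N.K - l) l (by omega)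
  intro d
  induction d with
  | zero =>
    intro l h y
    obtain rfl : l = N.K := by omega
    rw [hN.x_last, sub_self, zero_mul, add_zero]
    have hΓD : 0 ≤ Γ * D := le_trans (Nat.cast_nonneg _) hcard
    have hobs : ∀ i ∈ S, Obs fun ω v =>
        (∑ j, L.φ2 j (L.loc ω v j) * L.a ω j i ^ 2) + L.vec i ω v ^ 2 := by
      intro i _
      obtain ⟨a1, a2, C, a3⟩ := vec_obs hN hL i
      refine ⟨fun v => ?_, fun ω => ?_, (Fintype.card κ : ℝ) * (B * B ^ 2) + C ^ 2, fun ω v => ?_⟩
      · refine (Finset.measurable_sum _ fun j _ => ?_).add ((a1 v).pow_const 2)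
        refine ((hL.cont2 j).measurable.comp ?_).mul ((hL.meas j i).pow_const 2)
        exact Finset.measurable_sum _ fun m _ => (hL.meas j m).mul_const _
      · refine (continuous_finsetSum _ fun j _ => ?_).add ((a2 ω).pow 2)
        refine ((hL.cont2 j).comp ?_).mul continuous_const
        exact continuous_finsetSum _ fun m _ => continuous_const.mul (continuous_apply m)
      · refine (abs_add_le _ _).trans (add_le_add ?_ ?_)
        · refine (abs_sum_le_sum_abs _ _).trans ?_
          calc ∑ j, |L.φ2 j (L.loc ω v j) * L.a ω j i ^ 2| ≤ ∑ _j : κ, B * B ^ 2 :=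
                sum_le_sum fun j _ => by
                  rw [abs_mul, abs_pow]
                  exact mul_le_mul (hL.bound2 _ _)
                    (pow_le_pow_left₀ (abs_nonneg _) (hL.bound _ _ _) 2) (by positivity) hL.nonneg
            _ = _ := by simp
        · rw [abs_pow]
          exact pow_le_pow_left₀ (abs_nonneg _) (a3 ω v) 2
    simp only [heat_top hN hL, ← node_top (μ := μ) hN hL]
    rw [← node_sum hN hL S hobs le_rfl, node_top hN hL]
    exact abs_gibbs_le hL y (fun ω => hb ω y) hΓD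
  | succ d ih =>
    intro l h y
    have hlK : l < N.K := by omega
    have hG := gradSq_le (μ := μ) hN hL hS hcard hb (l := l + 1) (by omega)
    have hw : 0 ≤ N.w (l + 1) := sub_nonneg.2 (hN.x_mono (l + 1) (by omega))
    set C' := Γ * D + (1 - N.x (l + 1 + 1)) * (Γ * D + Γ * (Γ * D))
    have hT : Tame fun v => ∑ i ∈ S, N.heat L μ (l + 1) i v :=
      tame_sum S fun i _ => heat_tame hN hL (by omega) i
    have h1 : |N.avg (L.logZ μ) l (fun v => ∑ i ∈ S, N.heat L μ (l + 1) i v) y| ≤ C' := by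
      rw [abs_le]
      constructor
      · rw [← avg_const (μ := μ) hN hL hlK (-C') y]
        exact avg_mono hN hL hlK (tame_const _) hT
          (fun v => (abs_le.1 (ih (l + 1) (by omega) v)).1) y
      · rw [← avg_const (μ := μ) hN hL hlK C' y]
        exact avg_mono hN hL hlK hT (tame_const _)
          (fun v => (abs_le.1 (ih (l + 1) (by omega) v)).2) y
    have hTg : Tame fun v => ∑ i ∈ S, N.grad L μ (l + 1) i v ^ 2 := tame_gradSq hN hL S (by omega)
    have h2 : N.avg (L.logZ μ) l (fun v => ∑ i ∈ S, N.grad L μ (l + 1) i v ^ 2) y ≤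
        Γ * D + Γ * (Γ * D) := by
      rw [← avg_const (μ := μ) hN hL hlK (Γ * D + Γ * (Γ * D)) y]
      exact avg_mono hN hL hlK hTg (tame_const _) hG y
    have h3 : 0 ≤ N.avg (L.logZ μ) l (fun v => ∑ i ∈ S, N.grad L μ (l + 1) i v ^ 2) y := by
      rw [← avg_const (μ := μ) hN hL hlK 0 y]
      exact avg_mono hN hL hlK (tame_const _) hTg
        (fun v => sum_nonneg fun i _ => sq_nonneg _) y
    have e : ∑ i ∈ S, N.heat L μ l i y =
        N.avg (L.logZ μ) l (fun v => ∑ i ∈ S, N.heat L μ (l + 1) i v) y -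
        N.w (l + 1) * N.avg (L.logZ μ) l (fun v => ∑ i ∈ S, N.grad L μ (l + 1) i v ^ 2) y := by
      rw [avg_sum hN hL S (fun i _ => heat_tame hN hL (by omega) i) hlK,
        avg_sum hN hL S (fun i _ => tame_sq (grad_tame hN hL (by omega) i)) hlK, mul_sum,
        ← sum_sub_distrib]
      exact sum_congr rfl fun i _ => heat_succ hN hL hlK i y
    rw [e]
    refine (abs_sub _ _).trans ?_
    rw [abs_mul, abs_of_nonneg hw, abs_of_nonneg h3]
    have := mul_le_mul_of_nonneg_left h2 hw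
    simp only [C', Nest.w] at *
    linarith

end nest

/-! ### The hierarchy as a function of one amplitude -/

section amp

variable {Ω κ : Type} [Fintype κ] [MeasurableSpace Ω] [DecidableEq ι]
variable (N : Nest ι) (L : Leaf Ω κ ι) (μ : Measure Ω) (S : Finset ι)

omit [Fintype ι] [Fintype κ] [MeasurableSpace Ω] in
lemma withAmp_good {N : Nest ι} (hN : N.Good) (S : Finset ι) (l : ℕ) (s : ℝ) :
    (N.withAmp S l s).Good :=
  ⟨hN.x_zero, hN.x_last, hN.x_pos, hN.x_mono⟩

omit [Fintype κ] [MeasurableSpace Ω] in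
lemma withAmp_u (U : (ι → ℝ) → ℝ) (l : ℕ) (s : ℝ) :
    ∀ m, l ≤ m → (N.withAmp S l s).u U m = N.u U m := by
  suffices h : ∀ d, l + d ≤ N.K → (N.withAmp S l s).uUp U d = N.uUp U d from
    fun m hm => by
      rcases le_or_gt m N.K with h' | h'
      · exact h (N.K - m) (by omega)
      · show (N.withAmp S l s).uUp U (N.K - m) = N.uUp U (N.K - m)
        rw [Nat.sub_eq_zero_of_le h'.le]
        rfl
  intro d
  induction d with
  | zero => intro _; rfl
  | succ d ih =>
    intro hd
    show stepLog (N.x (N.K - d)) ((N.withAmp S l s).amp (N.K - d)) ((N.withAmp S l s).uUp U d) = _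
    rw [ih (by omega)]
    congr 1
    funext i
    simp only [Nest.withAmp]
    rw [if_neg (by omega)]

omit [Fintype κ] [MeasurableSpace Ω] in
lemma withAmp_avg (U : (ι → ℝ) → ℝ) (l : ℕ) (s : ℝ) {m : ℕ} (hm : l ≤ m) (f : (ι → ℝ) → ℝ) :
    (N.withAmp S l s).avg U m f = N.avg U m f := by
  have e : (N.withAmp S l s).amp (m + 1) = N.amp (m + 1) := by
    funext i
    simp only [Nest.withAmp]
    rw [if_neg (by omega)]
  simp only [Nest.avg, e, withAmp_u N S U l s (m + 1) (by omega)]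
  rfl

omit [Fintype κ] [MeasurableSpace Ω] in
lemma withAmp_downUp (U : (ι → ℝ) → ℝ) (l : ℕ) (s : ℝ) (f : (ι → ℝ) → ℝ) :
    ∀ d, l + d ≤ N.K → (N.withAmp S l s).downUp U f d = N.downUp U f d := by
  intro d
  induction d with
  | zero => intro _; rfl
  | succ d ih =>
    intro hd
    show (N.withAmp S l s).avg U (N.K - (d + 1)) ((N.withAmp S l s).downUp U f d) = _
    rw [ih (by omega), withAmp_avg N S U l s (by omega)]
    rfl

lemma withAmp_grad (l : ℕ) (s : ℝ) {m : ℕ} (hm : l ≤ m) (hmK : m ≤ N.K) (i : ι) :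
    (N.withAmp S l s).grad L μ m i = N.grad L μ m i :=
  withAmp_downUp N S (L.logZ μ) l s _ (N.K - m) (by omega)

lemma withAmp_hess (l : ℕ) (s : ℝ) {m : ℕ} (hm : l ≤ m) (hmK : m ≤ N.K) (i k : ι) :
    (N.withAmp S l s).hess L μ m i k = N.hess L μ m i k := by
  suffices h : ∀ d, l + d ≤ N.K → ∀ i k, (N.withAmp S l s).hessUp L μ d i k = N.hessUp L μ d i k
    from h (N.K - m) (by omega) i k
  intro d
  induction d with
  | zero => intro _ _ _; rfl
  | succ d ih =>
    intro hd i k
    funext y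
    simp only [Nest.hessUp, ih (by omega)]
    rw [show (N.withAmp S l s).K = N.K from rfl, show (N.withAmp S l s).x = N.x from rfl,
      withAmp_avg N S _ l s (by omega), withAmp_avg N S _ l s (by omega)]
    simp only [withAmp_grad N L μ S l s (show l ≤ N.K - d by omega) (Nat.sub_le _ _),
      withAmp_grad N L μ S l s (show l ≤ N.K - (d + 1) by omega) (Nat.sub_le _ _)]

end amp

end Vale.Agent.P157.Parisi.Conc
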