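import Vale.Agent.P157.Parisi.ConcNest

/-!
Module C: the recursion below a varying amplitude, with its first two derivatives.
-/

namespace Vale.Agent.P157.Parisi.Conc

open MeasureTheory ProbabilityTheory Finset

variable {ι : Type} [Fintype ι]

/-- Averages from level `m + j` down to level `m`. -/
noncomputable def iterAvg (N : Nest ι) (U : (ι → ℝ) → ℝ) :
    ℕ → ℕ → ((ι → ℝ) → ℝ) → (ι → ℝ) → ℝ
  | _, 0, f => f
  | m, j + 1, f => N.avg U m (iterAvg N U (m + 1) j f)

lemma mean_iterAvg (N : Nest ι) (U : (ι → ℝ) → ℝ) (f : (ι → ℝ) → ℝ) :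
    ∀ j m, N.mean U m (iterAvg N U m j f) = N.mean U (m + j) f := by
  intro j
  induction j with
  | zero => intro m; rfl
  | succ j ih =>
    intro m
    show N.mean U (m + 1) (iterAvg N U (m + 1) j f) = _
    rw [ih (m + 1), add_right_comm, add_assoc]

lemma n1_smul_le (a z : ι → ℝ) {R : ℝ} (hR : ∀ i, |a i| ≤ R) :
    n1 (fun i => a i * z i) ≤ R * n1 z := by
  simp only [n1, mul_sum]
  refine sum_le_sum fun i _ => ?_
  rw [abs_mul]
  exact mul_le_mul_of_nonneg_right (hR i) (abs_nonneg _)

lemma move_zero (a y : ι → ℝ) : move a y 0 = y := by funext i; simp [move]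

lemma sq_n1_le (z : ι → ℝ) : n1 z ^ 2 ≤ 2 * Real.exp (n1 z) := by
  have := Real.quadratic_le_exp_of_nonneg (n1_nonneg z)
  have := n1_nonneg z
  linarith

lemma exp_mul_le {k c p q : ℝ} (hk : 0 ≤ k) (h : p ≤ q + c) :
    Real.exp (k * p) ≤ Real.exp (k * q) * Real.exp (k * c) := by
  rw [← Real.exp_add, Real.exp_le_exp, ← mul_add]
  exact mul_le_mul_of_nonneg_left h hk

lemma continuous_gauss_param {F : (ι → ℝ) → (ι → ℝ) → ℝ} (hF : Continuous (Function.uncurry F))
    {C k k' : ℝ} (hk : 0 ≤ k)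
    (hb : ∀ y z, |F y z| ≤ C * Real.exp (k * n1 y) * Real.exp (k' * n1 z)) :
    Continuous fun y => ∫ z, F y z ∂gauss ι := by
  refine continuous_iff_continuousAt.2 fun y₀ => ?_
  refine continuousAt_of_dominated
    (bound := fun z => |C| * Real.exp (k * (n1 y₀ + 1)) * Real.exp (k' * n1 z))
    (.of_forall fun y => (hF.comp (Continuous.prodMk_right y)).aestronglyMeasurable) ?_
    ((integrable_exp_n1 k').const_mul _)
    (.of_forall fun z => (hF.comp (Continuous.prodMk_left z)).continuousAt)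
  filter_upwards [(continuous_n1 (ι := ι)).continuousAt.eventually_lt continuousAt_const
    (lt_add_one (n1 y₀))] with y hy
  refine .of_forall fun z => (hb y z).trans (mul_le_mul_of_nonneg_right ?_ (Real.exp_pos _).le)
  exact mul_le_mul (le_abs_self C) (Real.exp_le_exp.2 (mul_le_mul_of_nonneg_left hy.le hk))
    (Real.exp_pos _).le (abs_nonneg _)

lemma weighted_sq_le {v g : (ι → ℝ) → ℝ} {x : ℝ}
    (h0 : Integrable (fun z => Real.exp (x * v z)) (gauss ι))
    (h1 : Integrable (fun z => Real.exp (x * v z) * g z) (gauss ι))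
    (h2 : Integrable (fun z => Real.exp (x * v z) * g z ^ 2) (gauss ι)) :
    ((∫ z, Real.exp (x * v z) * g z ∂gauss ι) / ∫ z, Real.exp (x * v z) ∂gauss ι) ^ 2 ≤
      (∫ z, Real.exp (x * v z) * g z ^ 2 ∂gauss ι) / ∫ z, Real.exp (x * v z) ∂gauss ι := by
  set Z := ∫ z, Real.exp (x * v z) ∂gauss ι
  set P := ∫ z, Real.exp (x * v z) * g z ∂gauss ι
  set c := P / Z with hc
  have hZ : 0 < Z := integral_exp_pos h0
  have h : ∫ z, (2 * c * (Real.exp (x * v z) * g z) - c ^ 2 * Real.exp (x * v z)) ∂gauss ι ≤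
      ∫ z, Real.exp (x * v z) * g z ^ 2 ∂gauss ι :=
    integral_mono ((h1.const_mul _).sub (h0.const_mul _)) h2 fun z => by
      nlinarith [mul_nonneg (Real.exp_pos (x * v z)).le (sq_nonneg (g z - c))]
  rw [integral_sub (h1.const_mul _) (h0.const_mul _), integral_const_mul, integral_const_mul] at h
  rw [le_div_iff₀ hZ]
  have e : c * Z = P := div_mul_cancel₀ _ hZ.ne'
  calc c ^ 2 * Z = 2 * c * P - c ^ 2 * Z := by rw [← e]; ring
    _ ≤ _ := h

section iter

variable {Ω κ : Type} [Fintype κ] [MeasurableSpace Ω]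
variable {N : Nest ι} {L : Leaf Ω κ ι} {μ : Measure Ω} [IsProbabilityMeasure μ] {B : ℝ}
variable (hN : N.Good) (hL : L.Good B)

include hN hL

lemma iter_tame {f : (ι → ℝ) → ℝ} (hf : Tame f) :
    ∀ j m, m + j ≤ N.K → Tame (iterAvg N (L.logZ μ) m j f) := by
  intro j
  induction j with
  | zero => intro m _; exact hf
  | succ j ih => intro m h; exact avg_tame hN hL (by omega) (ih (m + 1) (by omega))

lemma iter_add {f g : (ι → ℝ) → ℝ} (hf : Tame f) (hg : Tame g) :
    ∀ j m, m + j ≤ N.K → ∀ y, iterAvg N (L.logZ μ) m j (fun v => f v + g v) y =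
      iterAvg N (L.logZ μ) m j f y + iterAvg N (L.logZ μ) m j g y := by
  intro j
  induction j with
  | zero => intro m _ y; rfl
  | succ j ih =>
    intro m h y
    simp only [iterAvg]
    rw [funext (ih (m + 1) (by omega))]
    exact avg_add hN hL (by omega) (iter_tame hN hL hf j (m + 1) (by omega))
      (iter_tame hN hL hg j (m + 1) (by omega)) y

lemma iter_const_mul (c : ℝ) (f : (ι → ℝ) → ℝ) :
    ∀ j m y, iterAvg N (L.logZ μ) m j (fun v => c * f v) y =
      c * iterAvg N (L.logZ μ) m j f y := by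
  intro j
  induction j with
  | zero => intro m y; rfl
  | succ j ih =>
    intro m y
    simp only [iterAvg]
    rw [funext (ih (m + 1))]
    exact avg_const_mul hN hL c _ y

lemma iter_const (c : ℝ) :
    ∀ j m, m + j ≤ N.K → ∀ y, iterAvg N (L.logZ μ) m j (fun _ => c) y = c := by
  intro j
  induction j with
  | zero => intro m _ y; rfl
  | succ j ih =>
    intro m h y
    simp only [iterAvg]
    rw [funext (ih (m + 1) (by omega))]
    exact avg_const hN hL (by omega) c y

lemma iter_mono {f g : (ι → ℝ) → ℝ} (hf : Tame f) (hg : Tame g) (hfg : ∀ v, f v ≤ g v) :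
    ∀ j m, m + j ≤ N.K → ∀ y,
      iterAvg N (L.logZ μ) m j f y ≤ iterAvg N (L.logZ μ) m j g y := by
  intro j
  induction j with
  | zero => intro m _ y; exact hfg y
  | succ j ih =>
    intro m h y
    exact avg_mono hN hL (by omega) (iter_tame hN hL hf j (m + 1) (by omega))
      (iter_tame hN hL hg j (m + 1) (by omega)) (ih (m + 1) (by omega)) y

lemma abs_iter_le {f : (ι → ℝ) → ℝ} (hf : Tame f) {c : ℝ} (hfc : ∀ v, |f v| ≤ c) {j m : ℕ}
    (h : m + j ≤ N.K) (y : ι → ℝ) : |iterAvg N (L.logZ μ) m j f y| ≤ c := by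
  rw [abs_le]
  constructor
  · have := iter_mono (μ := μ) hN hL (tame_const (-c)) hf (fun v => (abs_le.1 (hfc v)).1) j m h y
    rwa [iter_const hN hL (-c) j m h] at this
  · have := iter_mono (μ := μ) hN hL hf (tame_const c) (fun v => (abs_le.1 (hfc v)).2) j m h y
    rwa [iter_const hN hL c j m h] at this

lemma abs_u_le {l : ℕ} (hl : l ≤ N.K) (y : ι → ℝ) :
    |N.u (L.logZ μ) l y| ≤ |N.u (L.logZ μ) l 0| + gradBound κ B * n1 y := by
  have := u_lip (μ := μ) hN hL hl 0 y
  simp only [Pi.zero_apply, zero_add] at this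
  have h2 := abs_sub_abs_le_abs_sub (N.u (L.logZ μ) l y) (N.u (L.logZ μ) l 0)
  linarith

lemma u_lip_move {l : ℕ} (hl : l ≤ N.K) (a y z : ι → ℝ) {R : ℝ} (hR : ∀ i, |a i| ≤ R) :
    |N.u (L.logZ μ) l (move a y z) - N.u (L.logZ μ) l (move a y 0)| ≤
      gradBound κ B * R * n1 z := by
  rw [move_zero, mul_assoc]
  exact (u_lip hN hL hl y fun i => a i * z i).trans
    (mul_le_mul_of_nonneg_left (n1_smul_le a z hR) (gradBound_nonneg hL))

/-- The tilted average of a jointly continuous function of exponential growth is continuous. -/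
lemma continuous_tilt {l : ℕ} (hl : l ≤ N.K) {x : ℝ} (hx0 : 0 ≤ x) (hx1 : x ≤ 1) (a : ι → ℝ)
    {f : (ι → ℝ) → (ι → ℝ) → ℝ} (hf : Continuous (Function.uncurry f)) {C k k' : ℝ} (hk : 0 ≤ k)
    (hb : ∀ y z, |f y z| ≤ C * Real.exp (k * n1 y) * Real.exp (k' * n1 z)) :
    Continuous fun y => tilt x a (N.u (L.logZ μ) l) f y := by
  set V := N.u (L.logZ μ) l
  have hV : Continuous V := (u_tame hN hL l).1
  have hg0 := gradBound_nonneg hL
  have hw : ∀ y z, Real.exp (x * V (move a y z)) ≤
      Real.exp |V 0| * Real.exp (gradBound κ B * n1 y) *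
        Real.exp (gradBound κ B * n1 a * n1 z) := by
    intro y z
    rw [← Real.exp_add, ← Real.exp_add, Real.exp_le_exp]
    have h1 : x * V (move a y z) ≤ |V (move a y z)| :=
      (le_abs_self _).trans (by
        rw [abs_mul, abs_of_nonneg hx0]; exact mul_le_of_le_one_left (abs_nonneg _) hx1)
    have h2 := abs_u_le (μ := μ) hN hL hl (move a y z)
    have h3 := mul_le_mul_of_nonneg_left (n1_move_le a y z (abs_le_n1 a)) hg0
    linarith
  have hmv : Continuous fun p : (ι → ℝ) × (ι → ℝ) => move a p.1 p.2 := by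
    unfold move; fun_prop
  refine Continuous.div ?_ ?_ fun y => ?_
  · refine continuous_gauss_param ((Real.continuous_exp.comp
      (continuous_const.mul (hV.comp hmv))).mul hf)
      (C := Real.exp |V 0| * C) (k := gradBound κ B + k) (k' := gradBound κ B * n1 a + k')
      (by positivity) fun y z => ?_
    rw [abs_mul, Real.abs_exp, add_mul, add_mul, Real.exp_add, Real.exp_add]
    calc Real.exp (x * V (move a y z)) * |f y z|
        ≤ (Real.exp |V 0| * Real.exp (gradBound κ B * n1 y) *
            Real.exp (gradBound κ B * n1 a * n1 z)) *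
          (C * Real.exp (k * n1 y) * Real.exp (k' * n1 z)) :=
          mul_le_mul (hw y z) (hb y z) (abs_nonneg _) (by positivity)
      _ = _ := by ring
  · exact continuous_gauss_param (Real.continuous_exp.comp
      (continuous_const.mul (hV.comp hmv))) hg0
      fun y z => by rw [Real.abs_exp]; exact hw y z
  · exact (weight_pos hx0 hx1 (hV.comp (continuous_move a y))
      (u_lip_move hN hL hl a y · (abs_le_n1 a))).ne'

end iter

/-! ### Varying one amplitude -/

section amp

variable [DecidableEq ι] {Ω κ : Type} [Fintype κ] [MeasurableSpace Ω]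
variable {N : Nest ι} {L : Leaf Ω κ ι} {μ : Measure Ω} [IsProbabilityMeasure μ] {B : ℝ}
variable {S : Finset ι} {Γ D ξ R : ℝ} {l : ℕ}

omit [Fintype ι] in
lemma withAmp_amp_ne (N : Nest ι) (S : Finset ι) {l n : ℕ} (h : n ≠ l) (s : ℝ) :
    (N.withAmp S l s).amp n = N.amp n := by
  funext i
  simp [Nest.withAmp, h]

/-- The constant bounding the heat quantity. -/
def heatConst (Γ : ℝ) : ℝ := 2 * Γ + Γ ^ 2

/-- The semiconvexity constant. -/
def convConst (Γ R : ℝ) : ℝ := Γ * (Γ + R ^ 2 * heatConst Γ)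

/-- The derivative of the recursion at the level of the varying amplitude. -/
noncomputable def hTop (N : Nest ι) (L : Leaf Ω κ ι) (μ : Measure Ω) (S : Finset ι) (l : ℕ)
    (s : ℝ) (y : ι → ℝ) : ℝ :=
  s * ∑ i ∈ S, (N.withAmp S (l + 1) s).heat L μ l i y

variable (hN : N.Good) (hL : L.Good B) (hS : L.CurvLower S Γ) (hcard : (S.card : ℝ) ≤ Γ * D)
  (hb : ∀ ω y, |∑ i ∈ S, ((∑ j, L.φ2 j (L.loc ω y j) * L.a ω j i ^ 2) + L.vec i ω y ^ 2)|
      ≤ Γ * D) (hl : l < N.K)

include hN hL hl in
lemma hTop_tame (s : ℝ) : Tame (hTop N L μ S l s) :=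
  tame_const_mul (tame_sum S fun i _ =>
    heat_tame (withAmp_good hN S (l + 1) s) hL (show l ≤ N.K from hl.le) i) s

include hN hL hS hcard hb hl in
lemma abs_heat_le (s : ℝ) (y : ι → ℝ) :
    |∑ i ∈ S, (N.withAmp S (l + 1) s).heat L μ l i y| ≤ heatConst Γ * D := by
  have hK : l ≤ N.K := hl.le
  refine (abs_heat_sum_le (μ := μ) (withAmp_good hN S (l + 1) s) hL hS hcard hb
    (show l ≤ (N.withAmp S (l + 1) s).K from hK) y).trans ?_
  have h0 : 0 ≤ N.x (l + 1) := x_nonneg hN (by omega)
  have hΓD : 0 ≤ Γ * D := le_trans (Nat.cast_nonneg _) hcard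
  have : 0 ≤ N.x (l + 1) * (Γ * D + Γ * (Γ * D)) :=
    mul_nonneg h0 (add_nonneg hΓD (mul_nonneg hS.1 hΓD))
  show Γ * D + (1 - N.x (l + 1)) * (Γ * D + Γ * (Γ * D)) ≤ heatConst Γ * D
  simp only [heatConst]
  linarith

include hN hL hS hcard hb hl in
lemma abs_hTop_le {s : ℝ} (hs : |s| ≤ R) (y : ι → ℝ) :
    |hTop N L μ S l s y| ≤ R * (heatConst Γ * D) := by
  rw [hTop, abs_mul]
  exact mul_le_mul hs (abs_heat_le hN hL hS hcard hb hl s y) (abs_nonneg _)
    ((abs_nonneg _).trans hs)

include hN hL hS hcard hb hl in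
/-- The two derivatives at the level of the varying amplitude. -/
lemma base_deriv : ∃ U2 : ℝ → (ι → ℝ) → ℝ,
    (∀ y s, |s| < R → HasDerivAt (fun t => (N.withAmp S (l + 1) t).u (L.logZ μ) l y)
      (hTop N L μ S l s y) s) ∧
    (∀ y s, |s| < R → HasDerivAt (fun t => hTop N L μ S l t y) (U2 s y) s) ∧
    (∀ s, |s| < R → Continuous (U2 s)) ∧
    (∃ C k : ℝ, 0 ≤ k ∧ ∀ s, |s| < R → ∀ y, |U2 s y| ≤ C * Real.exp (k * n1 y)) ∧
    ∀ s, |s| < R → ∀ y, -(convConst Γ R * D) ≤ U2 s y := by
  have hl1 : l + 1 ≤ N.K := hl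
  set x := N.x (l + 1) with hx
  have hx0 : 0 < x := hN.x_pos _ (by omega) hl1
  have hx1 : x ≤ 1 := x_le_one hN (by omega)
  set a₀ := N.amp (l + 1) with ha₀
  set A : ℝ → ι → ℝ := fun t => (N.withAmp S (l + 1) t).amp (l + 1) with hA
  have hAi : ∀ t i, A t i = if i ∈ S then t else a₀ i := fun t i => by
    simp [A, a₀, Nest.withAmp]
  set R' := |R| + n1 a₀ with hR'
  have hR0 : 0 ≤ R' := add_nonneg (abs_nonneg _) (n1_nonneg _)
  have hAR : ∀ t, |t| < R → ∀ i, |A t i| ≤ R' := fun t ht i => by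
    rw [hAi]
    split
    · exact (ht.le.trans (le_abs_self R)).trans (le_add_of_nonneg_right (n1_nonneg _))
    · exact (abs_le_n1 a₀ i).trans (le_add_of_nonneg_left (abs_nonneg _))
  set V := N.u (L.logZ μ) (l + 1) with hV
  have hVc : Continuous V := (u_tame hN hL (l + 1)).1
  set gB := gradBound κ B
  have hgB : 0 ≤ gB := gradBound_nonneg hL
  set w : (ι → ℝ) → ι → ℝ := fun z i => if i ∈ S then z i else 0 with hw
  have hline : ∀ t u y z, (fun i => move (A t) y z i + (u - t) * w z i) = move (A u) y z := by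
    intro t u y z
    funext i
    simp only [move, hAi, hw]
    split_ifs <;> ring
  set v : (ι → ℝ) → ℝ → (ι → ℝ) → ℝ := fun y t z => V (move (A t) y z) with hv
  set v1 : (ι → ℝ) → ℝ → (ι → ℝ) → ℝ := fun y t z =>
    ∑ i ∈ S, z i * N.grad L μ (l + 1) i (move (A t) y z) with hv1
  set v2 : (ι → ℝ) → ℝ → (ι → ℝ) → ℝ := fun y t z =>
    ∑ i ∈ S, z i * ∑ k ∈ S, z k * N.hess L μ (l + 1) i k (move (A t) y z) with hv2
  have hd1 : ∀ y t z, HasDerivAt (fun u => v y u z) (v1 y t z) t := by
    intro y t z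
    have h := HasDerivAt.comp_sub_const (f := fun u : ℝ =>
      V fun i => move (A t) y z i + u * w z i) t t
      (by rw [sub_self]; exact hasDerivAt_u hN hL hl1 (move (A t) y z) (w z))
    simp only [hline] at h
    exact h.congr_deriv (by simp [v1, hw, ite_mul, Finset.sum_ite_mem])
  have hd2 : ∀ y t z, HasDerivAt (fun u => v1 y u z) (v2 y t z) t := by
    intro y t z
    refine HasDerivAt.fun_sum fun i _ => HasDerivAt.const_mul _ ?_
    have h := HasDerivAt.comp_sub_const (f := fun u : ℝ =>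
      N.grad L μ (l + 1) i fun j => move (A t) y z j + u * w z j) t t
      (by rw [sub_self]; exact hasDerivAt_grad hN hL hl1 i (move (A t) y z) (w z))
    simp only [hline] at h
    exact h.congr_deriv (by simp [hw, ite_mul, Finset.sum_ite_mem])
  -- growth
  have hTs : Tame fun p => ∑ i ∈ S, ∑ k ∈ S, |N.hess L μ (l + 1) i k p| :=
    tame_sum S fun i _ => tame_sum S fun k _ => tame_abs (hess_tame hN hL hl1 i k)
  obtain ⟨-, Ch, kh, hCh⟩ := hTs
  have hCh0 : 0 ≤ Ch := tame_bound_nonneg hCh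
  set kk := |kh| with hkk
  have hkk0 : 0 ≤ kk := abs_nonneg _
  set Cg := gB * (S.card : ℝ) with hCg
  have hCg0 : 0 ≤ Cg := mul_nonneg hgB (Nat.cast_nonneg _)
  have bv1 : ∀ y t z, |v1 y t z| ≤ Cg * n1 z := by
    intro y t z
    refine (abs_sum_le_sum_abs _ _).trans ?_
    calc ∑ i ∈ S, |z i * N.grad L μ (l + 1) i (move (A t) y z)| ≤ ∑ _i ∈ S, gB * n1 z :=
          sum_le_sum fun i _ => by
            rw [abs_mul, mul_comm]
            exact mul_le_mul (abs_grad_le hN hL hl1 i _) (abs_le_n1 z i) (abs_nonneg _) hgB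
      _ = Cg * n1 z := by simp [Cg]; ring
  have bv1' : ∀ y t z, |v1 y t z| ≤ Cg * Real.exp (1 * n1 z) := fun y t z => by
    refine (bv1 y t z).trans (mul_le_mul_of_nonneg_left ?_ hCg0)
    rw [one_mul]
    linarith [Real.add_one_le_exp (n1 z)]
  have bv2 : ∀ y t z, |t| < R → |v2 y t z| ≤
      2 * Ch * Real.exp (kk * n1 y) * Real.exp ((kk * R' + 1) * n1 z) := by
    intro y t z ht
    refine (abs_sum_le_sum_abs _ _).trans ?_
    have h1 : ∀ i ∈ S, |z i * ∑ k ∈ S, z k * N.hess L μ (l + 1) i k (move (A t) y z)| ≤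
        n1 z ^ 2 * ∑ k ∈ S, |N.hess L μ (l + 1) i k (move (A t) y z)| := by
      intro i _
      rw [abs_mul, sq, mul_assoc]
      refine mul_le_mul (abs_le_n1 z i) ?_ (abs_nonneg _) (n1_nonneg z)
      rw [mul_sum]
      refine (abs_sum_le_sum_abs _ _).trans (sum_le_sum fun k _ => ?_)
      rw [abs_mul]
      exact mul_le_mul_of_nonneg_right (abs_le_n1 z k) (abs_nonneg _)
    refine (sum_le_sum h1).trans ?_
    rw [← mul_sum]
    have h2 : ∑ i ∈ S, ∑ k ∈ S, |N.hess L μ (l + 1) i k (move (A t) y z)| ≤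
        Ch * (Real.exp (kk * n1 y) * Real.exp (kk * (R' * n1 z))) := by
      refine (le_abs_self _).trans ((hCh _).trans (mul_le_mul_of_nonneg_left ?_ hCh0))
      refine (exp_sum_mono _ (le_abs_self kh)).trans ?_
      exact exp_mul_le hkk0 (n1_move_le (A t) y z (hAR t ht))
    refine (mul_le_mul (sq_n1_le z) h2 (sum_nonneg fun _ _ => sum_nonneg fun _ _ => abs_nonneg _)
      (by positivity)).trans (le_of_eq ?_)
    rw [show (kk * R' + 1) * n1 z = kk * (R' * n1 z) + n1 z by ring, Real.exp_add]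
    ring
  have hcont : ∀ y t, Continuous fun z => move (A t) y z := fun y t => continuous_move (A t) y
  have hc1 : ∀ y t, Continuous (v1 y t) := fun y t =>
    continuous_finsetSum _ fun i _ => (continuous_apply i).mul
      ((grad_tame hN hL hl1 i).1.comp (hcont y t))
  have hc2 : ∀ y t, Continuous (v2 y t) := fun y t =>
    continuous_finsetSum _ fun i _ => (continuous_apply i).mul
      (continuous_finsetSum _ fun k _ => (continuous_apply k).mul
        ((hess_tame hN hL hl1 i k).1.comp (hcont y t)))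
  have hlip : ∀ y t, |t| < R → ∀ z, |v y t z - v y t 0| ≤ gB * R' * n1 z := fun y t ht z =>
    u_lip_move hN hL hl1 (A t) y z (hAR t ht)
  set T : ℝ → ((ι → ℝ) → (ι → ℝ) → ℝ) → (ι → ℝ) → ℝ := fun t f y => tilt x (A t) V f y with hT
  set q : ℝ → (ι → ℝ) → (ι → ℝ) → ℝ := fun t y z => v2 y t z + x * v1 y t z ^ 2 with hq
  have bq : ∀ y t z, |t| < R → |q t y z| ≤ (2 * Ch + 2 * Cg ^ 2) * Real.exp (kk * n1 y) *
      Real.exp ((kk * R' + 1) * n1 z) := by
    intro y t z ht
    refine (abs_add_le _ _).trans ?_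
    rw [add_mul, add_mul]
    refine add_le_add (bv2 y t z ht) ?_
    rw [abs_mul, abs_of_pos hx0, abs_pow]
    refine (mul_le_of_le_one_left (sq_nonneg _) hx1).trans ?_
    refine (pow_le_pow_left₀ (abs_nonneg _) (bv1 y t z) 2).trans ?_
    have e1 : (1 : ℝ) ≤ Real.exp (kk * n1 y) :=
      Real.one_le_exp (mul_nonneg hkk0 (n1_nonneg y))
    have e2 : Real.exp (n1 z) ≤ Real.exp ((kk * R' + 1) * n1 z) := by
      rw [Real.exp_le_exp]; nlinarith [mul_nonneg (mul_nonneg hkk0 hR0) (n1_nonneg z)]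
    calc (Cg * n1 z) ^ 2 = Cg ^ 2 * n1 z ^ 2 := mul_pow _ _ _
      _ ≤ Cg ^ 2 * (2 * Real.exp (n1 z)) := mul_le_mul_of_nonneg_left (sq_n1_le z) (sq_nonneg _)
      _ ≤ 2 * Cg ^ 2 * (1 * Real.exp ((kk * R' + 1) * n1 z)) := by nlinarith [sq_nonneg Cg]
      _ ≤ _ := by
        rw [mul_assoc (2 * Cg ^ 2)]
        exact mul_le_mul_of_nonneg_left (mul_le_mul_of_nonneg_right e1 (Real.exp_pos _).le)
          (by positivity)
  -- identification of the first derivative
  have hTv1 : ∀ y t, |t| < R → T t (fun y z => v1 y t z) y = hTop N L μ S l t y := by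
    intro y t ht
    have hint : ∀ i ∈ S, Integrable (fun z => Real.exp (x * v y t z) *
        (z i * N.grad L μ (l + 1) i (move (A t) y z))) (gauss ι) := by
      intro i _
      refine integrable_weighted (v := v y t) hx0.le hx1 (hVc.comp (hcont y t)) (C := gB) (k := 1)
        ((continuous_apply i).mul ((grad_tame hN hL hl1 i).1.comp (hcont y t))) (hlip y t ht)
        fun z => ?_
      rw [abs_mul, mul_comm, one_mul]
      refine mul_le_mul (abs_grad_le hN hL hl1 i _) ?_ (abs_nonneg _) hgB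
      linarith [Real.add_one_le_exp (n1 z), abs_le_n1 z i]
    simp only [T, tilt, v1, mul_sum, hTop]
    rw [integral_finsetSum S hint, sum_div]
    refine sum_congr rfl fun i hi => ?_
    have h := tilt_z_grad (N := N.withAmp S (l + 1) t) (μ := μ) (withAmp_good hN S (l + 1) t) hL
      (show l < (N.withAmp S (l + 1) t).K from hl) i i y
    simp only [withAmp_u N S (L.logZ μ) (l + 1) t (l + 1) le_rfl,
      withAmp_grad N L μ S (l + 1) t le_rfl hl1 i] at h
    refine h.trans ?_
    show A t i * _ = _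
    rw [hAi, if_pos hi, Nest.heat]
    ring
  have hstep : ∀ y s, |s| < R →
      HasDerivAt (fun t => x⁻¹ * Real.log (∫ z, Real.exp (x * v y t z) ∂gauss ι))
        (T s (fun y z => v1 y s z) y) s ∧
      HasDerivAt (fun t => T t (fun y z => v1 y t z) y)
        (T s (q s) y - x * T s (fun y z => v1 y s z) y ^ 2) s := by
    intro y s hs
    have hr : 0 < R - |s| := by linarith
    have hsub : ∀ t, |t - s| < R - |s| → |t| < R := fun t ht => by
      linarith [abs_sub_abs_le_abs_sub t s]
    refine step_deriv (v := v y) (v1 := v1 y) (v2 := v2 y)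
      (C := Cg + 2 * Ch * Real.exp (kk * n1 y)) (C₀ := |V y|) (k := kk * R' + 1)
      (Lp := gB * R') hr hx0 hx1 (fun t _ => hVc.comp (hcont y t)) (fun t _ => hc1 y t)
      (fun t _ => hc2 y t) (fun t _ z => hd1 y t z) (fun t _ z => hd2 y t z)
      (fun t ht z => hlip y t (hsub t ht) z) (fun t _ => ?_) (fun t _ z => ?_) (fun t ht z => ?_)
    · simp [v, move_zero]
    · refine (bv1' y t z).trans (mul_le_mul (le_add_of_nonneg_right (by positivity)) ?_
        (Real.exp_pos _).le (by positivity))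
      rw [Real.exp_le_exp]
      nlinarith [mul_nonneg (mul_nonneg hkk0 hR0) (n1_nonneg z)]
    · exact (bv2 y t z (hsub t ht)).trans
        (mul_le_mul_of_nonneg_right (le_add_of_nonneg_left hCg0) (Real.exp_pos _).le)
  have hu : ∀ y t, (N.withAmp S (l + 1) t).u (L.logZ μ) l y =
      x⁻¹ * Real.log (∫ z, Real.exp (x * v y t z) ∂gauss ι) := by
    intro y t
    rw [u_step (N.withAmp S (l + 1) t) (L.logZ μ) (show l < (N.withAmp S (l + 1) t).K from hl),
      withAmp_u N S (L.logZ μ) (l + 1) t (l + 1) le_rfl]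
    rfl
  have hev : ∀ s, |s| < R → ∀ᶠ t in nhds s, |t| < R := fun s hs =>
    (isOpen_lt continuous_abs continuous_const).mem_nhds hs
  -- a bound on weighted averages
  have habsT : ∀ s, |s| < R → ∀ y, |T s (q s) y| ≤ (2 * Ch + 2 * Cg ^ 2) * Real.exp (kk * n1 y) *
      ((∫ z, Real.exp ((|gB * R'| + (kk * R' + 1)) * n1 z) ∂gauss ι) /
        ∫ z, Real.exp (-(|gB * R'|) * n1 z) ∂gauss ι) := fun s hs y =>
    abs_weighted_le (v := v y s) hx0.le hx1 (hVc.comp (hcont y s)) (hlip y s hs)
      fun z => bq y s z hs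
  refine ⟨fun s y => T s (q s) y - x * hTop N L μ S l s y ^ 2, ?_, ?_, ?_, ?_, ?_⟩
  · intro y s hs
    rw [← hTv1 y s hs]
    exact (hstep y s hs).1.congr_of_eventuallyEq (.of_forall fun t => hu y t)
  · intro y s hs
    show HasDerivAt _ (T s (q s) y - x * hTop N L μ S l s y ^ 2) s
    rw [← hTv1 y s hs]
    exact (hstep y s hs).2.congr_of_eventuallyEq
      ((hev s hs).mono fun t ht => (hTv1 y t ht).symm)
  · intro s hs
    refine Continuous.sub ?_ (continuous_const.mul ((hTop_tame hN hL hl s).1.pow 2))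
    refine continuous_tilt (μ := μ) hN hL hl1 hx0.le hx1 (A s) ?_ hkk0 fun y z => bq y s z hs
    have hmv : Continuous fun p : (ι → ℝ) × (ι → ℝ) => move (A s) p.1 p.2 := by
      unfold move; fun_prop
    refine Continuous.add ?_ (continuous_const.mul (Continuous.pow ?_ 2))
    · exact continuous_finsetSum _ fun i _ => ((continuous_apply i).comp continuous_snd).mul
        (continuous_finsetSum _ fun k _ => ((continuous_apply k).comp continuous_snd).mul
          ((hess_tame hN hL hl1 i k).1.comp hmv))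
    · exact continuous_finsetSum _ fun i _ => ((continuous_apply i).comp continuous_snd).mul
        ((grad_tame hN hL hl1 i).1.comp hmv)
  · refine ⟨(2 * Ch + 2 * Cg ^ 2) *
      ((∫ z, Real.exp ((|gB * R'| + (kk * R' + 1)) * n1 z) ∂gauss ι) /
        ∫ z, Real.exp (-(|gB * R'|) * n1 z) ∂gauss ι) + (|R| * (heatConst Γ * D)) ^ 2,
      kk, hkk0, fun s hs y => ?_⟩
    refine (abs_sub _ _).trans ?_
    rw [add_mul]
    refine add_le_add ((habsT s hs y).trans (le_of_eq (by ring))) ?_
    rw [abs_mul, abs_of_pos hx0, abs_pow]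
    refine (mul_le_of_le_one_left (sq_nonneg _) hx1).trans
      ((pow_le_pow_left₀ (abs_nonneg _)
        (abs_hTop_le hN hL hS hcard hb hl (hs.le.trans (le_abs_self R)) y) 2).trans ?_)
    exact le_mul_of_one_le_right (sq_nonneg _)
      (Real.one_le_exp (mul_nonneg hkk0 (n1_nonneg y)))
  · intro s hs y
    have iw : Integrable (fun z => Real.exp (x * v y s z)) (gauss ι) :=
      integrable_weight hx0.le hx1 (hVc.comp (hcont y s)) (hlip y s hs)
    have i1 : Integrable (fun z => Real.exp (x * v y s z) * v1 y s z) (gauss ι) :=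
      integrable_weighted hx0.le hx1 (hVc.comp (hcont y s)) (hc1 y s) (hlip y s hs) (bv1' y s)
    have i2 : Integrable (fun z => Real.exp (x * v y s z) * v1 y s z ^ 2) (gauss ι) := by
      refine integrable_weighted hx0.le hx1 (hVc.comp (hcont y s)) ((hc1 y s).pow 2) (hlip y s hs)
        (C := Cg ^ 2) (k := 2) fun z => ?_
      rw [abs_pow]
      refine (pow_le_pow_left₀ (abs_nonneg _) (bv1' y s z) 2).trans (le_of_eq ?_)
      rw [mul_pow, ← Real.exp_nat_mul]
      push_cast
      ring_nf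
    have iq : Integrable (fun z => Real.exp (x * v y s z) * q s y z) (gauss ι) :=
      integrable_weighted hx0.le hx1 (hVc.comp (hcont y s)) ((hc2 y s).add
        (continuous_const.mul ((hc1 y s).pow 2))) (hlip y s hs) (fun z => bq y s z hs)
    have iz : ∀ k ∈ S, Integrable (fun z => Real.exp (x * v y s z) * (z k * z k)) (gauss ι) := by
      intro k _
      refine integrable_weighted hx0.le hx1 (hVc.comp (hcont y s))
        ((continuous_apply k).mul (continuous_apply k)) (hlip y s hs) (C := 2) (k := 1)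
        fun z => ?_
      rw [abs_mul, one_mul, ← sq]
      exact (pow_le_pow_left₀ (abs_nonneg _) (abs_le_n1 z k) 2).trans (sq_n1_le z)
    set Z := ∫ z, Real.exp (x * v y s z) ∂gauss ι
    have hZ : 0 < Z := integral_exp_pos iw
    have hquad : ∀ z, -(Γ * ∑ k ∈ S, z k * z k) ≤ v2 y s z := by
      intro z
      have h1 := hess_ge (μ := μ) hN hL hl1 hS z (move (A s) y z)
      have h2 := cov_nonneg (μ := μ) hN hL hl1 S z (move (A s) y z)
      have h3 := mul_nonneg (x_nonneg hN (show l + 1 + 1 ≤ N.K + 1 by omega)) h2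
      have e : v2 y s z =
          ∑ i ∈ S, ∑ k ∈ S, z i * z k * N.hess L μ (l + 1) i k (move (A s) y z) := by
        simp only [v2, mul_sum, mul_assoc]
      rw [e]
      simp only [← sq]
      linarith
    have hlow : x * (∫ z, Real.exp (x * v y s z) * v1 y s z ^ 2 ∂gauss ι) -
        Γ * ∑ k ∈ S, ∫ z, Real.exp (x * v y s z) * (z k * z k) ∂gauss ι ≤
        ∫ z, Real.exp (x * v y s z) * q s y z ∂gauss ι := by
      rw [← integral_finsetSum S iz, ← integral_const_mul, ← integral_const_mul,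
        ← integral_sub (i2.const_mul x) ((integrable_finsetSum S iz).const_mul Γ)]
      refine integral_mono ((i2.const_mul x).sub ((integrable_finsetSum S iz).const_mul Γ)) iq
        fun z => ?_
      simp only [q, ← mul_sum]
      nlinarith [mul_le_mul_of_nonneg_left (hquad z) (Real.exp_pos (x * v y s z)).le]
    have hvar := weighted_sq_le iw i1 i2
    have hzz : ∑ k ∈ S, (∫ z, Real.exp (x * v y s z) * (z k * z k) ∂gauss ι) / Z =
        S.card + x * s ^ 2 * ∑ i ∈ S, (N.withAmp S (l + 1) s).heat L μ l i y := by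
      rw [mul_sum, card_eq_sum_ones, Nat.cast_sum, Nat.cast_one, ← sum_add_distrib]
      refine sum_congr rfl fun k hk => ?_
      have h := tilt_z_z (N := N.withAmp S (l + 1) s) (μ := μ) (withAmp_good hN S (l + 1) s) hL
        (show l < (N.withAmp S (l + 1) s).K from hl) k k y
      simp only [withAmp_u N S (L.logZ μ) (l + 1) s (l + 1) le_rfl] at h
      refine h.trans ?_
      show _ + x * A s k * A s k * _ = _
      rw [hAi, if_pos hk, Nest.heat]
      simp [x, Nest.withAmp]
      ring
    have hsum : ∑ k ∈ S, (∫ z, Real.exp (x * v y s z) * (z k * z k) ∂gauss ι) / Z ≤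
        Γ * D + R ^ 2 * (heatConst Γ * D) := by
      rw [hzz]
      refine add_le_add hcard ?_
      have hh := (abs_le.1 (abs_heat_le (μ := μ) hN hL hS hcard hb hl s y)).2
      have hh0 : 0 ≤ heatConst Γ * D :=
        (abs_nonneg _).trans (abs_heat_le (μ := μ) hN hL hS hcard hb hl s y)
      have hs2 : s ^ 2 ≤ R ^ 2 := sq_le_sq' (abs_lt.1 hs).1.le (abs_lt.1 hs).2.le
      calc x * s ^ 2 * ∑ i ∈ S, (N.withAmp S (l + 1) s).heat L μ l i y
          ≤ x * s ^ 2 * (heatConst Γ * D) :=
            mul_le_mul_of_nonneg_left hh (mul_nonneg hx0.le (sq_nonneg _))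
        _ ≤ 1 * R ^ 2 * (heatConst Γ * D) :=
            mul_le_mul_of_nonneg_right (mul_le_mul hx1 hs2 (sq_nonneg _) zero_le_one) hh0
        _ = _ := by ring
    have hkey : x * ((∫ z, Real.exp (x * v y s z) * v1 y s z ^ 2 ∂gauss ι) / Z) -
        Γ * ∑ k ∈ S, (∫ z, Real.exp (x * v y s z) * (z k * z k) ∂gauss ι) / Z ≤
        T s (q s) y := by
      rw [← sum_div, ← mul_div_assoc, ← mul_div_assoc, ← sub_div]
      exact div_le_div_of_nonneg_right hlow hZ.le
    show -(convConst Γ R * D) ≤ T s (q s) y - x * hTop N L μ S l s y ^ 2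
    rw [← hTv1 y s hs]
    have hT1 : T s (fun y z => v1 y s z) y =
        (∫ z, Real.exp (x * v y s z) * v1 y s z ∂gauss ι) / Z := rfl
    rw [hT1]
    have := mul_le_mul_of_nonneg_left hvar hx0.le
    have := mul_le_mul_of_nonneg_left hsum hS.1
    simp only [convConst]
    linarith

include hN hL hS hcard hb hl in
/-- The two derivatives below the varying amplitude, with the variance of the first one along
the path. -/
lemma path_deriv (hξ : ∀ j, 1 ≤ j → j ≤ N.K → ξ ≤ N.x j) :
    ∀ j m, m + j = l → ∃ U2 : ℝ → (ι → ℝ) → ℝ,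
      (∀ y s, |s| < R → HasDerivAt (fun t => (N.withAmp S (l + 1) t).u (L.logZ μ) m y)
        (iterAvg (N.withAmp S (l + 1) s) (L.logZ μ) m j (hTop N L μ S l s) y) s) ∧
      (∀ y s, |s| < R → HasDerivAt
        (fun t => iterAvg (N.withAmp S (l + 1) t) (L.logZ μ) m j (hTop N L μ S l t) y)
        (U2 s y) s) ∧
      (∀ s, |s| < R → Continuous (U2 s)) ∧
      (∃ C k : ℝ, 0 ≤ k ∧ ∀ s, |s| < R → ∀ y, |U2 s y| ≤ C * Real.exp (k * n1 y)) ∧
      ∀ s, |s| < R → ∀ y, -(convConst Γ R * D) +
        ξ * (iterAvg (N.withAmp S (l + 1) s) (L.logZ μ) m j (fun v => hTop N L μ S l s v ^ 2) y -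
          iterAvg (N.withAmp S (l + 1) s) (L.logZ μ) m j (hTop N L μ S l s) y ^ 2) ≤ U2 s y := by
  intro j
  induction j with
  | zero =>
    intro m hm
    obtain rfl : m = l := by omega
    obtain ⟨U2, h1, h2, h3, h4, h5⟩ := base_deriv (μ := μ) (R := R) hN hL hS hcard hb hl
    exact ⟨U2, h1, h2, h3, h4, fun s hs y => by simpa [iterAvg] using h5 s hs y⟩
  | succ j ih =>
    intro m hm
    obtain ⟨W2, h1, h2, h3, ⟨C, k, hk, hW⟩, h5⟩ := ih (m + 1) (by omega)
    set M : ℝ → Nest ι := fun s => N.withAmp S (l + 1) s with hM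
    have hMg : ∀ s, (M s).Good := fun s => withAmp_good hN S (l + 1) s
    set U := L.logZ μ
    have hmK : m < N.K := by omega
    have hj : m + 1 + j ≤ N.K := by omega
    set x := N.x (m + 1) with hx
    have hx0 : 0 < x := hN.x_pos _ (by omega) hmK
    have hx1 : x ≤ 1 := x_le_one hN (by omega)
    set a := N.amp (m + 1) with ha
    have hamp : ∀ t, (M t).amp (m + 1) = a := fun t => withAmp_amp_ne N S (by omega) t
    set W1 : ℝ → (ι → ℝ) → ℝ := fun t => iterAvg (M t) U (m + 1) j (hTop N L μ S l t) with hW1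
    have hW1t : ∀ t, Tame (W1 t) := fun t =>
      iter_tame (hMg t) hL (hTop_tame hN hL hl t) j (m + 1) hj
    have hW1b : ∀ t, |t| < R → ∀ p, |W1 t p| ≤ R * (heatConst Γ * D) := fun t ht p =>
      abs_iter_le (hMg t) hL (hTop_tame hN hL hl t)
        (abs_hTop_le hN hL hS hcard hb hl ht.le) hj p
    have hW2t : ∀ t, |t| < R → Tame (W2 t) := fun t ht => ⟨h3 t ht, C, k, hW t ht⟩
    set gB := gradBound κ B
    have hlip : ∀ y t z, |(M t).u U (m + 1) (move a y z) - (M t).u U (m + 1) (move a y 0)| ≤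
        gB * n1 a * n1 z := fun y t z => u_lip_move (hMg t) hL hmK a y z (abs_le_n1 a)
    have hgrow : ∀ {f : (ι → ℝ) → ℝ} {C : ℝ}, (∀ p, |f p| ≤ C * Real.exp (k * n1 p)) →
        ∀ y z, |f (move a y z)| ≤ C * Real.exp (k * n1 y) * Real.exp (k * n1 a * n1 z) := by
      intro f C hf y z
      have hC : 0 ≤ C := tame_bound_nonneg (k := k) hf
      refine (hf _).trans ?_
      rw [mul_assoc C, mul_assoc k]
      exact mul_le_mul_of_nonneg_left (exp_mul_le hk (n1_move_le a y z (abs_le_n1 a))) hC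
    have hstep : ∀ y s, |s| < R →
        HasDerivAt (fun t => (M t).u U m y) ((M s).avg U m (W1 s) y) s ∧
        HasDerivAt (fun t => (M t).avg U m (W1 t) y)
          ((M s).avg U m (fun p => W2 s p + x * W1 s p ^ 2) y -
            x * (M s).avg U m (W1 s) y ^ 2) s := by
      intro y s hs
      obtain ⟨r, hr, hrR⟩ : ∃ r, 0 < r ∧ |s| + r < R := ⟨(R - |s|) / 2, by linarith, by linarith⟩
      have hsub : ∀ t, |t - s| ≤ r → |t| < R := fun t ht => by
        linarith [abs_sub_abs_le_abs_sub t s]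
      obtain ⟨C₀, hC₀⟩ : ∃ C₀, ∀ t, |t - s| ≤ r → |(M t).u U (m + 1) y| ≤ C₀ := by
        obtain ⟨C₀, h⟩ := (isCompact_closedBall s r).exists_bound_of_continuousOn
          (f := fun t => (M t).u U (m + 1) y) fun t ht =>
            (h1 y t (hsub t (by simpa [Real.dist_eq] using ht))).continuousAt.continuousWithinAt
        exact ⟨C₀, fun t ht => by
          simpa using h t (by simpa [Real.dist_eq] using ht)⟩
      have hC : 0 ≤ C := tame_bound_nonneg (k := k) (hW s hs)
      have := step_deriv (v := fun t z => (M t).u U (m + 1) (move a y z))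
        (v1 := fun t z => W1 t (move a y z)) (v2 := fun t z => W2 t (move a y z))
        (C := |R * (heatConst Γ * D)| + C * Real.exp (k * n1 y)) (C₀ := C₀) (k := k * n1 a)
        (Lp := gB * n1 a) hr hx0 hx1
        (fun t _ => (u_tame (hMg t) hL _).1.comp (continuous_move a y))
        (fun t _ => (hW1t t).1.comp (continuous_move a y))
        (fun t ht => (h3 t (hsub t ht.le)).comp (continuous_move a y))
        (fun t ht z => h1 (move a y z) t (hsub t ht.le))
        (fun t ht z => h2 (move a y z) t (hsub t ht.le))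
        (fun t _ z => hlip y t z)
        (fun t ht => by rw [move_zero]; exact hC₀ t ht.le)
        (fun t ht z => by
          refine ((hW1b t (hsub t ht.le) _).trans (le_abs_self _)).trans ?_
          refine (le_add_of_nonneg_right (show 0 ≤ C * Real.exp (k * n1 y) by positivity)).trans
            (le_mul_of_one_le_right (by positivity) (Real.one_le_exp ?_))
          exact mul_nonneg (mul_nonneg hk (n1_nonneg a)) (n1_nonneg z))
        (fun t ht z => (hgrow (hW t (hsub t ht.le)) y z).trans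
          (mul_le_mul_of_nonneg_right (le_add_of_nonneg_left (abs_nonneg _)) (Real.exp_pos _).le))
      have eu : ∀ t, (M t).u U m y =
          x⁻¹ * Real.log (∫ z, Real.exp (x * (M t).u U (m + 1) (move a y z)) ∂gauss ι) := by
        intro t
        rw [u_step (M t) U (show m < (M t).K from hmK), stepLog, hamp]
        rfl
      have ea : ∀ t f, (M t).avg U m f y =
          (∫ z, Real.exp (x * (M t).u U (m + 1) (move a y z)) * f (move a y z) ∂gauss ι) /
            ∫ z, Real.exp (x * (M t).u U (m + 1) (move a y z)) ∂gauss ι := by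
        intro t f
        rw [Nest.avg, tilt, hamp]
        rfl
      simp only [ea, eu]
      exact this
    refine ⟨fun s y => (M s).avg U m (fun p => W2 s p + x * W1 s p ^ 2) y -
        x * (M s).avg U m (W1 s) y ^ 2,
      fun y s hs => (hstep y s hs).1, fun y s hs => (hstep y s hs).2, fun s hs => ?_, ?_, ?_⟩
    · exact (avg_tame (hMg s) hL hmK (tame_add (hW2t s hs) (tame_const_mul (tame_sq (hW1t s)) x))).1.sub
        (continuous_const.mul ((avg_tame (hMg s) hL hmK (hW1t s)).1.pow 2))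
    · set c := R * (heatConst Γ * D)
      refine ⟨(C + c ^ 2) * ((∫ z : ι → ℝ, Real.exp ((|gB * n1 a| + k * n1 a) * n1 z) ∂gauss ι) /
          ∫ z : ι → ℝ, Real.exp (-(|gB * n1 a|) * n1 z) ∂gauss ι) + c ^ 2, k, hk, fun s hs y => ?_⟩
      have e1 : ∀ p : ι → ℝ, (1 : ℝ) ≤ Real.exp (k * n1 p) := fun p =>
        Real.one_le_exp (mul_nonneg hk (n1_nonneg p))
      have hc : ∀ p, W1 s p ^ 2 ≤ c ^ 2 := fun p => by
        rw [← sq_abs]
        exact pow_le_pow_left₀ (abs_nonneg _) (hW1b s hs p) 2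
      have hcm : |(M s).avg U m (W1 s) y| ≤ c :=
        abs_iter_le (hMg s) hL (hW1t s) (hW1b s hs) (j := 1) (show m + 1 ≤ (M s).K from hmK) y
      have hf : ∀ p, |W2 s p + x * W1 s p ^ 2| ≤ (C + c ^ 2) * Real.exp (k * n1 p) := fun p => by
        refine (abs_add_le _ _).trans ?_
        rw [add_mul]
        refine add_le_add (hW s hs p) ?_
        rw [abs_mul, abs_of_pos hx0, abs_of_nonneg (sq_nonneg _)]
        exact ((mul_le_of_le_one_left (sq_nonneg _) hx1).trans (hc p)).trans
          (le_mul_of_one_le_right (sq_nonneg _) (e1 p))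
      refine (abs_sub _ _).trans ?_
      rw [add_mul _ (c ^ 2)]
      refine add_le_add ?_ ?_
      · have := abs_weighted_le (v := fun z => (M s).u U (m + 1) (move a y z))
          (g := fun z => W2 s (move a y z) + x * W1 s (move a y z) ^ 2) hx0.le hx1
          ((u_tame (hMg s) hL _).1.comp (continuous_move a y)) (hlip y s)
          (fun z => hgrow hf y z)
        rw [Nest.avg, tilt, hamp]
        exact this.trans (le_of_eq (by ring))
      · rw [abs_mul, abs_of_pos hx0, abs_pow]
        exact ((mul_le_of_le_one_left (sq_nonneg _) hx1).trans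
          (pow_le_pow_left₀ (abs_nonneg _) hcm 2)).trans
          (le_mul_of_one_le_right (sq_nonneg _) (e1 y))
    · intro s hs y
      set f2 := iterAvg (M s) U (m + 1) j (fun v => hTop N L μ S l s v ^ 2)
      have hf2 : Tame f2 := iter_tame (hMg s) hL (tame_sq (hTop_tame hN hL hl s)) j (m + 1) hj
      have hK : m < (M s).K := hmK
      have hW1q := tame_sq (hW1t s)
      have hlow : -(convConst Γ R * D) + (ξ * (M s).avg U m f2 y +
          (-ξ) * (M s).avg U m (fun p => W1 s p ^ 2) y) ≤ (M s).avg U m (W2 s) y := by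
        rw [← avg_const_mul (hMg s) hL ξ f2 y, ← avg_const_mul (hMg s) hL (-ξ) _ y,
          ← avg_add (hMg s) hL hK (tame_const_mul hf2 ξ) (tame_const_mul hW1q (-ξ)) y,
          ← avg_const (μ := μ) (hMg s) hL hK (-(convConst Γ R * D)) y,
          ← avg_add (hMg s) hL hK (tame_const _)
            (tame_add (tame_const_mul hf2 ξ) (tame_const_mul hW1q (-ξ))) y]
        refine avg_mono (hMg s) hL hK (tame_add (tame_const _)
          (tame_add (tame_const_mul hf2 ξ) (tame_const_mul hW1q (-ξ)))) (hW2t s hs)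
          (fun p => ?_) y
        have := h5 s hs p
        linarith
      have hjen : (M s).avg U m (W1 s) y ^ 2 ≤ (M s).avg U m (fun p => W1 s p ^ 2) y := by
        set c := (M s).avg U m (W1 s) y with hc
        have := avg_mono (μ := μ) (hMg s) hL hK
          (tame_add (tame_const_mul (hW1t s) (2 * c)) (tame_const (-c ^ 2))) hW1q
          (fun p => by nlinarith [sq_nonneg (W1 s p - c)]) y
        rw [avg_add (hMg s) hL hK (tame_const_mul (hW1t s) _) (tame_const _),
          avg_const_mul (hMg s) hL, avg_const (hMg s) hL hK, ← hc] at this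
        nlinarith
      show -(convConst Γ R * D) + ξ * ((M s).avg U m f2 y - (M s).avg U m (W1 s) y ^ 2) ≤
        (M s).avg U m (fun p => W2 s p + x * W1 s p ^ 2) y - x * (M s).avg U m (W1 s) y ^ 2
      rw [avg_add (hMg s) hL hK (hW2t s hs) (tame_const_mul hW1q x),
        avg_const_mul (hMg s) hL]
      have := mul_nonneg (sub_nonneg.2 (hξ (m + 1) (by omega) hmK)) (sub_nonneg.2 hjen)
      linarith

end amp

end Vale.Agent.P157.Parisi.Conc
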