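import Vale.Agent.P157.GaussLaw
import Vale.Agent.P157.Polar
import Vale.Agent.P157.Parisi.SphereTilt

/-!
Comparison of the averaged log-partition functions of two coupled configuration laws, and the
rotation invariance which evaluates the error.
-/

namespace Vale.Agent.P157.Parisi

open MeasureTheory ProbabilityTheory Finset

variable {ι κ : Type} [Fintype ι] [Fintype κ] [DecidableEq κ] (p : ι → κ)

/-- The scalar product within one block. -/
noncomputable def bdot (x y : ι → ℝ) (k : κ) : ℝ := ∑ i, if p i = k then x i * y i else 0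

/-- The squared length of one block. -/
noncomputable def bsq (x : ι → ℝ) (k : κ) : ℝ := bdot p x x k

/-- The reflection along `v` in every block. -/
noncomputable def refl (v x : ι → ℝ) (i : ι) : ℝ :=
  x i - 2 * v i * bdot p v x (p i) / bsq p v (p i)

/-- The map which normalises every block. -/
noncomputable def normMap (w : κ → ℝ) (ξ : ι → ℝ) (i : ι) : ℝ :=
  w (p i) * (ξ i / Real.sqrt (bsq p ξ (p i)))

variable {p}

lemma bsq_nonneg (x : ι → ℝ) (k : κ) : 0 ≤ bsq p x k :=
  sum_nonneg fun i _ => by split_ifs <;> [exact mul_self_nonneg _; exact le_rfl]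

lemma bsq_eq_zero {x : ι → ℝ} {i : ι} (h : bsq p x (p i) = 0) : x i = 0 := by
  have := (sum_eq_zero_iff_of_nonneg fun j _ => by
    split_ifs <;> [exact mul_self_nonneg _; exact le_rfl]).1 h i (mem_univ i)
  simpa using this

lemma sum_eq_sum_bdot (x y : ι → ℝ) : ∑ i, x i * y i = ∑ k, bdot p x y k := by
  simp only [bdot]
  rw [sum_comm]
  exact sum_congr rfl fun i _ => by simp

lemma bdot_comm (x y : ι → ℝ) (k : κ) : bdot p x y k = bdot p y x k := by
  simp only [bdot, mul_comm]

lemma bdot_smul_right (f : κ → ℝ) (x y : ι → ℝ) (k : κ) :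
    bdot p x (fun i => f (p i) * y i) k = f k * bdot p x y k := by
  simp only [bdot, mul_sum]
  refine sum_congr rfl fun i _ => ?_
  split_ifs with h
  · rw [h]; ring
  · simp

lemma bdot_refl_left (v x y : ι → ℝ) (k : κ) :
    bdot p (refl p v x) y k = bdot p x y k - 2 * bdot p v x k * bdot p v y k / bsq p v k := by
  have : 2 * bdot p v x k * bdot p v y k / bsq p v k =
      (2 * bdot p v x k / bsq p v k) * bdot p v y k := by ring
  rw [this]
  set c := 2 * bdot p v x k / bsq p v k with hc
  simp only [bdot, mul_sum, ← sum_sub_distrib]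
  refine sum_congr rfl fun i _ => ?_
  split_ifs with h
  · rw [refl, h, hc]
    ring
  · simp

lemma sum_refl_mul (v x y : ι → ℝ) : ∑ i, refl p v x i * y i = ∑ i, x i * refl p v y i := by
  rw [sum_eq_sum_bdot (p := p) (refl p v x) y]
  simp only [mul_comm (x _) (refl p v y _)]
  rw [sum_eq_sum_bdot (p := p) (refl p v y) x]
  refine sum_congr rfl fun k _ => ?_
  rw [bdot_refl_left, bdot_refl_left, bdot_comm x y]
  ring

lemma bdot_refl_refl (v x y : ι → ℝ) (k : κ) :
    bdot p (refl p v x) (refl p v y) k = bdot p x y k := by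
  rw [bdot_refl_left, bdot_comm x (refl p v y), bdot_refl_left, bdot_comm v (refl p v y),
    bdot_refl_left, bdot_comm y x, bdot_comm y v]
  by_cases h : bsq p v k = 0
  · simp [h]
  · have : bdot p v v k = bsq p v k := rfl
    rw [this]
    field_simp
    ring

lemma refl_normMap (w : κ → ℝ) (v ξ : ι → ℝ) :
    normMap p w (refl p v ξ) = refl p v (normMap p w ξ) := by
  have hb : ∀ k, bsq p (refl p v ξ) k = bsq p ξ k := fun k => bdot_refl_refl v ξ ξ k
  have e : normMap p w ξ = fun j => (fun k => w k / Real.sqrt (bsq p ξ k)) (p j) * ξ j := by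
    funext j; simp only [normMap]; ring
  funext i
  rw [normMap, hb, e]
  simp only [refl, bdot_smul_right (fun k => w k / Real.sqrt (bsq p ξ k)) v ξ]
  ring

lemma bsq_normMap (w : κ → ℝ) {ξ : ι → ℝ} {k : κ} (h : bsq p ξ k ≠ 0) :
    bsq p (normMap p w ξ) k = w k ^ 2 := by
  have e : normMap p w ξ = fun j => (fun k => w k / Real.sqrt (bsq p ξ k)) (p j) * ξ j := by
    funext j; simp only [normMap]; ring
  rw [bsq, e, bdot_smul_right (fun k => w k / Real.sqrt (bsq p ξ k)), bdot_comm,
    bdot_smul_right (fun k => w k / Real.sqrt (bsq p ξ k))]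
  have hs := Real.sq_sqrt (bsq_nonneg (p := p) ξ k)
  have : bdot p ξ ξ k = bsq p ξ k := rfl
  rw [this]
  have h0 : Real.sqrt (bsq p ξ k) ≠ 0 := fun h0 => h (by rw [← hs, h0]; ring)
  field_simp
  linear_combination (-(w k ^ 2)) * hs

lemma refl_transitive {a b : ι → ℝ} (h : ∀ i, bsq p a (p i) = bsq p b (p i)) :
    refl p (a - b) a = b := by
  funext i
  set k := p i
  by_cases hv : bsq p (a - b) k = 0
  · have hab : a i - b i = 0 := bsq_eq_zero (p := p) (x := a - b) (i := i) hv
    simp only [refl, Pi.sub_apply, hab]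
    simp only [mul_zero, zero_mul, zero_div, sub_zero]
    linarith
  · have e1 : bdot p (a - b) a k = bsq p a k - bdot p a b k := by
      simp only [bsq, bdot, Pi.sub_apply, ← sum_sub_distrib]
      exact sum_congr rfl fun j _ => by split_ifs <;> ring
    have e2 : bsq p (a - b) k = bsq p a k + bsq p b k - 2 * bdot p a b k := by
      simp only [bsq, bdot, Pi.sub_apply, mul_sum, ← sum_sub_distrib, ← sum_add_distrib]
      exact sum_congr rfl fun j _ => by split_ifs <;> ring
    have e3 : 2 * bdot p (a - b) a k = bsq p (a - b) k := by rw [e1, e2, ← h i]; ring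
    simp only [refl, Pi.sub_apply]
    rw [show 2 * (a i - b i) * bdot p (a - b) a k = (a i - b i) * bsq p (a - b) k by
      rw [← e3]; ring, mul_div_assoc, div_self hv]
    ring

lemma measurePreserving_refl [DecidableEq ι] (v : ι → ℝ) :
    MeasurePreserving (refl p v) (gauss ι) (gauss ι) := by
  have hm : Measurable (refl p v) := measurable_pi_lambda _ fun i => by
    have hj : ∀ j, Measurable fun x : ι → ℝ => if p j = p i then v j * x j else 0 := fun j => by
      split_ifs <;> fun_prop
    exact (measurable_pi_apply i).sub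
      (((Finset.measurable_sum univ fun j _ => hj j).const_mul (2 * v i)).div_const _)
  have hlin : ∀ (x : ι → ℝ) (l : ι), refl p v x l =
      ∑ i, x i * refl p v (Pi.single l 1) i := fun x l => by
    rw [← sum_refl_mul]
    simp [Pi.single_apply]
  have h := map_gauss_eq (ι := ι) (κ := ι) (Λ := ι)
    (fun l i => refl p v (Pi.single l 1) i) (fun l i => (Pi.single l (1 : ℝ) : ι → ℝ) i) fun s => by
      have e1 : ∀ i, ∑ l, s l * refl p v (Pi.single l 1) i = refl p v s i := fun i => by
        rw [hlin s i]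
        refine sum_congr rfl fun l _ => ?_
        congr 1
        have := sum_refl_mul (p := p) v (Pi.single l 1) (Pi.single i 1)
        simpa [Pi.single_apply] using this
      have e2 : ∀ i, ∑ l, s l * (Pi.single l (1 : ℝ) : ι → ℝ) i = s i := fun i => by
        simp [Pi.single_apply]
      simp only [e1, e2, sq]
      rw [sum_eq_sum_bdot (p := p), sum_eq_sum_bdot (p := p)]
      exact sum_congr rfl fun k _ => bdot_refl_refl v s s k
  refine ⟨hm, ?_⟩
  convert h using 1
  · congr 1
    funext g l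
    exact hlin g l
  · have : (fun (g : ι → ℝ) l => ∑ k, g k * (Pi.single l (1 : ℝ) : ι → ℝ) k) = id := by
      funext g l; simp [Pi.single_apply]
    rw [this, Measure.map_id]

lemma measurable_normMap (w : κ → ℝ) : Measurable (normMap p w : (ι → ℝ) → ι → ℝ) :=
  measurable_pi_lambda _ fun i => measurable_const.mul
    ((measurable_pi_apply i).div (Real.continuous_sqrt.measurable.comp
      (Finset.measurable_sum _ fun j _ => Measurable.ite (MeasurableSet.const _)
        ((measurable_pi_apply j).mul (measurable_pi_apply j)) measurable_const)))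

lemma sum_normMap_sq_le (w : κ → ℝ) (ξ : ι → ℝ) :
    ∑ i, normMap p w ξ i ^ 2 ≤ ∑ k, w k ^ 2 := by
  simp only [sq]
  rw [sum_eq_sum_bdot (p := p)]
  refine sum_le_sum fun k _ => ?_
  by_cases h : bsq p ξ k = 0
  · refine le_trans (le_of_eq ?_) (mul_self_nonneg _)
    refine sum_eq_zero fun i _ => ?_
    split_ifs with hi
    · simp [normMap, hi, h]
    · rfl
  · exact le_of_eq ((bsq_normMap w h).trans (sq _))

variable (p) in
/-- The law of the configurations. -/
noncomputable def normLaw (w : κ → ℝ) : Measure (ι → ℝ) := (gauss ι).map (normMap p w)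

variable {u : ℝ → ℝ} {L : ℝ}

lemma integrable_phiW_comp (hu : Weight u L) {M : ℕ} (G : Fin M → ι → ℝ)
    {S : (ι → ℝ) → ι → ℝ} (hS : Measurable S) :
    Integrable (fun ξ => phiW u G (S ξ)) (gauss ι) :=
  Integrable.of_bound (((continuous_phiW hu M).comp (continuous_const.prodMk continuous_id)
    ).measurable.comp hS).aestronglyMeasurable (Real.exp (L * M)) (.of_forall fun ξ => by
      rw [Real.norm_eq_abs, abs_of_pos (lt_of_lt_of_le (Real.exp_pos _) (phiW_bounds hu G _).1)]
      exact (phiW_bounds hu G _).2)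

/-- The partition function. -/
noncomputable def mapPart (u : ℝ → ℝ) {M : ℕ} (G : Fin M → ι → ℝ) (S : (ι → ℝ) → ι → ℝ) : ℝ :=
  ∫ ξ, phiW u G (S ξ) ∂gauss ι

lemma mapPart_bounds (hu : Weight u L) {M : ℕ} (G : Fin M → ι → ℝ)
    {S : (ι → ℝ) → ι → ℝ} (hS : Measurable S) :
    Real.exp (-(L * M)) ≤ mapPart u G S ∧ mapPart u G S ≤ Real.exp (L * M) := by
  constructor
  · simpa [mapPart] using integral_mono (integrable_const (Real.exp (-(L * M))))
      (integrable_phiW_comp hu G hS) fun ξ => (phiW_bounds hu G _).1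
  · simpa [mapPart] using integral_mono (integrable_phiW_comp hu G hS)
      (integrable_const (Real.exp (L * M))) fun ξ => (phiW_bounds hu G _).2

lemma mapPart_pos (hu : Weight u L) {M : ℕ} (G : Fin M → ι → ℝ)
    {S : (ι → ℝ) → ι → ℝ} (hS : Measurable S) : 0 < mapPart u G S :=
  lt_of_lt_of_le (Real.exp_pos _) (mapPart_bounds hu G hS).1

lemma measurable_phiW_pair (hu : Weight u L) {M : ℕ} {S : (ι → ℝ) → ι → ℝ} (hS : Measurable S) :
    Measurable fun q : (Fin M → ι → ℝ) × (ι → ℝ) => phiW u q.1 (S q.2) :=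
  (continuous_phiW hu M).measurable.comp (measurable_fst.prodMk (hS.comp measurable_snd))

lemma measurable_mapPart (hu : Weight u L) {M : ℕ} {S : (ι → ℝ) → ι → ℝ} (hS : Measurable S) :
    Measurable fun G : Fin M → ι → ℝ => mapPart u G S :=
  (measurable_phiW_pair hu hS).stronglyMeasurable.integral_prod_right'.measurable

lemma contLog_map (hu : Weight u L) (M : ℕ) {S : (ι → ℝ) → ι → ℝ} (hS : Measurable S) :
    contLog u ((gauss ι).map S) M = ∫ G, Real.log (mapPart u G S) ∂gaussM ι M := by
  refine integral_congr_ae (.of_forall fun G => ?_)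
  simp only [mapPart]
  have hc : Continuous (phiW u G) := (continuous_phiW hu M).comp (.prodMk_right G)
  rw [integral_map (f := phiW u G) hS.aemeasurable hc.aestronglyMeasurable]

/-- Averaged Gibbs weights are uniform when the configurations are normalised Gaussian blocks. -/
lemma gibbs_uniform [DecidableEq ι] (hu : Weight u L) (w : κ → ℝ) (M : ℕ) {F : (ι → ℝ) → ℝ}
    (hF : Measurable F) {B : ℝ} (hB : ∀ ξ, |F ξ| ≤ B) :
    ∫ G, (∫ ξ, phiW u G (normMap p w ξ) * F ξ ∂gauss ι) / mapPart u G (normMap p w) ∂gaussM ι M =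
      ∫ ξ, F ξ ∂gauss ι := by
  have hS : Measurable (normMap p w : (ι → ℝ) → ι → ℝ) := measurable_normMap w
  set S : (ι → ℝ) → ι → ℝ := normMap p w
  set ρ : (ι → ℝ) → ℝ := fun a => ∫ G, phiW u G a / mapPart u G S ∂gaussM ι M
  have hq : Measurable fun q : (Fin M → ι → ℝ) × (ι → ℝ) =>
      phiW u q.1 (S q.2) / mapPart u q.1 S :=
    (measurable_phiW_pair hu hS).div ((measurable_mapPart hu hS).comp measurable_fst)
  have hqb : ∀ (G : Fin M → ι → ℝ) (a : ι → ℝ),
      |phiW u G a / mapPart u G S| ≤ Real.exp (L * M) / Real.exp (-(L * M)) := fun G a => by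
    have hZ := mapPart_pos hu G hS
    have ha := lt_of_lt_of_le (Real.exp_pos _) (phiW_bounds hu G a).1
    rw [abs_of_pos (div_pos ha hZ)]
    exact div_le_div₀ (Real.exp_pos _).le (phiW_bounds hu G a).2 (Real.exp_pos _)
      (mapPart_bounds hu G hS).1
  have hinv : ∀ v a, ρ (refl p v a) = ρ a := by
    intro v a
    have hR : MeasurePreserving (refl p v) (gauss ι) (gauss ι) := measurePreserving_refl v
    have hRM : MeasurePreserving (fun G : Fin M → ι → ℝ => fun j => refl p v (G j))
        (gaussM ι M) (gaussM ι M) := measurePreserving_pi _ _ fun _ => hR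
    have hW : ∀ (G : Fin M → ι → ℝ) b,
        phiW u (fun j => refl p v (G j)) b = phiW u G (refl p v b) := fun G b =>
      prod_congr rfl fun j _ => congrArg u (sum_refl_mul v (G j) b)
    have hZ : ∀ G : Fin M → ι → ℝ, mapPart u (fun j => refl p v (G j)) S = mapPart u G S := by
      intro G
      simp only [mapPart, hW, S, ← refl_normMap]
      conv_rhs => rw [← hR.map_eq]
      have hm : Measurable fun ξ => phiW u G (normMap p w ξ) :=
        ((continuous_phiW hu M).comp (.prodMk_right G)).measurable.comp (measurable_normMap w)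
      rw [integral_map hR.measurable.aemeasurable hm.aestronglyMeasurable]
    have hma : Measurable fun G : Fin M → ι → ℝ => phiW u G a / mapPart u G S :=
      ((continuous_phiW hu M).measurable.comp (measurable_id.prodMk measurable_const)).div
        (measurable_mapPart hu hS)
    simp only [ρ]
    conv_rhs => rw [← hRM.map_eq]
    rw [integral_map hRM.measurable.aemeasurable hma.aestronglyMeasurable]
    exact integral_congr_ae (.of_forall fun G => by simp only [hW, hZ])
  have hne : ∀ᵐ ξ ∂gauss ι, ∀ i, bsq p ξ (p i) ≠ 0 := by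
    refine ae_all_iff.2 fun i => ?_
    have h1 : ∀ᵐ x ∂gaussianReal 0 1, x ≠ (0 : ℝ) := by
      have : NullSingletonClass (gaussianReal 0 1) := nullSingletonClass_gaussianReal one_ne_zero
      exact Measure.ae_ne _ 0
    filter_upwards [(measurePreserving_eval (fun _ : ι => gaussianReal 0 1) i
      ).quasiMeasurePreserving.ae h1] with ξ hξ h0
    exact hξ (bsq_eq_zero (p := p) (x := ξ) (i := i) h0)
  obtain ⟨ξ0, hξ0⟩ := hne.exists
  have hconst : ∀ᵐ ξ ∂gauss ι, ρ (S ξ) = ρ (S ξ0) := by
    filter_upwards [hne] with ξ hξ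
    rw [← hinv (S ξ - S ξ0) (S ξ), refl_transitive fun i => by
      rw [bsq_normMap w (hξ i), bsq_normMap w (hξ0 i)]]
  have hint : Integrable (fun q : (Fin M → ι → ℝ) × (ι → ℝ) =>
      phiW u q.1 (S q.2) / mapPart u q.1 S) ((gaussM ι M).prod (gauss ι)) :=
    Integrable.of_bound hq.aestronglyMeasurable _ (.of_forall fun q => hqb _ _)
  have hone : ∫ ξ, ρ (S ξ) ∂gauss ι = 1 := by
    simp only [ρ]
    rw [← integral_integral_swap (f := fun G ξ => phiW u G (S ξ) / mapPart u G S) hint]
    have : ∀ G : Fin M → ι → ℝ, ∫ ξ, phiW u G (S ξ) / mapPart u G S ∂gauss ι = 1 := fun G => by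
      rw [integral_div]
      exact div_self (mapPart_pos hu G hS).ne'
    simp [this]
  have hρ0 : ρ (S ξ0) = 1 := by
    rw [integral_congr_ae hconst] at hone
    simpa using hone
  have hint2 : Integrable (fun q : (Fin M → ι → ℝ) × (ι → ℝ) =>
      phiW u q.1 (S q.2) / mapPart u q.1 S * F q.2) ((gaussM ι M).prod (gauss ι)) :=
    hint.mul_bdd (hF.comp measurable_snd).aestronglyMeasurable (c := B)
      (.of_forall fun q => hB q.2)
  calc ∫ G, (∫ ξ, phiW u G (S ξ) * F ξ ∂gauss ι) / mapPart u G S ∂gaussM ι M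
        = ∫ G, ∫ ξ, phiW u G (S ξ) / mapPart u G S * F ξ ∂gauss ι ∂gaussM ι M := by
        refine integral_congr_ae (.of_forall fun G => ?_)
        simp only [← integral_div]
        exact integral_congr_ae (.of_forall fun ξ => by ring)
    _ = ∫ ξ, ρ (S ξ) * F ξ ∂gauss ι := by
        rw [integral_integral_swap hint2]
        exact integral_congr_ae (.of_forall fun ξ => by simp only [ρ, integral_mul_const])
    _ = _ := integral_congr_ae (by filter_upwards [hconst] with ξ hξ; rw [hξ, hρ0, one_mul])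

omit [Fintype κ] [DecidableEq κ] in
lemma integral_dot_sq (a : ι → ℝ) :
    Integrable (fun g : ι → ℝ => (∑ i, g i * a i) ^ 2) (gauss ι) ∧
      ∫ g, (∑ i, g i * a i) ^ 2 ∂gauss ι = ∑ i, a i ^ 2 := by
  have hm : ∀ i, MemLp (fun x : ℝ => a i * x) 2 (gaussianReal 0 1) := fun i =>
    (memLp_id_gaussianReal 2).const_mul _
  have hmi : ∀ i, MemLp (fun ξ : ι → ℝ => a i * ξ i) 2 (gauss ι) := fun i =>
    (hm i).comp_measurePreserving (measurePreserving_eval (fun _ : ι => gaussianReal 0 1) i)
  have hS : MemLp (fun ξ : ι → ℝ => ∑ i, a i * ξ i) 2 (gauss ι) :=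
    memLp_finsetSum _ fun i _ => hmi i
  have hmean : ∫ ξ, ∑ i, a i * ξ i ∂gauss ι = 0 := by
    rw [integral_finsetSum _ fun i _ => (hmi i).integrable (by norm_num)]
    refine sum_eq_zero fun i _ => ?_
    unfold gauss
    rw [integral_comp_eval (μ := fun _ : ι => gaussianReal 0 1) (i := i)
      (f := fun x : ℝ => a i * x) (by fun_prop), integral_const_mul]
    simp
  have hvar : variance (fun ξ : ι → ℝ => ∑ i, a i * ξ i) (gauss ι) = ∑ i, a i ^ 2 := by
    rw [show (fun ξ : ι → ℝ => ∑ i, a i * ξ i) =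
        ∑ i, fun ξ : ι → ℝ => (fun x : ℝ => a i * x) (ξ i) by funext ξ; simp]
    unfold gauss
    rw [variance_sum_pi hm]
    refine sum_congr rfl fun i _ => ?_
    rw [variance_const_mul, show (fun x : ℝ => x) = id from rfl, variance_id_gaussianReal]
    simp
  have h := variance_eq_sub hS
  rw [hvar, hmean] at h
  simp only [Pi.pow_apply, zero_pow two_ne_zero, sub_zero] at h
  simp only [mul_comm _ (a _)]
  exact ⟨hS.integrable_sq, h.symm⟩

omit [Fintype κ] [DecidableEq κ] in
/-- Adding a pattern changes a nonnegative Gibbs average by at most a constant factor. -/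
lemma gibbs_succ_le (hu : Weight u L) {M : ℕ} {S : (ι → ℝ) → ι → ℝ} (hS : Measurable S)
    (G : Fin (M + 1) → ι → ℝ) (G' : Fin M → ι → ℝ) (g : ι → ℝ)
    (hW : ∀ a, phiW u G a = u (∑ i, g i * a i) * phiW u G' a)
    {F : (ι → ℝ) → ℝ} (hFm : Measurable F) (hF0 : ∀ ξ, 0 ≤ F ξ) {B : ℝ} (hFB : ∀ ξ, F ξ ≤ B) :
    0 ≤ (∫ ξ, phiW u G (S ξ) * F ξ ∂gauss ι) / mapPart u G S ∧
      (∫ ξ, phiW u G (S ξ) * F ξ ∂gauss ι) / mapPart u G S ≤
        Real.exp (2 * L) * ((∫ ξ, phiW u G' (S ξ) * F ξ ∂gauss ι) / mapPart u G' S) := by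
  have hp : ∀ {M : ℕ} (G : Fin M → ι → ℝ) ξ, 0 < phiW u G (S ξ) := fun G ξ =>
    lt_of_lt_of_le (Real.exp_pos _) (phiW_bounds hu G (S ξ)).1
  have hnum : Integrable (fun ξ => phiW u G' (S ξ) * F ξ) (gauss ι) :=
    (integrable_phiW_comp hu G' hS).mul_bdd hFm.aestronglyMeasurable (c := B)
      (.of_forall fun ξ => by rw [Real.norm_eq_abs, abs_of_nonneg (hF0 ξ)]; exact hFB ξ)
  refine ⟨div_nonneg (integral_nonneg fun ξ => mul_nonneg (hp G ξ).le (hF0 ξ))
    (mapPart_pos hu G hS).le, ?_⟩
  have h1 : ∫ ξ, phiW u G (S ξ) * F ξ ∂gauss ι ≤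
      Real.exp L * ∫ ξ, phiW u G' (S ξ) * F ξ ∂gauss ι := by
    rw [← integral_const_mul]
    refine integral_mono_of_nonneg (.of_forall fun ξ => mul_nonneg (hp G ξ).le (hF0 ξ))
      (hnum.const_mul _) (.of_forall fun ξ => ?_)
    simp only [hW, mul_assoc]
    exact mul_le_mul_of_nonneg_right (hu.le_exp _).2 (mul_nonneg (hp G' ξ).le (hF0 ξ))
  have h2 : Real.exp (-L) * mapPart u G' S ≤ mapPart u G S := by
    simp only [mapPart, ← integral_const_mul]
    refine integral_mono ((integrable_phiW_comp hu G' hS).const_mul _)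
      (integrable_phiW_comp hu G hS) fun ξ => ?_
    simp only [hW]
    exact mul_le_mul_of_nonneg_right (hu.le_exp _).1 (hp G' ξ).le
  refine (div_le_div₀ (mul_nonneg (Real.exp_pos _).le (integral_nonneg fun ξ =>
    mul_nonneg (hp G' ξ).le (hF0 ξ))) h1 (mul_pos (Real.exp_pos _) (mapPart_pos hu G' hS))
    h2).trans_eq ?_
  rw [Real.exp_neg, two_mul, Real.exp_add]
  field_simp

omit [Fintype κ] [DecidableEq κ] in
/-- The pattern average of the squared displacement costs only a constant factor. -/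
lemma gibbs_dot_sq_le (hu : Weight u L) {M : ℕ} (j : Fin (M + 1)) {S : (ι → ℝ) → ι → ℝ}
    (hS : Measurable S) {d : (ι → ℝ) → ι → ℝ} (hd : Measurable d) {B : ℝ}
    (hB : ∀ ξ, ∑ i, d ξ i ^ 2 ≤ B)
    (hunif : ∫ G, (∫ ξ, phiW u G (S ξ) * ∑ i, d ξ i ^ 2 ∂gauss ι) / mapPart u G S ∂gaussM ι M =
      ∫ ξ, ∑ i, d ξ i ^ 2 ∂gauss ι) :
    Integrable (fun G : Fin (M + 1) → ι → ℝ =>
        (∫ ξ, phiW u G (S ξ) * (∑ i, G j i * d ξ i) ^ 2 ∂gauss ι) / mapPart u G S)
        (gaussM ι (M + 1)) ∧
      ∫ G, (∫ ξ, phiW u G (S ξ) * (∑ i, G j i * d ξ i) ^ 2 ∂gauss ι) / mapPart u G S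
        ∂gaussM ι (M + 1) ≤ Real.exp (2 * L) * ∫ ξ, ∑ i, d ξ i ^ 2 ∂gauss ι := by
  set T := (MeasurableEquiv.piFinSuccAbove (fun _ : Fin (M + 1) => ι → ℝ) j).symm with hTdef
  have hT : MeasurePreserving T ((gauss ι).prod (gaussM ι M)) (gaussM ι (M + 1)) :=
    (measurePreserving_piFinSuccAbove (fun _ : Fin (M + 1) => gauss ι) j).symm
  have hT1 : ∀ g G', T (g, G') j = g := fun g G' => by
    simp [hTdef, MeasurableEquiv.piFinSuccAbove_symm_apply, Fin.insertNthEquiv]
  have hTW : ∀ g G' a, phiW u (T (g, G')) a = u (∑ i, g i * a i) * phiW u G' a := fun g G' a => by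
    rw [phiW, Fin.prod_univ_succAbove _ j]
    simp [hTdef, MeasurableEquiv.piFinSuccAbove_symm_apply, Fin.insertNthEquiv, phiW]
  set A : (Fin (M + 1) → ι → ℝ) → ℝ := fun G =>
    (∫ ξ, phiW u G (S ξ) * (∑ i, G j i * d ξ i) ^ 2 ∂gauss ι) / mapPart u G S
  have hdot : ∀ (g : ι → ℝ) ξ, (∑ i, g i * d ξ i) ^ 2 ≤ normSqF g * B := fun g ξ =>
    (sum_mul_sq_le_sq_mul_sq univ g (d ξ)).trans
      (mul_le_mul_of_nonneg_left (hB ξ) (normSqF_nonneg g))
  set Q : (ι → ℝ) × (Fin M → ι → ℝ) → (ι → ℝ) → ℝ := fun q ξ =>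
    phiW u q.2 (S ξ) / mapPart u q.2 S * (∑ i, q.1 i * d ξ i) ^ 2
  have hQm : Measurable fun r : ((ι → ℝ) × (Fin M → ι → ℝ)) × (ι → ℝ) => Q r.1 r.2 := by
    refine Measurable.mul (((continuous_phiW hu M).measurable.comp
      ((measurable_snd.comp measurable_fst).prodMk (hS.comp measurable_snd))).div
      ((measurable_mapPart hu hS).comp (measurable_snd.comp measurable_fst))) ?_
    exact (Finset.measurable_sum _ fun i _ =>
      ((measurable_pi_apply i).comp (measurable_fst.comp measurable_fst)).mul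
        ((measurable_pi_apply i).comp (hd.comp measurable_snd))).pow_const 2
  set K2 := Real.exp (L * M) / Real.exp (-(L * M))
  have hQb : ∀ q ξ, |Q q ξ| ≤ K2 * (normSqF q.1 * B) := fun q ξ => by
    have hZ := mapPart_pos hu q.2 hS
    have ha := lt_of_lt_of_le (Real.exp_pos _) (phiW_bounds hu q.2 (S ξ)).1
    rw [abs_of_nonneg (mul_nonneg (div_pos ha hZ).le (sq_nonneg _))]
    exact mul_le_mul (div_le_div₀ (Real.exp_pos _).le (phiW_bounds hu q.2 _).2 (Real.exp_pos _)
      (mapPart_bounds hu q.2 hS).1) (hdot _ ξ) (sq_nonneg _) (by positivity)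
  obtain ⟨hn1, -, -, -⟩ := weighted_sq_moments (ι := ι) fun _ => 1
  simp only [one_mul] at hn1
  have hnb : Integrable (fun r : ((ι → ℝ) × (Fin M → ι → ℝ)) × (ι → ℝ) =>
      K2 * (normSqF r.1.1 * B)) (((gauss ι).prod (gaussM ι M)).prod (gauss ι)) :=
    (((hn1.mul_const B).comp_fst (gaussM ι M)).comp_fst (gauss ι)).const_mul K2
  have hQi : Integrable (fun r : ((ι → ℝ) × (Fin M → ι → ℝ)) × (ι → ℝ) => Q r.1 r.2)
      (((gauss ι).prod (gaussM ι M)).prod (gauss ι)) :=
    hnb.mono' hQm.aestronglyMeasurable (.of_forall fun r => hQb r.1 r.2)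
  set I : (ι → ℝ) × (Fin M → ι → ℝ) → ℝ := fun q => ∫ ξ, Q q ξ ∂gauss ι
  have hIi : Integrable I ((gauss ι).prod (gaussM ι M)) := hQi.integral_prod_left
  have hle : ∀ q, 0 ≤ A (T q) ∧ A (T q) ≤ Real.exp (2 * L) * I q := by
    rintro ⟨g, G'⟩
    have eI : I (g, G') =
        (∫ ξ, phiW u G' (S ξ) * (∑ i, g i * d ξ i) ^ 2 ∂gauss ι) / mapPart u G' S := by
      simp only [I, Q, ← integral_div]
      exact integral_congr_ae (.of_forall fun ξ => by ring)
    simp only [A, hT1, eI]
    exact gibbs_succ_le hu hS (T (g, G')) G' g (hTW g G') (by fun_prop)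
      (fun ξ => sq_nonneg _) (hdot g)
  have hAm : Measurable A := by
    refine Measurable.div ?_ (measurable_mapPart hu hS)
    have : Measurable fun r : (Fin (M + 1) → ι → ℝ) × (ι → ℝ) =>
        phiW u r.1 (S r.2) * (∑ i, r.1 j i * d r.2 i) ^ 2 :=
      (measurable_phiW_pair hu hS).mul (by fun_prop)
    exact this.stronglyMeasurable.integral_prod_right'.measurable
  have hAT : Integrable (fun q => A (T q)) ((gauss ι).prod (gaussM ι M)) :=
    (hIi.const_mul (Real.exp (2 * L))).mono' (hAm.comp T.measurable).aestronglyMeasurable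
      (.of_forall fun q => by rw [Real.norm_eq_abs, abs_of_nonneg (hle q).1]; exact (hle q).2)
  refine ⟨(hT.integrable_comp_emb T.measurableEmbedding).1 hAT, ?_⟩
  rw [← hT.integral_comp T.measurableEmbedding]
  refine (integral_mono hAT (hIi.const_mul _) fun q => (hle q).2).trans ?_
  rw [integral_const_mul]
  refine mul_le_mul_of_nonneg_left (le_of_eq ?_) (Real.exp_pos _).le
  rw [integral_prod_symm _ hIi, ← hunif]
  refine integral_congr_ae (.of_forall fun G' => ?_)
  simp only [I, Q]
  have hsec : Integrable (fun r : (ι → ℝ) × (ι → ℝ) => Q (r.1, G') r.2)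
      ((gauss ι).prod (gauss ι)) := by
    refine (((hn1.mul_const B).comp_fst (gauss ι)).const_mul K2).mono' ?_
      (.of_forall fun r => hQb (r.1, G') r.2)
    exact (hQm.comp ((measurable_fst.prodMk measurable_const).prodMk measurable_snd)
      ).aestronglyMeasurable
  rw [integral_integral_swap hsec, ← integral_div]
  refine integral_congr_ae (.of_forall fun ξ => ?_)
  simp only
  rw [integral_const_mul, (integral_dot_sq (d ξ)).2]
  ring

omit [Fintype κ] [DecidableEq κ] in
/-- Moving the configurations changes the averaged log-partition function by little. -/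
lemma contLog_map_sub_le (hu : Weight u L) {C : ℝ} (hC : 0 ≤ C)
    (hlip : ∀ z z', |Real.log (u z) - Real.log (u z')| ≤ C * |z - z'|)
    {S S' : (ι → ℝ) → ι → ℝ} (hS : Measurable S) (hS' : Measurable S') {B : ℝ}
    (hB : ∀ ξ, ∑ i, (S' ξ i - S ξ i) ^ 2 ≤ B) (M : ℕ)
    (hunif : ∀ (M' : ℕ) (F : (ι → ℝ) → ℝ), Measurable F → (∀ ξ, |F ξ| ≤ B) →
      ∫ G, (∫ ξ, phiW u G (S ξ) * F ξ ∂gauss ι) / mapPart u G S ∂gaussM ι M' = ∫ ξ, F ξ ∂gauss ι)
    {c : ℝ} (hc : 0 < c) :
    contLog u ((gauss ι).map S) M - contLog u ((gauss ι).map S') M ≤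
      M * (C * Real.exp (2 * L) *
        (c / 2 + (∫ ξ, ∑ i, (S' ξ i - S ξ i) ^ 2 ∂gauss ι) / (2 * c))) := by
  set d : (ι → ℝ) → ι → ℝ := fun ξ i => S' ξ i - S ξ i
  have hd : Measurable d := measurable_pi_lambda _ fun i =>
    ((measurable_pi_apply i).comp hS').sub ((measurable_pi_apply i).comp hS)
  have hD : Measurable fun ξ => ∑ i, d ξ i ^ 2 := Finset.measurable_sum _ fun i _ =>
    ((measurable_pi_apply i).comp hd).pow_const 2
  set E := ∫ ξ, ∑ i, d ξ i ^ 2 ∂gauss ι
  set A : Fin M → (Fin M → ι → ℝ) → ℝ := fun j G =>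
    (∫ ξ, phiW u G (S ξ) * (∑ i, G j i * d ξ i) ^ 2 ∂gauss ι) / mapPart u G S
  have hA : ∀ j, Integrable (A j) (gaussM ι M) ∧ ∫ G, A j G ∂gaussM ι M ≤ Real.exp (2 * L) * E := by
    intro j
    obtain ⟨M', rfl⟩ : ∃ M', M = M' + 1 := Nat.exists_eq_succ_of_ne_zero (by
      rintro rfl; exact j.elim0)
    exact gibbs_dot_sq_le hu j hS hd hB (hunif M' _ hD fun ξ => by
      rw [abs_of_nonneg (sum_nonneg fun i _ => sq_nonneg _)]; exact hB ξ)
  have hpt : ∀ G : Fin M → ι → ℝ, Real.log (mapPart u G S) - Real.log (mapPart u G S') ≤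
      C * (M * (c / 2) + (∑ j, A j G) / (2 * c)) := by
    intro G
    have hZ := mapPart_pos hu G hS
    set V : (ι → ℝ) → ℝ := fun ξ => ∑ j, (c / 2 + (∑ i, G j i * d ξ i) ^ 2 / (2 * c))
    have hVm : Measurable V := Finset.measurable_sum _ fun j _ => measurable_const.add
      (((Finset.measurable_sum _ fun i _ =>
        ((measurable_pi_apply i).comp hd).const_mul _).pow_const 2).div_const _)
    have hW : ∀ ξ, 0 < phiW u G (S ξ) := fun ξ =>
      lt_of_lt_of_le (Real.exp_pos _) (phiW_bounds hu G (S ξ)).1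
    have hdot : ∀ j ξ, (∑ i, G j i * d ξ i) ^ 2 ≤ normSqF (G j) * B := fun j ξ =>
      (sum_mul_sq_le_sq_mul_sq univ (G j) (d ξ)).trans
        (mul_le_mul_of_nonneg_left (hB ξ) (normSqF_nonneg _))
    have hWm : Measurable fun ξ => phiW u G (S ξ) :=
      ((continuous_phiW hu M).comp (continuous_const.prodMk continuous_id)).measurable.comp hS
    have hWd : ∀ j, Integrable (fun ξ => phiW u G (S ξ) * (∑ i, G j i * d ξ i) ^ 2) (gauss ι) := by
      intro j
      refine Integrable.mono' (integrable_const (Real.exp (L * M) * (normSqF (G j) * B))) ?_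
        (.of_forall fun ξ => ?_)
      · exact (hWm.mul ((Finset.measurable_sum _ fun i _ =>
          ((measurable_pi_apply i).comp hd).const_mul _).pow_const 2)).aestronglyMeasurable
      · rw [Real.norm_eq_abs, abs_of_nonneg (mul_nonneg (hW ξ).le (sq_nonneg _))]
        exact mul_le_mul (phiW_bounds hu G _).2 (hdot j ξ) (sq_nonneg _) (Real.exp_pos _).le
    have hWi := integrable_phiW_comp hu G hS
    have eWV : (fun ξ => phiW u G (S ξ) * V ξ) = fun ξ =>
        ∑ j, (c / 2 * phiW u G (S ξ) + phiW u G (S ξ) * (∑ i, G j i * d ξ i) ^ 2 / (2 * c)) := by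
      funext ξ
      simp only [V, mul_sum]
      exact sum_congr rfl fun j _ => by ring
    have hWV : Integrable (fun ξ => phiW u G (S ξ) * V ξ) (gauss ι) := by
      rw [eWV]
      exact integrable_finsetSum _ fun j _ => (hWi.const_mul _).fun_add ((hWd j).div_const _)
    have hval : (∫ ξ, phiW u G (S ξ) * V ξ ∂gauss ι) / mapPart u G S =
        M * (c / 2) + (∑ j, A j G) / (2 * c) := by
      rw [eWV, integral_finsetSum _ fun j _ => (hWi.const_mul _).fun_add ((hWd j).div_const _),
        sum_div]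
      simp only [integral_add (hWi.const_mul _) ((hWd _).div_const _), integral_const_mul,
        integral_div, add_div, sum_add_distrib]
      congr 1
      · have : (∫ ξ, phiW u G (S ξ) ∂gauss ι) = mapPart u G S := rfl
        rw [this, sum_const, card_univ, Fintype.card_fin, nsmul_eq_mul, mul_div_assoc,
          div_self hZ.ne', mul_one]
      · rw [sum_div]
        exact sum_congr rfl fun j _ => by simp only [A]; ring
    set t := C * ((∫ ξ, phiW u G (S ξ) * V ξ ∂gauss ι) / mapPart u G S)
    have hstep : ∀ ξ, Real.exp (-t) * (phiW u G (S ξ) + (t * phiW u G (S ξ) -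
        C * (phiW u G (S ξ) * V ξ))) ≤ phiW u G (S' ξ) := by
      intro ξ
      have h1 : phiW u G (S ξ) * Real.exp (-(C * V ξ)) ≤ phiW u G (S' ξ) := by
        simp only [phiW, V, mul_sum, ← sum_neg_distrib, Real.exp_sum, ← prod_mul_distrib]
        refine prod_le_prod (fun j _ => mul_nonneg (hu.pos _).le (Real.exp_pos _).le) fun j _ => ?_
        set z := ∑ i, G j i * S ξ i with hz
        set z' := ∑ i, G j i * S' ξ i with hz'
        have hdz : ∑ i, G j i * d ξ i = z' - z := by
          simp only [hz, hz', d, mul_sub, sum_sub_distrib]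
        have hab : |z - z'| ≤ c / 2 + (z' - z) ^ 2 / (2 * c) := by
          rw [abs_sub_comm, ← sq_abs (z' - z), div_add_div _ _ two_ne_zero (by positivity),
            le_div_iff₀ (by positivity)]
          nlinarith [sq_nonneg (|z' - z| - c)]
        rw [hdz, ← Real.exp_log (hu.pos z), ← Real.exp_log (hu.pos z'), ← Real.exp_add,
          Real.exp_le_exp]
        have := (hlip z z').trans (mul_le_mul_of_nonneg_left hab hC)
        linarith [le_abs_self (Real.log (u z) - Real.log (u z'))]
      refine le_trans ?_ h1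
      rw [show phiW u G (S ξ) + (t * phiW u G (S ξ) - C * (phiW u G (S ξ) * V ξ)) =
        phiW u G (S ξ) * (t - C * V ξ + 1) by ring, mul_left_comm]
      refine mul_le_mul_of_nonneg_left ?_ (hW ξ).le
      refine (mul_le_mul_of_nonneg_left (Real.add_one_le_exp _) (Real.exp_pos _).le).trans_eq ?_
      rw [← Real.exp_add]
      congr 1
      ring
    have hlow : Real.exp (-t) * mapPart u G S ≤ mapPart u G S' := by
      have hi := (hWi.fun_add ((hWi.const_mul t).sub' (hWV.const_mul C))).const_mul (Real.exp (-t))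
      refine le_trans (le_of_eq ?_)
        (integral_mono hi (integrable_phiW_comp hu G hS') hstep)
      rw [integral_const_mul, integral_add hWi ((hWi.const_mul t).sub' (hWV.const_mul C)),
        integral_sub (hWi.const_mul t) (hWV.const_mul C), integral_const_mul, integral_const_mul]
      have : t * mapPart u G S = C * ∫ ξ, phiW u G (S ξ) * V ξ ∂gauss ι := by
        simp only [t]; field_simp
      rw [show (∫ ξ, phiW u G (S ξ) ∂gauss ι) = mapPart u G S from rfl, this, sub_self, add_zero]
    have hlog := Real.log_le_log (mul_pos (Real.exp_pos _) hZ) hlow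
    rw [Real.log_mul (Real.exp_ne_zero _) hZ.ne', Real.log_exp] at hlog
    simp only [t, hval] at hlog
    linarith
  have hlogS : ∀ {T : (ι → ℝ) → ι → ℝ}, Measurable T →
      Integrable (fun G => Real.log (mapPart u G T)) (gaussM ι M) := fun hT =>
    Integrable.of_bound (Real.measurable_log.comp (measurable_mapPart hu hT)).aestronglyMeasurable
      (L * M) (.of_forall fun G => by
        rw [Real.norm_eq_abs]
        exact abs_log_le_of_bounds (mapPart_bounds hu G hT).1 (mapPart_bounds hu G hT).2)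
  have hsum : Integrable (fun G => ∑ j, A j G) (gaussM ι M) :=
    integrable_finsetSum _ fun j _ => (hA j).1
  rw [contLog_map hu M hS, contLog_map hu M hS', ← integral_sub (hlogS hS) (hlogS hS')]
  refine (integral_mono ((hlogS hS).sub' (hlogS hS'))
    (((integrable_const _).fun_add (hsum.div_const (2 * c))).const_mul C) hpt).trans ?_
  rw [integral_const_mul, integral_add (integrable_const _) (hsum.div_const _), integral_div,
    integral_finsetSum _ fun j _ => (hA j).1]
  simp only [integral_const, probReal_univ, one_smul]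
  have hE : 0 ≤ E := integral_nonneg fun ξ => sum_nonneg fun i _ => sq_nonneg _
  have h1 : ∑ j, ∫ G, A j G ∂gaussM ι M ≤ M * (Real.exp (2 * L) * E) :=
    (sum_le_sum fun j _ => (hA j).2).trans_eq (by simp)
  have h2 : (M : ℝ) * (c / 2) ≤ M * (c / 2) * Real.exp (2 * L) :=
    le_mul_of_one_le_right (by positivity) (Real.one_le_exp (by have := hu.nonneg; positivity))
  calc C * (M * (c / 2) + (∑ j, ∫ G, A j G ∂gaussM ι M) / (2 * c)) ≤
        C * (M * (c / 2) * Real.exp (2 * L) + M * (Real.exp (2 * L) * E) / (2 * c)) := by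
        gcongr
    _ = _ := by ring

end Vale.Agent.P157.Parisi
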