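import Vale.Agent.P157.Moments

/-!
Hierarchical Gaussian averaging over a general finite family of coordinates.
-/

namespace Vale.Agent.P157.Parisi

open MeasureTheory ProbabilityTheory Finset

/-- The parameters of a hierarchy: levels `0..K`, parameters `x`, amplitude of each coordinate at
each level. -/
structure Nest (ι : Type) where
  K : ℕ
  x : ℕ → ℝ
  amp : ℕ → ι → ℝ

/-- The leaf: configurations with Hamiltonian `∑ j, φ j (∑ i, a ω j i * y i)`. -/
structure Leaf (Ω κ ι : Type) where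
  a : Ω → κ → ι → ℝ
  φ : κ → ℝ → ℝ
  φ1 : κ → ℝ → ℝ
  φ2 : κ → ℝ → ℝ

/-- Regularity of the parameters. -/
structure Nest.Good {ι : Type} (N : Nest ι) : Prop where
  x_zero : N.x 0 = 0
  x_last : N.x (N.K + 1) = 1
  x_pos : ∀ l, 1 ≤ l → l ≤ N.K → 0 < N.x l
  x_mono : ∀ l, l ≤ N.K → N.x l ≤ N.x (l + 1)

/-- The weight of level `l`. -/
def Nest.w {ι : Type} (N : Nest ι) (l : ℕ) : ℝ := N.x (l + 1) - N.x l

/-- Regularity of a leaf. -/
structure Leaf.Good {Ω κ ι : Type} [MeasurableSpace Ω] (L : Leaf Ω κ ι) (B : ℝ) : Prop where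
  nonneg : 0 ≤ B
  meas : ∀ j i, Measurable fun ω => L.a ω j i
  bound : ∀ ω j i, |L.a ω j i| ≤ B
  deriv1 : ∀ j z, HasDerivAt (L.φ j) (L.φ1 j z) z
  deriv2 : ∀ j z, HasDerivAt (L.φ1 j) (L.φ2 j z) z
  cont2 : ∀ j, Continuous (L.φ2 j)
  bound1 : ∀ j z, |L.φ1 j z| ≤ B
  bound2 : ∀ j z, |L.φ2 j z| ≤ B

section

variable {ι : Type} [Fintype ι] {Ω κ : Type} [Fintype κ] [MeasurableSpace Ω]

/-- Moving a state by a scaled increment. -/
def move (s : ι → ℝ) (y z : ι → ℝ) : ι → ℝ := fun i => y i + s i * z i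

/-- `(1/m) log E exp (m u)` over one increment. -/
noncomputable def stepLog (m : ℝ) (s : ι → ℝ) (u : (ι → ℝ) → ℝ) (y : ι → ℝ) : ℝ :=
  m⁻¹ * Real.log (∫ z, Real.exp (m * u (move s y z)) ∂gauss ι)

/-- The tilted average over one increment of a function of the old state and the increment. -/
noncomputable def tilt (m : ℝ) (s : ι → ℝ) (u : (ι → ℝ) → ℝ) (f : (ι → ℝ) → (ι → ℝ) → ℝ)
    (y : ι → ℝ) : ℝ :=
  (∫ z, Real.exp (m * u (move s y z)) * f y z ∂gauss ι) /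
    ∫ z, Real.exp (m * u (move s y z)) ∂gauss ι

/-- The argument of `φ j`. -/
def Leaf.loc (L : Leaf Ω κ ι) (ω : Ω) (y : ι → ℝ) (j : κ) : ℝ := ∑ i, L.a ω j i * y i

/-- The Hamiltonian. -/
def Leaf.ham (L : Leaf Ω κ ι) (ω : Ω) (y : ι → ℝ) : ℝ := ∑ j, L.φ j (L.loc ω y j)

/-- The gradient of the Hamiltonian. -/
def Leaf.vec (L : Leaf Ω κ ι) (i : ι) (ω : Ω) (y : ι → ℝ) : ℝ :=
  ∑ j, L.φ1 j (L.loc ω y j) * L.a ω j i

/-- The log-partition function. -/
noncomputable def Leaf.logZ (L : Leaf Ω κ ι) (μ : Measure Ω) (y : ι → ℝ) : ℝ :=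
  Real.log (∫ ω, Real.exp (L.ham ω y) ∂μ)

/-- The Gibbs average. -/
noncomputable def Leaf.gibbs (L : Leaf Ω κ ι) (μ : Measure Ω) (f : Ω → (ι → ℝ) → ℝ)
    (y : ι → ℝ) : ℝ :=
  (∫ ω, Real.exp (L.ham ω y) * f ω y ∂μ) / ∫ ω, Real.exp (L.ham ω y) ∂μ

/-- `uUp d` is the recursion at level `K - d`, starting from `U` at level `K`. -/
noncomputable def Nest.uUp (N : Nest ι) (U : (ι → ℝ) → ℝ) : ℕ → (ι → ℝ) → ℝ
  | 0 => U
  | d + 1 => stepLog (N.x (N.K - d)) (N.amp (N.K - d)) (N.uUp U d)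

/-- The recursion at level `l`. -/
noncomputable def Nest.u (N : Nest ι) (U : (ι → ℝ) → ℝ) (l : ℕ) : (ι → ℝ) → ℝ :=
  N.uUp U (N.K - l)

/-- The tilted average of a function of the state at level `l + 1`, given the state at level `l`. -/
noncomputable def Nest.avg (N : Nest ι) (U : (ι → ℝ) → ℝ) (l : ℕ) (f : (ι → ℝ) → ℝ) :
    (ι → ℝ) → ℝ :=
  tilt (N.x (l + 1)) (N.amp (l + 1)) (N.u U (l + 1))
    (fun y z => f (move (N.amp (l + 1)) y z))

/-- `downUp d`: a function of the leaf state averaged down to level `K - d`. -/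
noncomputable def Nest.downUp (N : Nest ι) (U : (ι → ℝ) → ℝ) (f : (ι → ℝ) → ℝ) :
    ℕ → (ι → ℝ) → ℝ
  | 0 => f
  | d + 1 => N.avg U (N.K - (d + 1)) (N.downUp U f d)

/-- The average of a function of the leaf state given the state at level `l`. -/
noncomputable def Nest.down (N : Nest ι) (U : (ι → ℝ) → ℝ) (l : ℕ) (f : (ι → ℝ) → ℝ) :
    (ι → ℝ) → ℝ :=
  N.downUp U f (N.K - l)

/-- The average of a function of the state at level `l`. -/
noncomputable def Nest.mean (N : Nest ι) (U : (ι → ℝ) → ℝ) : ℕ → ((ι → ℝ) → ℝ) → ℝ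
  | 0, f => ∫ z, f (fun i => N.amp 0 i * z i) ∂gauss ι
  | l + 1, f => N.mean U l (N.avg U l f)

/-- The free energy of the hierarchy. -/
noncomputable def Nest.free (N : Nest ι) (L : Leaf Ω κ ι) (μ : Measure Ω) : ℝ :=
  N.mean (L.logZ μ) 0 (N.u (L.logZ μ) 0)

/-- The node average of an observable given the state at level `l`. -/
noncomputable def Nest.node (N : Nest ι) (L : Leaf Ω κ ι) (μ : Measure Ω) (l : ℕ)
    (f : Ω → (ι → ℝ) → ℝ) : (ι → ℝ) → ℝ :=
  N.down (L.logZ μ) l (L.gibbs μ f)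

/-- The gradient of the recursion at level `l`. -/
noncomputable def Nest.grad (N : Nest ι) (L : Leaf Ω κ ι) (μ : Measure Ω) (l : ℕ) (i : ι) :
    (ι → ℝ) → ℝ :=
  N.node L μ l (L.vec i)

/-- `hessUp d` is the Hessian of the recursion at level `K - d`. -/
noncomputable def Nest.hessUp (N : Nest ι) (L : Leaf Ω κ ι) (μ : Measure Ω) :
    ℕ → ι → ι → (ι → ℝ) → ℝ
  | 0 => fun i k y =>
      L.gibbs μ (fun ω y => (∑ j, L.φ2 j (L.loc ω y j) * L.a ω j i * L.a ω j k)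
          + L.vec i ω y * L.vec k ω y) y
        - L.gibbs μ (L.vec i) y * L.gibbs μ (L.vec k) y
  | d + 1 => fun i k y =>
      N.avg (L.logZ μ) (N.K - (d + 1)) (N.hessUp L μ d i k) y
        + N.x (N.K - d) *
          (N.avg (L.logZ μ) (N.K - (d + 1))
              (fun y' => N.grad L μ (N.K - d) i y' * N.grad L μ (N.K - d) k y') y
            - N.grad L μ (N.K - (d + 1)) i y * N.grad L μ (N.K - (d + 1)) k y)

/-- The Hessian of the recursion at level `l`. -/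
noncomputable def Nest.hess (N : Nest ι) (L : Leaf Ω κ ι) (μ : Measure Ω) (l : ℕ) :
    ι → ι → (ι → ℝ) → ℝ :=
  N.hessUp L μ (N.K - l)

/-- The heat quantity `∂ᵢᵢ u + x ∂ᵢ u ²` at level `l`. -/
noncomputable def Nest.heat (N : Nest ι) (L : Leaf Ω κ ι) (μ : Measure Ω) (l : ℕ) (i : ι)
    (y : ι → ℝ) : ℝ :=
  N.hess L μ l i i y + N.x (l + 1) * N.grad L μ l i y ^ 2

/-- The mean square of the gradient at level `l`. -/
noncomputable def Nest.sqGrad (N : Nest ι) (L : Leaf Ω κ ι) (μ : Measure Ω) (l : ℕ) (i : ι) : ℝ :=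
  N.mean (L.logZ μ) l fun y => N.grad L μ l i y ^ 2

end

end Vale.Agent.P157.Parisi
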