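import Vale.Agent.P157.Parisi.ModelDefs

/-! Vocabulary of module F1 (increments of the enriched free energy). -/

namespace Vale.Agent.P157.Parisi

open MeasureTheory ProbabilityTheory Finset

/-- The uniform pattern amplitudes `1 / √(n N)`. -/
noncomputable def unifG (n N M : ℕ) : Fin M → Fin N × Fin n → ℝ :=
  fun _ _ => (Real.sqrt ((n : ℝ) * N))⁻¹

/-- The error of the pinning of a set of coordinates with normalisation `D`. -/
noncomputable def pinErr {ι Ω κ : Type} [Fintype ι] [Fintype κ] [MeasurableSpace Ω] (N : Nest ι)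
    (L : Leaf Ω κ ι) (μ : Measure Ω) (S : Finset ι) (D : ℝ) (K : ℕ) (Γ σ₀ : ℝ) : ℝ :=
  20 * Γ * (Real.sqrt (((K : ℝ) + 1)⁻¹) +
    Real.sqrt (Γ * (((K : ℝ) + 1) / σ₀ + ((K : ℝ) + 1)) / Real.sqrt D) +
    Γ * (((K : ℝ) + 1) / σ₀ + ((K : ℝ) + 1)) / Real.sqrt D +
    ∑ l ∈ range K, N.heatDev L μ S D l)

/-- The distance of the overlaps of a set of coordinates to a given path. -/
noncomputable def ovlDist {ι Ω κ : Type} [Fintype ι] [Fintype κ] [MeasurableSpace Ω] (N : Nest ι)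
    (L : Leaf Ω κ ι) (μ : Measure Ω) (S : Finset ι) (D : ℝ) (K : ℕ) (q : ℕ → ℝ) : ℝ :=
  ∑ l ∈ range (K + 1), N.w l * |N.ovl L μ S D l - q l|

/-- The old configuration coordinates of the cavity system. -/
def oldSet (n N m M : ℕ) : Finset (PIdx M (Fin (N + m) × Fin n)) :=
  ySet M (univ.filter fun p : Fin (N + m) × Fin n => (p.1 : ℕ) < N)

section

variable {φ φ1 φ2 : ℝ → ℝ} {B : ℝ} (hφ : PhiGood φ φ1 φ2 B) {n N : ℕ} (hn : 0 < n) (hN : 0 < N)

include hφ hn hN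

/-- The error of one insertion at time `t`. -/
noncomputable def insErr (φ φ1 φ2 : ℝ → ℝ) (B : ℝ) (n N K M : ℕ) (s : ℕ → ℝ)
    (c : ℕ → Fin M → ℝ) (e q : ℕ → ℝ) (σ₀ t : ℝ) : ℝ :=
  let Ns := percNest K (insG M (unifG n N M) t) (fun l _ => s l) (insC K M c e q t)
  let L := percLeaf φ φ1 φ2 (blockSpin n N) (M + 1)
  let S := ySet (M + 1) (univ : Finset (Fin N × Fin n))
  B ^ 2 * (pinErr Ns L (blockLaw n N) S ((n : ℝ) * N) K 1 σ₀ +
    ovlDist Ns L (blockLaw n N) S ((n : ℝ) * N) K q)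

/-- The error of the cavity at time `t`. -/
noncomputable def cavErr (φ φ1 φ2 : ℝ → ℝ) (B : ℝ) (n N m K M : ℕ) (s e h q : ℕ → ℝ)
    (c : ℕ → Fin M → ℝ) (a σ₀ η₀ t : ℝ) : ℝ :=
  let Ns := cavNest n N m K M s e h c t
  let L := percLeaf φ φ1 φ2 (blockSpin n (N + m)) M
  let μ := blockLaw n (N + m)
  let Γ := max (max B 1) (B ^ 2 * a)
  Γ * (pinErr Ns L μ (oldSet n N m M) ((n : ℝ) * N) K 1 σ₀ +
    pinErr Ns L μ (cSet M) ((n : ℝ) * ((N : ℝ) + m)) K Γ η₀ +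
    ovlDist Ns L μ (oldSet n N m M) ((n : ℝ) * N) K q +
    2 * ovlDist Ns L μ (cSet M) ((n : ℝ) * ((N : ℝ) + m)) K h)

end

end Vale.Agent.P157.Parisi
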