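import Vale.Agent.P157.Parisi.IncDefs
import Vale.Agent.P157.Parisi.Cavity

/-! Increments of the enriched free energy: one more pattern, and `m` more blocks. -/

namespace Vale.Agent.P157.Parisi

open MeasureTheory ProbabilityTheory Finset

section TameFacts

variable {ι : Type} [Fintype ι] {f g : (ι → ℝ) → ℝ}

lemma inc_tame_const (c : ℝ) : Tame fun _ : ι → ℝ => c :=
  ⟨continuous_const, |c|, 0, fun _ => by simp⟩

lemma inc_tame_add (hf : Tame f) (hg : Tame g) : Tame fun y => f y + g y := by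
  obtain ⟨hc, C, k, h⟩ := hf
  obtain ⟨hc', C', k', h'⟩ := hg
  refine ⟨hc.add hc', |C| + |C'|, max k k', fun y => (abs_add_le _ _).trans ?_⟩
  have hS : 0 ≤ ∑ i, |y i| := Finset.sum_nonneg fun _ _ => abs_nonneg _
  rw [add_mul]
  refine add_le_add ((h y).trans ?_) ((h' y).trans ?_) <;>
    refine mul_le_mul (le_abs_self _) (Real.exp_le_exp.2 ?_) (Real.exp_pos _).le (abs_nonneg _)
  · exact mul_le_mul_of_nonneg_right (le_max_left _ _) hS
  · exact mul_le_mul_of_nonneg_right (le_max_right _ _) hS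

lemma inc_tame_mul (hf : Tame f) (hg : Tame g) : Tame fun y => f y * g y := by
  obtain ⟨hc, C, k, h⟩ := hf
  obtain ⟨hc', C', k', h'⟩ := hg
  refine ⟨hc.mul hc', C * C', k + k', fun y => ?_⟩
  rw [abs_mul, add_mul, Real.exp_add, mul_mul_mul_comm]
  exact mul_le_mul (h y) (h' y) (abs_nonneg _) ((abs_nonneg _).trans (h y))

lemma inc_tame_sq (hf : Tame f) : Tame fun y => f y ^ 2 := by
  simpa [pow_two] using inc_tame_mul hf hf

lemma inc_tame_const_mul (c : ℝ) (hf : Tame f) : Tame fun y => c * f y :=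
  inc_tame_mul (inc_tame_const c) hf

lemma inc_tame_abs (hf : Tame f) : Tame fun y => |f y| :=
  ⟨hf.1.abs, hf.2.imp fun _ hC => hC.imp fun _ h y => by rw [abs_abs]; exact h y⟩

lemma inc_tame_sum {γ : Type} (s : Finset γ) {F : γ → (ι → ℝ) → ℝ} (hF : ∀ c, Tame (F c)) :
    Tame fun y => ∑ c ∈ s, F c y := by
  classical
  induction s using Finset.induction_on with
  | empty => simpa using inc_tame_const 0
  | @insert c s hc ih => simp only [Finset.sum_insert hc]; exact inc_tame_add (hF c) ih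

end TameFacts

section General

variable {ι : Type} [Fintype ι] {Ω κ : Type} [Fintype κ] [MeasurableSpace Ω]
variable {N : Nest ι} {L : Leaf Ω κ ι} {μ : Measure Ω} [IsProbabilityMeasure μ] {B : ℝ}
variable (hN : N.Good) (hL : L.Good B)

include hN hL

lemma inc_mean_sum {l : ℕ} (hl : l ≤ N.K) {γ : Type} (s : Finset γ) {F : γ → (ι → ℝ) → ℝ}
    (hF : ∀ c, Tame (F c)) :
    N.mean (L.logZ μ) l (fun y => ∑ c ∈ s, F c y) = ∑ c ∈ s, N.mean (L.logZ μ) l (F c) := by
  classical
  induction s using Finset.induction_on with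
  | empty => simpa using mean_const hN hL hl 0
  | @insert c s hc ih =>
    simp only [Finset.sum_insert hc]
    rw [mean_add hN hL hl (hF c) (inc_tame_sum s hF), ih]

lemma inc_mean_abs {l : ℕ} (hl : l ≤ N.K) {f : (ι → ℝ) → ℝ} (hf : Tame f) :
    |N.mean (L.logZ μ) l f| ≤ N.mean (L.logZ μ) l (fun y => |f y|) := by
  rw [abs_le]
  refine ⟨?_, mean_mono hN hL hl hf (inc_tame_abs hf) fun y => le_abs_self _⟩
  rw [neg_le, ← neg_one_mul, ← mean_const_mul hN hL]
  exact mean_mono hN hL hl (inc_tame_const_mul _ hf) (inc_tame_abs hf) fun y => by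
    rw [neg_one_mul]; exact neg_le_abs _

lemma inc_mean_nonneg {l : ℕ} (hl : l ≤ N.K) {f : (ι → ℝ) → ℝ} (hf : Tame f) (h : ∀ y, 0 ≤ f y) :
    0 ≤ N.mean (L.logZ μ) l f := by
  rw [← mean_const hN hL (μ := μ) hl 0]
  exact mean_mono hN hL hl (inc_tame_const 0) hf h

/-- A sum of squared node averages is at most a bound on the sum of squares. -/
lemma inc_node_sq_le {l : ℕ} (hl : l ≤ N.K) {γ : Type} (s : Finset γ) {b : γ → Ω → (ι → ℝ) → ℝ}
    (hb : ∀ c, Obs (b c)) {β : ℝ} (hβ : ∀ ω y, ∑ c ∈ s, b c ω y ^ 2 ≤ β) (y : ι → ℝ) :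
    ∑ c ∈ s, N.node L μ l (b c) y ^ 2 ≤ β := by
  classical
  -- the average of `∑ (2 m b - m ^ 2) ≤ ∑ b ^ 2`, with `m` the average of `b`
  set m : γ → ℝ := fun c => N.node L μ l (b c) y with hm
  have key : ∀ t : Finset γ, Obs (fun ω v => ∑ c ∈ t, (2 * m c * b c ω v + -(m c ^ 2))) ∧
      N.node L μ l (fun ω v => ∑ c ∈ t, (2 * m c * b c ω v + -(m c ^ 2))) y =
        ∑ c ∈ t, m c ^ 2 := by
    intro t
    induction t using Finset.induction_on with
    | empty =>
      simp only [Finset.sum_empty]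
      exact ⟨⟨fun _ => measurable_const, fun _ => continuous_const, 0, fun _ _ => by simp⟩,
        node_const hN hL hl 0 y⟩
    | @insert c t hc ih =>
      obtain ⟨⟨h1, h2, C, hC⟩, ih⟩ := ih
      obtain ⟨g1, g2, D, hD⟩ := hb c
      have hconst : Obs (fun (_ : Ω) (_ : ι → ℝ) => -(m c ^ 2)) :=
        ⟨fun _ => measurable_const, fun _ => continuous_const, |-(m c ^ 2)|, fun _ _ => le_rfl⟩
      have hlin : Obs (fun ω v => 2 * m c * b c ω v) :=
        ⟨fun v => (g1 v).const_mul _, fun ω => continuous_const.mul (g2 ω), |2 * m c| * D,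
          fun ω v => by rw [abs_mul]; exact mul_le_mul_of_nonneg_left (hD ω v) (abs_nonneg _)⟩
      have hterm : Obs (fun ω v => 2 * m c * b c ω v + -(m c ^ 2)) :=
        ⟨fun v => ((g1 v).const_mul _).add_const _,
          fun ω => (continuous_const.mul (g2 ω)).add continuous_const,
          |2 * m c| * D + |-(m c ^ 2)|,
          fun ω v => (abs_add_le _ _).trans (add_le_add
            (by rw [abs_mul]; exact mul_le_mul_of_nonneg_left (hD ω v) (abs_nonneg _)) le_rfl)⟩
      have hrest : Obs (fun ω v => ∑ c ∈ t, (2 * m c * b c ω v + -(m c ^ 2))) := ⟨h1, h2, C, hC⟩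
      simp only [Finset.sum_insert hc]
      refine ⟨⟨fun v => (hterm.1 v).add (h1 v), fun ω => (hterm.2.1 ω).add (h2 ω),
        |2 * m c| * D + |-(m c ^ 2)| + C, fun ω v => (abs_add_le _ _).trans (add_le_add
          ((abs_add_le _ _).trans (add_le_add
            (by rw [abs_mul]; exact mul_le_mul_of_nonneg_left (hD ω v) (abs_nonneg _)) le_rfl))
          (hC ω v))⟩, ?_⟩
      rw [node_add hN hL hl hterm hrest, node_add hN hL hl hlin hconst, node_const_mul hN hL,
        node_const hN hL hl, ih]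
      show 2 * m c * m c + -(m c ^ 2) + _ = _
      ring
  obtain ⟨ho, he⟩ := key s
  rw [show ∑ c ∈ s, N.node L μ l (b c) y ^ 2 = ∑ c ∈ s, m c ^ 2 from rfl, ← he]
  calc _ ≤ N.node L μ l (fun _ _ => β) y :=
        node_mono hN hL hl ho ⟨fun _ => measurable_const, fun _ => continuous_const, |β|,
          fun _ _ => le_rfl⟩ (fun ω v => (Finset.sum_le_sum fun c _ => by
            nlinarith [sq_nonneg (b c ω v - m c)]).trans (hβ ω v)) y
    _ = β := node_const hN hL hl β y

lemma inc_heatDev_nonneg {l : ℕ} (hl : l ≤ N.K) (S : Finset ι) (D : ℝ) :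
    0 ≤ N.heatDev L μ S D l := by
  have h : Tame (N.heatSum L μ S D l) := by
    unfold Nest.heatSum
    simp only [div_eq_inv_mul]
    exact inc_tame_const_mul _ (inc_tame_sum S fun i => heat_tame hN hL hl i)
  refine inc_mean_nonneg hN hL hl (inc_tame_abs ?_) fun y => abs_nonneg _
  simpa [sub_eq_add_neg] using inc_tame_add h (inc_tame_const _)

lemma inc_pinErr_nonneg {K : ℕ} (hK : K ≤ N.K) (S : Finset ι) (D : ℝ) {Γ : ℝ} (hΓ : 0 ≤ Γ)
    {σ₀ : ℝ} (hσ : 0 ≤ σ₀) : 0 ≤ pinErr N L μ S D K Γ σ₀ := by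
  have : 0 ≤ ∑ l ∈ range K, N.heatDev L μ S D l :=
    Finset.sum_nonneg fun l hl => inc_heatDev_nonneg hN hL
      ((Finset.mem_range.1 hl).le.trans hK) S D
  unfold pinErr
  positivity

/-- The product of a pinned gradient with observables is replaced by the overlap. -/
lemma inc_pin_product {l : ℕ} (hl : l ≤ N.K) (S : Finset ι) (D : ℝ) {γ : Type} [Fintype γ]
    (e : γ → ι) (e2 : γ → ι → ι)
    (hvec : ∀ c, ∀ i ∈ S, ∀ ω y, L.vec i ω y * L.vec (e c) ω y = L.vec (e2 c i) ω y) :
    |(∑ c, ∑ i ∈ S, N.sqGrad L μ l (e2 c i)) / D -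
        N.ovl L μ S D l * ∑ c, N.sqGrad L μ l (e c)| ≤
      N.prodErr L μ S D (fun c => L.vec (e c)) l := by
  have hg : ∀ i, Tame fun y => N.grad L μ l i y ^ 2 := fun i => inc_tame_sq (grad_tame hN hL hl i)
  have hfun : (fun y => |(∑ c, ∑ i ∈ S,
        N.node L μ l (fun ω v => L.vec i ω v * L.vec (e c) ω v) y ^ 2) / D -
      N.ovl L μ S D l * ∑ c, N.node L μ l (L.vec (e c)) y ^ 2|) =
      fun y => |D⁻¹ * (∑ c, ∑ i ∈ S, N.grad L μ l (e2 c i) y ^ 2) +
        -(N.ovl L μ S D l) * ∑ c, N.grad L μ l (e c) y ^ 2| := by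
    funext y
    rw [div_eq_inv_mul, sub_eq_add_neg, neg_mul]
    congr 2
    congr 1
    refine Finset.sum_congr rfl fun c _ => Finset.sum_congr rfl fun i hi => ?_
    rw [show (fun ω v => L.vec i ω v * L.vec (e c) ω v) = L.vec (e2 c i) from
      funext fun ω => funext fun v => hvec c i hi ω v]
    rfl
  have t1 := inc_tame_const_mul D⁻¹
    (inc_tame_sum (Finset.univ : Finset γ) fun c => inc_tame_sum S fun i => hg (e2 c i))
  have t2 := inc_tame_const_mul (-(N.ovl L μ S D l))
    (inc_tame_sum (Finset.univ : Finset γ) fun c => hg (e c))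
  rw [Nest.prodErr, hfun]
  refine le_trans (le_of_eq ?_) (inc_mean_abs hN hL hl (inc_tame_add t1 t2))
  rw [mean_add hN hL hl t1 t2, mean_const_mul hN hL, mean_const_mul hN hL,
    inc_mean_sum hN hL hl _ (fun c => inc_tame_sum S fun i => hg (e2 c i)),
    inc_mean_sum hN hL hl _ (fun c => hg (e c)),
    Finset.sum_congr rfl fun c _ => inc_mean_sum hN hL hl S (fun i => hg (e2 c i))]
  simp only [Nest.sqGrad]
  congr 1
  ring

lemma inc_sqGrad_sum_le {l : ℕ} (hl : l ≤ N.K) {γ : Type} (s : Finset γ) (e : γ → ι) {β : ℝ}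
    (hβ : ∀ ω y, ∑ c ∈ s, L.vec (e c) ω y ^ 2 ≤ β) :
    0 ≤ ∑ c ∈ s, N.sqGrad L μ l (e c) ∧ ∑ c ∈ s, N.sqGrad L μ l (e c) ≤ β := by
  have hg : ∀ c, Tame fun y => N.grad L μ l (e c) y ^ 2 := fun c =>
    inc_tame_sq (grad_tame hN hL hl _)
  simp only [Nest.sqGrad, ← inc_mean_sum hN hL hl s hg]
  refine ⟨inc_mean_nonneg hN hL hl (inc_tame_sum s hg) fun y =>
    Finset.sum_nonneg fun c _ => sq_nonneg _, ?_⟩
  calc _ ≤ N.mean (L.logZ μ) l (fun _ => β) :=
        mean_mono hN hL hl (inc_tame_sum s hg) (inc_tame_const β) fun y =>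
          inc_node_sq_le hN hL hl s (fun c => vec_obs hN hL (e c)) hβ y
    _ = β := mean_const hN hL hl β

lemma inc_continuous_errs {A : ℝ → ℕ → ι → ℝ} (hA : ∀ l ≤ N.K, ∀ i, Continuous fun t => A t l i)
    {K : ℕ} (hK : K ≤ N.K) (S : Finset ι) (D Γ σ₀ : ℝ) (q : ℕ → ℝ) :
    Continuous (fun t => pinErr (N.setAmp (A t)) L μ S D K Γ σ₀) ∧
      Continuous (fun t => ovlDist (N.setAmp (A t)) L μ S D K q) := by
  constructor
  · unfold pinErr
    refine continuous_const.mul (continuous_const.add (continuous_finsetSum _ fun l hl => ?_))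
    exact continuous_heatDev hN hL hA ((Finset.mem_range.1 hl).le.trans hK) S D
  · unfold ovlDist Nest.ovl Nest.w
    simp only [Nest.setAmp]
    refine continuous_finsetSum _ fun l hl => continuous_const.mul
      (((continuous_finsetSum _ fun i _ => ?_).div_const _).sub continuous_const).abs
    exact continuous_sqGrad hN hL hA
      ((Nat.lt_succ_iff.1 (Finset.mem_range.1 hl)).trans hK) i

end General

/-- An increment is at most the integral of a bound on the derivative. -/
lemma inc_abs_le_integral {F F' g : ℝ → ℝ} (hc : ContinuousOn F (Set.Icc 0 1))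
    (hd : ∀ t ∈ Set.Ioo (0:ℝ) 1, HasDerivAt F (F' t) t) (hg : Continuous g)
    (hb : ∀ t ∈ Set.Ioo (0:ℝ) 1, |F' t| ≤ g t) :
    |F 1 - F 0| ≤ ∫ t in (0:ℝ)..1, g t := by
  have key : ∀ σ : ℝ, |σ| = 1 → σ * (F 1 - F 0) ≤ ∫ t in (0:ℝ)..1, g t := by
    intro σ hσ
    set Φ : ℝ → ℝ := fun t => (∫ s in (0:ℝ)..t, g s) - σ * F t with hΦ
    have hI : ∀ t, HasDerivAt (fun u => ∫ s in (0:ℝ)..u, g s) (g t) t := fun t =>
      hg.integral_hasStrictDerivAt 0 t |>.hasDerivAt
    have hmono : MonotoneOn Φ (Set.Icc 0 1) := by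
      refine monotoneOn_of_hasDerivWithinAt_nonneg (f' := fun t => g t - σ * F' t) (convex_Icc 0 1)
        (((continuous_iff_continuousAt.2 fun t => (hI t).continuousAt).continuousOn).sub
          (continuousOn_const.mul hc)) ?_ ?_
      · intro t ht
        rw [interior_Icc] at ht
        exact ((hI t).sub ((hd t ht).const_mul σ)).hasDerivWithinAt
      · intro t ht
        rw [interior_Icc] at ht
        have h1 := le_abs_self (σ * F' t)
        rw [abs_mul, hσ, one_mul] at h1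
        linarith [hb t ht]
    have h01 := hmono (Set.left_mem_Icc.2 zero_le_one) (Set.right_mem_Icc.2 zero_le_one) zero_le_one
    simp only [hΦ, intervalIntegral.integral_same] at h01
    linarith
  rw [abs_le]
  have h1 := key 1 abs_one
  have h2 := key (-1) (by simp)
  constructor <;> linarith

lemma inc_curv_mono {Ω κ ι : Type} [Fintype κ] [Fintype ι] {L : Leaf Ω κ ι} {S : Finset ι}
    {Λ Γ : ℝ} (h : L.CurvLower S Λ) (hΓ : Λ ≤ Γ) : L.CurvLower S Γ := by
  refine ⟨h.1.trans hΓ, fun ω y v hv => le_trans ?_ (h.2 ω y v hv)⟩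
  exact neg_le_neg (mul_le_mul_of_nonneg_right hΓ (Finset.sum_nonneg fun i _ => sq_nonneg _))

lemma inc_gridX {K l : ℕ} (hl : l ≤ K + 1) : gridX K l = (l : ℝ) / ((K : ℝ) + 1) := by
  refine min_eq_right ?_
  rw [lvl, div_le_one (by positivity)]
  exact_mod_cast hl

section Vec

variable {Ω δ : Type} [Fintype δ] {φ φ1 φ2 : ℝ → ℝ} {spin : Ω → δ → ℝ} {M : ℕ}

lemma perc_vec_y (ω : Ω) (y : PIdx M δ → ℝ) (p : δ) :
    (percLeaf φ φ1 φ2 spin M).vec (Sum.inr (Sum.inl p)) ω y = spin ω p := by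
  simp [percLeaf, percCoef, Leaf.vec, Fintype.sum_sum_type]

lemma perc_vec_c (ω : Ω) (y : PIdx M δ → ℝ) (a : Fin M) :
    (percLeaf φ φ1 φ2 spin M).vec (Sum.inr (Sum.inr a)) ω y =
      φ1 ((percLeaf φ φ1 φ2 spin M).loc ω y (Sum.inl a)) := by
  simp [percLeaf, percCoef, Leaf.vec, Fintype.sum_sum_type]

lemma perc_vec_g (ω : Ω) (y : PIdx M δ → ℝ) (a : Fin M) (p : δ) :
    (percLeaf φ φ1 φ2 spin M).vec (Sum.inl (a, p)) ω y =
      φ1 ((percLeaf φ φ1 φ2 spin M).loc ω y (Sum.inl a)) * spin ω p := by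
  simp [percLeaf, percCoef, Leaf.vec, Fintype.sum_sum_type]

lemma perc_vec_c_sq {B : ℝ} (hφ : PhiGood φ φ1 φ2 B) (ω : Ω) (y : PIdx M δ → ℝ) :
    ∑ a, (percLeaf φ φ1 φ2 spin M).vec (Sum.inr (Sum.inr a)) ω y ^ 2 ≤ (M : ℝ) * B ^ 2 := by
  refine (Finset.sum_le_card_nsmul _ _ (B ^ 2) fun a _ => ?_).trans (le_of_eq (by simp))
  rw [perc_vec_c, ← sq_abs]
  exact pow_le_pow_left₀ (abs_nonneg _) (hφ.bound1 _) 2

lemma sum_ySet [DecidableEq δ] (s : Finset δ) (f : PIdx M δ → ℝ) :
    ∑ i ∈ ySet M s, f i = ∑ p ∈ s, f (Sum.inr (Sum.inl p)) :=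
  Finset.sum_image fun a _ b _ h => by simpa using h

lemma sum_cSet [DecidableEq δ] (f : PIdx M δ → ℝ) :
    ∑ i ∈ cSet M (δ := δ), f i = ∑ a, f (Sum.inr (Sum.inr a)) :=
  Finset.sum_image fun a _ b _ h => by simpa using h

end Vec

section

variable {φ φ1 φ2 : ℝ → ℝ} {B : ℝ} (hφ : PhiGood φ φ1 φ2 B) {n N : ℕ} (hn : 0 < n) (hN : 0 < N)

include hφ hn hN

theorem insert_identity (K M : ℕ) (s : ℕ → ℝ) (c : ℕ → Fin M → ℝ) (e : ℕ → ℝ) {q : ℕ → ℝ}
    (hq : IsPath q) (hq1 : q K ≤ 1) {σ₀ : ℝ} (hσ : 0 < σ₀)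
    (hs : ∀ l, 1 ≤ l → l ≤ K → σ₀ ≤ s l) :
    |(percNest K (unifG n N (M + 1)) (fun l _ => s l)
          (fun l => Fin.snoc (c l) |e l|)).free
        (percLeaf φ φ1 φ2 (blockSpin n N) (M + 1)) (blockLaw n N) -
      (percNest K (unifG n N M) (fun l _ => s l) c).free
        (percLeaf φ φ1 φ2 (blockSpin n N) M) (blockLaw n N) - energy φ K q| ≤
      (∫ t in (0 : ℝ)..1, insErr φ φ1 φ2 B n N K M s c e q σ₀ t) +
        3 * B ^ 2 * ∑ l ∈ range (K + 2), e l ^ 2 := by
  obtain ⟨hsys, hprob, -⟩ := blockSpin_sys (n := n) (N := N) hn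
  have : Nonempty (Fin N × Fin n) := ⟨⟨⟨0, hN⟩, ⟨0, hn⟩⟩⟩
  have hnR : (1:ℝ) ≤ n := by exact_mod_cast hn
  have hNR : (1:ℝ) ≤ N := by exact_mod_cast hN
  set D : ℝ := (n : ℝ) * N with hD
  have hD1 : 1 ≤ D := one_le_mul_of_one_le_of_one_le hnR hNR
  have hcard : (Fintype.card (Fin N × Fin n) : ℝ) = D := by simp [hD, mul_comm]
  set Nt : ℝ → Nest (PIdx (M + 1) (Fin N × Fin n)) := fun t =>
    percNest K (insG M (unifG n N M) t) (fun l _ => s l) (insC K M c e q t) with hNt
  set L := percLeaf φ φ1 φ2 (blockSpin n N) (M + 1) with hLdef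
  set μ := blockLaw n N with hμ
  have hL : L.Good (max (Real.sqrt n) B) := perc_good hφ hsys (M + 1)
  have hG : ∀ t, (Nt t).Good := fun t => percNest_good hφ hsys K (M + 1) _ _ _
  set S := ySet (M + 1) (univ : Finset (Fin N × Fin n)) with hS
  have hcurv : L.CurvLower S 1 :=
    inc_curv_mono (curvLower_y hφ hsys (M + 1) univ) zero_le_one
  have hT : ∀ ω y, ∑ i ∈ S, L.vec i ω y ^ 2 ≤ 1 * D := fun ω y => by
    rw [hS, sum_ySet]
    simp only [hLdef, perc_vec_y, one_mul]
    rw [hsys.norm_sq ω, hcard]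
  have hB2 : 0 ≤ B ^ 2 := sq_nonneg B
  have hq01 : ∀ l ≤ K, 0 ≤ q l ∧ q l ≤ 1 := fun l hl =>
    ⟨hq.2.trans (hq.1 (Nat.zero_le l)), (hq.1 hl).trans hq1⟩
  -- the derivative is bounded by the error
  have hbound : ∀ t, |-(1 / 2) * ∑ m ∈ range (K + 1), (Nt t).w m *
        ((∑ i, (Nt t).sqGrad L μ m (Sum.inl (Fin.last M, i))) /
            Fintype.card (Fin N × Fin n) -
          q m * (Nt t).sqGrad L μ m (Sum.inr (Sum.inr (Fin.last M))))| ≤
      insErr φ φ1 φ2 B n N K M s c e q σ₀ t := by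
    intro t
    have hK : (Nt t).K = K + 1 := rfl
    have hx : ∀ l ≤ K + 1, (Nt t).x l = (l : ℝ) / ((K : ℝ) + 1) := fun l hl => inc_gridX hl
    have hb : ∀ ω y, ∑ _x : Unit, L.vec (Sum.inr (Sum.inr (Fin.last M))) ω y ^ 2 ≤ B ^ 2 := by
      intro ω y
      simp only [hLdef, Fintype.sum_unique, perc_vec_c, ← sq_abs (φ1 _)]
      exact pow_le_pow_left₀ (abs_nonneg _) (hφ.bound1 _) 2
    have hsum := prodErr_sum (μ := μ) (hG t) hL hK hx S hD1 le_rfl hcurv hσ
      (fun l h1 h2 => ⟨s l, hs l h1 h2, fun i hi => by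
        obtain ⟨p, -, rfl⟩ := Finset.mem_image.1 hi
        rfl⟩) hT (b := fun _ : Unit => L.vec (Sum.inr (Sum.inr (Fin.last M))))
      (fun _ => vec_obs (hG t) hL _) hb rfl
    have hw : ∀ l ≤ K, 0 ≤ (Nt t).w l := fun l hl =>
      sub_nonneg.2 ((hG t).x_mono l (hl.trans (Nat.le_succ K)))
    have hterm : ∀ l ∈ range (K + 1),
        |(∑ i, (Nt t).sqGrad L μ l (Sum.inl (Fin.last M, i))) / Fintype.card (Fin N × Fin n) -
          q l * (Nt t).sqGrad L μ l (Sum.inr (Sum.inr (Fin.last M)))| ≤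
        (Nt t).prodErr L μ S D (fun _ : Unit => L.vec (Sum.inr (Sum.inr (Fin.last M)))) l +
          B ^ 2 * |(Nt t).ovl L μ S D l - q l| := by
      intro l hl
      have hl' : l ≤ (Nt t).K := by rw [hK]; exact (Finset.mem_range.1 hl).le
      have h := inc_pin_product (μ := μ) (hG t) hL hl' S D
        (fun _ : Unit => Sum.inr (Sum.inr (Fin.last M)))
        (fun _ i => match i with
          | Sum.inr (Sum.inl p) => Sum.inl (Fin.last M, p)
          | i => i)
        (fun _ i hi ω y => by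
          obtain ⟨p, -, rfl⟩ := Finset.mem_image.1 hi
          simp [hLdef, perc_vec_y, perc_vec_c, perc_vec_g, mul_comm])
      simp only [Fintype.sum_unique] at h
      rw [hS, sum_ySet, ← hS] at h
      rw [hcard]
      obtain ⟨hP0, hP1⟩ := inc_sqGrad_sum_le (μ := μ) (hG t) hL hl' (univ : Finset Unit)
        (fun _ : Unit => Sum.inr (Sum.inr (Fin.last M))) hb
      simp only [Fintype.sum_unique] at hP0 hP1
      set P := (Nt t).sqGrad L μ l (Sum.inr (Sum.inr (Fin.last M)))
      set R := (Nt t).ovl L μ S D l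
      have h2 : |(R - q l) * P| ≤ B ^ 2 * |R - q l| := by
        rw [abs_mul, abs_of_nonneg hP0, mul_comm]
        exact mul_le_mul_of_nonneg_right hP1 (abs_nonneg _)
      calc _ = |((∑ p, (Nt t).sqGrad L μ l (Sum.inl (Fin.last M, p))) / D - R * P) +
            (R - q l) * P| := by congr 1; ring
        _ ≤ _ := (abs_add_le _ _).trans (add_le_add h h2)
    have hX : |∑ m ∈ range (K + 1), (Nt t).w m *
        ((∑ i, (Nt t).sqGrad L μ m (Sum.inl (Fin.last M, i))) / Fintype.card (Fin N × Fin n) -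
          q m * (Nt t).sqGrad L μ m (Sum.inr (Sum.inr (Fin.last M))))| ≤
        B ^ 2 * (pinErr (Nt t) L μ S D K 1 σ₀ + ovlDist (Nt t) L μ S D K q) := by
      refine (Finset.abs_sum_le_sum_abs _ _).trans ?_
      calc _ ≤ ∑ l ∈ range (K + 1), ((Nt t).w l * (Nt t).prodErr L μ S D
              (fun _ : Unit => L.vec (Sum.inr (Sum.inr (Fin.last M)))) l +
              B ^ 2 * ((Nt t).w l * |(Nt t).ovl L μ S D l - q l|)) := by
            refine Finset.sum_le_sum fun l hl => ?_
            have h0 := hw l (Nat.lt_succ_iff.1 (Finset.mem_range.1 hl))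
            rw [abs_mul, abs_of_nonneg h0, ← mul_left_comm, ← mul_add]
            exact mul_le_mul_of_nonneg_left (hterm l hl) h0
        _ ≤ _ := by
            rw [Finset.sum_add_distrib, mul_add, ovlDist, Finset.mul_sum, pinErr]
            refine add_le_add (hsum.trans (le_of_eq ?_)) le_rfl
            ring
    have hX0 := (abs_nonneg _).trans hX
    show _ ≤ B ^ 2 * (pinErr (Nt t) L μ S D K 1 σ₀ + ovlDist (Nt t) L μ S D K q)
    rw [abs_mul, abs_neg, abs_of_pos (by norm_num : (0:ℝ) < 1 / 2)]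
    linarith
  -- continuity of the error
  have hcont : Continuous fun t => insErr φ φ1 φ2 B n N K M s c e q σ₀ t := by
    have hA : ∀ l ≤ (Nt 0).K, ∀ i, Continuous fun t => (Nt t).amp l i := by
      intro l _ i
      rcases i with ⟨a, p⟩ | p | a <;> simp only [hNt, percNest, percAmp]
      · split_ifs
        · refine Fin.lastCases ?_ (fun j => ?_) a <;> simp only [insG, Fin.snoc_last, Fin.snoc_castSucc]
          · fun_prop
          · exact continuous_const
        · exact continuous_const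
      · exact continuous_const
      · refine Fin.lastCases ?_ (fun j => ?_) a <;> simp only [insC, Fin.snoc_last, Fin.snoc_castSucc]
        · fun_prop
        · exact continuous_const
    obtain ⟨h1, h2⟩ := inc_continuous_errs (μ := μ) (hG 0) hL hA (K := K) (Nat.le_succ K) S D 1 σ₀ q
    exact continuous_const.mul (h1.add h2)
  have hint := inc_abs_le_integral
    (F := fun t => (Nt t).free L μ) (insert_continuous hφ hsys K M (unifG n N M) (fun l _ => s l) c e hq hq1)
    (fun t ht => insert_deriv hφ hsys K M (unifG n N M) (fun l _ => s l) c e hq hq1 ht) hcont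
    (fun t _ => hbound t)
  simp only [hNt] at hint
  rw [insert_zero hφ hsys K M (unifG n N M) (fun l _ => s l) c e q] at hint
  have h1 : insG M (unifG n N M) 1 = unifG n N (M + 1) := by
    funext a p
    refine Fin.lastCases ?_ (fun j => ?_) a <;>
      simp only [insG, unifG, Fin.snoc_last, Fin.snoc_castSucc]
    rw [hcard, hD, one_div, Real.sqrt_inv]
  have h2 : insC K M c e q 1 = fun l => Fin.snoc (c l) |e l| := by
    funext l
    simp [insC, Real.sqrt_sq_eq_abs]
  rw [h1, h2] at hint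
  have hamp0 : (fun l => |pathAmp K q l|) = pathAmp K q := funext fun l => by
    unfold pathAmp
    split_ifs <;> exact abs_of_nonneg (Real.sqrt_nonneg _)
  have hone := oneFree_perturb hφ K (pathAmp K q) e
  rw [hamp0, oneFree_path hφ K hq hq1] at hone
  calc _ = |((percNest K (unifG n N (M + 1)) (fun l _ => s l) (fun l => Fin.snoc (c l) |e l|)).free L μ -
          ((percNest K (unifG n N M) (fun l _ => s l) c).free
              (percLeaf φ φ1 φ2 (blockSpin n N) M) μ +
            oneFree φ φ1 φ2 K (fun l => Real.sqrt (e l ^ 2 + pathAmp K q l ^ 2)))) +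
        (oneFree φ φ1 φ2 K (fun l => Real.sqrt (e l ^ 2 + pathAmp K q l ^ 2)) - energy φ K q)| := by
        congr 1; ring
    _ ≤ _ := (abs_add_le _ _).trans (add_le_add hint hone)

theorem cavity_identity {m : ℕ} (hm : 0 < m) (K M : ℕ) (s e : ℕ → ℝ) (he : e (K + 1) = 0)
    {h q : ℕ → ℝ} (hh : IsPath h) (hq : IsPath q) (hq1 : q K ≤ 1) (c : ℕ → Fin M → ℝ)
    {a σ₀ η₀ : ℝ} (hM : (M : ℝ) ≤ a * ((n : ℝ) * ((N : ℝ) + m))) (hσ : 0 < σ₀) (hη : 0 < η₀)
    (hs : ∀ l, 1 ≤ l → l ≤ K → σ₀ ≤ s l)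
    (hc : ∀ l, 1 ≤ l → l ≤ K → ∃ η, η₀ ≤ η ∧ ∀ b, c l b = η) :
    |(cavNest n N m K M s e h c 1).free (percLeaf φ φ1 φ2 (blockSpin n (N + m)) M)
          (blockLaw n (N + m)) -
      (percNest K (unifG n N M) (fun l _ => s l) c).free
        (percLeaf φ φ1 φ2 (blockSpin n N) M) (blockLaw n N) -
      ((n : ℝ) * m) * (blockField n K (fun l => h l + ∑ i ∈ range (l + 1), e i ^ 2) +
        (∑ i ∈ range (K + 1), e i ^ 2) / 2 +
        (∑ l ∈ range (K + 1), h l * q l) / (2 * ((K : ℝ) + 1)))| ≤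
      ((n : ℝ) * m) * ∫ t in (0 : ℝ)..1, cavErr φ φ1 φ2 B n N m K M s e h q c a σ₀ η₀ t := by
  obtain ⟨hsys, hprob, -⟩ := blockSpin_sys (n := n) (N := N + m) hn
  have hnR : (1:ℝ) ≤ n := by exact_mod_cast hn
  have hNR : (1:ℝ) ≤ N := by exact_mod_cast hN
  have hmR : (1:ℝ) ≤ m := by exact_mod_cast hm
  set D1 : ℝ := (n : ℝ) * N with hD1
  set D2 : ℝ := (n : ℝ) * ((N : ℝ) + m) with hD2
  set X : ℝ := (n : ℝ) * m with hX
  have hD1' : 1 ≤ D1 := one_le_mul_of_one_le_of_one_le hnR hNR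
  have hD2' : 1 ≤ D2 := one_le_mul_of_one_le_of_one_le hnR (by linarith)
  have hX0 : 0 < X := by positivity
  set Γ : ℝ := max (max B 1) (B ^ 2 * a) with hΓ
  have hΓ1 : 1 ≤ Γ := (le_max_right _ _).trans (le_max_left _ _)
  have hΓB : B ≤ Γ := (le_max_left _ _).trans (le_max_left _ _)
  have hΓa : B ^ 2 * a ≤ Γ := le_max_right _ _
  set L := percLeaf φ φ1 φ2 (blockSpin n (N + m)) M with hLdef
  set μ := blockLaw n (N + m) with hμ
  have hL : L.Good (max (Real.sqrt n) B) := perc_good hφ hsys M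
  set Nt : ℝ → Nest (PIdx M (Fin (N + m) × Fin n)) := fun t => cavNest n N m K M s e h c t with hNt
  have hG : ∀ t, (Nt t).Good := fun t => percNest_good hφ hsys K M _ _ _
  set old : Finset (Fin (N + m) × Fin n) := univ.filter fun p => (p.1 : ℕ) < N with hold
  set new : Finset (Fin (N + m) × Fin n) := univ.filter fun p => ¬ (p.1 : ℕ) < N with hnew
  set S1 := oldSet n N m M with hS1
  set S2 := cSet M (δ := Fin (N + m) × Fin n) with hS2
  have hnorm : ∀ ω, ∑ p ∈ old, blockSpin n (N + m) ω p ^ 2 = D1 ∧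
      ∑ p ∈ new, blockSpin n (N + m) ω p ^ 2 = X := by
    intro ω
    have h1 : ∀ (P : Fin (N + m) → Prop) [DecidablePred P],
        ∑ p ∈ univ.filter (fun p : Fin (N + m) × Fin n => P p.1), blockSpin n (N + m) ω p ^ 2
          = (univ.filter P).card * (n : ℝ) := by
      intro P _
      rw [← Finset.univ_product_univ, Finset.filter_product_left, Finset.sum_product,
        Finset.sum_congr rfl fun b _ => show ∑ i, blockSpin n (N + m) ω (b, i) ^ 2 = (n : ℝ) from
          sum_normBlock_sq hn (ω b), Finset.sum_const, nsmul_eq_mul]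
    have hc1 : (univ.filter fun b : Fin (N + m) => (b : ℕ) < N).card = N := by
      rw [show (univ.filter fun b : Fin (N + m) => (b : ℕ) < N) = univ.map (Fin.castAddEmb m) by
        ext b
        simp only [Finset.mem_filter, Finset.mem_univ, true_and, Finset.mem_map, Fin.castAddEmb_apply]
        exact ⟨fun hb => ⟨⟨b, hb⟩, rfl⟩, fun ⟨i, hi⟩ => hi ▸ i.2⟩]
      simp
    refine ⟨(h1 fun b => (b : ℕ) < N).trans ?_, (h1 fun b => ¬ (b : ℕ) < N).trans ?_⟩
    · rw [hc1, hD1, mul_comm]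
    · rw [Finset.filter_not, Finset.card_sdiff_of_subset (Finset.filter_subset _ _), hc1,
        Finset.card_univ, Fintype.card_fin, Nat.add_sub_cancel_left, hX, mul_comm]
  have hMB : (M : ℝ) * B ^ 2 ≤ B ^ 2 * a * D2 := by
    have := mul_le_mul_of_nonneg_left hM (sq_nonneg B)
    linarith
  have hq01 : ∀ l ≤ K, 0 ≤ q l ∧ q l ≤ 1 := fun l hl =>
    ⟨hq.2.trans (hq.1 (Nat.zero_le l)), (hq.1 hl).trans hq1⟩
  set d : ℝ → ℝ := fun t => -(1 / 2) * (h K * (n * m)) + (1 / 2) * ∑ l ∈ range (K + 1),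
        (Nt t).w l * ∑ p : Fin (N + m) × Fin n,
          if (p.1 : ℕ) < N then
            cavT N m / ((n : ℝ) * N) * ∑ b, (Nt t).sqGrad L μ l (Sum.inl (b, p))
          else
            h l * (Nt t).sqGrad L μ l (Sum.inr (Sum.inl p)) -
            cavT N m / ((n : ℝ) * m) * ∑ b, (Nt t).sqGrad L μ l (Sum.inl (b, p)) with hd
  set hqs : ℝ := (∑ l ∈ range (K + 1), h l * q l) / (2 * ((K : ℝ) + 1)) with hhqs
  have hbound : ∀ t, |d t + X * (h K / 2) - X * hqs| ≤
      X * cavErr φ φ1 φ2 B n N m K M s e h q c a σ₀ η₀ t := by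
    intro t
    have hK : (Nt t).K = K + 1 := rfl
    have hx : ∀ l ≤ K + 1, (Nt t).x l = (l : ℝ) / ((K : ℝ) + 1) := fun l hl => inc_gridX hl
    have hw : ∀ l ≤ K, (Nt t).w l = 1 / ((K : ℝ) + 1) := by
      intro l hl
      rw [Nest.w, hx _ (by omega), hx _ (by omega)]
      push_cast
      field_simp
      ring
    have hT1 : ∀ ω y, ∑ i ∈ S1, L.vec i ω y ^ 2 ≤ 1 * D1 := fun ω y => by
      rw [hS1, oldSet, sum_ySet]
      simp only [hLdef, perc_vec_y, one_mul]
      exact (hnorm ω).1.le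
    have hT2 : ∀ ω y, ∑ i ∈ S2, L.vec i ω y ^ 2 ≤ Γ * D2 := fun ω y => by
      rw [hS2, sum_cSet]
      exact (perc_vec_c_sq hφ ω y).trans
        (hMB.trans (mul_le_mul_of_nonneg_right hΓa (by linarith)))
    have hb1 : ∀ ω y, ∑ b, L.vec (Sum.inr (Sum.inr b)) ω y ^ 2 ≤ (M : ℝ) * B ^ 2 :=
      fun ω y => perc_vec_c_sq hφ ω y
    have hb2 : ∀ ω y, ∑ p : new, L.vec (Sum.inr (Sum.inl (p : Fin (N + m) × Fin n))) ω y ^ 2 ≤ X :=
      fun ω y => by
        rw [Finset.sum_coe_sort new fun p => L.vec (Sum.inr (Sum.inl p)) ω y ^ 2]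
        simp only [hLdef, perc_vec_y]
        exact (hnorm ω).2.le
    have hsum1 := prodErr_sum (μ := μ) (hG t) hL hK hx S1 hD1' le_rfl
      (inc_curv_mono (curvLower_y hφ hsys M _) zero_le_one) hσ
      (fun l h1 h2 => ⟨s l, hs l h1 h2, fun i hi => by
        obtain ⟨p, hp, rfl⟩ := Finset.mem_image.1 hi
        exact if_pos (Finset.mem_filter.1 hp).2⟩) hT1
      (b := fun b : Fin M => L.vec (Sum.inr (Sum.inr b)))
      (fun _ => vec_obs (hG t) hL _) hb1 rfl
    have hsum2 := prodErr_sum (μ := μ) (hG t) hL hK hx S2 hD2' hΓ1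
      (inc_curv_mono (curvLower_c hφ hsys M) hΓB) hη
      (fun l h1 h2 => by
        obtain ⟨η, hη1, hη2⟩ := hc l h1 h2
        exact ⟨η, hη1, fun i hi => by
          obtain ⟨b, -, rfl⟩ := Finset.mem_image.1 hi
          exact hη2 b⟩) hT2
      (b := fun p : new => L.vec (Sum.inr (Sum.inl (p : Fin (N + m) × Fin n))))
      (fun _ => vec_obs (hG t) hL _) hb2 rfl
    set E1 := fun l => (Nt t).prodErr L μ S1 D1 (fun b : Fin M => L.vec (Sum.inr (Sum.inr b))) l
      with hE1
    set E2 := fun l => (Nt t).prodErr L μ S2 D2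
      (fun p : new => L.vec (Sum.inr (Sum.inl (p : Fin (N + m) × Fin n)))) l with hE2
    have hterm : ∀ l ∈ range (K + 1),
        |(∑ p : Fin (N + m) × Fin n,
          if (p.1 : ℕ) < N then
            cavT N m / ((n : ℝ) * N) * ∑ b, (Nt t).sqGrad L μ l (Sum.inl (b, p))
          else
            h l * (Nt t).sqGrad L μ l (Sum.inr (Sum.inl p)) -
            cavT N m / ((n : ℝ) * m) * ∑ b, (Nt t).sqGrad L μ l (Sum.inl (b, p))) - X * (h l * q l)|
        ≤ X / D2 * E1 l + E2 l + X * (Γ * |(Nt t).ovl L μ S1 D1 l - q l|) +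
          X * (2 * |(Nt t).ovl L μ S2 D2 l - h l|) := by
      intro l hl
      have hlK : l ≤ K := Nat.lt_succ_iff.1 (Finset.mem_range.1 hl)
      have hl' : l ≤ (Nt t).K := hlK.trans (Nat.le_succ K)
      have hp1 := inc_pin_product (μ := μ) (hG t) hL hl' S1 D1
        (fun b : Fin M => Sum.inr (Sum.inr b))
        (fun b i => match i with
          | Sum.inr (Sum.inl p) => Sum.inl (b, p)
          | i => i)
        (fun b i hi ω y => by
          obtain ⟨p, -, rfl⟩ := Finset.mem_image.1 hi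
          simp [hLdef, perc_vec_y, perc_vec_c, perc_vec_g, mul_comm])
      have hp2 := inc_pin_product (μ := μ) (hG t) hL hl' S2 D2
        (fun p : new => Sum.inr (Sum.inl (p : Fin (N + m) × Fin n)))
        (fun p i => match i with
          | Sum.inr (Sum.inr b) => Sum.inl (b, (p : Fin (N + m) × Fin n))
          | i => i)
        (fun p i hi ω y => by
          obtain ⟨b, -, rfl⟩ := Finset.mem_image.1 hi
          simp [hLdef, perc_vec_y, perc_vec_c, perc_vec_g])
      simp only [hS1, oldSet, sum_ySet, hS2, sum_cSet] at hp1 hp2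
      rw [← oldSet, ← hS1] at hp1
      rw [← hS2, Finset.sum_coe_sort new fun p => ∑ b, (Nt t).sqGrad L μ l (Sum.inl (b, p)),
        Finset.sum_coe_sort new fun p => (Nt t).sqGrad L μ l (Sum.inr (Sum.inl p))] at hp2
      obtain ⟨hQ0, hQ1⟩ := inc_sqGrad_sum_le (μ := μ) (hG t) hL hl' (univ : Finset (Fin M))
        (fun b => Sum.inr (Sum.inr b)) hb1
      obtain ⟨hY0, hY1⟩ := inc_sqGrad_sum_le (μ := μ) (hG t) hL hl' (univ : Finset new)
        (fun p : new => Sum.inr (Sum.inl (p : Fin (N + m) × Fin n))) hb2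
      rw [Finset.sum_coe_sort new fun p => (Nt t).sqGrad L μ l (Sum.inr (Sum.inl p))] at hY0 hY1
      have hQdef : (Nt t).ovl L μ S2 D2 l = (∑ b, (Nt t).sqGrad L μ l (Sum.inr (Sum.inr b))) / D2 := by
        rw [Nest.ovl, hS2, sum_cSet]
      rw [Finset.sum_comm (γ := Fin M)] at hp1
      rw [← hold] at hp1
      set Aold := ∑ p ∈ old, ∑ b, (Nt t).sqGrad L μ l (Sum.inl (b, p)) with hAo
      set Anew := ∑ p ∈ new, ∑ b, (Nt t).sqGrad L μ l (Sum.inl (b, p)) with hAn
      set P := ∑ p ∈ new, (Nt t).sqGrad L μ l (Sum.inr (Sum.inl p)) with hP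
      set R := (Nt t).ovl L μ S1 D1 l with hR
      set Q := (Nt t).ovl L μ S2 D2 l with hQ
      set Pc := ∑ b, (Nt t).sqGrad L μ l (Sum.inr (Sum.inr b)) with hPc
      have hQabs : |Q| ≤ Γ := by
        rw [hQdef, abs_of_nonneg (div_nonneg hQ0 (by linarith)), div_le_iff₀ (by linarith)]
        exact hQ1.trans (hMB.trans (mul_le_mul_of_nonneg_right hΓa (by linarith)))
      rw [Finset.sum_ite, ← hold, ← hnew, Finset.sum_sub_distrib, ← Finset.mul_sum, ← Finset.mul_sum,
        ← Finset.mul_sum, ← hAo, ← hAn, ← hP]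
      have e1 : cavT N m / ((n : ℝ) * N) * Aold + (h l * P - cavT N m / ((n : ℝ) * m) * Anew) -
          X * (h l * q l) = X / D2 * (Aold / D1 - R * Pc) + -(Anew / D2 - Q * P) +
            X * (Q * (R - q l)) + (X * (q l * (Q - h l)) + P * (h l - Q)) := by
        rw [hQdef, cavT, hX, hD1, hD2]
        field_simp
        ring
      rw [e1]
      have b1 : |X / D2 * (Aold / D1 - R * Pc)| ≤ X / D2 * E1 l := by
        rw [abs_mul, abs_of_nonneg (div_nonneg hX0.le (by linarith))]
        exact mul_le_mul_of_nonneg_left hp1 (div_nonneg hX0.le (by linarith))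
      have b2 : |-(Anew / D2 - Q * P)| ≤ E2 l := by rw [abs_neg]; exact hp2
      have b3 : |X * (Q * (R - q l))| ≤ X * (Γ * |R - q l|) := by
        rw [abs_mul, abs_of_nonneg hX0.le, abs_mul]
        exact mul_le_mul_of_nonneg_left (mul_le_mul_of_nonneg_right hQabs (abs_nonneg _)) hX0.le
      have b4 : |X * (q l * (Q - h l)) + P * (h l - Q)| ≤ X * (2 * |Q - h l|) := by
        rw [show X * (q l * (Q - h l)) + P * (h l - Q) = (X * q l - P) * (Q - h l) by ring, abs_mul,
          ← mul_assoc]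
        refine mul_le_mul_of_nonneg_right (abs_le.2 ?_) (abs_nonneg _)
        obtain ⟨q0, q1⟩ := hq01 l hlK
        have := mul_nonneg hX0.le q0
        have := mul_le_of_le_one_right hX0.le q1
        constructor <;> linarith
      exact ((abs_add_le _ _).trans (add_le_add ((abs_add_le _ _).trans
        (add_le_add ((abs_add_le _ _).trans (add_le_add b1 b2)) b3)) b4))
    set T := fun l => ∑ p : Fin (N + m) × Fin n,
          if (p.1 : ℕ) < N then
            cavT N m / ((n : ℝ) * N) * ∑ b, (Nt t).sqGrad L μ l (Sum.inl (b, p))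
          else
            h l * (Nt t).sqGrad L μ l (Sum.inr (Sum.inl p)) -
            cavT N m / ((n : ℝ) * m) * ∑ b, (Nt t).sqGrad L μ l (Sum.inl (b, p)) with hTdef
    have hhq : X * hqs = (1 / 2) * ∑ l ∈ range (K + 1), (Nt t).w l * (X * (h l * q l)) := by
      rw [hhqs, Finset.sum_div, Finset.mul_sum, Finset.mul_sum]
      refine Finset.sum_congr rfl fun l hl => ?_
      rw [hw l (Nat.lt_succ_iff.1 (Finset.mem_range.1 hl))]
      field_simp
    have hdt : d t + X * (h K / 2) - X * hqs =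
        (1 / 2) * ∑ l ∈ range (K + 1), (Nt t).w l * (T l - X * (h l * q l)) := by
      rw [hhq]
      simp only [hd, hX, hTdef, mul_sub, Finset.sum_sub_distrib]
      ring
    rw [hdt, abs_mul, abs_of_pos (by norm_num : (0:ℝ) < 1 / 2)]
    have hZ : |∑ l ∈ range (K + 1), (Nt t).w l * (T l - X * (h l * q l))| ≤
        X * (Γ * (pinErr (Nt t) L μ S1 D1 K 1 σ₀ + pinErr (Nt t) L μ S2 D2 K Γ η₀ +
          ovlDist (Nt t) L μ S1 D1 K q + 2 * ovlDist (Nt t) L μ S2 D2 K h)) := by
      refine (Finset.abs_sum_le_sum_abs _ _).trans ?_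
      calc _ ≤ ∑ l ∈ range (K + 1), (X / D2 * ((Nt t).w l * E1 l) + (Nt t).w l * E2 l +
              X * Γ * ((Nt t).w l * |(Nt t).ovl L μ S1 D1 l - q l|) +
              X * 2 * ((Nt t).w l * |(Nt t).ovl L μ S2 D2 l - h l|)) := by
            refine Finset.sum_le_sum fun l hl => ?_
            have h0 : 0 ≤ (Nt t).w l := by
              rw [hw l (Nat.lt_succ_iff.1 (Finset.mem_range.1 hl))]; positivity
            rw [abs_mul, abs_of_nonneg h0]
            refine (mul_le_mul_of_nonneg_left (hterm l hl) h0).trans (le_of_eq ?_)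
            ring
        _ ≤ _ := by
            simp only [Finset.sum_add_distrib, ← Finset.mul_sum]
            rw [← ovlDist, ← ovlDist]
            have p1 := inc_pinErr_nonneg (μ := μ) (hG t) hL (K := K) (Nat.le_succ K) S1 D1
              zero_le_one hσ.le
            have p2 := inc_pinErr_nonneg (μ := μ) (hG t) hL (K := K) (Nat.le_succ K) S2 D2
              (zero_le_one.trans hΓ1) hη.le
            have o2 : 0 ≤ ovlDist (Nt t) L μ S2 D2 K h :=
              Finset.sum_nonneg fun l hl => mul_nonneg (by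
                rw [hw l (Nat.lt_succ_iff.1 (Finset.mem_range.1 hl))]; positivity) (abs_nonneg _)
            have e1 : X / D2 * ∑ l ∈ range (K + 1), (Nt t).w l * E1 l ≤
                X * (Γ * pinErr (Nt t) L μ S1 D1 K 1 σ₀) := by
              calc _ ≤ X / D2 * (((M : ℝ) * B ^ 2) * pinErr (Nt t) L μ S1 D1 K 1 σ₀) := by
                    refine mul_le_mul_of_nonneg_left (hsum1.trans (le_of_eq ?_))
                      (div_nonneg hX0.le (by linarith))
                    rw [pinErr]; ring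
                _ = X * (((M : ℝ) * B ^ 2) / D2 * pinErr (Nt t) L μ S1 D1 K 1 σ₀) := by ring
                _ ≤ _ := by
                    refine mul_le_mul_of_nonneg_left (mul_le_mul_of_nonneg_right ?_ p1) hX0.le
                    rw [div_le_iff₀ (by linarith)]
                    exact hMB.trans (mul_le_mul_of_nonneg_right hΓa (by linarith))
            have e2 : ∑ l ∈ range (K + 1), (Nt t).w l * E2 l ≤
                X * (Γ * pinErr (Nt t) L μ S2 D2 K Γ η₀) := by
              calc _ ≤ X * pinErr (Nt t) L μ S2 D2 K Γ η₀ := by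
                    refine hsum2.trans (le_of_eq ?_)
                    rw [pinErr]; ring
                _ ≤ _ := mul_le_mul_of_nonneg_left (le_mul_of_one_le_left p2 hΓ1) hX0.le
            have e3 := mul_le_mul_of_nonneg_left
              (mul_le_mul_of_nonneg_right hΓ1 o2) (by positivity : (0:ℝ) ≤ X * 2)
            linarith
    have := (abs_nonneg _).trans hZ
    show _ ≤ X * (Γ * (pinErr (Nt t) L μ S1 D1 K 1 σ₀ + pinErr (Nt t) L μ S2 D2 K Γ η₀ +
          ovlDist (Nt t) L μ S1 D1 K q + 2 * ovlDist (Nt t) L μ S2 D2 K h))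
    linarith
  have hcont : Continuous fun t => X * cavErr φ φ1 φ2 B n N m K M s e h q c a σ₀ η₀ t := by
    have hA : ∀ l ≤ (Nt 0).K, ∀ i, Continuous fun t => (Nt t).amp l i := by
      intro l _ i
      rcases i with ⟨b, p⟩ | p | b <;> simp only [hNt, cavNest, percNest, percAmp, cavG, cavS] <;>
        (try split_ifs) <;> fun_prop
    obtain ⟨h1, h2⟩ := inc_continuous_errs (μ := μ) (hG 0) hL hA (K := K) (Nat.le_succ K) S1 D1 1 σ₀ q
    obtain ⟨h3, h4⟩ := inc_continuous_errs (μ := μ) (hG 0) hL hA (K := K) (Nat.le_succ K) S2 D2 Γ η₀ h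
    exact continuous_const.mul (continuous_const.mul
      (((h1.add h3).add h2).add (continuous_const.mul h4)))
  have hint := inc_abs_le_integral
    (F := fun t => (Nt t).free L μ + t * (X * (h K / 2) - X * hqs))
    (F' := fun t => d t + (X * (h K / 2) - X * hqs))
    ((cavity_continuous hφ hn hN hm K M s e hh c).add
      (continuousOn_id.mul continuousOn_const))
    (fun t ht => by
      refine (cavity_deriv hφ hn hN hm K M s e hh c ht).add ?_
      simpa using (hasDerivAt_id t).mul_const (X * (h K / 2) - X * hqs))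
    hcont (fun t _ => by rw [← add_sub_assoc]; exact hbound t)
  rw [intervalIntegral.integral_const_mul] at hint
  simp only [hNt, one_mul, zero_mul, add_zero, hμ, hLdef] at hint
  rw [cavity_zero hφ hn hN hm K M s e he hh c] at hint
  refine le_trans (le_of_eq ?_) hint
  congr 1
  rw [show unifG n N M = fun _ _ => (Real.sqrt ((n : ℝ) * N))⁻¹ from rfl]
  simp only [hX, hhqs, hLdef, hμ]
  ring

end

end Vale.Agent.P157.Parisi
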