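import Vale.Agent.P157.Parisi.LowerRandModel

/-!
The random errors of the lower bound vanish on average.
-/

set_option linter.unusedSectionVars false

namespace Vale.Agent.P157.Parisi

open MeasureTheory ProbabilityTheory Finset Filter Topology

namespace Rand

variable {K : ℕ} {σ : ℕ → ℝ} {η ρ : ℝ}

lemma boxS_le (hσ : ∀ l ≤ K, 0 < σ l) (hρ : 0 < ρ) (hρ1 : ρ ≤ 1) {v : Box K → ℝ}
    (hv : Near ρ v) (l : ℕ) :
    0 ≤ boxS K σ ρ v l ∧ boxS K σ ρ v l ^ 2 ≤ 9 * σ l ^ 2 := by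
  by_cases hl : l ≤ K
  · obtain ⟨h1, h2⟩ := hv (Sum.inl ⟨l, Nat.lt_succ_of_le hl⟩)
    have hp := mul_pos (hσ l hl) hρ
    have e : σ l * ρ * (1 / (2 * ρ)) = σ l / 2 := by field_simp
    have a1 := mul_le_mul_of_nonneg_left h1 hp.le
    have a2 := mul_le_mul_of_nonneg_left h2 hp.le
    have a3 : σ l * ρ ≤ σ l := mul_le_of_le_one_right (hσ l hl).le hρ1
    simp only [boxS, hl, dite_true]
    have h0 : 0 ≤ σ l + σ l * ρ * v (Sum.inl ⟨l, Nat.lt_succ_of_le hl⟩) := by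
      nlinarith [hσ l hl]
    refine ⟨h0, ?_⟩
    calc (σ l + σ l * ρ * v (Sum.inl ⟨l, Nat.lt_succ_of_le hl⟩)) ^ 2 ≤ (3 * σ l) ^ 2 :=
          pow_le_pow_left₀ h0 (by nlinarith [hσ l hl]) 2
      _ = 9 * σ l ^ 2 := by ring
  · simp only [boxS, hl, dite_false, le_refl, true_and]
    nlinarith [sq_nonneg (σ l)]

lemma boxS_zero_sq_le (hσ : 0 < σ 0) (hρ : 0 < ρ) (hρ1 : ρ ≤ 1) {v : Box K → ℝ}
    (hv : ∀ k, v k ∈ Set.Icc (0 : ℝ) 1) : boxS K σ ρ v 0 ^ 2 ≤ 4 * σ 0 ^ 2 := by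
  simp only [boxS, Nat.zero_le, dite_true]
  obtain ⟨h1, h2⟩ := hv (Sum.inl ⟨0, Nat.lt_succ_of_le (Nat.zero_le K)⟩)
  have hp := mul_pos hσ hρ
  have a1 := mul_nonneg hp.le h1
  have a2 := mul_le_mul_of_nonneg_left h2 hp.le
  have a3 : σ 0 * ρ ≤ σ 0 := mul_le_of_le_one_right hσ.le hρ1
  calc (σ 0 + σ 0 * ρ * v _) ^ 2 ≤ (2 * σ 0) ^ 2 :=
        pow_le_pow_left₀ (by linarith) (by linarith) 2
    _ = 4 * σ 0 ^ 2 := by ring

lemma boxC_nonneg (hη : 0 < η) (hρ : 0 < ρ) {v : Box K → ℝ} (hv : Near ρ v) {M : ℕ} (l : ℕ)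
    (b : Fin M) : 0 ≤ boxC K η ρ v l b := by
  by_cases hl : l ≤ K
  · obtain ⟨h1, -⟩ := hv (Sum.inr ⟨l, Nat.lt_succ_of_le hl⟩)
    have hp := mul_pos hη hρ
    have e : η * ρ * (1 / (2 * ρ)) = η / 2 := by field_simp
    have := mul_le_mul_of_nonneg_left h1 hp.le
    simp only [boxC, hl, dite_true]
    nlinarith
  · simp only [boxC, hl, dite_false]
    exact le_rfl

lemma continuous_boxS (m : ℕ) : Continuous fun v : Box K → ℝ => boxS K σ ρ v m := by
  by_cases h : m ≤ K <;> simp only [boxS, h, dite_true, dite_false] <;> fun_prop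

lemma continuous_boxC {M : ℕ} (m : ℕ) (b : Fin M) :
    Continuous fun v : Box K → ℝ => boxC K η ρ v m b := by
  by_cases h : m ≤ K <;> simp only [boxC, h, dite_true, dite_false] <;> fun_prop

lemma boxS_update (v : Box K → ℝ) (x : ℝ) (l : Fin (K + 1)) {m : ℕ} (hm : m ≠ l) :
    boxS K σ ρ (Function.update v (Sum.inl l) x) m = boxS K σ ρ v m := by
  by_cases h : m ≤ K
  · have : (Sum.inl ⟨m, Nat.lt_succ_of_le h⟩ : Box K) ≠ Sum.inl l := by
      intro e
      exact hm (congrArg Fin.val (Sum.inl_injective e))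
    simp only [boxS, h, dite_true, Function.update_of_ne this]
  · simp only [boxS, h, dite_false]

lemma boxS_update_inr (v : Box K → ℝ) (x : ℝ) (l : Fin (K + 1)) (m : ℕ) :
    boxS K σ ρ (Function.update v (Sum.inr l) x) m = boxS K σ ρ v m := by
  by_cases h : m ≤ K <;> simp [boxS, h]

lemma boxC_update_inl (v : Box K → ℝ) (x : ℝ) (l : Fin (K + 1)) {M : ℕ} (m : ℕ) :
    boxC K η ρ (Function.update v (Sum.inl l) x) (M := M) m = boxC K η ρ v m := by
  funext b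
  by_cases h : m ≤ K <;> simp [boxC, h]

lemma boxC_update (v : Box K → ℝ) (x : ℝ) (l : Fin (K + 1)) {M : ℕ} {m : ℕ} (hm : m ≠ l) :
    boxC K η ρ (Function.update v (Sum.inr l) x) (M := M) m = boxC K η ρ v m := by
  funext b
  by_cases h : m ≤ K
  · have : (Sum.inr ⟨m, Nat.lt_succ_of_le h⟩ : Box K) ≠ Sum.inr l := by
      intro e
      exact hm (congrArg Fin.val (Sum.inr_injective e))
    simp only [boxC, h, dite_true, Function.update_of_ne this]
  · simp only [boxC, h, dite_false]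

variable {φ φ1 φ2 : ℝ → ℝ} {B : ℝ} (hφ : PhiGood φ φ1 φ2 B) {n : ℕ} (hn : 0 < n)

include hφ hn

lemma fam_y {N N₀ M : ℕ} {D Γ : ℝ} (S : Finset (Fin N × Fin n))
    (g : Fin M → Fin N × Fin n → ℝ) (s : (Box K → ℝ) → ℕ → Fin N × Fin n → ℝ)
    (c : (Box K → ℝ) → ℕ → Fin M → ℝ) (hΓ : 0 ≤ Γ)
    (hcard : (S.card : ℝ) = (n : ℝ) * N₀)
    (hsq : ∀ ω, ∑ p ∈ S, blockSpin n N ω p ^ 2 = (n : ℝ) * N₀)
    (hD : (n : ℝ) * N₀ ≤ Γ * D)
    (hsS : ∀ v, ∀ p ∈ S, ∀ l, s v l p = boxS K σ ρ v l)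
    (hs : ∀ v x (l : Fin (K + 1)) (m : ℕ) p, ¬(m = (l : ℕ) ∧ p ∈ S) →
      s (Function.update v (Sum.inl l) x) m p = s v m p)
    (hc : ∀ v x (l : Fin (K + 1)) (m : ℕ), c (Function.update v (Sum.inl l) x) m = c v m)
    (hsc : ∀ m p, Continuous fun v => s v m p) (hcc : ∀ m b, Continuous fun v => c v m b) :
    Fam K σ ρ Γ D Sum.inl (percNest K g (s 0) (c 0)) (fun v => percAmp g (s v) (c v))
      (percLeaf φ φ1 φ2 (blockSpin n N) M) (blockLaw n N) (ySet M S)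
      (max (Real.sqrt n) B) := by
  obtain ⟨hsys, hp, -⟩ := blockSpin_sys (n := n) (N := N) hn
  refine ⟨hp, perc_good hφ hsys M, percNest_good hφ hsys K M g _ _, rfl, rfl,
    curvLower_mono (curvLower_y hφ hsys M S) hΓ, ?_, ?_, fun l => ⟨?_, ?_⟩, ?_⟩
  · rw [card_ySet, hcard]; exact hD
  · intro ω y; rw [weight_y_abs, hsq]; exact hD
  · intro v i hi
    obtain ⟨p, hp, rfl⟩ := mem_image.1 hi
    change s v l p = _
    rw [hsS v p hp]
    simp [boxS, Nat.le_of_lt_succ l.2]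
  · intro v x m i hi
    rcases i with ⟨b, p⟩ | p | b
    · rfl
    · exact hs v x l m p fun h => hi ⟨h.1, mem_image_of_mem _ h.2⟩
    · exact congrFun (hc v x l m) b
  · intro m i
    rcases i with ⟨b, p⟩ | p | b
    · exact continuous_const
    · exact hsc m p
    · exact hcc m b

lemma fam_c {N M : ℕ} {D Γ : ℝ} (g : Fin M → Fin N × Fin n → ℝ)
    (s : (Box K → ℝ) → ℕ → Fin N × Fin n → ℝ)
    (hΓ : B ≤ Γ) (hcard : (M : ℝ) ≤ Γ * D) (hw : (B + B ^ 2) * M ≤ Γ * D)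
    (hs : ∀ v x (l : Fin (K + 1)) (m : ℕ), s (Function.update v (Sum.inr l) x) m = s v m)
    (hsc : ∀ m p, Continuous fun v => s v m p) :
    Fam K (fun _ => η) ρ Γ D Sum.inr (percNest K g (s 0) (boxC K η ρ 0))
      (fun v => percAmp g (s v) (boxC K η ρ v))
      (percLeaf φ φ1 φ2 (blockSpin n N) M) (blockLaw n N) (cSet M)
      (max (Real.sqrt n) B) := by
  obtain ⟨hsys, hp, -⟩ := blockSpin_sys (n := n) (N := N) hn
  refine ⟨hp, perc_good hφ hsys M, percNest_good hφ hsys K M g _ _, rfl, rfl,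
    curvLower_mono (curvLower_c hφ hsys M) hΓ, ?_, ?_, fun l => ⟨?_, ?_⟩, ?_⟩
  · rw [card_cSet]; exact hcard
  · intro ω y; exact (weight_c_abs hφ ω y).trans hw
  · intro v i hi
    obtain ⟨b, -, rfl⟩ := mem_image.1 hi
    change boxC K η ρ v l b = _
    simp [boxC, Nat.le_of_lt_succ l.2]
  · intro v x m i hi
    rcases i with ⟨b, p⟩ | p | b
    · rfl
    · exact congrFun (hs v x l m) p
    · exact congrFun (boxC_update v x l fun h => hi ⟨h, mem_image_of_mem _ (mem_univ b)⟩) b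
  · intro m i
    rcases i with ⟨b, p⟩ | p | b
    · exact continuous_const
    · exact hsc m p
    · exact continuous_boxC m b

lemma eventually_large (D₀ : ℝ) : ∀ᶠ N : ℕ in atTop, D₀ ≤ (n : ℝ) * N ∧ 1 ≤ N := by
  refine (Tendsto.eventually ?_ (eventually_ge_atTop D₀)).and (eventually_ge_atTop 1)
  exact tendsto_natCast_atTop_atTop.const_mul_atTop (by exact_mod_cast hn)

lemma sum_spin_univ_card (N : ℕ) :
    ((univ : Finset (Fin N × Fin n)).card : ℝ) = (n : ℝ) * N := by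
  rw [card_univ, Fintype.card_prod, Fintype.card_fin, Fintype.card_fin]
  push_cast
  ring

lemma fam_ref_y {N₀ M : ℕ} {D Γ : ℝ} (g : Fin M → Fin N₀ × Fin n → ℝ) (hΓ : 0 ≤ Γ)
    (hD : (n : ℝ) * N₀ ≤ Γ * D) :
    Fam K σ ρ Γ D Sum.inl (percNest K g (fun l _ => boxS K σ ρ 0 l) (boxC K η ρ 0))
      (fun v => percAmp g (fun l _ => boxS K σ ρ v l) (boxC K η ρ v))
      (percLeaf φ φ1 φ2 (blockSpin n N₀) M) (blockLaw n N₀) (ySet M univ)
      (max (Real.sqrt n) B) :=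
  fam_y hφ hn univ g (fun v l _ => boxS K σ ρ v l) (fun v => boxC K η ρ v) hΓ
    (sum_spin_univ_card hφ hn N₀) (fun ω => sum_spin_sq hn N₀ ω) hD (fun _ _ _ _ => rfl)
    (fun v x l _ p h => boxS_update v x l fun e => h ⟨e, mem_univ p⟩)
    (fun v x l i => boxC_update_inl v x l i) (fun i _ => continuous_boxS i) continuous_boxC

lemma fam_ins {N M : ℕ} (q : ℕ → ℝ) (t : ℝ) :
    Fam K σ ρ 1 ((n : ℝ) * N) Sum.inl (insNest n N K M σ η ρ q t 0)
      (fun v => (insNest n N K M σ η ρ q t v).amp)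
      (percLeaf φ φ1 φ2 (blockSpin n N) (M + 1)) (blockLaw n N) (ySet (M + 1) univ)
      (max (Real.sqrt n) B) :=
  fam_y hφ hn univ (insG M (unifG n N M) t) (fun v l _ => boxS K σ ρ v l)
    (fun v => insC K M (boxC K η ρ v) (cutAmp K fun _ => η) q t) zero_le_one
    (sum_spin_univ_card hφ hn N) (fun ω => sum_spin_sq hn N ω) (one_mul _).ge (fun _ _ _ _ => rfl)
    (fun v x l _ p h => boxS_update v x l fun e => h ⟨e, mem_univ p⟩)
    (fun v x l m => by unfold insC; rw [boxC_update_inl]) (fun m _ => continuous_boxS m)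
    (fun m b => by
      induction b using Fin.lastCases with
      | last => simp only [insC, Fin.snoc_last]; exact continuous_const
      | cast b => simp only [insC, Fin.snoc_castSucc]; exact continuous_boxC m b)

lemma continuous_cavS {N m : ℕ} (e h : ℕ → ℝ) (t : ℝ) (i : ℕ) (p : Fin (N + m) × Fin n) :
    Continuous fun v => cavS n N m K (boxS K σ ρ v) e h t i p := by
  simp only [cavS]
  by_cases hp : (p.1 : ℕ) < N
  · simp only [if_pos hp]; exact continuous_boxS i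
  · simp only [if_neg hp]; exact continuous_const

lemma fam_cav_y {N m M : ℕ} (e h : ℕ → ℝ) (t : ℝ) :
    Fam K σ ρ 1 ((n : ℝ) * N) Sum.inl (cavBox n N m K M σ η ρ e h t 0)
      (fun v => (cavBox n N m K M σ η ρ e h t v).amp)
      (percLeaf φ φ1 φ2 (blockSpin n (N + m)) M) (blockLaw n (N + m)) (oldSet n N m M)
      (max (Real.sqrt n) B) :=
  fam_y hφ hn (univ.filter fun p : Fin (N + m) × Fin n => (p.1 : ℕ) < N)
    (cavG n N m M t) (fun v => cavS n N m K (boxS K σ ρ v) e h t) (fun v => boxC K η ρ v)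
    zero_le_one (card_old N m) (fun ω => sum_spin_old hn N m ω) (one_mul _).ge
    (fun v p hp i => by simp only [cavS, if_pos (mem_filter.1 hp).2])
    (fun v x l i p hip => by
      by_cases hp : (p.1 : ℕ) < N
      · simp only [cavS, if_pos hp]
        exact boxS_update v x l fun h => hip ⟨h, mem_filter.2 ⟨mem_univ p, hp⟩⟩
      · simp only [cavS, if_neg hp])
    (fun v x l i => boxC_update_inl v x l i) (continuous_cavS hφ hn e h t) continuous_boxC

lemma fam_cav_c {N m M : ℕ} (e h : ℕ → ℝ) (t : ℝ) {Γ D : ℝ} (hΓ : B ≤ Γ)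
    (hcard : (M : ℝ) ≤ Γ * D) (hw : (B + B ^ 2) * M ≤ Γ * D) :
    Fam K (fun _ => η) ρ Γ D Sum.inr (cavBox n N m K M σ η ρ e h t 0)
      (fun v => (cavBox n N m K M σ η ρ e h t v).amp)
      (percLeaf φ φ1 φ2 (blockSpin n (N + m)) M) (blockLaw n (N + m)) (cSet M)
      (max (Real.sqrt n) B) :=
  fam_c hφ hn (cavG n N m M t) (fun v => cavS n N m K (boxS K σ ρ v) e h t) hΓ hcard hw
    (fun v x l i => by funext p; simp only [cavS, boxS_update_inr]) (continuous_cavS hφ hn e h t)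

lemma fam_ref_c {N M : ℕ} {Γ D : ℝ} (hΓ : B ≤ Γ)
    (hcard : (M : ℝ) ≤ Γ * D) (hw : (B + B ^ 2) * M ≤ Γ * D) :
    Fam K (fun _ => η) ρ Γ D Sum.inr (refNest n N K M σ η ρ 0)
      (fun v => (refNest n N K M σ η ρ v).amp)
      (percLeaf φ φ1 φ2 (blockSpin n N) M) (blockLaw n N) (cSet M)
      (max (Real.sqrt n) B) :=
  fam_c hφ hn (unifG n N M) (fun v l _ => boxS K σ ρ v l) hΓ hcard hw
    (fun v x l i => by funext p; simp only [boxS_update_inr]) (fun i _ => continuous_boxS i)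

omit hφ in
lemma cav_root (hσ : 0 < σ 0) (hρ : 0 < ρ) (hρ1 : ρ ≤ 1) {N m M : ℕ} (hNm : m ≤ N) {a : ℝ}
    (hM : (M : ℝ) ≤ |a| * ((n : ℝ) * N)) {e h : ℕ → ℝ} (hh : IsPath h) {t : ℝ}
    (ht : t ∈ Set.Icc (0 : ℝ) 1) {v : Box K → ℝ} (hv : ∀ k, v k ∈ Set.Icc (0 : ℝ) 1) :
    4 * B ^ 2 * (M : ℝ) + Real.sqrt n ^ 2 *
      ∑ p : Fin (N + m) × Fin n, cavS n N m K (boxS K σ ρ v) e h t 0 p ^ 2 ≤
    (4 * B ^ 2 * |a| + 2 * (n * (4 * σ 0 ^ 2 + e 0 ^ 2 + h 0))) * ((n : ℝ) * N) := by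
  have hs0 := boxS_zero_sq_le hσ hρ hρ1 hv
  have hp : ∀ p : Fin (N + m) × Fin n,
      cavS n N m K (boxS K σ ρ v) e h t 0 p ^ 2 ≤ 4 * σ 0 ^ 2 + e 0 ^ 2 + h 0 := by
    intro p
    by_cases hp : (p.1 : ℕ) < N
    · simp only [cavS, if_pos hp]
      nlinarith [hh.2, sq_nonneg (e 0)]
    · simp only [cavS, if_neg hp, if_pos trivial]
      have : 0 ≤ (1 - t) * h 0 := mul_nonneg (by linarith [ht.2]) hh.2
      rw [Real.sq_sqrt (by positivity)]
      nlinarith [mul_le_of_le_one_left hh.2 (by linarith [ht.1] : 1 - t ≤ 1), sq_nonneg (σ 0)]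
  have hsum := sum_le_sum fun p (_ : p ∈ (univ : Finset (Fin (N + m) × Fin n))) => hp p
  rw [sum_const, nsmul_eq_mul, card_univ, Fintype.card_prod, Fintype.card_fin,
    Fintype.card_fin] at hsum
  push_cast at hsum
  rw [Real.sq_sqrt (Nat.cast_nonneg n)]
  have h1 := mul_le_mul_of_nonneg_left hM (show 0 ≤ 4 * B ^ 2 by positivity)
  have h2 := mul_le_mul_of_nonneg_left hsum (Nat.cast_nonneg (α := ℝ) n)
  have h3 : ((N : ℝ) + m) * n ≤ 2 * ((n : ℝ) * N) := by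
    have : (m : ℝ) ≤ N := by exact_mod_cast hNm
    nlinarith [Nat.cast_nonneg (α := ℝ) n]
  have h4 := mul_le_mul_of_nonneg_left h3
    (show 0 ≤ (n : ℝ) * (4 * σ 0 ^ 2 + e 0 ^ 2 + h 0) by have := hh.2; positivity)
  linarith

end Rand

open Rand

variable {φ φ1 φ2 : ℝ → ℝ} {B : ℝ} (hφ : PhiGood φ φ1 φ2 B) {n : ℕ} (hn : 0 < n)
variable {K : ℕ} {σ : ℕ → ℝ} {η ρ : ℝ} (hP : LowerParams K σ η ρ) (a : ℝ)

include hφ hn hP

/-- Insertion systems are pinned. -/
theorem ins_dev_tendsto {q : ℕ → ℝ} (hq : IsPath q) (hq1 : q K ≤ 1) {ε : ℝ} (hε : 0 < ε) :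
    ∀ᶠ N : ℕ in atTop, ∀ M : ℕ, (M : ℝ) ≤ a * ((n : ℝ) * N) → ∀ t ∈ Set.Icc (0 : ℝ) 1, ∀ l < K,
      Integrable (fun v => (insNest n N K M σ η ρ q t v).heatDev
        (percLeaf φ φ1 φ2 (blockSpin n N) (M + 1)) (blockLaw n N) (ySet (M + 1) univ)
        ((n : ℝ) * N) l) (cubeLaw (Box K)) ∧
      ∫ v, (insNest n N K M σ η ρ q t v).heatDev
        (percLeaf φ φ1 φ2 (blockSpin n N) (M + 1)) (blockLaw n N) (ySet (M + 1) univ)
        ((n : ℝ) * N) l ∂cubeLaw (Box K) ≤ ε := by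
  obtain ⟨D₀, hD₀⟩ := dev_small K (a := σ) (ρ := ρ) (Γ := 1)
    (Q := 4 * B ^ 2 * (|a| + 1) + n * (4 * σ 0 ^ 2)) (fun l hl => hP.σ_pos l hl) hP.ρ_pos hε
  filter_upwards [eventually_large hφ hn (max D₀ 1)] with N hN
  intro M hM t ht
  have hD1 : 1 ≤ (n : ℝ) * N := (le_max_right _ _).trans hN.1
  obtain ⟨hsys, hp, -⟩ := blockSpin_sys (n := n) (N := N) hn
  have hF := fam_ins (σ := σ) (η := η) (ρ := ρ) (N := N) (M := M) (K := K) hφ hn q t
  refine hD₀ _ _ Sum.inl _ _ _ _ _ ((le_max_left _ _).trans hN.1) hF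
    (fun ω y => weight_abs_of _ _ ω y (hF.weight ω y)) fun v hv l hl s => ?_
  refine root_le hφ hsys K (insG M (unifG n N M) t) (fun l _ => boxS K σ ρ v l)
    (insC K M (boxC K η ρ v) (cutAmp K fun _ => η) q t) (ySet (M + 1) univ) (not_inl_ySet _)
    (Nat.succ_ne_zero l) s ?_
  have hs0 := boxS_zero_sq_le (hP.σ_pos 0 (Nat.zero_le _)) hP.ρ_pos hP.ρ_le hv
  rw [Real.sq_sqrt (Nat.cast_nonneg n), sum_const, nsmul_eq_mul, card_univ, Fintype.card_prod,
    Fintype.card_fin, Fintype.card_fin]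
  push_cast
  have hM' : (M : ℝ) + 1 ≤ (|a| + 1) * ((n : ℝ) * N) := by
    nlinarith [le_abs_self a]
  have h1 := mul_le_mul_of_nonneg_left hM' (show 0 ≤ 4 * B ^ 2 by positivity)
  have h2 := mul_le_mul_of_nonneg_left hs0 (show 0 ≤ (n : ℝ) * ((N : ℝ) * n) by positivity)
  linarith

/-- Insertion systems have the overlaps of the reference. -/
theorem ins_ovl_tendsto {q : ℕ → ℝ} (hq : IsPath q) (hq1 : q K ≤ 1) (J₀ : ℕ) {ε : ℝ}
    (hε : 0 < ε) :
    ∀ᶠ N : ℕ in atTop, ∀ M M' : ℕ, M + 1 ≤ M' + J₀ → M' ≤ M + J₀ →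
      (M' : ℝ) ≤ a * ((n : ℝ) * N) → ∀ t ∈ Set.Icc (0 : ℝ) 1, ∀ l ≤ K,
      Integrable (fun v => |(insNest n N K M σ η ρ q t v).ovl
        (percLeaf φ φ1 φ2 (blockSpin n N) (M + 1)) (blockLaw n N) (ySet (M + 1) univ)
        ((n : ℝ) * N) l - qRef φ φ1 φ2 n N K M' σ η ρ v l|) (cubeLaw (Box K)) ∧
      ∫ v, |(insNest n N K M σ η ρ q t v).ovl
        (percLeaf φ φ1 φ2 (blockSpin n N) (M + 1)) (blockLaw n N) (ySet (M + 1) univ)
        ((n : ℝ) * N) l - qRef φ φ1 φ2 n N K M' σ η ρ v l| ∂cubeLaw (Box K) ≤ ε := by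
  have hB := hφ.one_le
  obtain ⟨D₀, hD₀⟩ := ovl_small K (a := σ) (ρ := ρ) (Γ := 1) (C := 2 * B + 3 * B * J₀) (E := 0)
    (fun l hl => hP.σ_pos l hl) hP.ρ_pos hP.ρ_le (by positivity) hε
  filter_upwards [eventually_large hφ hn D₀] with N hN
  intro M M' h1 h2 hM t ht l hl
  obtain ⟨hsys, hp, -⟩ := blockSpin_sys (n := n) (N := N) hn
  have hF := fam_ins (σ := σ) (η := η) (ρ := ρ) (N := N) (M := M) (K := K) hφ hn q t
  have hF' := fam_ref_y (σ := σ) (η := η) (ρ := ρ) (K := K) (Γ := 1) (D := (n : ℝ) * N) hφ hn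
    (unifG n N M') zero_le_one (one_mul _).ge
  have hmain := hD₀ _ _ _ _ _ _ _ _ _ _ Sum.inl _ _ _ hN.1 hF hF' (fun v _ => ?_) l hl
    (Or.inr fun v => ?_)
  · simp only [qRef, min_eq_left hl]
    exact hmain
  · -- free energies
    have := free_one_pattern hφ hsys (μ := blockLaw n N) K (M + 1) (Fin.last M)
      (unifG n N (M + 1)) (insG M (unifG n N M) t) (fun l _ => boxS K σ ρ v l)
      (boxC K η ρ v) (insC K M (boxC K η ρ v) (cutAmp K fun _ => η) q t)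
      (fun b hb => by
        obtain ⟨b', rfl⟩ := Fin.exists_castSucc_eq.2 hb
        funext p
        simp [insG, unifG])
      (fun m b hb => by
        obtain ⟨b', rfl⟩ := Fin.exists_castSucc_eq.2 hb
        simp [insC, boxC])
    refine (abs_sub_le _ _ _).trans (add_le_add this ?_)
    exact free_patterns_close hφ hn hN.2 K (boxS K σ ρ v)
      (fun l => if h : l ≤ K then η + η * ρ * v (Sum.inr ⟨l, Nat.lt_succ_of_le h⟩) else 0)
      J₀ (M + 1) M' h1 (by omega)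
  · -- heat totals
    have := hF.prob
    have := hF'.prob
    rw [sum_heatTop_eq (Nest.good_setAmp hF.ngood _) hF.good _ (D := (n : ℝ) * N)
        (fun ω y => by rw [weight_y_sum, sum_spin_sq hn]),
      sum_heatTop_eq (Nest.good_setAmp hF'.ngood _) hF'.good _ (D := (n : ℝ) * N)
        (fun ω y => by rw [weight_y_sum, sum_spin_sq hn]), sub_self, abs_zero]

/-- The errors of a cavity system: deviations and distances of both kinds of overlaps. -/
noncomputable def cavRand (φ φ1 φ2 : ℝ → ℝ) (n N m K M : ℕ) (σ : ℕ → ℝ) (η ρ : ℝ) (e h : ℕ → ℝ)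
    (t : ℝ) (v : Box K → ℝ) : ℝ :=
  let Ns := cavBox n N m K M σ η ρ e h t v
  let L := percLeaf φ φ1 φ2 (blockSpin n (N + m)) M
  let μ := blockLaw n (N + m)
  (∑ l ∈ range K, (Ns.heatDev L μ (oldSet n N m M) ((n : ℝ) * N) l +
      Ns.heatDev L μ (cSet M) ((n : ℝ) * ((N : ℝ) + m)) l)) +
    (∑ l ∈ range (K + 1), |Ns.ovl L μ (oldSet n N m M) ((n : ℝ) * N) l -
      qRef φ φ1 φ2 n N K M σ η ρ v l|) +
    ∑ l ∈ range K, |Ns.ovl L μ (cSet M) ((n : ℝ) * ((N : ℝ) + m)) l -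
      hRef φ φ1 φ2 n N m K M σ η ρ v l|

/-- The cavity systems are pinned and have the overlaps of the reference. -/
theorem cav_rand_tendsto {m : ℕ} (hm : 0 < m) {e h : ℕ → ℝ} (he : ∀ l, 0 ≤ e l) (hh : IsPath h)
    {ε : ℝ} (hε : 0 < ε) :
    ∀ᶠ N : ℕ in atTop, ∀ M : ℕ, (M : ℝ) ≤ a * ((n : ℝ) * N) → ∀ t ∈ Set.Icc (0 : ℝ) 1,
      Integrable (fun v => cavRand φ φ1 φ2 n N m K M σ η ρ e h t v) (cubeLaw (Box K)) ∧
      ∫ v, cavRand φ φ1 φ2 n N m K M σ η ρ e h t v ∂cubeLaw (Box K) ≤ ε := by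
  have hB := hφ.one_le
  have hBp : 0 < B := zero_lt_one.trans_le hB
  set ε' := ε / (4 * ((K : ℝ) + 1)) with hε'
  have hε'0 : 0 < ε' := by positivity
  set Γ := B + (1 + B + B ^ 2) * |a| + 1 with hΓ
  have hK0 : 0 ≤ h K := hh.2.trans (hh.1 (Nat.zero_le K))
  set C := (n : ℝ) * m * ∑ l ∈ range (K + 2), e l ^ 2 +
    (n : ℝ) * m * (|blockField n K h| + 2 * h K + 2 * (|a| * B ^ 2)) with hC
  have hC0 : 0 ≤ C := add_nonneg (mul_nonneg (by positivity) (sum_nonneg fun l _ => sq_nonneg _))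
    (by positivity)
  set Q := 4 * B ^ 2 * |a| + 2 * (n * (4 * σ 0 ^ 2 + e 0 ^ 2 + h 0)) with hQ
  obtain ⟨D₁, hD₁⟩ := dev_small K (a := σ) (ρ := ρ) (Γ := 1) (Q := Q)
    (fun l hl => hP.σ_pos l hl) hP.ρ_pos hε'0
  obtain ⟨D₂, hD₂⟩ := dev_small K (a := fun _ => η) (ρ := ρ) (Γ := Γ) (Q := Q)
    (fun _ _ => hP.η_pos) hP.ρ_pos hε'0
  obtain ⟨D₃, hD₃⟩ := ovl_small K (a := σ) (ρ := ρ) (Γ := 1) (C := C) (E := 0)
    (fun l hl => hP.σ_pos l hl) hP.ρ_pos hP.ρ_le hC0 hε'0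
  obtain ⟨D₄, hD₄⟩ := ovl_small K (a := fun _ => η) (ρ := ρ) (Γ := Γ) (C := C) (E := 0)
    (fun _ _ => hP.η_pos) hP.ρ_pos hP.ρ_le hC0 hε'0
  filter_upwards [eventually_large hφ hn (max (max D₁ D₂) (max D₃ D₄)),
    eventually_ge_atTop m] with N hN hNm
  intro M hM t ht
  obtain ⟨hsys, hp, -⟩ := blockSpin_sys (n := n) (N := N + m) hn
  have hD1 := ((le_max_left _ _).trans (le_max_left _ _)).trans hN.1
  have hD2 := ((le_max_right _ _).trans (le_max_left _ _)).trans hN.1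
  have hD3 := ((le_max_left _ _).trans (le_max_right _ _)).trans hN.1
  have hD4 := ((le_max_right _ _).trans (le_max_right _ _)).trans hN.1
  have hDD : (n : ℝ) * N ≤ (n : ℝ) * ((N : ℝ) + m) :=
    mul_le_mul_of_nonneg_left (le_add_of_nonneg_right (Nat.cast_nonneg m)) (Nat.cast_nonneg n)
  have hD0 : 0 ≤ (n : ℝ) * N := by positivity
  have hM' : (M : ℝ) ≤ |a| * ((n : ℝ) * N) :=
    hM.trans (mul_le_mul_of_nonneg_right (le_abs_self a) hD0)
  have hMD : (M : ℝ) ≤ |a| * ((n : ℝ) * ((N : ℝ) + m)) :=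
    hM'.trans (mul_le_mul_of_nonneg_left hDD (abs_nonneg a))
  have hcard : (M : ℝ) ≤ Γ * ((n : ℝ) * ((N : ℝ) + m)) := by
    refine hMD.trans (mul_le_mul_of_nonneg_right ?_ (by positivity))
    nlinarith [mul_nonneg hBp.le (abs_nonneg a), mul_nonneg (sq_nonneg B) (abs_nonneg a)]
  have hw : (B + B ^ 2) * M ≤ Γ * ((n : ℝ) * ((N : ℝ) + m)) := by
    refine (mul_le_mul_of_nonneg_left hMD (by positivity)).trans ?_
    rw [← mul_assoc]
    refine mul_le_mul_of_nonneg_right ?_ (by positivity)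
    nlinarith [abs_nonneg a]
  have hF1 := fam_cav_y (σ := σ) (η := η) (ρ := ρ) (K := K) (N := N) (m := m) (M := M) hφ hn e h t
  have hR1 := fam_ref_y (σ := σ) (η := η) (ρ := ρ) (K := K) (Γ := 1) (D := (n : ℝ) * N) hφ hn
    (unifG n N M) zero_le_one (one_mul _).ge
  have hBΓ : B ≤ Γ := by nlinarith [abs_nonneg a, mul_nonneg hBp.le (abs_nonneg a)]
  have hF2 := fam_cav_c (σ := σ) (η := η) (ρ := ρ) (K := K) (N := N) (m := m) (M := M) hφ hn e h t
    hBΓ hcard hw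
  have hR2 := fam_ref_c (σ := σ) (η := η) (ρ := ρ) (K := K) (N := N) (M := M) hφ hn hBΓ hcard hw
  have hroot : ∀ v : Box K → ℝ, (∀ k, v k ∈ Set.Icc (0 : ℝ) 1) →
      4 * B ^ 2 * (M : ℝ) + Real.sqrt n ^ 2 *
        ∑ p : Fin (N + m) × Fin n, cavS n N m K (boxS K σ ρ v) e h t 0 p ^ 2 ≤
      Q * ((n : ℝ) * N) := fun v hv =>
    cav_root hn (hP.σ_pos 0 (Nat.zero_le _)) hP.ρ_pos hP.ρ_le hNm hM' hh ht hv
  have hd1 := fun l (hl : l < K) => hD₁ _ _ Sum.inl _ _ _ _ _ hD1 hF1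
    (fun ω y => weight_abs_of _ _ ω y (hF1.weight ω y))
    (fun v hv l _ s => root_le hφ hsys K (cavG n N m M t) (cavS n N m K (boxS K σ ρ v) e h t)
      (boxC K η ρ v) _ (not_inl_ySet _) (Nat.succ_ne_zero l) s (hroot v hv)) l hl
  have hQ0 : 0 ≤ Q := by have := hh.2; positivity
  have hd2 := fun l (hl : l < K) => hD₂ _ _ Sum.inr _ _ _ _ _ (hD2.trans hDD) hF2
    (fun ω y => weight_abs_of _ _ ω y (hF2.weight ω y))
    (fun v hv l _ s => root_le hφ hsys K (cavG n N m M t) (cavS n N m K (boxS K σ ρ v) e h t)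
      (boxC K η ρ v) _ not_inl_cSet (Nat.succ_ne_zero l) s
      ((hroot v hv).trans (mul_le_mul_of_nonneg_left hDD hQ0))) l hl
  have hclose : ∀ v, Near ρ v →
      |(cavBox n N m K M σ η ρ e h t v).free (percLeaf φ φ1 φ2 (blockSpin n (N + m)) M)
          (blockLaw n (N + m)) - refFree φ φ1 φ2 n N K M σ η ρ v| ≤ C := fun v hv =>
    cav_free_close hφ hn hN.2 hm K M hM
      (fun l => (boxS_le hP.σ_pos hP.ρ_pos hP.ρ_le hv l).1) e hh
      (fun l b => boxC_nonneg hP.η_pos hP.ρ_pos hv l b) ht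
  have hd3 := fun l (hl : l ≤ K) => hD₃ _ _ _ _ _ _ _ _ _ _ Sum.inl _ _ _ hD3 hF1 hR1 hclose l hl
    (Or.inr fun v => by
      have := hR1.prob
      rw [sum_heatTop_eq (Nest.good_setAmp hF1.ngood _) hF1.good _ (D := (n : ℝ) * N)
          (fun ω y => by rw [oldSet, weight_y_sum, sum_spin_old hn]),
        sum_heatTop_eq (Nest.good_setAmp hR1.ngood _) hR1.good _ (D := (n : ℝ) * N)
          (fun ω y => by rw [weight_y_sum, sum_spin_sq hn]), sub_self, abs_zero])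
  have hd4 := fun l (hl : l < K) => hD₄ _ _ _ _ _ _ _ _ _ _ Sum.inr _ _ _ (hD4.trans hDD) hF2 hR2
    hclose l hl.le (Or.inl hl)
  have i1 := integrable_finsetSum (range K) fun l hl =>
    (hd1 l (mem_range.1 hl)).1.add (hd2 l (mem_range.1 hl)).1
  have i2 := integrable_finsetSum (range (K + 1)) fun l hl =>
    (hd3 l (Nat.lt_succ_iff.1 (mem_range.1 hl))).1
  have i3 := integrable_finsetSum (range K) fun l hl => (hd4 l (mem_range.1 hl)).1
  have eq : (fun v => cavRand φ φ1 φ2 n N m K M σ η ρ e h t v) = fun v =>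
      (∑ l ∈ range K,
        ((cavBox n N m K M σ η ρ e h t v).heatDev (percLeaf φ φ1 φ2 (blockSpin n (N + m)) M)
            (blockLaw n (N + m)) (oldSet n N m M) ((n : ℝ) * N) l +
          (cavBox n N m K M σ η ρ e h t v).heatDev (percLeaf φ φ1 φ2 (blockSpin n (N + m)) M)
            (blockLaw n (N + m)) (cSet M) ((n : ℝ) * ((N : ℝ) + m)) l)) +
      (∑ l ∈ range (K + 1), |(cavBox n N m K M σ η ρ e h t v).ovl
            (percLeaf φ φ1 φ2 (blockSpin n (N + m)) M) (blockLaw n (N + m)) (oldSet n N m M)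
            ((n : ℝ) * N) l -
          (refNest n N K M σ η ρ v).ovl (percLeaf φ φ1 φ2 (blockSpin n N) M) (blockLaw n N)
            (ySet M univ) ((n : ℝ) * N) l|) +
      ∑ l ∈ range K, |(cavBox n N m K M σ η ρ e h t v).ovl
            (percLeaf φ φ1 φ2 (blockSpin n (N + m)) M) (blockLaw n (N + m)) (cSet M)
            ((n : ℝ) * ((N : ℝ) + m)) l -
          (refNest n N K M σ η ρ v).ovl (percLeaf φ φ1 φ2 (blockSpin n N) M) (blockLaw n N)
            (cSet M) ((n : ℝ) * ((N : ℝ) + m)) l| := by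
    funext v
    simp only [cavRand, qRef, hRef]
    refine congrArg₂ (· + ·) (congrArg₂ (· + ·) rfl (sum_congr rfl fun l hl => ?_))
      (sum_congr rfl fun l hl => ?_)
    · rw [min_eq_left (Nat.lt_succ_iff.1 (mem_range.1 hl))]
    · rw [min_eq_left (mem_range.1 hl).le]
  rw [eq]
  refine ⟨(i1.add i2).add i3, ?_⟩
  refine le_trans (le_of_eq ((integral_add (i1.add i2) i3).trans
    (congrArg₂ (· + ·) (integral_add i1 i2) rfl))) ?_
  have b1 : ∫ v, ∑ l ∈ range K,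
      ((cavBox n N m K M σ η ρ e h t v).heatDev (percLeaf φ φ1 φ2 (blockSpin n (N + m)) M)
          (blockLaw n (N + m)) (oldSet n N m M) ((n : ℝ) * N) l +
        (cavBox n N m K M σ η ρ e h t v).heatDev (percLeaf φ φ1 φ2 (blockSpin n (N + m)) M)
          (blockLaw n (N + m)) (cSet M) ((n : ℝ) * ((N : ℝ) + m)) l) ∂cubeLaw (Box K) ≤
      ∑ _l ∈ range K, (ε' + ε') := by
    refine le_trans (le_of_eq (integral_finsetSum _ fun l hl =>
      (hd1 l (mem_range.1 hl)).1.add (hd2 l (mem_range.1 hl)).1)) (sum_le_sum fun l hl => ?_)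
    exact le_trans (le_of_eq (integral_add (hd1 l (mem_range.1 hl)).1 (hd2 l (mem_range.1 hl)).1))
      (add_le_add (hd1 l (mem_range.1 hl)).2 (hd2 l (mem_range.1 hl)).2)
  have b2 := le_trans (le_of_eq (integral_finsetSum (range (K + 1)) fun l hl =>
      (hd3 l (Nat.lt_succ_iff.1 (mem_range.1 hl))).1))
    (sum_le_sum fun l hl => (hd3 l (Nat.lt_succ_iff.1 (mem_range.1 hl))).2)
  have b3 := le_trans (le_of_eq (integral_finsetSum (range K) fun l hl =>
      (hd4 l (mem_range.1 hl)).1)) (sum_le_sum fun l hl => (hd4 l (mem_range.1 hl)).2)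
  refine le_trans (add_le_add (add_le_add b1 b2) b3) ?_
  simp only [sum_const, card_range, nsmul_eq_mul]
  push_cast
  have e1 : ε' * (4 * ((K : ℝ) + 1)) = ε := by rw [hε']; field_simp
  nlinarith

/-- The system with `m` more blocks has the overlaps of the reference. -/
theorem sym_ovl_tendsto {m : ℕ} (hm : 0 < m) {ε : ℝ} (hε : 0 < ε) :
    ∀ᶠ N : ℕ in atTop, ∀ M : ℕ, (M : ℝ) ≤ a * ((n : ℝ) * N) → ∀ l ≤ K,
      Integrable (fun v => |qRef φ φ1 φ2 n (N + m) K M σ η ρ v l -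
        qRef φ φ1 φ2 n N K M σ η ρ v l|) (cubeLaw (Box K)) ∧
      ∫ v, |qRef φ φ1 φ2 n (N + m) K M σ η ρ v l - qRef φ φ1 φ2 n N K M σ η ρ v l|
        ∂cubeLaw (Box K) ≤ ε := by
  have hnr : (0 : ℝ) < n := by exact_mod_cast hn
  set C := (n : ℝ) * m * ∑ l ∈ range (K + 2), 9 * σ l ^ 2 +
    (n : ℝ) * m * (|blockField n K (fun _ => 0)| + 2 * (0 : ℝ) + 2 * (|a| * B ^ 2)) with hC
  have hC0 : 0 ≤ C := add_nonneg
    (mul_nonneg (by positivity) (sum_nonneg fun l _ => by positivity)) (by positivity)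
  obtain ⟨D₀, hD₀⟩ := ovl_small K (a := σ) (ρ := ρ) (Γ := 2) (C := C) (E := (n : ℝ) * m)
    (fun l hl => hP.σ_pos l hl) hP.ρ_pos hP.ρ_le hC0 (half_pos hε)
  obtain ⟨N₁, hN₁⟩ := exists_nat_ge (4 * (m : ℝ) / ε)
  filter_upwards [eventually_large hφ hn D₀, eventually_ge_atTop m,
    eventually_ge_atTop N₁] with N hN hNm hN1
  intro M hM l hl
  have hNr : (1 : ℝ) ≤ N := by exact_mod_cast hN.2
  have hmN : (m : ℝ) ≤ N := by exact_mod_cast hNm
  have hF := fam_ref_y (σ := σ) (η := η) (ρ := ρ) (K := K) (Γ := 2) (D := (n : ℝ) * N) hφ hn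
    (unifG n (N + m) M) two_pos.le (by push_cast; nlinarith)
  have hF' := fam_ref_y (σ := σ) (η := η) (ρ := ρ) (K := K) (Γ := 2) (D := (n : ℝ) * N) hφ hn
    (unifG n N M) two_pos.le (by nlinarith)
  have hmain := hD₀ _ _ _ _ _ _ _ _ _ _ Sum.inl _ _ _ hN.1 hF hF' (fun v hv => ?_) l hl
    (Or.inr fun v => ?_)
  rotate_left
  · -- free energies
    have hcl := cav_free_close (t := 1) hφ hn hN.2 hm K M hM
      (fun l => (boxS_le hP.σ_pos hP.ρ_pos hP.ρ_le hv l).1) (boxS K σ ρ v)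
      (h := fun _ => 0) ⟨fun _ _ _ => le_rfl, le_rfl⟩
      (c := boxC K η ρ v) (fun l b => boxC_nonneg hP.η_pos hP.ρ_pos hv l b) ⟨zero_le_one, le_rfl⟩
    have e : cavNest n N m K M (boxS K σ ρ v) (boxS K σ ρ v) (fun _ => 0) (boxC K η ρ v) 1 =
        refNest n (N + m) K M σ η ρ v := by
      simp only [cavNest, refNest]
      congr 1
      · funext b p
        simp only [cavG, unifG, cavT, one_mul]
        split_ifs
        · rw [← Real.sqrt_inv]
          congr 1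
          push_cast
          field_simp
          ring
        · rw [← Real.sqrt_inv]
          congr 1
          push_cast
          field_simp
      · funext i p
        simp only [cavS, sub_self, zero_mul, add_zero]
        split_ifs
        · rfl
        · exact Real.sqrt_sq (boxS_le hP.σ_pos hP.ρ_pos hP.ρ_le hv i).1
    rw [e] at hcl
    refine hcl.trans ?_
    rw [hC]
    gcongr with i _
    exact (boxS_le hP.σ_pos hP.ρ_pos hP.ρ_le hv i).2
  · -- heat totals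
    have := hF.prob
    have := hF'.prob
    rw [sum_heatTop_eq (Nest.good_setAmp hF.ngood _) hF.good _ (D := (n : ℝ) * ((N + m : ℕ) : ℝ))
        (fun ω y => by rw [weight_y_sum, sum_spin_sq hn]),
      sum_heatTop_eq (Nest.good_setAmp hF'.ngood _) hF'.good _ (D := (n : ℝ) * N)
        (fun ω y => by rw [weight_y_sum, sum_spin_sq hn])]
    push_cast
    rw [mul_add, add_sub_cancel_left, abs_of_nonneg (by positivity)]
  obtain ⟨hint, hle⟩ := hmain
  simp only [qRef, min_eq_left hl]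
  set o := fun v => (refNest n (N + m) K M σ η ρ v).ovl
    (percLeaf φ φ1 φ2 (blockSpin n (N + m)) M) (blockLaw n (N + m)) (ySet M univ) ((n : ℝ) * N) l
    with ho
  set o' := fun v => (refNest n (N + m) K M σ η ρ v).ovl
    (percLeaf φ φ1 φ2 (blockSpin n (N + m)) M) (blockLaw n (N + m)) (ySet M univ)
    ((n : ℝ) * ((N + m : ℕ) : ℝ)) l with ho'
  set r := fun v => (refNest n N K M σ η ρ v).ovl
    (percLeaf φ φ1 φ2 (blockSpin n N) M) (blockLaw n N) (ySet M univ) ((n : ℝ) * N) l with hr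
  have hscale : ∀ v, o' v = o v * ((N : ℝ) / ((N : ℝ) + m)) := by
    intro v
    simp only [ho, ho', Nest.ovl]
    push_cast
    field_simp
  have hcont : Continuous fun v => |o' v - r v| := by
    have h1 : Continuous o' := hF.ovl_continuous _ (l := l) (by omega)
    have h2 : Continuous r := hF'.ovl_continuous _ (l := l) (by omega)
    exact (h1.sub h2).abs
  have hbd : ∀ v, |o' v - r v| ≤ |o v - r v| + 2 * (m / N) := by
    intro v
    obtain ⟨a1, a2⟩ := hF.ovl_mem (D' := (n : ℝ) * N) (by positivity) v (l := l) (by omega)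
    have a1' : 0 ≤ o v := a1
    have a2' : o v ≤ 2 := a2.trans (le_of_eq (by field_simp))
    refine (abs_sub_le _ (o v) _).trans ?_
    rw [add_comm (|o v - r v|)]
    refine add_le_add ?_ le_rfl
    rw [hscale, show o v * ((N : ℝ) / (N + m)) - o v = -(o v * (m / ((N : ℝ) + m))) by
      field_simp; ring, abs_neg, abs_of_nonneg (mul_nonneg a1' (by positivity))]
    refine mul_le_mul a2' ?_ (by positivity) two_pos.le
    gcongr
    linarith [Nat.cast_nonneg (α := ℝ) m]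
  have hint2 : Integrable (fun v => |o v - r v| + 2 * ((m : ℝ) / N)) (cubeLaw (Box K)) :=
    hint.add (integrable_const _)
  have hint' : Integrable (fun v => |o' v - r v|) (cubeLaw (Box K)) :=
    hint2.mono' hcont.aestronglyMeasurable (.of_forall fun v => by
      simpa [Real.norm_eq_abs, abs_abs] using hbd v)
  refine ⟨hint', ?_⟩
  have hint : Integrable (fun v => |o v - r v|) (cubeLaw (Box K)) := hint
  have hle : ∫ v, |o v - r v| ∂cubeLaw (Box K) ≤ ε / 2 := hle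
  refine (integral_mono hint' hint2 hbd).trans ?_
  rw [integral_add hint (integrable_const _)]
  have hmN' : 2 * ((m : ℝ) / N) ≤ ε / 2 := by
    have h1 : 4 * (m : ℝ) / ε ≤ N := hN₁.trans (by exact_mod_cast hN1)
    rw [div_le_iff₀ hε] at h1
    rw [mul_div_assoc', div_le_iff₀ (by linarith)]
    linarith
  simp only [integral_const, probReal_univ, one_smul]
  linarith

end Vale.Agent.P157.Parisi
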