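import Vale.Agent.P157.Parisi.LowerStep
import Vale.Agent.P157.Parisi.LowerRand
import Vale.Agent.P157.Parisi.BoxAvg
import Vale.Agent.P157.Parisi.Approx

/-!
Averages of the lower bound over the box, and the passage from increments to the free energy.
-/

namespace Vale.Agent.P157.Parisi

open MeasureTheory ProbabilityTheory Finset Filter Topology

variable {φ φ1 φ2 : ℝ → ℝ} {B : ℝ}

/-- From increments over `m` steps to a linear lower bound. -/
lemma linear_of_increments {A : ℕ → ℝ} {m : ℕ} (hm : 0 < m) {c : ℝ}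
    (h : ∀ᶠ N in atTop, A N + c * m ≤ A (N + m)) {e : ℝ} (he : 0 < e) :
    ∀ᶠ N : ℕ in atTop, (c - e) * N ≤ A N := by
  obtain ⟨N₀, hN₀⟩ := eventually_atTop.1 h
  set L := -∑ i ∈ range m, |A (N₀ + i) - c * (N₀ + i : ℕ)| with hL
  have key : ∀ N, N₀ ≤ N → c * N + L ≤ A N := by
    intro N
    induction N using Nat.strong_induction_on with
    | _ N ih =>
      intro hN
      by_cases hlt : N < N₀ + m
      · obtain ⟨i, rfl⟩ := Nat.exists_eq_add_of_le hN
        have h1 := single_le_sum (f := fun i => |A (N₀ + i) - c * (N₀ + i : ℕ)|)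
          (fun i _ => abs_nonneg _) (mem_range.2 (show i < m by omega))
        have h2 := (abs_le.1 h1).1
        linarith
      · obtain ⟨N', rfl⟩ := Nat.exists_eq_add_of_le (show m ≤ N by omega)
        have h1 := ih N' (by omega) (by omega)
        have h2 := hN₀ N' (by omega)
        rw [add_comm m N', Nat.cast_add]
        linarith
  filter_upwards [eventually_ge_atTop N₀,
    tendsto_natCast_atTop_atTop.eventually_ge_atTop (-L / e)] with N h1 h2
  rw [div_le_iff₀ he] at h2
  linarith [key N h1]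

/-- Averaging in time commutes with averaging over the cube. -/
lemma cube_time_avg_le {β : Type} [Fintype β] {F : ℝ × (β → ℝ) → ℝ} (hF : Continuous F) {e : ℝ}
    (h : ∀ t ∈ Set.Icc (0 : ℝ) 1, ∫ v, F (t, v) ∂cubeLaw β ≤ e) :
    Integrable (fun v => ∫ t in (0 : ℝ)..1, F (t, v)) (cubeLaw β) ∧
      ∫ v, (∫ t in (0 : ℝ)..1, F (t, v)) ∂cubeLaw β ≤ e := by
  refine ⟨Box.integrable_cube (intervalIntegral.continuous_parametric_intervalIntegral_of_continuous'
    (by exact hF.comp (continuous_snd.prodMk continuous_fst)) 0 1), ?_⟩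
  set ν := volume.restrict (Set.Ioc (0 : ℝ) 1) with hν
  have : IsProbabilityMeasure ν := ⟨by simp [hν]⟩
  simp only [intervalIntegral.integral_of_le zero_le_one, ← hν]
  obtain ⟨C, hC⟩ := (isCompact_Icc.prod (isCompact_univ_pi fun _ : β => isCompact_Icc (a := (0 : ℝ))
    (b := 1))).exists_bound_of_continuousOn hF.continuousOn (s := Set.Icc (0 : ℝ) 1 ×ˢ _)
  have hint : Integrable (Function.uncurry fun v t => F (t, v)) ((cubeLaw β).prod ν) := by
    refine Integrable.of_bound (hF.comp (continuous_snd.prodMk continuous_fst)).aestronglyMeasurable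
      C ?_
    filter_upwards [Measure.quasiMeasurePreserving_fst.ae (Box.ae_mem_cube (β := β)),
      Measure.quasiMeasurePreserving_snd.ae (ae_restrict_mem measurableSet_Ioc)] with p h1 h2
    exact hC _ ⟨Set.Ioc_subset_Icc_self h2, fun k _ => h1 k⟩
  rw [integral_integral_swap hint]
  refine (integral_mono_ae hint.integral_prod_right (integrable_const e) ?_).trans_eq (by simp)
  exact (ae_restrict_mem measurableSet_Ioc).mono fun t ht => h t (Set.Ioc_subset_Icc_self ht)

lemma ownField_nonneg {K : ℕ} {σ : ℕ → ℝ} (hσ : ∀ l ≤ K, 0 < σ l) {r : ℝ} (hr0 : 0 ≤ r)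
    (hr : r ≤ 1) (o : Option (Fin (K + 1) × Bool)) (l : ℕ) : 0 ≤ ownField K σ r o l := by
  have hc : ∀ l, 0 ≤ cutAmp K σ l := fun l => by
    unfold cutAmp; split_ifs with h
    exacts [(hσ l h).le, le_rfl]
  rcases o with _ | ⟨p, _ | _⟩
  · exact hc l
  all_goals
    simp only [ownField, Function.update_apply]
    split_ifs
    · have := hσ p (Nat.lt_succ_iff.1 p.isLt)
      nlinarith
    · exact hc l

/-- The random errors of one step vanish on average. -/
lemma randTot_tendsto (hφ : PhiGood φ φ1 φ2 B) {n : ℕ} (hn : 0 < n) {K : ℕ} {σ : ℕ → ℝ} {η ρ : ℝ}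
    (hP : LowerParams K σ η ρ) {r : ℝ} (hr0 : 0 ≤ r) (hr : r ≤ 1) (a : ℝ) {m : ℕ} (hm : 0 < m)
    (j : ℕ) {e : ℝ} (he : 0 < e) :
    ∀ᶠ N : ℕ in atTop, ∀ M : ℕ, ((M + j : ℕ) : ℝ) ≤ a * ((n : ℝ) * N) →
      Integrable (fun v => randTot φ φ1 φ2 B a n N m K M j σ η ρ r v) (cubeLaw (Box K)) ∧
        ∫ v, randTot φ φ1 φ2 B a n N m K M j σ η ρ r v ∂cubeLaw (Box K) ≤ e := by
  set U := ⌈gBound B a * ((K : ℝ) + 1)⌉₊
  set c₁ := (j : ℝ) * (Fintype.card (GridIdx K (K + 1)) * (20 * K + (K + 1)))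
  set c₂ := (Fintype.card (GridIdx K U) : ℝ) * Fintype.card (Option (Fin (K + 1) × Bool))
  set δ := e / (c₁ + c₂ + ((K : ℝ) + 1))
  have hden : 0 < c₁ + c₂ + ((K : ℝ) + 1) := by positivity
  have hδ : 0 < δ := by positivity
  have hq1 : ∀ f : GridIdx K (K + 1), gridVal f K ≤ 1 := fun f =>
    ((gridVal_isPath f).2 K).trans_eq (by push_cast; exact div_self (by positivity))
  filter_upwards [eventually_all.2 fun f : GridIdx K (K + 1) =>
      ins_dev_tendsto hφ hn hP a (gridVal_isPath f).1 (hq1 f) hδ,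
    eventually_all.2 fun f : GridIdx K (K + 1) =>
      ins_ovl_tendsto hφ hn hP a (gridVal_isPath f).1 (hq1 f) j hδ,
    eventually_all.2 fun f : GridIdx K U => eventually_all.2 fun o =>
      cav_rand_tendsto hφ hn hP a hm (ownField_nonneg hP.σ_pos hr0 hr o) (gridVal_isPath f).1 hδ,
    sym_ovl_tendsto hφ hn hP a hm hδ] with N h1 h2 h3 h4
  intro M hM
  have hI : ∀ i ∈ range j, ∀ f : GridIdx K (K + 1),
      Integrable (fun v => ∫ t in (0 : ℝ)..1,
        insR φ φ1 φ2 n N K (M + i) (M + j) σ η ρ (gridVal f) t v) (cubeLaw (Box K)) ∧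
      ∫ v, (∫ t in (0 : ℝ)..1, insR φ φ1 φ2 n N K (M + i) (M + j) σ η ρ (gridVal f) t v)
        ∂cubeLaw (Box K) ≤ (20 * K + (K + 1)) * δ := by
    intro i hi f
    have hij := mem_range.1 hi
    refine cube_time_avg_le
      (F := fun p => insR φ φ1 φ2 n N K (M + i) (M + j) σ η ρ (gridVal f) p.1 p.2)
      (continuous_insR hφ hn K _ _ σ η ρ _) fun t ht => ?_
    have hMi : ((M + i : ℕ) : ℝ) ≤ a * ((n : ℝ) * N) := le_trans (by gcongr) hM
    have d := fun l (hl : l ∈ range K) => h1 f (M + i) hMi t ht l (mem_range.1 hl)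
    have o := fun l (hl : l ∈ range (K + 1)) => h2 f (M + i) (M + j) (by omega) (by omega) hM t ht l
      (Nat.lt_succ_iff.1 (mem_range.1 hl))
    simp only [insR]
    rw [integral_add ((integrable_finsetSum _ fun l hl => (d l hl).1).const_mul _)
      (integrable_finsetSum _ fun l hl => (o l hl).1), integral_const_mul,
      integral_finsetSum _ fun l hl => (d l hl).1, integral_finsetSum _ fun l hl => (o l hl).1]
    refine (add_le_add (mul_le_mul_of_nonneg_left (sum_le_sum fun l hl => (d l hl).2)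
      (by norm_num)) (sum_le_sum fun l hl => (o l hl).2)).trans_eq ?_
    simp only [sum_const, card_range, nsmul_eq_mul]
    push_cast
    ring
  have hC : ∀ (f : GridIdx K U) (o : Option (Fin (K + 1) × Bool)),
      Integrable (fun v => ∫ t in (0 : ℝ)..1,
        cavRand φ φ1 φ2 n N m K (M + j) σ η ρ (ownField K σ r o) (gridVal f) t v)
        (cubeLaw (Box K)) ∧
      ∫ v, (∫ t in (0 : ℝ)..1,
        cavRand φ φ1 φ2 n N m K (M + j) σ η ρ (ownField K σ r o) (gridVal f) t v)
        ∂cubeLaw (Box K) ≤ δ := fun f o =>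
    cube_time_avg_le
      (F := fun p => cavRand φ φ1 φ2 n N m K (M + j) σ η ρ (ownField K σ r o) (gridVal f) p.1 p.2)
      (continuous_cavRand hφ hn N m K _ σ η ρ _ _) fun t ht => (h3 f o (M + j) hM t ht).2
  have hS := fun l (hl : l ∈ range (K + 1)) => h4 (M + j) hM l (Nat.lt_succ_iff.1 (mem_range.1 hl))
  have iI := fun i (hi : i ∈ range j) =>
    integrable_finsetSum univ fun f (_ : f ∈ univ) => (hI i hi f).1
  have iC := fun f => integrable_finsetSum univ fun o (_ : o ∈ univ) => (hC f o).1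
  have iI' := integrable_finsetSum _ iI
  have iC' := integrable_finsetSum univ fun f (_ : f ∈ univ) => iC f
  have iS := integrable_finsetSum _ fun l hl => (hS l hl).1
  refine ⟨(iI'.add iC').add iS, ?_⟩
  simp only [randTot]
  rw [integral_add (iI'.fun_add iC') iS, integral_add iI' iC', integral_finsetSum _ iI,
    integral_finsetSum _ (fun f _ => iC f), integral_finsetSum _ fun l hl => (hS l hl).1]
  have e1 : ∑ i ∈ range j, ∫ v, (∑ f : GridIdx K (K + 1), ∫ t in (0 : ℝ)..1,
      insR φ φ1 φ2 n N K (M + i) (M + j) σ η ρ (gridVal f) t v) ∂cubeLaw (Box K) ≤ c₁ * δ := by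
    refine (sum_le_sum fun i hi => ?_).trans_eq (b := ∑ _i ∈ range j,
      (Fintype.card (GridIdx K (K + 1)) : ℝ) * ((20 * K + (K + 1)) * δ)) ?_
    · rw [integral_finsetSum _ fun f _ => (hI i hi f).1]
      exact (sum_le_sum fun f _ => (hI i hi f).2).trans_eq (by simp)
    · simp only [sum_const, card_range, nsmul_eq_mul, c₁]
      ring
  have e2 : ∑ f : GridIdx K U, ∫ v, (∑ o : Option (Fin (K + 1) × Bool), ∫ t in (0 : ℝ)..1,
      cavRand φ φ1 φ2 n N m K (M + j) σ η ρ (ownField K σ r o) (gridVal f) t v)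
        ∂cubeLaw (Box K) ≤ c₂ * δ := by
    refine (sum_le_sum fun f _ => ?_).trans_eq (b := ∑ _f : GridIdx K U,
      (Fintype.card (Option (Fin (K + 1) × Bool)) : ℝ) * δ) ?_
    · rw [integral_finsetSum _ fun o _ => (hC f o).1]
      exact (sum_le_sum fun o _ => (hC f o).2).trans_eq (by simp)
    · simp only [sum_const, card_univ, nsmul_eq_mul, c₂]
      ring
  have e3 := (sum_le_sum fun l hl => (hS l hl).2).trans_eq
    (show ∑ _l ∈ range (K + 1), δ = ((K : ℝ) + 1) * δ by simp)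
  refine (add_le_add (add_le_add e1 e2) e3).trans_eq ?_
  rw [← add_mul, ← add_mul]
  exact mul_div_cancel₀ _ hden.ne'

lemma continuous_refFree (hφ : PhiGood φ φ1 φ2 B) {n : ℕ} (hn : 0 < n) (N K M : ℕ) (σ : ℕ → ℝ)
    (η ρ : ℝ) : Continuous fun v => refFree φ φ1 φ2 n N K M σ η ρ v := by
  have := blockLaw_prob (N := N) hn
  obtain ⟨hs, -, -⟩ := blockSpin_sys (n := n) (N := N) hn
  have hA : ∀ l i, Continuous fun v : Box K → ℝ =>
      percAmp (unifG n N M) (fun l _ => boxS K σ ρ v l) (boxC K η ρ v) l i := by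
    rintro l (⟨a, i⟩ | i | a)
    · simp only [percAmp]; fun_prop
    · exact Rand.continuous_boxS l
    · exact Rand.continuous_boxC l a
  exact continuous_free (N := percNest K (unifG n N M) (fun _ _ => 0) (fun _ _ => 0))
    (percNest_good hφ hs _ _ _ _ _) (perc_good hφ hs M) fun l _ i => hA l i

/-- The randomised free energy is the pressure up to the size of the fields. -/
lemma refFree_pressure (hφ : PhiGood φ φ1 φ2 B) {n N : ℕ} (hn : 0 < n) (hN : 0 < N) {K : ℕ}
    {σ : ℕ → ℝ} {η ρ : ℝ} (hP : LowerParams K σ η ρ) {a : ℝ} {M : ℕ}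
    (hM : (M : ℝ) ≤ a * ((n : ℝ) * N)) {v : Box K → ℝ} (hv : InBox v) :
    |refFree φ φ1 φ2 n N K M σ η ρ v - (n : ℝ) * N * priorPressure φ M (blockPrior n N)| ≤
      (n : ℝ) * N *
        ((1 + 2 * B ^ 2 * a) * (4 * (∑ l ∈ range (K + 1), σ l ^ 2 + ((K : ℝ) + 1) * η ^ 2))) := by
  have := blockLaw_prob (N := N) hn
  obtain ⟨hs, -, hmap⟩ := blockSpin_sys (n := n) (N := N) hn
  have : Nonempty (Fin N × Fin n) := ⟨(⟨0, hN⟩, ⟨0, hn⟩)⟩
  have hcard : (Fintype.card (Fin N × Fin n) : ℝ) = (n : ℝ) * N := by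
    simp [mul_comm]
  have hgeq : (unifG n N M) = fun _ _ => (Real.sqrt (Fintype.card (Fin N × Fin n)))⁻¹ := by
    funext b p; rw [hcard]; rfl
  have h0 := free_zero_fields hφ hs (μ := blockLaw n N) K M
  rw [hmap, ← hgeq, hcard] at h0
  set δl : ℕ → ℝ := fun l => if l ≤ K then 4 * (σ l ^ 2 + η ^ 2) else 0 with hδl
  set S := ySet M (univ : Finset (Fin N × Fin n)) ∪ cSet M (δ := Fin N × Fin n) with hS
  have hB1 := hφ.one_le
  have hT : ∀ ω y, ∑ i ∈ S, (percLeaf φ φ1 φ2 (blockSpin n N) M).weight i ω y ≤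
      (n : ℝ) * N * (1 + 2 * B ^ 2 * a) := by
    intro ω y
    rw [hS, sum_union (by
      rw [disjoint_left]
      intro i h1 h2
      simp only [ySet, cSet, mem_image, mem_univ, true_and] at h1 h2
      obtain ⟨p, rfl⟩ := h1
      obtain ⟨b, hb⟩ := h2
      simp at hb), ySet, cSet, sum_image (by intro x _ z _ h; simpa using h),
      sum_image (by intro x _ z _ h; simpa using h)]
    simp only [weight_y]
    rw [hs.norm_sq, hcard]
    have hc : ∑ b : Fin M, (percLeaf φ φ1 φ2 (blockSpin n N) M).weight (Sum.inr (Sum.inr b)) ω y ≤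
        2 * B ^ 2 * (a * ((n : ℝ) * N)) := by
      refine (sum_le_sum fun b _ => (weight_c hφ (blockSpin n N) M b ω y).1).trans ?_
      simp only [sum_const, card_univ, Fintype.card_fin, nsmul_eq_mul]
      have hB : B ≤ B ^ 2 := by nlinarith
      calc (M : ℝ) * (B + B ^ 2) ≤ (M : ℝ) * (2 * B ^ 2) :=
            mul_le_mul_of_nonneg_left (by linarith) (Nat.cast_nonneg M)
        _ ≤ a * ((n : ℝ) * N) * (2 * B ^ 2) := mul_le_mul_of_nonneg_right hM (by positivity)
        _ = _ := by ring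
    linarith
  have key := free_group_lip (percNest_good hφ hs K M (unifG n N M) (fun _ _ => 0) (fun _ _ => 0))
    (perc_good hφ hs M) (μ := blockLaw n N) S hT
    (percAmp (unifG n N M) (fun _ _ => 0) (fun _ _ => 0))
    (percAmp (unifG n N M) (fun l _ => boxS K σ ρ v l) (boxC K η ρ v)) δl ?_ ?_ ?_ ?_ ?_
  · rw [show ((percNest K (unifG n N M) (fun _ _ => 0) (fun _ _ => 0)).setAmp
      (percAmp (unifG n N M) (fun _ _ => 0) (fun _ _ => 0))).free
        (percLeaf φ φ1 φ2 (blockSpin n N) M) (blockLaw n N) =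
      (n : ℝ) * N * priorPressure φ M (blockPrior n N) from h0] at key
    refine key.trans (le_of_eq ?_)
    change (n : ℝ) * N * (1 + 2 * B ^ 2 * a) * ∑ l ∈ range (K + 1 + 1), δl l = _
    rw [sum_range_succ]
    simp only [hδl, if_neg (show ¬ K + 1 ≤ K by omega), add_zero]
    rw [sum_congr rfl (fun l hl => if_pos (Nat.lt_succ_iff.1 (mem_range.1 hl))), ← mul_sum,
      sum_add_distrib, sum_const, card_range, nsmul_eq_mul]
    push_cast
    ring
  · rintro l - (⟨b, i⟩ | i | b)
    · simp only [percAmp, unifG]; split_ifs <;> positivity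
    all_goals exact le_rfl
  · rintro l - (⟨b, i⟩ | i | b)
    · simp only [percAmp, unifG]; split_ifs <;> positivity
    · simp only [percAmp]
      by_cases hl : l ≤ K
      · exact (hP.σ_pos l hl).le.trans (boxS_bounds hP hv l hl).1
      · simp [(boxS_cut σ ρ v hl).1]
    · simp only [percAmp]
      by_cases hl : l ≤ K
      · obtain ⟨z, hz, hzb⟩ := boxC_bounds hP hv (M := M) l hl
        rw [hzb]; linarith [hP.η_pos, hz.1]
      · simp [boxC, hl]
  · rintro l - (⟨b, i⟩ | i | b) hi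
    · rfl
    · exact absurd (mem_union_left _ (mem_image_of_mem _ (mem_univ i))) hi
    · exact absurd (mem_union_right _ (mem_image_of_mem _ (mem_univ b))) hi
  · intro l _ i hi
    have hsq : ∀ z x : ℝ, 0 < x → x ≤ z → z ≤ x + x * ρ → z ^ 2 ≤ 4 * x ^ 2 := fun z x hx h1 h2 => by
      have hz : z ≤ 2 * x := by linarith [mul_le_of_le_one_right hx.le hP.ρ_le]
      nlinarith
    simp only [hS, mem_union, ySet, cSet, mem_image, mem_univ, true_and] at hi
    rcases hi with ⟨p, rfl⟩ | ⟨b, rfl⟩ <;> simp only [percAmp, hδl] <;> by_cases hl : l ≤ K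
    · obtain ⟨h1, h2⟩ := boxS_bounds hP hv l hl
      rw [if_pos hl, zero_pow two_ne_zero, sub_zero, abs_sq]
      linarith [hsq _ _ (hP.σ_pos l hl) h1 h2, sq_nonneg η]
    · simp [(boxS_cut σ ρ v hl).1, hl]
    · obtain ⟨z, hz, hzb⟩ := boxC_bounds hP hv (M := M) l hl
      rw [hzb, if_pos hl, zero_pow two_ne_zero, sub_zero, abs_sq]
      linarith [hsq _ _ hP.η_pos hz.1 hz.2, sq_nonneg (σ l)]
    · simp [boxC, hl]
  · intro l
    simp only [hδl]
    split_ifs <;> positivity

/-- The number of patterns after `N` blocks at the rate `p / m`. -/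
def patCount (p m n N : ℕ) : ℕ := p * n * N / m

lemma patCount_add (p : ℕ) {m : ℕ} (hm : 0 < m) (n N : ℕ) :
    patCount p m n (N + m) = patCount p m n N + p * n := by
  rw [patCount, patCount, mul_add, Nat.add_mul_div_right _ _ hm]

lemma patCount_bounds (p : ℕ) {m : ℕ} (hm : 0 < m) (n N : ℕ) :
    (patCount p m n N : ℝ) ≤ (p : ℝ) / m * ((n : ℝ) * N) ∧
      (p : ℝ) / m * ((n : ℝ) * N) ≤ (patCount p m n N : ℝ) + 1 := by
  have hm' : (0 : ℝ) < m := by exact_mod_cast hm
  have h1 : (patCount p m n N : ℝ) * m ≤ (p : ℝ) * n * N := by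
    exact_mod_cast Nat.div_mul_le_self (p * n * N) m
  have h2 : (p : ℝ) * n * N ≤ ((patCount p m n N : ℝ) + 1) * m := by
    have := (Nat.lt_mul_div_succ (p * n * N) hm).le
    rw [mul_comm m] at this
    simp only [patCount]
    exact_mod_cast this
  rw [div_mul_eq_mul_div, le_div_iff₀ hm', div_le_iff₀ hm']
  constructor <;> linarith

/-- The lower bound at fixed parameters. -/
theorem lower_fixed (hφ : PhiGood φ φ1 φ2 B) {n : ℕ} (hn : 0 < n) {K : ℕ} {σ : ℕ → ℝ} {η ρ : ℝ}
    (hP : LowerParams K σ η ρ) {σ₀ : ℝ} (hσ₀ : 0 < σ₀) (hσ : ∀ l ≤ K, σ₀ ≤ σ l) {r : ℝ}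
    (hρr : ρ ≤ r) (hr : r < 1) {J : ℕ} (hJ : 0 < J) {η₀ : ℝ} (hη₀ : 0 < η₀)
    (hprobe : ∀ i < J, η₀ ≤ σ (probe K J i) ^ 2) (p : ℕ) {m : ℕ} (hm : 0 < m) {V : ℝ}
    (hV : ∀ q, IsPath q → q K < 1 → V ≤ blockEntropy n K q + (p : ℝ) / m * energy φ K q) {a : ℝ}
    (ha : a = 2 * ((p : ℝ) / m) + 1) {d : ℝ}
    (hdet : ∀ᶠ N : ℕ in atTop, stepDet B ((p : ℝ) / m) (gBound B a) η σ₀ ρ r η₀
      (∑ k ∈ range (K + 1), σ k ^ 2) n N m K J ≤ d) {e : ℝ} (he : 0 < e) :
    ∀ᶠ N : ℕ in atTop, V - d - e -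
        (1 + 2 * B ^ 2 * a) * (4 * (∑ l ∈ range (K + 1), σ l ^ 2 + ((K : ℝ) + 1) * η ^ 2)) ≤
      priorPressure φ (patCount p m n N) (blockPrior n N) := by
  have hr0 : 0 < r := hP.ρ_pos.trans_le hρr
  have hn' : (0 : ℝ) < n := by exact_mod_cast hn
  set α := (p : ℝ) / m with hα
  have hα0 : 0 ≤ α := by positivity
  have ha0 : 0 ≤ a := by rw [ha]; positivity
  set Γ := gBound B a
  set X := randCoef B α Γ r η₀ with hX
  have hΓ : 0 ≤ Γ := zero_le_one.trans (le_max_of_le_left (le_max_right _ _))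
  have hX0 : 0 ≤ X := by rw [hX]; unfold randCoef; positivity
  set A : ℕ → ℝ := fun N => ∫ v, refFree φ φ1 φ2 n N K (patCount p m n N) σ η ρ v ∂cubeLaw (Box K)
    with hA
  have hinc : ∀ᶠ N in atTop, A N + ((n : ℝ) * (V - d - e / 2)) * m ≤ A (N + m) := by
    filter_upwards [hdet, eventually_ge_atTop m,
      randTot_tendsto hφ hn hP hr0.le hr.le a hm (p * n) (e := e / (2 * (X + 1))) (by positivity)]
      with N hd hN hR
    set M := patCount p m n N with hMdef
    set j := p * n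
    have hN0 : 0 < N := hm.trans_le hN
    have hj : (j : ℝ) = α * ((n : ℝ) * m) := by
      have : (m : ℝ) ≠ 0 := by exact_mod_cast hm.ne'
      simp only [j, hα, Nat.cast_mul]
      field_simp
    have hMj : ((M + j : ℕ) : ℝ) ≤ a * ((n : ℝ) * N) := by
      have h1 := (patCount_bounds p hm n N).1
      have h2 : α * ((n : ℝ) * m) ≤ α * ((n : ℝ) * N) := by gcongr
      have h3 : (0 : ℝ) ≤ (n : ℝ) * N := by positivity
      rw [Nat.cast_add, hj, ha, add_mul, one_mul, mul_assoc 2, two_mul]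
      linarith
    obtain ⟨iR, hR'⟩ := hR M hMj
    have hXR : X * ∫ v, randTot φ φ1 φ2 B a n N m K M j σ η ρ r v ∂cubeLaw (Box K) ≤ e / 2 := by
      refine (mul_le_mul_of_nonneg_left hR' hX0).trans ?_
      rw [mul_div_assoc', div_le_div_iff₀ (by positivity) two_pos]
      linarith
    have i1 := Box.integrable_cube (continuous_refFree hφ hn N K M σ η ρ)
    have i2 := Box.integrable_cube (continuous_refFree hφ hn (N + m) K (M + j) σ η ρ)
    have iC := integrable_const (α := Box K → ℝ) (μ := cubeLaw (Box K)) ((n : ℝ) * m * (V - d))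
    have hmono : ∫ v, ((n : ℝ) * m * (V - d) -
          (n : ℝ) * m * (X * randTot φ φ1 φ2 B a n N m K M j σ η ρ r v)) ∂cubeLaw (Box K) ≤
        ∫ v, (refFree φ φ1 φ2 n (N + m) K (M + j) σ η ρ v - refFree φ φ1 φ2 n N K M σ η ρ v)
          ∂cubeLaw (Box K) := by
      refine integral_mono_ae (iC.sub ((iR.const_mul X).const_mul _)) (i2.sub i1) ?_
      filter_upwards [Box.ae_mem_cube (β := Box K)] with v hv
      refine le_trans ?_ (step_pointwise hφ hn hN0 hm hP hσ₀ hσ hρr hr hJ hη₀ hprobe M j hα0 hj hMj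
        ha0 hV hv)
      have := mul_le_mul_of_nonneg_left hd (show (0 : ℝ) ≤ (n : ℝ) * m by positivity)
      simp only [Γ, X, mul_sub]
      linarith
    rw [integral_sub iC ((iR.const_mul X).const_mul _), integral_sub i2 i1, integral_const,
      integral_const_mul, integral_const_mul, probReal_univ, one_smul] at hmono
    simp only [hA, patCount_add p hm]
    have := mul_le_mul_of_nonneg_left hXR (show (0 : ℝ) ≤ (n : ℝ) * m by positivity)
    linarith
  filter_upwards [linear_of_increments hm hinc (e := (n : ℝ) * (e / 2)) (by positivity),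
    eventually_gt_atTop 0] with N hA' hN
  have hM : (patCount p m n N : ℝ) ≤ a * ((n : ℝ) * N) := by
    refine (patCount_bounds p hm n N).1.trans (mul_le_mul_of_nonneg_right ?_ (by positivity))
    linarith
  have hle : A N ≤ (n : ℝ) * N * priorPressure φ (patCount p m n N) (blockPrior n N) +
      (n : ℝ) * N *
        ((1 + 2 * B ^ 2 * a) * (4 * (∑ l ∈ range (K + 1), σ l ^ 2 + ((K : ℝ) + 1) * η ^ 2))) := by
    refine (integral_mono_ae (g := fun _ => (n : ℝ) * N * priorPressure φ (patCount p m n N)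
        (blockPrior n N) + (n : ℝ) * N *
          ((1 + 2 * B ^ 2 * a) * (4 * (∑ l ∈ range (K + 1), σ l ^ 2 + ((K : ℝ) + 1) * η ^ 2))))
      (Box.integrable_cube (continuous_refFree hφ hn N K _ σ η ρ))
      (integrable_const _) ?_).trans_eq (by simp)
    filter_upwards [Box.ae_mem_cube (β := Box K)] with v hv
    linarith [(abs_le.1 (refFree_pressure hφ hn hN hP hM hv)).2]
  have hnN : (0 : ℝ) < (n : ℝ) * N := by positivity
  refine le_of_mul_le_mul_left ?_ hnN
  simp only [mul_sub] at hA' ⊢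
  linarith

end Vale.Agent.P157.Parisi
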