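import Vale.Agent.P157.Parisi.LowerIncr
import Vale.Agent.P157.Parisi.LowerRand

/-!
One cavity step of the randomised systems, compared with the reference overlaps.
-/

namespace Vale.Agent.P157.Parisi

open MeasureTheory ProbabilityTheory Finset

variable {φ φ1 φ2 : ℝ → ℝ} {B : ℝ}

/-- The value of a cavity step at the field `h` and overlaps `q`, with own field `e`. -/
noncomputable def cavVal (n K : ℕ) (e h q : ℕ → ℝ) : ℝ :=
  blockField n K (fun l => h l + ∑ i ∈ range (l + 1), e i ^ 2) +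
    (∑ i ∈ range (K + 1), e i ^ 2) / 2 +
    (∑ l ∈ range (K + 1), h l * q l) / (2 * ((K : ℝ) + 1))

/-- The free energy of a cavity system at the end of the interpolation. -/
noncomputable def cavFree (φ φ1 φ2 : ℝ → ℝ) (n N m K M : ℕ) (σ : ℕ → ℝ) (η ρ : ℝ) (e h : ℕ → ℝ)
    (v : Box K → ℝ) : ℝ :=
  (cavBox n N m K M σ η ρ e h 1 v).free (percLeaf φ φ1 φ2 (blockSpin n (N + m)) M)
    (blockLaw n (N + m))

lemma continuous_cavRand (hφ : PhiGood φ φ1 φ2 B) {n : ℕ} (hn : 0 < n) (N m K M : ℕ) (σ : ℕ → ℝ)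
    (η ρ : ℝ) (e h : ℕ → ℝ) :
    Continuous fun p : ℝ × (Box K → ℝ) => cavRand φ φ1 φ2 n N m K M σ η ρ e h p.1 p.2 := by
  have := blockLaw_prob (N := N + m) hn
  have := blockLaw_prob (N := N) hn
  obtain ⟨hs, -, -⟩ := blockSpin_sys (n := n) (N := N + m) hn
  obtain ⟨hs', -, -⟩ := blockSpin_sys (n := n) (N := N) hn
  let A : ℝ × (Box K → ℝ) → ℕ → PIdx M (Fin (N + m) × Fin n) → ℝ := fun p =>
    percAmp (cavG n N m M p.1) (cavS n N m K (boxS K σ ρ p.2) e h p.1) (boxC K η ρ p.2)
  let A' : ℝ × (Box K → ℝ) → ℕ → PIdx M (Fin N × Fin n) → ℝ := fun p =>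
    percAmp (unifG n N M) (fun l _ => boxS K σ ρ p.2 l) (boxC K η ρ p.2)
  have hS : ∀ l, Continuous fun p : ℝ × (Box K → ℝ) => boxS K σ ρ p.2 l := fun l => by
    unfold boxS; split_ifs <;> fun_prop
  have hC : ∀ (l : ℕ) (b : Fin M), Continuous fun p : ℝ × (Box K → ℝ) => boxC K η ρ p.2 l b :=
    fun l b => by unfold boxC; split_ifs <;> fun_prop
  have hA : ∀ l i, Continuous fun p => A p l i := by
    rintro l (⟨a, i⟩ | i | a)
    · simp only [A, percAmp, cavG]
      split_ifs <;> fun_prop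
    · simp only [A, percAmp, cavS]
      split_ifs
      · exact hS l
      all_goals fun_prop
    · exact hC l a
  have hA' : ∀ l i, Continuous fun p => A' p l i := by
    rintro l (⟨a, i⟩ | i | a)
    · simp only [A', percAmp]; fun_prop
    · exact hS l
    · exact hC l a
  let N₁ : Nest (PIdx M (Fin (N + m) × Fin n)) :=
    percNest K (fun _ _ => 0) (fun _ _ => 0) (fun _ _ => 0)
  let N₂ : Nest (PIdx M (Fin N × Fin n)) :=
    percNest K (fun _ _ => 0) (fun _ _ => 0) (fun _ _ => 0)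
  have g1 : N₁.Good := percNest_good hφ hs _ _ _ _ _
  have g2 : N₂.Good := percNest_good hφ hs' _ _ _ _ _
  have hL := perc_good hφ hs M
  have hL' := perc_good hφ hs' M
  have o1 : ∀ (S : Finset (PIdx M (Fin (N + m) × Fin n))) (D : ℝ) (l : ℕ), l ≤ K + 1 →
      Continuous fun p => (N₁.setAmp (A p)).ovl (percLeaf φ φ1 φ2 (blockSpin n (N + m)) M)
        (blockLaw n (N + m)) S D l := fun S D l hl =>
    (continuous_finsetSum _ fun i _ => continuous_sqGrad g1 hL (fun l _ i => hA l i) hl i).div_const _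
  have o2 : ∀ (S : Finset (PIdx M (Fin N × Fin n))) (D : ℝ) (l : ℕ), l ≤ K + 1 →
      Continuous fun p => (N₂.setAmp (A' p)).ovl (percLeaf φ φ1 φ2 (blockSpin n N) M)
        (blockLaw n N) S D l := fun S D l hl =>
    (continuous_finsetSum _ fun i _ =>
      continuous_sqGrad g2 hL' (fun l _ i => hA' l i) hl i).div_const _
  refine ((continuous_finsetSum _ fun l hl => ?_).add
    (continuous_finsetSum _ fun l hl => ?_)).add (continuous_finsetSum _ fun l hl => ?_)
  · have hl' : l ≤ K + 1 := by have := mem_range.1 hl; omega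
    exact (continuous_heatDev g1 hL (fun l _ i => hA l i) hl' _ _).add
      (continuous_heatDev g1 hL (fun l _ i => hA l i) hl' _ _)
  · have hl' : l ≤ K + 1 := by have := mem_range.1 hl; omega
    exact ((o1 _ _ l hl').sub (o2 _ _ (min l K) (by omega))).abs
  · have hl' : l ≤ K + 1 := by have := mem_range.1 hl; omega
    exact ((o1 _ _ l hl').sub (o2 _ _ (min l K) (by omega))).abs

/-- One cavity step. -/
theorem cav_pointwise (hφ : PhiGood φ φ1 φ2 B) {n N m : ℕ} (hn : 0 < n) (hN : 0 < N) (hm : 0 < m)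
    {K : ℕ} {σ : ℕ → ℝ} {η ρ : ℝ} (hP : LowerParams K σ η ρ) {σ₀ : ℝ} (hσ₀ : 0 < σ₀)
    (hσ : ∀ l ≤ K, σ₀ ≤ σ l) {M : ℕ} {a Γ : ℝ} (hM : (M : ℝ) ≤ a * ((n : ℝ) * ((N : ℝ) + m)))
    (hΓ : Γ = max (max B 1) (B ^ 2 * a)) {e : ℕ → ℝ} (he : e (K + 1) = 0)
    {hg qg : ℕ → ℝ} (hh : IsPath hg) (hhK : hg K ≤ Γ) (hq : IsPath qg) (hq1 : qg K ≤ 1)
    {v : Box K → ℝ} (hv : InBox v) {ζ : ℝ}
    (hζq : ∀ l ≤ K, |qg l - qRef φ φ1 φ2 n N K M σ η ρ v l| ≤ ζ)
    (hζh : ∀ l < K, |hg l - hRef φ φ1 φ2 n N m K M σ η ρ v l| ≤ ζ) :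
    |cavFree φ φ1 φ2 n N m K M σ η ρ e hg v - refFree φ φ1 φ2 n N K M σ η ρ v -
        ((n : ℝ) * m) * cavVal n K e hg qg| ≤
      ((n : ℝ) * m) * (Γ * (pinDet K 1 σ₀ ((n : ℝ) * N) +
          pinDet K Γ η ((n : ℝ) * ((N : ℝ) + m)) + 3 * ζ + 2 * Γ / ((K : ℝ) + 1)) +
        20 * Γ ^ 2 * ∫ t in (0 : ℝ)..1, cavRand φ φ1 φ2 n N m K M σ η ρ e hg t v) := by
  have := blockLaw_prob (N := N + m) hn
  obtain ⟨hs, -, -⟩ := blockSpin_sys (n := n) (N := N + m) hn
  have hid := cavity_identity hφ hn hN hm K M (boxS K σ ρ v) e he hh hq hq1 (boxC K η ρ v)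
    hM hσ₀ hP.η_pos
    (fun l _ hl => (hσ l hl).trans (boxS_bounds hP hv l hl).1)
    (fun l _ hl => by
      obtain ⟨z, hz, hzb⟩ := boxC_bounds hP hv (M := M) l hl
      exact ⟨z, hz.1, hzb⟩)
  refine le_trans hid (mul_le_mul_of_nonneg_left ?_ (by positivity))
  set L := percLeaf φ φ1 φ2 (blockSpin n (N + m)) M
  set D' : ℝ := (n : ℝ) * ((N : ℝ) + m) with hD'
  have hD'pos : 0 < D' := by positivity
  have hΓ1 : 1 ≤ Γ := hΓ ▸ le_max_of_le_left (le_max_right _ _)
  have hR := (continuous_cavRand hφ hn N m K M σ η ρ e hg).comp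
    (continuous_id.prodMk (continuous_const (y := v)))
  have hR' : IntervalIntegrable (fun t => cavRand φ φ1 φ2 n N m K M σ η ρ e hg t v) volume 0 1 :=
    hR.intervalIntegrable _ _
  have hL := perc_good hφ hs M
  have hc : Continuous fun t => cavErr φ φ1 φ2 B n N m K M (boxS K σ ρ v) e hg qg
      (boxC K η ρ v) a σ₀ η t := by
    unfold cavErr
    simp only [pinErr_eq, ovlDist]
    let A : ℝ → ℕ → PIdx M (Fin (N + m) × Fin n) → ℝ := fun t =>
      percAmp (cavG n N m M t) (cavS n N m K (boxS K σ ρ v) e hg t) (boxC K η ρ v)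
    have hA : ∀ l i, Continuous fun t => A t l i := by
      rintro l (⟨b, i⟩ | i | b)
      · simp only [A, percAmp, cavG]
        split_ifs <;> fun_prop
      · simp only [A, percAmp, cavS]
        split_ifs <;> fun_prop
      · simp only [A, percAmp]; fun_prop
    let N₁ : Nest (PIdx M (Fin (N + m) × Fin n)) :=
      percNest K (fun _ _ => 0) (fun _ _ => 0) (fun _ _ => 0)
    have g1 : N₁.Good := percNest_good hφ hs _ _ _ _ _
    have o : ∀ (S : Finset (PIdx M (Fin (N + m) × Fin n))) (D : ℝ) (l : ℕ), l ≤ K + 1 →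
        Continuous fun t => (N₁.setAmp (A t)).ovl L (blockLaw n (N + m)) S D l := fun S D l hl =>
      (continuous_finsetSum _ fun i _ =>
        continuous_sqGrad g1 hL (fun l _ i => hA l i) hl i).div_const _
    have hdev : ∀ (S : Finset (PIdx M (Fin (N + m) × Fin n))) (D : ℝ),
        Continuous fun t => ∑ l ∈ range K,
          (N₁.setAmp (A t)).heatDev L (blockLaw n (N + m)) S D l := fun S D =>
      continuous_finsetSum _ fun l hl => continuous_heatDev g1 hL (fun l _ i => hA l i)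
          (show l ≤ K + 1 by have := mem_range.1 hl; omega) _ _
    have hdist : ∀ (S : Finset (PIdx M (Fin (N + m) × Fin n))) (D : ℝ) (q : ℕ → ℝ),
        Continuous fun t => ∑ l ∈ range (K + 1), (N₁.setAmp (A t)).w l *
          |(N₁.setAmp (A t)).ovl L (blockLaw n (N + m)) S D l - q l| := fun S D q =>
      continuous_finsetSum _ fun l hl => (continuous_const (y := N₁.w l)).mul
        ((o S D l (by have := mem_range.1 hl; omega)).sub continuous_const).abs
    exact continuous_const.mul ((((continuous_const.add (continuous_const.mul (hdev _ _))).add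
      (continuous_const.add (continuous_const.mul (hdev _ _)))).add (hdist _ _ _)).add
      (continuous_const.mul (hdist _ _ _)))
  have hb : ∀ t, cavErr φ φ1 φ2 B n N m K M (boxS K σ ρ v) e hg qg (boxC K η ρ v) a σ₀ η t ≤
      Γ * (pinDet K 1 σ₀ ((n : ℝ) * N) + pinDet K Γ η D' + 3 * ζ + 2 * Γ / ((K : ℝ) + 1)) +
        20 * Γ ^ 2 * cavRand φ φ1 φ2 n N m K M σ η ρ e hg t v := by
    intro t
    unfold cavErr cavRand
    simp only [pinErr_eq, ovlDist, ← hΓ]
    change Γ * _ ≤ _
    set Ns := cavBox n N m K M σ η ρ e hg t v with hNs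
    have hNs' : cavNest n N m K M (boxS K σ ρ v) e hg (boxC K η ρ v) t = Ns := rfl
    rw [hNs']
    have hw : ∀ l ≤ K, Ns.w l = 1 / ((K : ℝ) + 1) := fun l hl => percNest_w K _ _ _ hl
    have hK1 : 1 / ((K : ℝ) + 1) ≤ 1 := by
      rw [div_le_one (by positivity)]; linarith [Nat.cast_nonneg (α := ℝ) K]
    have hgood : Ns.Good := percNest_good hφ hs _ _ _ _ _
    have hdev0 : ∀ S D, ∀ l ∈ range K, 0 ≤ Ns.heatDev L (blockLaw n (N + m)) S D l := by
      intro S D l hl
      have hlK : l ≤ Ns.K := show l ≤ K + 1 by have := mem_range.1 hl; omega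
      have hh : Tame (fun y => |Ns.heatSum L (blockLaw n (N + m)) S D l y -
          Ns.mean (L.logZ (blockLaw n (N + m))) l (Ns.heatSum L (blockLaw n (N + m)) S D l)|) := by
        classical
        have hs0 : ∀ U : Finset (PIdx M (Fin (N + m) × Fin n)),
            Tame (fun y => ∑ i ∈ U, Ns.heat L (blockLaw n (N + m)) l i y) := fun U => by
          induction U using Finset.induction with
          | empty => simpa using tame_const 0
          | insert b U hb ih => simpa [sum_insert hb] using (heat_tame hgood hL hlK b).add' ih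
        obtain ⟨hc0, C, k, hb0⟩ := hs0 S
        set cst := Ns.mean (L.logZ (blockLaw n (N + m))) l (Ns.heatSum L (blockLaw n (N + m)) S D l)
        have hdiv : Tame (fun y => Ns.heatSum L (blockLaw n (N + m)) S D l y) := by
          refine ⟨hc0.div_const _, C / |D|, k, fun y => ?_⟩
          change |(∑ i ∈ S, Ns.heat L (blockLaw n (N + m)) l i y) / D| ≤ _
          rw [abs_div, div_mul_eq_mul_div]
          exact div_le_div_of_nonneg_right (hb0 y) (abs_nonneg _)
        obtain ⟨hc1, C1, k1, hb1⟩ := hdiv.add' (tame_const (-cst))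
        exact ⟨by simpa [sub_eq_add_neg] using hc1.abs, C1, k1, fun y => by
          simpa [sub_eq_add_neg] using hb1 y⟩
      have := mean_mono hgood hL (μ := blockLaw n (N + m)) hlK (tame_const 0) hh
        (fun y => abs_nonneg _)
      rwa [mean_const hgood hL hlK] at this
    have dY := sum_nonneg (hdev0 (oldSet n N m M) ((n : ℝ) * N))
    have dC := sum_nonneg (hdev0 (cSet M) D')
    have hsplit : ∀ (O : ℕ → ℝ) (g R : ℕ → ℝ), (∀ l ≤ K, |g l - R l| ≤ ζ) →
        ∑ l ∈ range (K + 1), Ns.w l * |O l - g l| ≤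
          (∑ l ∈ range (K + 1), |O l - R l|) + ζ := by
      intro O g R hgR
      refine (sum_le_sum (g := fun l => |O l - R l| + ζ / ((K : ℝ) + 1)) fun l hl => ?_).trans ?_
      · have hlK := Nat.lt_succ_iff.1 (mem_range.1 hl)
        rw [hw l hlK]
        have h1 := abs_sub_le (O l) (R l) (g l)
        have h2 := hgR l hlK
        rw [abs_sub_comm] at h2
        calc 1 / ((K : ℝ) + 1) * |O l - g l| ≤ 1 / ((K : ℝ) + 1) * (|O l - R l| + ζ) :=
              mul_le_mul_of_nonneg_left (by linarith) (by positivity)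
          _ = 1 / ((K : ℝ) + 1) * |O l - R l| + ζ / ((K : ℝ) + 1) := by ring
          _ ≤ 1 * |O l - R l| + ζ / ((K : ℝ) + 1) := by gcongr
          _ = _ := by rw [one_mul]
      · rw [sum_add_distrib, sum_const, card_range, nsmul_eq_mul, Nat.cast_add, Nat.cast_one]
        rw [mul_div_cancel₀ _ (by positivity)]
    have oY := hsplit (fun l => Ns.ovl L (blockLaw n (N + m)) (oldSet n N m M) ((n : ℝ) * N) l) qg
      (qRef φ φ1 φ2 n N K M σ η ρ v) hζq
    have oC : ∑ l ∈ range (K + 1), Ns.w l * |Ns.ovl L (blockLaw n (N + m)) (cSet M) D' l - hg l| ≤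
        (∑ l ∈ range K, |Ns.ovl L (blockLaw n (N + m)) (cSet M) D' l -
          hRef φ φ1 φ2 n N m K M σ η ρ v l|) + ζ + Γ / ((K : ℝ) + 1) := by
      have hζ0 : 0 ≤ ζ := (abs_nonneg _).trans (hζq 0 (Nat.zero_le _))
      rw [sum_range_succ]
      have hlast : Ns.w K * |Ns.ovl L (blockLaw n (N + m)) (cSet M) D' K - hg K| ≤
          Γ / ((K : ℝ) + 1) := by
        have hT : ∀ ω y, ∑ i ∈ cSet M (δ := Fin (N + m) × Fin n), L.vec i ω y ^ 2 ≤
            B ^ 2 * M := by
          intro ω y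
          rw [cSet, sum_image (by intro x _ y _ h; simpa using h)]
          refine (sum_le_sum fun b _ => (weight_c hφ (blockSpin n (N + m)) M b ω y).2).trans ?_
          simp [mul_comm]
        obtain ⟨hp, hpb⟩ := ovl_isPath hgood hL (μ := blockLaw n (N + m)) (cSet M) hD'pos hT
          (K := K) (show K ≤ K + 1 by omega)
        have h1 := hpb K
        have h0 := hp.2.trans (hp.1 (Nat.zero_le K))
        simp only [min_self] at h1 h0
        have hΓ' : B ^ 2 * M / D' ≤ Γ := by
          rw [div_le_iff₀ hD'pos]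
          have hB2a : B ^ 2 * a ≤ Γ := hΓ ▸ le_max_right _ _
          calc B ^ 2 * (M : ℝ) ≤ B ^ 2 * (a * D') := mul_le_mul_of_nonneg_left hM (sq_nonneg B)
            _ = B ^ 2 * a * D' := by ring
            _ ≤ Γ * D' := mul_le_mul_of_nonneg_right hB2a hD'pos.le
        have h2 : |Ns.ovl L (blockLaw n (N + m)) (cSet M) D' K - hg K| ≤ Γ := by
          have hg0 := hh.2.trans (hh.1 (Nat.zero_le K))
          rw [abs_le]; constructor <;> linarith
        rw [hw K le_rfl, one_div_mul_eq_div]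
        exact div_le_div_of_nonneg_right h2 (by positivity)
      have hrest : ∑ l ∈ range K, Ns.w l *
          |Ns.ovl L (blockLaw n (N + m)) (cSet M) D' l - hg l| ≤
          (∑ l ∈ range K, |Ns.ovl L (blockLaw n (N + m)) (cSet M) D' l -
            hRef φ φ1 φ2 n N m K M σ η ρ v l|) + ζ := by
        refine (sum_le_sum (g := fun l => |Ns.ovl L (blockLaw n (N + m)) (cSet M) D' l -
          hRef φ φ1 φ2 n N m K M σ η ρ v l| + ζ / ((K : ℝ) + 1)) fun l hl => ?_).trans ?_
        · have hlK := mem_range.1 hl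
          rw [hw l hlK.le]
          set O := Ns.ovl L (blockLaw n (N + m)) (cSet M) D' l
          set R := hRef φ φ1 φ2 n N m K M σ η ρ v l
          have h1 := abs_sub_le O R (hg l)
          have h2 := hζh l hlK
          rw [abs_sub_comm] at h2
          calc 1 / ((K : ℝ) + 1) * |O - hg l| ≤ 1 / ((K : ℝ) + 1) * (|O - R| + ζ) :=
                mul_le_mul_of_nonneg_left (by linarith) (by positivity)
            _ = 1 / ((K : ℝ) + 1) * |O - R| + ζ / ((K : ℝ) + 1) := by ring
            _ ≤ 1 * |O - R| + ζ / ((K : ℝ) + 1) := by gcongr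
            _ = _ := by rw [one_mul]
        · rw [sum_add_distrib, sum_const, card_range, nsmul_eq_mul]
          have : (K : ℝ) * (ζ / ((K : ℝ) + 1)) ≤ ζ := by
            rw [mul_div_assoc', div_le_iff₀ (by positivity)]
            nlinarith
          linarith
      linarith
    rw [sum_add_distrib]
    set SY := ∑ l ∈ range K, Ns.heatDev L (blockLaw n (N + m)) (oldSet n N m M) ((n : ℝ) * N) l
    set SC := ∑ l ∈ range K, Ns.heatDev L (blockLaw n (N + m)) (cSet M) D' l
    set OY := ∑ l ∈ range (K + 1), |Ns.ovl L (blockLaw n (N + m)) (oldSet n N m M) ((n : ℝ) * N) l -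
      qRef φ φ1 φ2 n N K M σ η ρ v l|
    set OC := ∑ l ∈ range K, |Ns.ovl L (blockLaw n (N + m)) (cSet M) D' l -
      hRef φ φ1 φ2 n N m K M σ η ρ v l|
    have nY : 0 ≤ OY := sum_nonneg fun l _ => abs_nonneg _
    have nC : 0 ≤ OC := sum_nonneg fun l _ => abs_nonneg _
    have e2 : 2 * Γ / ((K : ℝ) + 1) = 2 * (Γ / ((K : ℝ) + 1)) := by ring
    rw [show 20 * Γ ^ 2 * (SY + SC + OY + OC) = Γ * (20 * Γ * (SY + SC + OY + OC)) by ring,
      ← mul_add]
    refine mul_le_mul_of_nonneg_left ?_ (by linarith)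
    have := mul_le_mul_of_nonneg_right hΓ1 dY
    have := mul_le_mul_of_nonneg_right hΓ1 nY
    have := mul_le_mul_of_nonneg_right hΓ1 nC
    linarith
  calc _ ≤ ∫ t in (0 : ℝ)..1,
        (Γ * (pinDet K 1 σ₀ ((n : ℝ) * N) + pinDet K Γ η D' + 3 * ζ + 2 * Γ / ((K : ℝ) + 1)) +
          20 * Γ ^ 2 * cavRand φ φ1 φ2 n N m K M σ η ρ e hg t v) :=
      intervalIntegral.integral_mono zero_le_one (hc.intervalIntegrable _ _)
        (intervalIntegrable_const.add (hR'.const_mul _)) hb
    _ = _ := by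
      rw [intervalIntegral.integral_add intervalIntegrable_const (hR'.const_mul _),
        intervalIntegral.integral_const, intervalIntegral.integral_const_mul]
      simp

end Vale.Agent.P157.Parisi
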