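import Vale.Agent.P157.Parisi.Defs

/-!
Quantities attached to a set of coordinates of a hierarchy.
-/

namespace Vale.Agent.P157.Parisi

open MeasureTheory ProbabilityTheory Finset

variable {ι : Type} [Fintype ι] {Ω κ : Type} [Fintype κ] [MeasurableSpace Ω]

/-- A continuous function of exponential growth. -/
def Tame (f : (ι → ℝ) → ℝ) : Prop :=
  Continuous f ∧ ∃ C k : ℝ, ∀ y, |f y| ≤ C * Real.exp (k * ∑ i, |y i|)

/-- A bounded observable, continuous in the state. -/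
def Obs (f : Ω → (ι → ℝ) → ℝ) : Prop :=
  (∀ y, Measurable fun ω => f ω y) ∧ (∀ ω, Continuous (f ω)) ∧ ∃ C : ℝ, ∀ ω y, |f ω y| ≤ C

/-- The lower bound `-Λ` for the curvature of the Hamiltonian on `S`. -/
def Leaf.CurvLower (L : Leaf Ω κ ι) (S : Finset ι) (Λ : ℝ) : Prop :=
  0 ≤ Λ ∧ ∀ ω y (v : ι → ℝ), (∀ i ∉ S, v i = 0) →
    -(Λ * ∑ i ∈ S, v i ^ 2) ≤ ∑ j, L.φ2 j (L.loc ω y j) * (∑ i, L.a ω j i * v i) ^ 2

/-- The node covariance of the gradient of the Hamiltonian. -/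
noncomputable def Nest.cov (N : Nest ι) (L : Leaf Ω κ ι) (μ : Measure Ω) (l : ℕ) (i k : ι)
    (y : ι → ℝ) : ℝ :=
  N.node L μ l (fun ω y' => L.vec i ω y' * L.vec k ω y') y - N.grad L μ l i y * N.grad L μ l k y

/-- Frobenius norm of the node covariance on `S`. -/
noncomputable def Nest.covNorm (N : Nest ι) (L : Leaf Ω κ ι) (μ : Measure Ω) (S : Finset ι)
    (l : ℕ) (y : ι → ℝ) : ℝ :=
  Real.sqrt (∑ i ∈ S, ∑ k ∈ S, N.cov L μ l i k y ^ 2)

/-- The squared gradient on `S`. -/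
noncomputable def Nest.sqSum (N : Nest ι) (L : Leaf Ω κ ι) (μ : Measure Ω) (S : Finset ι)
    (l : ℕ) (y : ι → ℝ) : ℝ :=
  ∑ i ∈ S, N.grad L μ l i y ^ 2

/-- The conditional increase of the squared gradient from level `l` to level `l + 1`. -/
noncomputable def Nest.gap (N : Nest ι) (L : Leaf Ω κ ι) (μ : Measure Ω) (S : Finset ι)
    (l : ℕ) (y : ι → ℝ) : ℝ :=
  N.avg (L.logZ μ) l (N.sqSum L μ S (l + 1)) y - N.sqSum L μ S l y

/-- The normalised overlap of level `l`. -/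
noncomputable def Nest.ovl (N : Nest ι) (L : Leaf Ω κ ι) (μ : Measure Ω) (S : Finset ι) (D : ℝ)
    (l : ℕ) : ℝ :=
  (∑ i ∈ S, N.sqGrad L μ l i) / D

/-- The normalised heat quantity of `S`. -/
noncomputable def Nest.heatSum (N : Nest ι) (L : Leaf Ω κ ι) (μ : Measure Ω) (S : Finset ι)
    (D : ℝ) (l : ℕ) (y : ι → ℝ) : ℝ :=
  (∑ i ∈ S, N.heat L μ l i y) / D

/-- Its mean absolute deviation. -/
noncomputable def Nest.heatDev (N : Nest ι) (L : Leaf Ω κ ι) (μ : Measure Ω) (S : Finset ι)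
    (D : ℝ) (l : ℕ) : ℝ :=
  N.mean (L.logZ μ) l fun y =>
    |N.heatSum L μ S D l y - N.mean (L.logZ μ) l (N.heatSum L μ S D l)|

/-- The hierarchy with the amplitude of level `l` on `S` replaced by `s`. -/
def Nest.withAmp [DecidableEq ι] (N : Nest ι) (S : Finset ι) (l : ℕ) (s : ℝ) : Nest ι :=
  { N with amp := fun m i => if m = l ∧ i ∈ S then s else N.amp m i }

/-- The hierarchy with another family of amplitudes. -/
def Nest.setAmp (N : Nest ι) (A : ℕ → ι → ℝ) : Nest ι := { N with amp := A }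

end Vale.Agent.P157.Parisi
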