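import Vale.Agent.P157.Parisi.Model
import Vale.Agent.P157.Parisi.Quant
import Vale.Agent.P157.Parisi.BoxAvg
import Vale.Agent.P157.Parisi.Increments

/-!
The randomised systems of the lower bound.
-/

namespace Vale.Agent.P157.Parisi

open MeasureTheory ProbabilityTheory Finset

/-- The coordinates of the box: one per level for the two kinds of fields. -/
abbrev Box (K : ℕ) := Fin (K + 1) ⊕ Fin (K + 1)

/-- The centre amplitudes, cut at level `K`. -/
def cutAmp (K : ℕ) (σ : ℕ → ℝ) (l : ℕ) : ℝ := if l ≤ K then σ l else 0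

/-- Configuration amplitudes at a point of the box. -/
def boxS (K : ℕ) (σ : ℕ → ℝ) (ρ : ℝ) (v : Box K → ℝ) (l : ℕ) : ℝ :=
  if h : l ≤ K then σ l + σ l * ρ * v (Sum.inl ⟨l, Nat.lt_succ_of_le h⟩) else 0

/-- Pattern amplitudes at a point of the box. -/
def boxC (K : ℕ) (η ρ : ℝ) (v : Box K → ℝ) {M : ℕ} (l : ℕ) : Fin M → ℝ := fun _ =>
  if h : l ≤ K then η + η * ρ * v (Sum.inr ⟨l, Nat.lt_succ_of_le h⟩) else 0

/-- The reference system. -/
noncomputable def refNest (n N K M : ℕ) (σ : ℕ → ℝ) (η ρ : ℝ) (v : Box K → ℝ) :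
    Nest (PIdx M (Fin N × Fin n)) :=
  percNest K (unifG n N M) (fun l _ => boxS K σ ρ v l) (boxC K η ρ v)

/-- Its free energy. -/
noncomputable def refFree (φ φ1 φ2 : ℝ → ℝ) (n N K M : ℕ) (σ : ℕ → ℝ) (η ρ : ℝ)
    (v : Box K → ℝ) : ℝ :=
  (refNest n N K M σ η ρ v).free (percLeaf φ φ1 φ2 (blockSpin n N) M) (blockLaw n N)

/-- The configuration overlaps of the reference system. -/
noncomputable def qRef (φ φ1 φ2 : ℝ → ℝ) (n N K M : ℕ) (σ : ℕ → ℝ) (η ρ : ℝ) (v : Box K → ℝ)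
    (l : ℕ) : ℝ :=
  (refNest n N K M σ η ρ v).ovl (percLeaf φ φ1 φ2 (blockSpin n N) M) (blockLaw n N)
    (ySet M univ) ((n : ℝ) * N) (min l K)

/-- The pattern overlaps of the reference system, normalised for `m` more blocks. -/
noncomputable def hRef (φ φ1 φ2 : ℝ → ℝ) (n N m K M : ℕ) (σ : ℕ → ℝ) (η ρ : ℝ) (v : Box K → ℝ)
    (l : ℕ) : ℝ :=
  (refNest n N K M σ η ρ v).ovl (percLeaf φ φ1 φ2 (blockSpin n N) M) (blockLaw n N)
    (cSet M) ((n : ℝ) * ((N : ℝ) + m)) (min l K)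

/-- The insertion system. -/
noncomputable def insNest (n N K M : ℕ) (σ : ℕ → ℝ) (η ρ : ℝ) (q : ℕ → ℝ) (t : ℝ)
    (v : Box K → ℝ) : Nest (PIdx (M + 1) (Fin N × Fin n)) :=
  percNest K (insG M (unifG n N M) t) (fun l _ => boxS K σ ρ v l)
    (insC K M (boxC K η ρ v) (cutAmp K fun _ => η) q t)

/-- The cavity system with own field `e` of the new blocks. -/
noncomputable def cavBox (n N m K M : ℕ) (σ : ℕ → ℝ) (η ρ : ℝ) (e h : ℕ → ℝ) (t : ℝ)
    (v : Box K → ℝ) : Nest (PIdx M (Fin (N + m) × Fin n)) :=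
  cavNest n N m K M (boxS K σ ρ v) e h (boxC K η ρ v) t

/-- The parameters of the lower bound. -/
structure LowerParams (K : ℕ) (σ : ℕ → ℝ) (η ρ : ℝ) : Prop where
  σ_pos : ∀ l ≤ K, 0 < σ l
  η_pos : 0 < η
  ρ_pos : 0 < ρ
  ρ_le : ρ ≤ 1

end Vale.Agent.P157.Parisi
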