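import Vale.Agent.P157.Parisi.CalcAmp

/-!
Lipschitz dependence of the free energy on the variances of a group of coordinates.
-/

namespace Vale.Agent.P157.Parisi

open MeasureTheory ProbabilityTheory Finset

set_option linter.unusedSectionVars false

variable {ι : Type} [Fintype ι] {Ω κ : Type} [Fintype κ] [MeasurableSpace Ω]

lemma free_congr_amp (N : Nest ι) (L : Leaf Ω κ ι) (μ : Measure Ω) (B₁ B₂ : ℕ → ι → ℝ)
    (h : ∀ l ≤ N.K, ∀ i, B₁ l i = B₂ l i) :
    (N.setAmp B₁).free L μ = (N.setAmp B₂).free L μ := by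
  have hu : ∀ d, (N.setAmp B₁).uUp (L.logZ μ) d = (N.setAmp B₂).uUp (L.logZ μ) d := by
    intro d
    induction d with
    | zero => rfl
    | succ d ih =>
      simp only [Nest.uUp]
      rw [ih]
      simp only [Nest.setAmp]
      rw [show B₁ (N.K - d) = B₂ (N.K - d) from funext fun i => h _ (Nat.sub_le _ _) i]
  simp only [Nest.free, Nest.mean, Nest.u, Nest.setAmp] at hu ⊢
  rw [hu, show B₁ 0 = B₂ 0 from funext fun i => h 0 (Nat.zero_le _) i]

lemma Nest.good_setAmp {N : Nest ι} (hN : N.Good) (A : ℕ → ι → ℝ) : (N.setAmp A).Good :=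
  ⟨hN.x_zero, hN.x_last, hN.x_pos, hN.x_mono⟩

lemma Nest.w_nonneg {N : Nest ι} (hN : N.Good) {l : ℕ} (hl : l ≤ N.K) : 0 ≤ N.w l :=
  sub_nonneg.2 (hN.x_mono l hl)

lemma Nest.x_nonneg {N : Nest ι} (hN : N.Good) {l : ℕ} (hl : l ≤ N.K + 1) : 0 ≤ N.x l := by
  rcases Nat.eq_zero_or_pos l with rfl | h
  · exact hN.x_zero.ge
  rcases Nat.lt_or_ge N.K l with h' | h'
  · rw [show l = N.K + 1 by omega, hN.x_last]; exact zero_le_one
  · exact (hN.x_pos l h h').le

lemma Nest.sum_w_Icc_le {N : Nest ι} (hN : N.Good) {l : ℕ} (hl : l ≤ N.K + 1) :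
    ∑ m ∈ Icc l N.K, N.w m ≤ 1 := by
  have : ∀ d, l + d ≤ N.K + 1 → ∑ m ∈ Ico l (l + d), N.w m = N.x (l + d) - N.x l := by
    intro d hd
    induction d with
    | zero => simp
    | succ d ih =>
      rw [← add_assoc, sum_Ico_succ_top (Nat.le_add_right _ _), ih (by omega), Nest.w]
      ring
  have h := this (N.K + 1 - l) (by omega)
  rw [Nat.add_sub_cancel' hl, hN.x_last] at h
  rw [← Finset.Ico_succ_right_eq_Icc, Order.succ_eq_add_one, h]
  linarith [Nest.x_nonneg hN hl]

variable {N : Nest ι} {L : Leaf Ω κ ι} {μ : Measure Ω} [IsProbabilityMeasure μ] {B : ℝ}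

lemma obs_vec_mul (hN : N.Good) (hL : L.Good B) (i k : ι) :
    Obs (fun ω y => L.vec i ω y * L.vec k ω y) := by
  obtain ⟨m1, c1, C1, b1⟩ := vec_obs hN hL i
  obtain ⟨m2, c2, C2, b2⟩ := vec_obs hN hL k
  exact ⟨fun y => (m1 y).mul (m2 y), fun ω => (c1 ω).mul (c2 ω), |C1| * |C2|, fun ω y => by
    rw [abs_mul]
    exact mul_le_mul ((b1 ω y).trans (le_abs_self _)) ((b2 ω y).trans (le_abs_self _))
      (abs_nonneg _) (abs_nonneg _)⟩

lemma Obs.const_mul {f : Ω → (ι → ℝ) → ℝ} (hf : Obs f) (c : ℝ) :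
    Obs (fun ω y => c * f ω y) := by
  obtain ⟨m1, c1, C1, b1⟩ := hf
  exact ⟨fun y => (m1 y).const_mul c, fun ω => continuous_const.mul (c1 ω), |c| * C1, fun ω y => by
    rw [abs_mul]; exact mul_le_mul_of_nonneg_left (b1 ω y) (abs_nonneg c)⟩

lemma grad_sq_le_node (hN : N.Good) (hL : L.Good B) {l : ℕ} (hl : l ≤ N.K) (i : ι) (y : ι → ℝ) :
    N.grad L μ l i y ^ 2 ≤ N.node L μ l (fun ω v => L.vec i ω v * L.vec i ω v) y := by
  set c := N.grad L μ l i y with hc
  have h := node_mono hN hL (μ := μ) hl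
    (f := fun ω v => 2 * c * L.vec i ω v + -(c ^ 2))
    (g := fun ω v => L.vec i ω v * L.vec i ω v)
    (((vec_obs hN hL i).const_mul _).add (obs_const _))
    (obs_vec_mul hN hL i i) (fun ω v => by nlinarith [sq_nonneg (L.vec i ω v - c)]) y
  rw [node_add hN hL hl ((vec_obs hN hL i).const_mul _) (obs_const _),
    node_const_mul hN hL, node_const hN hL hl] at h
  change 2 * c * N.grad L μ l i y + -(c ^ 2) ≤ _ at h
  rw [← hc] at h
  linarith

lemma Leaf.gibbs_abs_le (hN : N.Good) (hL : L.Good B) {f g : Ω → (ι → ℝ) → ℝ} (hf : Obs f)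
    (hg : Obs g) (h : ∀ ω v, |f ω v| ≤ g ω v) (y : ι → ℝ) :
    |L.gibbs μ f y| ≤ L.gibbs μ g y := by
  have e := fun u => congrFun (node_top hN hL (μ := μ) (N := N) u) y
  rw [← e, ← e, abs_le]
  constructor
  · have := node_mono hN hL (μ := μ) (N := N) le_rfl (hg.const_mul (-1)) hf
      (fun ω v => by linarith [(abs_le.1 (h ω v)).1]) y
    rwa [node_const_mul hN hL, neg_one_mul] at this
  · exact node_mono hN hL le_rfl hf hg (fun ω v => (le_abs_self _).trans (h ω v)) y

/-- The curvature observable plus the squared gradient, on one coordinate. -/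
def Leaf.weight (L : Leaf Ω κ ι) (i : ι) (ω : Ω) (y : ι → ℝ) : ℝ :=
  |∑ j, L.φ2 j (L.loc ω y j) * L.a ω j i ^ 2| + L.vec i ω y ^ 2

lemma obs_curvDiag (hL : L.Good B) (i : ι) :
    Obs (fun ω y => ∑ j, L.φ2 j (L.loc ω y j) * L.a ω j i ^ 2) := by
  have hloc : ∀ j y, Measurable fun ω => L.loc ω y j := fun j y =>
    Finset.measurable_sum _ fun k _ => (hL.meas j k).mul_const _
  refine ⟨fun y => Finset.measurable_sum _ fun j _ =>
      ((hL.cont2 j).measurable.comp (hloc j y)).mul ((hL.meas j i).pow_const 2),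
    fun ω => continuous_finsetSum _ fun j _ => ?_, ∑ _j : κ, B * B ^ 2, fun ω y => ?_⟩
  · exact (((hL.cont2 j).comp (by unfold Leaf.loc; fun_prop)).mul continuous_const)
  · refine (abs_sum_le_sum_abs _ _).trans (sum_le_sum fun j _ => ?_)
    rw [abs_mul, abs_pow]
    exact mul_le_mul (hL.bound2 j _) (pow_le_pow_left₀ (abs_nonneg _) (hL.bound ω j i) 2)
      (by positivity) hL.nonneg

lemma obs_weight (hN : N.Good) (hL : L.Good B) (i : ι) : Obs (L.weight i) := by
  obtain ⟨m1, c1, C1, b1⟩ := obs_curvDiag hL i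
  have hA : Obs (fun ω y => |∑ j, L.φ2 j (L.loc ω y j) * L.a ω j i ^ 2|) :=
    ⟨fun y => (m1 y).abs, fun ω => (c1 ω).abs, C1, fun ω y => by rw [abs_abs]; exact b1 ω y⟩
  have hB := obs_vec_mul hN hL i i
  convert hA.add hB using 1
  funext ω y
  simp only [Leaf.weight, pow_two]

/-- On a group `S` whose curvature plus squared gradient is at most `T` in total, the free energy is
`T`-Lipschitz in the largest change of the variances at each level. -/
theorem free_group_lip (hN : N.Good) (hL : L.Good B) (S : Finset ι) {T : ℝ}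
    (hT : ∀ ω y, ∑ i ∈ S, L.weight i ω y ≤ T) (A₀ A₁ : ℕ → ι → ℝ) (δ : ℕ → ℝ)
    (h0 : ∀ l ≤ N.K, ∀ i, 0 ≤ A₀ l i) (h1 : ∀ l ≤ N.K, ∀ i, 0 ≤ A₁ l i)
    (hout : ∀ l ≤ N.K, ∀ i ∉ S, A₁ l i = A₀ l i)
    (hin : ∀ l ≤ N.K, ∀ i ∈ S, |A₁ l i ^ 2 - A₀ l i ^ 2| ≤ δ l) (hδ : ∀ l, 0 ≤ δ l) :
    |(N.setAmp A₁).free L μ - (N.setAmp A₀).free L μ| ≤ T * ∑ l ∈ range (N.K + 1), δ l := by
  set A : ℝ → ℕ → ι → ℝ := fun t l i => Real.sqrt ((1 - t) * A₀ l i ^ 2 + t * A₁ l i ^ 2) with hA
  set A' : ℝ → ℕ → ι → ℝ := fun t l i => (A₁ l i ^ 2 - A₀ l i ^ 2) / (2 * A t l i) with hA'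
  have hpos : ∀ t ∈ Set.Ioo (0 : ℝ) 1, ∀ l i,
      0 < (1 - t) * A₀ l i ^ 2 + t * A₁ l i ^ 2 ∨ (A₀ l i = 0 ∧ A₁ l i = 0) := by
    intro t ht l i
    by_cases e : A₀ l i = 0 ∧ A₁ l i = 0
    · exact .inr e
    left
    rcases not_and_or.1 e with e | e
    · have : 0 < A₀ l i ^ 2 := by positivity
      have := mul_pos (sub_pos.2 ht.2) this
      have := mul_nonneg ht.1.le (sq_nonneg (A₁ l i))
      linarith
    · have : 0 < A₁ l i ^ 2 := by positivity
      have := mul_pos ht.1 this
      have := mul_nonneg (sub_pos.2 ht.2).le (sq_nonneg (A₀ l i))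
      linarith
  have hder : ∀ t ∈ Set.Ioo (0 : ℝ) 1, ∀ l i, HasDerivAt (fun s => A s l i) (A' t l i) t := by
    intro t ht l i
    rcases hpos t ht l i with e | ⟨e0, e1⟩
    · have hd : HasDerivAt (fun s : ℝ => (1 - s) * A₀ l i ^ 2 + s * A₁ l i ^ 2)
          (A₁ l i ^ 2 - A₀ l i ^ 2) t := by
        have := (((hasDerivAt_id t).const_sub 1).mul_const (A₀ l i ^ 2)).add
          ((hasDerivAt_id t).mul_const (A₁ l i ^ 2))
        exact this.congr_deriv (by ring)
      exact hd.sqrt e.ne'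
    · simp only [hA, hA', e0, e1]
      simpa using hasDerivAt_const t (0 : ℝ)
  have hcontA : ∀ l, l ≤ N.K → ∀ i, Continuous fun t => A t l i := fun l _ i => by
    simp only [hA]; fun_prop
  have hcf := continuous_free hN hL (μ := μ) hcontA
  have hfd : ∀ t ∈ Set.Ioo (0 : ℝ) 1, ∃ D, HasDerivAt (fun t => (N.setAmp (A t)).free L μ) D t ∧
      |D| ≤ T * ∑ l ∈ range (N.K + 1), δ l := by
    intro t ht
    have hr : 0 < min t (1 - t) := lt_min ht.1 (sub_pos.2 ht.2)
    have hin' : ∀ u, |u - t| < min t (1 - t) → u ∈ Set.Ioo (0 : ℝ) 1 := fun u hu => by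
      obtain ⟨a, b⟩ := abs_lt.1 hu
      exact ⟨by linarith [min_le_left t (1 - t)], by linarith [min_le_right t (1 - t)]⟩
    have hd := free_deriv hN hL (μ := μ) (A := A) (A' := A') hr
      (fun l _ i u hu => hder u (hin' u hu) l i) (fun l hl i => ?_)
    swap
    · rcases hpos t ht l i with e | ⟨e0, e1⟩
      · exact (continuousAt_const.div ((hcontA l hl i).continuousAt.const_mul 2)
          (mul_ne_zero two_ne_zero (Real.sqrt_ne_zero'.2 e)))
      · simp only [hA', e0, e1]
        simpa using continuousAt_const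
    refine ⟨_, hd, ?_⟩
    set N' := N.setAmp (A t) with hN'
    have hg : N'.Good := Nest.good_setAmp hN _
    have hKN : N'.K = N.K := rfl
    have hwN : ∀ m, N.w m = N'.w m := fun m => rfl
    refine (abs_sum_le_sum_abs _ _).trans ?_
    rw [mul_sum]
    refine sum_le_sum fun l hl => ?_
    have hlK : l ≤ N.K := Nat.lt_succ_iff.1 (mem_range.1 hl)
    set P : ι → ℝ := fun i => N'.mean (L.logZ μ) N.K (L.gibbs μ (L.weight i)) with hP
    have hterm : ∀ i, |N'.heatTop L μ i - ∑ m ∈ Icc l N.K, N.w m * N'.sqGrad L μ m i| ≤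
        2 * P i := by
      intro i
      have ht1 : ∀ f, Obs f → Tame (L.gibbs μ f) := fun f hf => by
        have := node_tame hg hL (μ := μ) (l := N.K) le_rfl hf
        rwa [show N.K = N'.K from rfl, node_top hg hL] at this
      have o1 : Obs (fun ω v => (∑ j, L.φ2 j (L.loc ω v j) * L.a ω j i ^ 2) + L.vec i ω v ^ 2) := by
        have := (obs_curvDiag hL i).add (obs_vec_mul hg hL i i)
        simpa only [pow_two] using this
      have ow := obs_weight hg hL (N := N') i
      have b1 : ∀ y, |N'.heat L μ N.K i y| ≤ L.gibbs μ (L.weight i) y := fun y => by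
        rw [show N.K = N'.K from rfl, heat_top hg hL]
        refine Leaf.gibbs_abs_le hg hL o1 ow (fun ω v => ?_) y
        exact (abs_add_le _ _).trans (le_of_eq (by rw [Leaf.weight, abs_sq]))
      have ht2 : Tame (N'.heat L μ N.K i) := heat_tame hg hL (μ := μ) (l := N.K) le_rfl i
      have hP1 : |N'.heatTop L μ i| ≤ P i := by
        rw [abs_le, Nest.heatTop, hKN]
        constructor
        · have := mean_mono hg hL (μ := μ) (l := N.K) le_rfl
            (f := fun v => -1 * L.gibbs μ (L.weight i) v) (g := N'.heat L μ N.K i)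
            ⟨continuous_const.mul (ht1 _ ow).1, ?_⟩ ht2 (fun v => by linarith [abs_le.1 (b1 v)])
          · rwa [mean_const_mul hg hL, neg_one_mul] at this
          · obtain ⟨-, C, k, hb⟩ := ht1 _ ow
            exact ⟨C, k, fun y => by simpa using hb y⟩
        · exact mean_mono hg hL (μ := μ) (l := N.K) le_rfl ht2 (ht1 _ ow)
            (fun v => (le_abs_self _).trans (b1 v))
      have hsq : ∀ m ∈ Icc l N.K, 0 ≤ N'.sqGrad L μ m i ∧ N'.sqGrad L μ m i ≤ P i := by
        intro m hm
        have hmK : m ≤ N'.K := (mem_Icc.1 hm).2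
        have htsq : ∀ m, m ≤ N'.K → Tame (fun v => N'.grad L μ m i v ^ 2) := fun m hm => by
          obtain ⟨hc, C, k, hb⟩ := grad_tame hg hL (μ := μ) hm i
          refine ⟨hc.pow 2, C * C, k + k, fun y => ?_⟩
          rw [abs_pow, pow_two, add_mul, Real.exp_add, mul_mul_mul_comm]
          exact mul_le_mul (hb y) (hb y) (abs_nonneg _) ((abs_nonneg _).trans (hb y))
        refine ⟨?_, (sqGrad_mono hg hL hmK le_rfl i).trans ?_⟩
        · have := mean_mono hg hL (μ := μ) hmK (f := fun _ => (0 : ℝ))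
            (g := fun v => N'.grad L μ m i v ^ 2)
            ⟨continuous_const, 0, 0, fun y => by simp⟩ (htsq m hmK) (fun v => sq_nonneg _)
          rwa [mean_const hg hL hmK] at this
        · refine mean_mono hg hL (μ := μ) le_rfl (htsq _ le_rfl) (ht1 _ ow) fun v => ?_
          refine (grad_sq_le_node hg hL le_rfl i v).trans ?_
          rw [node_top hg hL]
          refine (le_abs_self _).trans (Leaf.gibbs_abs_le hg hL (obs_vec_mul hg hL i i) ow
            (fun ω u => ?_) v)
          rw [← pow_two, abs_sq, Leaf.weight]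
          linarith [abs_nonneg (∑ j, L.φ2 j (L.loc ω u j) * L.a ω j i ^ 2)]
      have hP0 : 0 ≤ P i := (abs_nonneg _).trans hP1
      have hsum0 : 0 ≤ ∑ m ∈ Icc l N.K, N.w m * N'.sqGrad L μ m i := sum_nonneg fun m hm =>
        mul_nonneg (Nest.w_nonneg hN (mem_Icc.1 hm).2) (hsq m hm).1
      have hsum1 : ∑ m ∈ Icc l N.K, N.w m * N'.sqGrad L μ m i ≤ P i := by
        calc ∑ m ∈ Icc l N.K, N.w m * N'.sqGrad L μ m i
            ≤ ∑ m ∈ Icc l N.K, N.w m * P i := sum_le_sum fun m hm =>
              mul_le_mul_of_nonneg_left (hsq m hm).2 (Nest.w_nonneg hN (mem_Icc.1 hm).2)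
          _ = (∑ m ∈ Icc l N.K, N.w m) * P i := (sum_mul _ _ _).symm
          _ ≤ 1 * P i := mul_le_mul_of_nonneg_right (Nest.sum_w_Icc_le hN (by omega)) hP0
          _ = P i := one_mul _
      rw [abs_le] at hP1 ⊢
      constructor <;> linarith
    have hmul : ∀ i, A' t l i * A t l i = (A₁ l i ^ 2 - A₀ l i ^ 2) / 2 := by
      intro i
      rcases hpos t ht l i with e | ⟨e0, e1⟩
      · have : A t l i ≠ 0 := Real.sqrt_ne_zero'.2 e
        simp only [hA']
        field_simp
      · simp [hA', e0, e1]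
    calc |∑ i, A' t l i * A t l i *
          (N'.heatTop L μ i - ∑ m ∈ Icc l N.K, N.w m * N'.sqGrad L μ m i)|
        ≤ ∑ i, |A' t l i * A t l i *
          (N'.heatTop L μ i - ∑ m ∈ Icc l N.K, N.w m * N'.sqGrad L μ m i)| := abs_sum_le_sum_abs _ _
      _ = ∑ i ∈ S, |A' t l i * A t l i *
          (N'.heatTop L μ i - ∑ m ∈ Icc l N.K, N.w m * N'.sqGrad L μ m i)| := by
          refine (sum_subset (subset_univ S) fun i _ hi => ?_).symm
          rw [hmul, hout l hlK i hi]; simp
      _ ≤ ∑ i ∈ S, δ l * P i := by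
          refine sum_le_sum fun i hi => ?_
          rw [abs_mul, hmul, abs_div, abs_two]
          have := mul_le_mul (div_le_div_of_nonneg_right (hin l hlK i hi) two_pos.le) (hterm i)
            (abs_nonneg _) (by linarith [abs_nonneg (A₁ l i ^ 2 - A₀ l i ^ 2), hin l hlK i hi])
          linarith
      _ ≤ T * δ l := by
          rw [← mul_sum, mul_comm T]
          refine mul_le_mul_of_nonneg_left ?_ (hδ l)
          have hkey : ∀ U : Finset ι, Obs (fun ω y => ∑ i ∈ U, L.weight i ω y) ∧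
              N'.mean (L.logZ μ) N.K (L.gibbs μ fun ω y => ∑ i ∈ U, L.weight i ω y) =
                ∑ i ∈ U, P i := by
            classical
            intro U
            induction U using Finset.induction with
            | empty =>
              simp only [sum_empty]
              refine ⟨obs_const 0, ?_⟩
              rw [show N.K = N'.K from rfl, ← node_top hg hL]
              have : N'.node L μ N'.K (fun _ _ => (0 : ℝ)) = fun _ => 0 :=
                funext (node_const hg hL le_rfl 0)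
              rw [this, mean_const hg hL le_rfl]
            | insert a U ha ih =>
              simp only [sum_insert ha]
              obtain ⟨oU, eU⟩ := ih
              have oa := obs_weight hg hL (N := N') a
              refine ⟨oa.add oU, ?_⟩
              have e : L.gibbs μ (fun ω y => L.weight a ω y + ∑ i ∈ U, L.weight i ω y) =
                  fun y => L.gibbs μ (L.weight a) y +
                    L.gibbs μ (fun ω y => ∑ i ∈ U, L.weight i ω y) y := by
                rw [← node_top hg hL, ← node_top hg hL, ← node_top hg hL]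
                exact funext (node_add hg hL le_rfl oa oU)
              have ht1 : ∀ f, Obs f → Tame (L.gibbs μ f) := fun f hf => by
                have := node_tame hg hL (μ := μ) (l := N'.K) le_rfl hf
                rwa [node_top hg hL] at this
              rw [e, ← eU, mean_add hg hL (le_of_eq hKN.symm) (ht1 _ oa) (ht1 _ oU)]
          obtain ⟨oS, eS⟩ := hkey S
          rw [← eS]
          have hc : N'.mean (L.logZ μ) N.K (L.gibbs μ fun _ _ => T) = T := by
            rw [show N.K = N'.K from rfl, ← node_top hg hL]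
            have : N'.node L μ N'.K (fun _ _ => T) = fun _ => T :=
              funext (node_const hg hL le_rfl T)
            rw [this, mean_const hg hL le_rfl]
          refine le_of_le_of_eq ?_ hc
          have ht1 : ∀ f, Obs f → Tame (L.gibbs μ f) := fun f hf => by
            have := node_tame hg hL (μ := μ) (l := N'.K) le_rfl hf
            rwa [node_top hg hL] at this
          refine mean_mono hg hL (le_of_eq hKN.symm) (ht1 _ oS) (ht1 _ (obs_const T)) fun v => ?_
          rw [← node_top hg hL, ← node_top hg hL]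
          exact node_mono hg hL le_rfl oS (obs_const T) hT v
  have hsmall : ∀ a ∈ Set.Ioo (0 : ℝ) 1, ∀ b ∈ Set.Ioo (0 : ℝ) 1, a < b →
      |(N.setAmp (A b)).free L μ - (N.setAmp (A a)).free L μ| ≤
        T * ∑ l ∈ range (N.K + 1), δ l := by
    intro a ha b hb hab
    choose! D hD using hfd
    obtain ⟨c, hc, hceq⟩ := exists_hasDerivAt_eq_slope (fun t => (N.setAmp (A t)).free L μ) D hab
      hcf.continuousOn (fun x hx => (hD x ⟨ha.1.trans hx.1, hx.2.trans hb.2⟩).1)
    have hcI : c ∈ Set.Ioo (0 : ℝ) 1 := ⟨ha.1.trans hc.1, hc.2.trans hb.2⟩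
    rw [eq_div_iff (sub_pos.2 hab).ne'] at hceq
    rw [← hceq, abs_mul, abs_of_pos (sub_pos.2 hab)]
    calc |D c| * (b - a) ≤ |D c| * 1 := mul_le_mul_of_nonneg_left
          (by linarith [ha.1, hb.2]) (abs_nonneg _)
      _ ≤ _ := by rw [mul_one]; exact (hD c hcI).2
  have h01 : ∀ l ≤ N.K, ∀ i, A 0 l i = A₀ l i ∧ A 1 l i = A₁ l i := fun l hl i => by
    simp [hA, Real.sqrt_sq (h0 l hl i), Real.sqrt_sq (h1 l hl i)]
  have hlim : Filter.Tendsto (fun n : ℕ => |(N.setAmp (A (1 - 1 / ((n : ℝ) + 3)))).free L μ -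
      (N.setAmp (A (1 / ((n : ℝ) + 3)))).free L μ|) Filter.atTop
      (nhds |(N.setAmp (A 1)).free L μ - (N.setAmp (A 0)).free L μ|) := by
    have t0 : Filter.Tendsto (fun n : ℕ => 1 / ((n : ℝ) + 3)) Filter.atTop (nhds 0) :=
      tendsto_const_nhds.div_atTop
        (Filter.tendsto_atTop_add_const_right _ _ tendsto_natCast_atTop_atTop)
    have t1 : Filter.Tendsto (fun n : ℕ => 1 - 1 / ((n : ℝ) + 3)) Filter.atTop (nhds 1) := by
      simpa using t0.const_sub 1
    exact (((hcf.tendsto 1).comp t1).sub ((hcf.tendsto 0).comp t0)).abs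
  have hres := le_of_tendsto hlim (Filter.Eventually.of_forall fun n => by
    have hn : (3 : ℝ) ≤ (n : ℝ) + 3 := by linarith [Nat.cast_nonneg (α := ℝ) n]
    have h3 : 1 / ((n : ℝ) + 3) ≤ 1 / 3 := one_div_le_one_div_of_le (by norm_num) hn
    have h4 : 0 < 1 / ((n : ℝ) + 3) := by positivity
    exact hsmall _ ⟨h4, by linarith⟩ _ ⟨by linarith, by linarith⟩ (by linarith))
  have e : ∀ (B₁ B₂ : ℕ → ι → ℝ), (∀ l ≤ N.K, ∀ i, B₁ l i = B₂ l i) →
      (N.setAmp B₁).free L μ = (N.setAmp B₂).free L μ :=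
    fun B₁ B₂ h => free_congr_amp N L μ B₁ B₂ h
  rwa [e (A 1) A₁ (fun l hl i => (h01 l hl i).2),
    e (A 0) A₀ (fun l hl i => (h01 l hl i).1)] at hres

end Vale.Agent.P157.Parisi
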