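import Vale.Agent.P157.Parisi.Cavity
import Vale.Agent.P157.Parisi.LowerLip
import Vale.Agent.P157.Parisi.LowerDefs

/-!
Bounds on overlaps and discretisation of paths, for the lower bound.
-/

namespace Vale.Agent.P157.Parisi

open MeasureTheory ProbabilityTheory Finset

section

variable {ι : Type} [Fintype ι] {Ω κ : Type} [Fintype κ] [MeasurableSpace Ω]
variable {N : Nest ι} {L : Leaf Ω κ ι} {μ : Measure Ω} [IsProbabilityMeasure μ] {B : ℝ}

lemma tame_grad_sq (hN : N.Good) (hL : L.Good B) {l : ℕ} (hl : l ≤ N.K) (i : ι) :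
    Tame (fun v => N.grad L μ l i v ^ 2) := by
  obtain ⟨hc, C, k, hb⟩ := grad_tame hN hL (μ := μ) hl i
  refine ⟨hc.pow 2, C * C, k + k, fun y => ?_⟩
  rw [abs_pow, pow_two, add_mul, Real.exp_add, mul_mul_mul_comm]
  exact mul_le_mul (hb y) (hb y) (abs_nonneg _) ((abs_nonneg _).trans (hb y))

lemma Tame.add' {f g : (ι → ℝ) → ℝ} (hf : Tame f) (hg : Tame g) : Tame (fun v => f v + g v) := by
  obtain ⟨cf, C, k, bf⟩ := hf
  obtain ⟨cg, C', k', bg⟩ := hg
  refine ⟨cf.add cg, |C| + |C'|, |k| + |k'|, fun y => ?_⟩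
  have hs : 0 ≤ ∑ i, |y i| := sum_nonneg fun i _ => abs_nonneg _
  have e1 : Real.exp (k * ∑ i, |y i|) ≤ Real.exp ((|k| + |k'|) * ∑ i, |y i|) := by
    gcongr; linarith [le_abs_self k, abs_nonneg k']
  have e2 : Real.exp (k' * ∑ i, |y i|) ≤ Real.exp ((|k| + |k'|) * ∑ i, |y i|) := by
    gcongr; linarith [le_abs_self k', abs_nonneg k]
  refine (abs_add_le _ _).trans ((add_le_add ((bf y).trans ?_) ((bg y).trans ?_)).trans_eq
    (add_mul _ _ _).symm)
  · exact mul_le_mul (le_abs_self C) e1 (Real.exp_pos _).le (abs_nonneg C)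
  · exact mul_le_mul (le_abs_self C') e2 (Real.exp_pos _).le (abs_nonneg C')

lemma sqGrad_nonneg' (hN : N.Good) (hL : L.Good B) {l : ℕ} (hl : l ≤ N.K) (i : ι) :
    0 ≤ N.sqGrad L μ l i := by
  have := mean_mono hN hL (μ := μ) hl (tame_const 0) (tame_grad_sq hN hL (μ := μ) hl i)
    (fun v => sq_nonneg _)
  rwa [mean_const hN hL (μ := μ) hl] at this

lemma sqGrad_sum_le (hN : N.Good) (hL : L.Good B) (S : Finset ι) {T : ℝ}
    (hT : ∀ ω y, ∑ i ∈ S, L.vec i ω y ^ 2 ≤ T) {l : ℕ} (hl : l ≤ N.K) :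
    ∑ i ∈ S, N.sqGrad L μ l i ≤ T := by
  classical
  have ho : ∀ U : Finset ι, Obs (fun ω y => ∑ i ∈ U, L.vec i ω y ^ 2) := fun U => by
    induction U using Finset.induction with
    | empty => simpa using obs_const (Ω := Ω) (ι := ι) 0
    | insert a U ha ih =>
      simp only [sum_insert ha, pow_two]
      simpa only [pow_two] using (obs_vec_mul hN hL a a).add (by simpa only [pow_two] using ih)
  have key : ∀ U : Finset ι, Tame (fun v => ∑ i ∈ U, N.grad L μ l i v ^ 2) ∧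
      ∑ i ∈ U, N.sqGrad L μ l i = N.mean (L.logZ μ) l (fun v => ∑ i ∈ U, N.grad L μ l i v ^ 2) ∧
      ∀ v, ∑ i ∈ U, N.grad L μ l i v ^ 2 ≤
        N.node L μ l (fun ω y => ∑ i ∈ U, L.vec i ω y ^ 2) v := by
    intro U
    induction U using Finset.induction with
    | empty => simp [mean_const hN hL (μ := μ) hl, node_const hN hL (μ := μ) hl, tame_const]
    | insert a U ha ih =>
      obtain ⟨ht, he, hle⟩ := ih
      simp only [sum_insert ha]
      refine ⟨(tame_grad_sq hN hL hl a).add' ht, ?_, fun v => ?_⟩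
      · rw [mean_add hN hL hl (tame_grad_sq hN hL hl a) ht, he]; rfl
      · rw [show (fun ω y => L.vec a ω y ^ 2 + ∑ i ∈ U, L.vec i ω y ^ 2) =
            fun ω y => (fun ω y => L.vec a ω y * L.vec a ω y) ω y +
              (fun ω y => ∑ i ∈ U, L.vec i ω y ^ 2) ω y by funext ω y; simp [pow_two],
          node_add hN hL hl (obs_vec_mul hN hL a a) (ho U)]
        exact add_le_add (grad_sq_le_node hN hL hl a v) (hle v)
  obtain ⟨ht, he, hle⟩ := key S
  rw [he, ← mean_const hN hL (μ := μ) hl T]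
  refine mean_mono hN hL hl ht (tame_const T) fun v => (hle v).trans ?_
  have := node_mono hN hL (μ := μ) hl (ho S) (obs_const T) hT v
  rwa [node_const hN hL (μ := μ) hl] at this

/-- The truncated overlaps form a path bounded by `T / D`. -/
lemma ovl_isPath (hN : N.Good) (hL : L.Good B) (S : Finset ι) {T D : ℝ} (hD : 0 < D)
    (hT : ∀ ω y, ∑ i ∈ S, L.vec i ω y ^ 2 ≤ T) {K : ℕ} (hK : K ≤ N.K) :
    IsPath (fun l => N.ovl L μ S D (min l K)) ∧
      ∀ l, N.ovl L μ S D (min l K) ≤ T / D := by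
  have hl : ∀ l, min l K ≤ N.K := fun l => (min_le_right l K).trans hK
  refine ⟨⟨fun l m hlm => ?_, ?_⟩, fun l => ?_⟩
  · exact div_le_div_of_nonneg_right (sum_le_sum fun i _ =>
      sqGrad_mono hN hL (min_le_min_right K hlm) (hl m) i) hD.le
  · exact div_nonneg (sum_nonneg fun i _ => sqGrad_nonneg' hN hL (hl 0) i) hD.le
  · exact div_le_div_of_nonneg_right (sqGrad_sum_le hN hL S hT (hl l)) hD.le

end

/-! ### Grid paths -/

/-- Rounding a path down to the grid of mesh `1 / (K + 1)`. -/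
noncomputable def gfloor (K : ℕ) (q : ℕ → ℝ) (l : ℕ) : ℝ :=
  (⌊q (min l K) * ((K : ℝ) + 1)⌋₊ : ℝ) / ((K : ℝ) + 1)

/-- The indices of grid paths with values at most `U / (K + 1)`. -/
abbrev GridIdx (K U : ℕ) := {f : Fin (K + 1) → Fin (U + 1) // Monotone f}

/-- The grid path of an index. -/
noncomputable def gridVal {K U : ℕ} (f : GridIdx K U) (l : ℕ) : ℝ :=
  (f.1 ⟨min l K, Nat.lt_succ_of_le (min_le_right l K)⟩ : ℕ) / ((K : ℝ) + 1)

lemma gridVal_isPath {K U : ℕ} (f : GridIdx K U) :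
    IsPath (gridVal f) ∧ ∀ l, gridVal f l ≤ (U : ℝ) / ((K : ℝ) + 1) := by
  refine ⟨⟨fun l m hlm => ?_, by unfold gridVal; positivity⟩, fun l => ?_⟩
  · unfold gridVal
    gcongr
    exact f.2 (min_le_min_right K hlm)
  · unfold gridVal
    gcongr
    exact Fin.is_le _

lemma gfloor_grid {K U : ℕ} {q : ℕ → ℝ} (hq : IsPath q)
    (hU : ∀ l ≤ K, q l * ((K : ℝ) + 1) ≤ U) :
    (∃ f : GridIdx K U, gridVal f = gfloor K q) ∧
      ∀ l ≤ K, gfloor K q l ≤ q l ∧ q l - 1 / ((K : ℝ) + 1) ≤ gfloor K q l := by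
  have hq0 : ∀ l, 0 ≤ q l := fun l => hq.2.trans (hq.1 (Nat.zero_le l))
  have hK : (0 : ℝ) < (K : ℝ) + 1 := by positivity
  refine ⟨⟨⟨fun l => ⟨⌊q l * ((K : ℝ) + 1)⌋₊, Nat.lt_succ_of_le (Nat.floor_le_of_le
      (hU l (Nat.lt_succ_iff.1 l.2)))⟩, fun l m hlm => ?_⟩, rfl⟩, fun l hl => ?_⟩
  · exact Nat.floor_mono (mul_le_mul_of_nonneg_right (hq.1 hlm) hK.le)
  · unfold gfloor
    rw [min_eq_left hl, div_le_iff₀ hK, le_div_iff₀ hK, sub_mul, one_div_mul_cancel hK.ne']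
    exact ⟨Nat.floor_le (mul_nonneg (hq0 l) hK.le),
      by linarith [Nat.lt_floor_add_one (q l * ((K : ℝ) + 1))]⟩

end Vale.Agent.P157.Parisi
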