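import Vale.Agent.P157.Parisi.Increments
import Vale.Agent.P157.Parisi.CalcAmp
import Vale.Agent.P157.Parisi.LowerDefs
import Vale.Agent.P157.Parisi.LowerQuant

/-!
One insertion and one cavity step of the randomised systems, compared with the reference overlaps.
-/

namespace Vale.Agent.P157.Parisi

open MeasureTheory ProbabilityTheory Finset

/-- The deterministic part of the pinning error. -/
noncomputable def pinDet (K : ℕ) (Γ σ₀ D : ℝ) : ℝ :=
  20 * Γ * (Real.sqrt (((K : ℝ) + 1)⁻¹) +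
    Real.sqrt (Γ * (((K : ℝ) + 1) / σ₀ + ((K : ℝ) + 1)) / Real.sqrt D) +
    Γ * (((K : ℝ) + 1) / σ₀ + ((K : ℝ) + 1)) / Real.sqrt D)

lemma pinErr_eq {ι Ω κ : Type} [Fintype ι] [Fintype κ] [MeasurableSpace Ω] (N : Nest ι)
    (L : Leaf Ω κ ι) (μ : Measure Ω) (S : Finset ι) (D : ℝ) (K : ℕ) (Γ σ₀ : ℝ) :
    pinErr N L μ S D K Γ σ₀ =
      pinDet K Γ σ₀ D + 20 * Γ * ∑ l ∈ range K, N.heatDev L μ S D l := by
  unfold pinErr pinDet; ring

lemma percNest_w {δ : Type} [Fintype δ] (K : ℕ) {M : ℕ} (g : Fin M → δ → ℝ) (s : ℕ → δ → ℝ)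
    (c : ℕ → Fin M → ℝ) {l : ℕ} (hl : l ≤ K) :
    (percNest K g s c).w l = 1 / ((K : ℝ) + 1) :=
  blockNest_w' K l hl
where
  blockNest_w' (K l : ℕ) (hl : l ≤ K) : gridX K (l + 1) - gridX K l = 1 / ((K : ℝ) + 1) := by
    simp only [gridX, lvl]
    have hK : (0 : ℝ) < (K : ℝ) + 1 := by positivity
    have h1 : ((l : ℝ) + 1) / ((K : ℝ) + 1) ≤ 1 := by
      rw [div_le_one hK]; exact_mod_cast (by omega : l + 1 ≤ K + 1)
    have h2 : (l : ℝ) / ((K : ℝ) + 1) ≤ 1 :=
      le_trans (div_le_div_of_nonneg_right (by linarith) hK.le) h1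
    rw [Nat.cast_add, Nat.cast_one, min_eq_right h1, min_eq_right h2]
    ring

/-- A point of the box. -/
def InBox {K : ℕ} (v : Box K → ℝ) : Prop := ∀ k, v k ∈ Set.Icc (0 : ℝ) 1

lemma boxS_bounds {K : ℕ} {σ : ℕ → ℝ} {η ρ : ℝ} (hP : LowerParams K σ η ρ) {v : Box K → ℝ}
    (hv : InBox v) (l : ℕ) (hl : l ≤ K) :
    σ l ≤ boxS K σ ρ v l ∧ boxS K σ ρ v l ≤ σ l + σ l * ρ := by
  have h := hv (Sum.inl ⟨l, Nat.lt_succ_of_le hl⟩)
  have hs := hP.σ_pos l hl
  have hp : 0 ≤ σ l * ρ := mul_nonneg hs.le hP.ρ_pos.le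
  simp only [boxS, dif_pos hl]
  constructor
  · linarith [mul_nonneg hp h.1]
  · linarith [mul_le_of_le_one_right hp h.2]

lemma boxC_bounds {K : ℕ} {σ : ℕ → ℝ} {η ρ : ℝ} (hP : LowerParams K σ η ρ) {v : Box K → ℝ}
    (hv : InBox v) {M : ℕ} (l : ℕ) (hl : l ≤ K) :
    ∃ z, (η ≤ z ∧ z ≤ η + η * ρ) ∧ ∀ b : Fin M, boxC K η ρ v l b = z := by
  have h := hv (Sum.inr ⟨l, Nat.lt_succ_of_le hl⟩)
  have hp : 0 ≤ η * ρ := mul_nonneg hP.η_pos.le hP.ρ_pos.le
  refine ⟨η + η * ρ * v (Sum.inr ⟨l, Nat.lt_succ_of_le hl⟩), ⟨?_, ?_⟩, fun b => ?_⟩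
  · linarith [mul_nonneg hp h.1]
  · linarith [mul_le_of_le_one_right hp h.2]
  · simp only [boxC, dif_pos hl]

lemma boxC_succ (K : ℕ) (η ρ : ℝ) (v : Box K → ℝ) (M : ℕ) (l : ℕ) :
    boxC K η ρ v (M := M + 1) l =
      Fin.snoc (boxC K η ρ v (M := M) l)
        (if h : l ≤ K then η + η * ρ * v (Sum.inr ⟨l, Nat.lt_succ_of_le h⟩) else 0) := by
  funext a
  refine Fin.lastCases ?_ (fun i => ?_) a <;> simp [boxC]

variable {φ φ1 φ2 : ℝ → ℝ} {B : ℝ}

lemma blockLaw_prob {n N : ℕ} (hn : 0 < n) : IsProbabilityMeasure (blockLaw n N) :=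
  (blockSpin_sys hn).2.1

/-- The weight of a pattern coordinate. -/
lemma weight_c (hφ : PhiGood φ φ1 φ2 B) {Ω δ : Type} [MeasurableSpace Ω] [Fintype δ]
    (spin : Ω → δ → ℝ) (M : ℕ) (a : Fin M) (ω : Ω) (y : PIdx M δ → ℝ) :
    (percLeaf φ φ1 φ2 spin M).weight (Sum.inr (Sum.inr a)) ω y ≤ B + B ^ 2 ∧
      (percLeaf φ φ1 φ2 spin M).vec (Sum.inr (Sum.inr a)) ω y ^ 2 ≤ B ^ 2 := by
  have hv : (percLeaf φ φ1 φ2 spin M).vec (Sum.inr (Sum.inr a)) ω y =
      φ1 ((percLeaf φ φ1 φ2 spin M).loc ω y (Sum.inl a)) := by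
    simp [Leaf.vec, percLeaf, percCoef, Fintype.sum_sum_type]
  have h2 : (∑ j, (percLeaf φ φ1 φ2 spin M).φ2 j ((percLeaf φ φ1 φ2 spin M).loc ω y j) *
      (percLeaf φ φ1 φ2 spin M).a ω j (Sum.inr (Sum.inr a)) ^ 2) =
      φ2 ((percLeaf φ φ1 φ2 spin M).loc ω y (Sum.inl a)) := by
    simp [percLeaf, percCoef, Fintype.sum_sum_type]
  have hb : φ1 ((percLeaf φ φ1 φ2 spin M).loc ω y (Sum.inl a)) ^ 2 ≤ B ^ 2 :=
    sq_le_sq' (neg_le_of_abs_le (hφ.bound1 _)) (le_of_abs_le (hφ.bound1 _))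
  refine ⟨?_, by rw [hv]; exact hb⟩
  unfold Leaf.weight
  rw [hv, h2]
  exact add_le_add (hφ.bound2 _) hb

/-- The random part of the error of one insertion. -/
noncomputable def insR (φ φ1 φ2 : ℝ → ℝ) (n N K M M' : ℕ) (σ : ℕ → ℝ) (η ρ : ℝ) (q : ℕ → ℝ)
    (t : ℝ) (v : Box K → ℝ) : ℝ :=
  20 * ∑ l ∈ range K, (insNest n N K M σ η ρ q t v).heatDev
      (percLeaf φ φ1 φ2 (blockSpin n N) (M + 1)) (blockLaw n N) (ySet (M + 1) univ)
      ((n : ℝ) * N) l +
    ∑ l ∈ range (K + 1), |(insNest n N K M σ η ρ q t v).ovl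
      (percLeaf φ φ1 φ2 (blockSpin n N) (M + 1)) (blockLaw n N) (ySet (M + 1) univ)
      ((n : ℝ) * N) l - qRef φ φ1 φ2 n N K M' σ η ρ v l|

lemma continuous_insR (hφ : PhiGood φ φ1 φ2 B) {n N : ℕ} (hn : 0 < n) (K M M' : ℕ) (σ : ℕ → ℝ)
    (η ρ : ℝ) (q : ℕ → ℝ) :
    Continuous fun p : ℝ × (Box K → ℝ) => insR φ φ1 φ2 n N K M M' σ η ρ q p.1 p.2 := by
  have := blockLaw_prob (N := N) hn
  obtain ⟨hs, -, -⟩ := blockSpin_sys (n := n) (N := N) hn
  have hgood := fun M => perc_good hφ hs M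
  let A : ℝ × (Box K → ℝ) → ℕ → PIdx (M + 1) (Fin N × Fin n) → ℝ := fun p =>
    percAmp (insG M (unifG n N M) p.1) (fun l _ => boxS K σ ρ p.2 l)
      (insC K M (boxC K η ρ p.2) (cutAmp K fun _ => η) q p.1)
  let A' : ℝ × (Box K → ℝ) → ℕ → PIdx M' (Fin N × Fin n) → ℝ := fun p =>
    percAmp (unifG n N M') (fun l _ => boxS K σ ρ p.2 l) (boxC K η ρ p.2)
  have hS : ∀ l, Continuous fun p : ℝ × (Box K → ℝ) => boxS K σ ρ p.2 l := fun l => by
    unfold boxS; split_ifs <;> fun_prop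
  have hC : ∀ (M : ℕ) (l : ℕ) (b : Fin M),
      Continuous fun p : ℝ × (Box K → ℝ) => boxC K η ρ p.2 l b := fun M l b => by
    unfold boxC; split_ifs <;> fun_prop
  have hA : ∀ l i, Continuous fun p => A p l i := by
    rintro l (⟨a, i⟩ | i | a)
    · simp only [A, percAmp]
      split_ifs
      · refine Fin.lastCases ?_ (fun b => ?_) a
        · simp only [insG, Fin.snoc_last]; fun_prop
        · simp only [insG, Fin.snoc_castSucc]; fun_prop
      · fun_prop
    · exact hS l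
    · simp only [A, percAmp, insC]
      refine Fin.lastCases ?_ (fun b => ?_) a
      · simp only [Fin.snoc_last]; fun_prop
      · simp only [Fin.snoc_castSucc]; exact hC M l b
  have hA' : ∀ l i, Continuous fun p => A' p l i := by
    rintro l (⟨a, i⟩ | i | a)
    · simp only [A', percAmp]; fun_prop
    · exact hS l
    · exact hC M' l a
  let N₁ : Nest (PIdx (M + 1) (Fin N × Fin n)) :=
    percNest K (fun _ _ => 0) (fun _ _ => 0) (fun _ _ => 0)
  let N₂ : Nest (PIdx M' (Fin N × Fin n)) :=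
    percNest K (fun _ _ => 0) (fun _ _ => 0) (fun _ _ => 0)
  have g1 : N₁.Good := percNest_good hφ hs _ _ _ _ _
  have g2 : N₂.Good := percNest_good hφ hs _ _ _ _ _
  have hov : ∀ (Mx : ℕ) (Nx : Nest (PIdx Mx (Fin N × Fin n))), Nx.Good →
      ∀ Ax : ℝ × (Box K → ℝ) → ℕ → PIdx Mx (Fin N × Fin n) → ℝ,
      (∀ l i, Continuous fun p => Ax p l i) → ∀ l ≤ Nx.K, Continuous fun p => (Nx.setAmp (Ax p)).ovl
        (percLeaf φ φ1 φ2 (blockSpin n N) Mx) (blockLaw n N) (ySet Mx univ) ((n : ℝ) * N) l :=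
    fun Mx Nx gx Ax hAx l hl => (continuous_finsetSum _ fun i _ =>
      continuous_sqGrad gx (hgood Mx) (fun l _ i => hAx l i) hl i).div_const _
  refine (continuous_const.mul (continuous_finsetSum _ fun l hl => ?_)).add
    (continuous_finsetSum _ fun l hl => ?_)
  · exact continuous_heatDev g1 (hgood _) (fun l _ i => hA l i)
      (show l ≤ K + 1 by have := mem_range.1 hl; omega) _ _
  · refine (Continuous.sub ?_ ?_).abs
    · exact hov _ N₁ g1 A hA l (show l ≤ K + 1 by have := mem_range.1 hl; omega)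
    · exact hov _ N₂ g2 A' hA' _ (show min l K ≤ K + 1 by omega)

/-- One insertion. -/
theorem ins_pointwise (hφ : PhiGood φ φ1 φ2 B) {n N : ℕ} (hn : 0 < n) (hN : 0 < N) {K : ℕ}
    {σ : ℕ → ℝ} {η ρ : ℝ} (hP : LowerParams K σ η ρ) {σ₀ : ℝ} (hσ₀ : 0 < σ₀)
    (hσ : ∀ l ≤ K, σ₀ ≤ σ l) (M M' : ℕ) {qg : ℕ → ℝ} (hq : IsPath qg) (hq1 : qg K ≤ 1)
    {v : Box K → ℝ} (hv : InBox v) {ζ : ℝ}
    (hζ : ∀ l ≤ K, |qg l - qRef φ φ1 φ2 n N K M' σ η ρ v l| ≤ ζ) :
    |refFree φ φ1 φ2 n N K (M + 1) σ η ρ v - refFree φ φ1 φ2 n N K M σ η ρ v - energy φ K qg| ≤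
      B ^ 2 * (pinDet K 1 σ₀ ((n : ℝ) * N) + ζ) + 12 * B ^ 2 * (((K : ℝ) + 2) * η ^ 2) +
        B ^ 2 * ∫ t in (0 : ℝ)..1, insR φ φ1 φ2 n N K M M' σ η ρ qg t v := by
  have := blockLaw_prob (N := N) hn
  obtain ⟨hs, -, -⟩ := blockSpin_sys (n := n) (N := N) hn
  set L := percLeaf φ φ1 φ2 (blockSpin n N) (M + 1)
  have hB1 := hφ.one_le
  have hid := insert_identity hφ hn hN K M (boxS K σ ρ v) (boxC K η ρ v) (cutAmp K fun _ => η)
    hq hq1 hσ₀ (fun l _ hl => (hσ l hl).trans (boxS_bounds hP hv l hl).1)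
  set X := (percNest K (unifG n N (M + 1)) (fun l _ => boxS K σ ρ v l)
    (fun l => Fin.snoc (boxC K η ρ v (M := M) l) |cutAmp K (fun _ => η) l|)).free L (blockLaw n N)
    with hX
  have hlip : |refFree φ φ1 φ2 n N K (M + 1) σ η ρ v - X| ≤
      (B + B ^ 2) * ∑ _l ∈ range (K + 1 + 1), 3 * η ^ 2 := by
    have hg : (percNest K (unifG n N (M + 1)) (fun l _ => boxS K σ ρ v l)
      (boxC K η ρ v)).Good := percNest_good hφ hs _ _ _ _ _
    refine free_group_lip hg (perc_good hφ hs _)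
      {Sum.inr (Sum.inr (Fin.last M))} (T := B + B ^ 2)
      (fun ω y => by rw [sum_singleton]; exact (weight_c hφ _ _ _ ω y).1)
      (percAmp (unifG n N (M + 1)) (fun l _ => boxS K σ ρ v l)
        (fun l => Fin.snoc (boxC K η ρ v (M := M) l) |cutAmp K (fun _ => η) l|))
      (percAmp (unifG n N (M + 1)) (fun l _ => boxS K σ ρ v l) (boxC K η ρ v))
      (fun _ => 3 * η ^ 2) ?_ ?_ ?_ ?_ (fun _ => by positivity)
    · rintro l - (⟨a, i⟩ | i | a)
      · simp only [percAmp, unifG]; split_ifs <;> positivity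
      · simp only [percAmp]
        by_cases hl : l ≤ K
        · exact (hP.σ_pos l hl).le.trans (boxS_bounds hP hv l hl).1
        · simp [boxS, hl]
      · simp only [percAmp]
        refine Fin.lastCases ?_ (fun b => ?_) a
        · simp
        · simp only [Fin.snoc_castSucc]
          by_cases hl : l ≤ K
          · obtain ⟨z, hz, hzb⟩ := boxC_bounds hP hv (M := M) l hl
            rw [hzb]; linarith [hP.η_pos, hz.1]
          · simp [boxC, hl]
    · rintro l - (⟨a, i⟩ | i | a)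
      · simp only [percAmp, unifG]; split_ifs <;> positivity
      · simp only [percAmp]
        by_cases hl : l ≤ K
        · exact (hP.σ_pos l hl).le.trans (boxS_bounds hP hv l hl).1
        · simp [boxS, hl]
      · simp only [percAmp]
        by_cases hl : l ≤ K
        · obtain ⟨z, hz, hzb⟩ := boxC_bounds hP hv (M := M + 1) l hl
          rw [hzb]; linarith [hP.η_pos, hz.1]
        · simp [boxC, hl]
    · rintro l - (⟨a, i⟩ | i | a) hi
      · rfl
      · rfl
      · simp only [percAmp, boxC_succ]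
        revert hi
        refine Fin.lastCases (fun hi => absurd (mem_singleton_self _) hi) (fun b _ => ?_) a
        simp
    · intro l _ i hi
      rw [mem_singleton] at hi
      subst hi
      simp only [percAmp, boxC_succ, Fin.snoc_last, cutAmp]
      by_cases hl : l ≤ K
      · obtain ⟨z, hz, hzb⟩ := boxC_bounds hP hv (M := 1) l hl
        have := hzb 0
        simp only [boxC, dif_pos hl] at this
        simp only [if_pos hl, dif_pos hl, this, sq_abs]
        have hz2 : z ≤ 2 * η := by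
          linarith [mul_le_of_le_one_right hP.η_pos.le hP.ρ_le, hz.2]
        rw [abs_le]
        constructor <;> nlinarith [hz.1, hP.η_pos]
      · simp [hl]
        positivity
  have hR := (continuous_insR hφ hn (N := N) K M M' σ η ρ qg).comp
    (continuous_id.prodMk (continuous_const (y := v)))
  have hsum : ∑ l ∈ range (K + 2), cutAmp K (fun _ => η) l ^ 2 ≤ ((K : ℝ) + 2) * η ^ 2 := by
    refine (sum_le_sum fun l _ => show cutAmp K (fun _ => η) l ^ 2 ≤ η ^ 2 from ?_).trans (by simp)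
    unfold cutAmp; split_ifs <;> simp [sq_nonneg]
  have hint : ∫ t in (0 : ℝ)..1, insErr φ φ1 φ2 B n N K M (boxS K σ ρ v) (boxC K η ρ v)
      (cutAmp K fun _ => η) qg σ₀ t ≤
      B ^ 2 * (pinDet K 1 σ₀ ((n : ℝ) * N) + ζ) +
        B ^ 2 * ∫ t in (0 : ℝ)..1, insR φ φ1 φ2 n N K M M' σ η ρ qg t v := by
    have hc : Continuous fun t => insErr φ φ1 φ2 B n N K M (boxS K σ ρ v) (boxC K η ρ v)
        (cutAmp K fun _ => η) qg σ₀ t := by
      unfold insErr
      simp only [pinErr_eq, ovlDist]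
      let A : ℝ → ℕ → PIdx (M + 1) (Fin N × Fin n) → ℝ := fun t =>
        percAmp (insG M (unifG n N M) t) (fun l _ => boxS K σ ρ v l)
          (insC K M (boxC K η ρ v) (cutAmp K fun _ => η) qg t)
      have hA : ∀ l i, Continuous fun t => A t l i := by
        rintro l (⟨a, i⟩ | i | a)
        · simp only [A, percAmp]
          split_ifs
          · refine Fin.lastCases ?_ (fun b => ?_) a
            · simp only [insG, Fin.snoc_last]; fun_prop
            · simp only [insG, Fin.snoc_castSucc]; fun_prop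
          · fun_prop
        · simp only [A, percAmp]; fun_prop
        · simp only [A, percAmp, insC]
          refine Fin.lastCases ?_ (fun b => ?_) a
          · simp only [Fin.snoc_last]; fun_prop
          · simp only [Fin.snoc_castSucc]; fun_prop
      let N₁ : Nest (PIdx (M + 1) (Fin N × Fin n)) :=
        percNest K (fun _ _ => 0) (fun _ _ => 0) (fun _ _ => 0)
      have g1 : N₁.Good := percNest_good hφ hs _ _ _ _ _
      have hL := perc_good hφ hs (M + 1)
      refine continuous_const.mul ((continuous_const.add (continuous_const.mul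
        (continuous_finsetSum _ fun l hl => ?_))).add (continuous_finsetSum _ fun l hl => ?_))
      · exact continuous_heatDev g1 hL (fun l _ i => hA l i)
          (show l ≤ K + 1 by have := mem_range.1 hl; omega) _ _
      · refine Continuous.mul ?_ ((Continuous.sub ?_ continuous_const).abs)
        · simp only [Nest.w, percNest]; fun_prop
        · exact (continuous_finsetSum _ fun i _ => continuous_sqGrad g1 hL (fun l _ i => hA l i)
            (show l ≤ K + 1 by have := mem_range.1 hl; omega) i).div_const _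
    have hb : ∀ t, insErr φ φ1 φ2 B n N K M (boxS K σ ρ v) (boxC K η ρ v)
        (cutAmp K fun _ => η) qg σ₀ t ≤ B ^ 2 * (pinDet K 1 σ₀ ((n : ℝ) * N) + ζ) +
          B ^ 2 * insR φ φ1 φ2 n N K M M' σ η ρ qg t v := by
      intro t
      unfold insErr insR
      simp only [pinErr_eq, ovlDist, mul_one]
      rw [← mul_add]
      refine mul_le_mul_of_nonneg_left ?_ (sq_nonneg B)
      change _ ≤ _ + ζ + (20 * _ + _)
      have hd : ∀ l ∈ range (K + 1),
          (insNest n N K M σ η ρ qg t v).w l *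
            |(insNest n N K M σ η ρ qg t v).ovl L (blockLaw n N) (ySet (M + 1) univ)
              ((n : ℝ) * N) l - qg l| ≤
          |(insNest n N K M σ η ρ qg t v).ovl L (blockLaw n N) (ySet (M + 1) univ)
              ((n : ℝ) * N) l - qRef φ φ1 φ2 n N K M' σ η ρ v l| + ζ / ((K : ℝ) + 1) := by
        intro l hl
        have hlK := Nat.lt_succ_iff.1 (mem_range.1 hl)
        rw [show (insNest n N K M σ η ρ qg t v).w l = 1 / ((K : ℝ) + 1) from percNest_w K _ _ _ hlK]
        set O := (insNest n N K M σ η ρ qg t v).ovl L (blockLaw n N) (ySet (M + 1) univ)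
          ((n : ℝ) * N) l
        set Q := qRef φ φ1 φ2 n N K M' σ η ρ v l
        have h1 : |O - qg l| ≤ |O - Q| + ζ := by
          have := abs_sub_le O Q (qg l)
          have := hζ l hlK
          rw [abs_sub_comm (qg l)] at this
          linarith
        have h2 : 1 / ((K : ℝ) + 1) ≤ 1 := by
          rw [div_le_one (by positivity)]; linarith [Nat.cast_nonneg (α := ℝ) K]
        calc 1 / ((K : ℝ) + 1) * |O - qg l| ≤ 1 / ((K : ℝ) + 1) * (|O - Q| + ζ) :=
              mul_le_mul_of_nonneg_left h1 (by positivity)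
          _ = 1 / ((K : ℝ) + 1) * |O - Q| + ζ / ((K : ℝ) + 1) := by ring
          _ ≤ 1 * |O - Q| + ζ / ((K : ℝ) + 1) := by gcongr
          _ = _ := by rw [one_mul]
      have hsumζ : ∑ _l ∈ range (K + 1), ζ / ((K : ℝ) + 1) = ζ := by
        rw [sum_const, card_range, nsmul_eq_mul, Nat.cast_add, Nat.cast_one]
        field_simp
      have := sum_le_sum hd
      rw [sum_add_distrib, hsumζ] at this
      simp only [insNest] at this ⊢
      linarith
    calc _ ≤ ∫ t in (0 : ℝ)..1, (B ^ 2 * (pinDet K 1 σ₀ ((n : ℝ) * N) + ζ) +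
          B ^ 2 * insR φ φ1 φ2 n N K M M' σ η ρ qg t v) :=
        intervalIntegral.integral_mono zero_le_one (hc.intervalIntegrable _ _)
          ((continuous_const.add (continuous_const.mul hR)).intervalIntegrable _ _) hb
      _ = _ := by
        have hR' : IntervalIntegrable (fun t => insR φ φ1 φ2 n N K M M' σ η ρ qg t v) volume 0 1 :=
          hR.intervalIntegrable _ _
        rw [intervalIntegral.integral_add intervalIntegrable_const (hR'.const_mul _),
          intervalIntegral.integral_const, intervalIntegral.integral_const_mul]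
        simp
  rw [sum_const, card_range, nsmul_eq_mul] at hlip
  push_cast at hlip
  have hBB : B + B ^ 2 ≤ 2 * B ^ 2 := by nlinarith
  have hk : 0 ≤ ((K : ℝ) + 2) * η ^ 2 := by positivity
  have hid' := abs_le.1 hid
  have hl' := abs_le.1 hlip
  have e1 := mul_le_mul_of_nonneg_right hBB hk
  have e2 := mul_le_mul_of_nonneg_left hsum (sq_nonneg B)
  have hrw : (B + B ^ 2) * (((K : ℝ) + 1 + 1) * (3 * η ^ 2)) =
      3 * ((B + B ^ 2) * (((K : ℝ) + 2) * η ^ 2)) := by ring
  rw [hrw] at hl'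
  simp only [refFree, refNest] at *
  rw [abs_le]
  constructor <;> linarith

end Vale.Agent.P157.Parisi
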