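import Vale.Agent.P157.Parisi.BoxAvg
import Vale.Agent.P157.Parisi.LowerDefs
import Vale.Agent.P157.Parisi.LowerLip

/-!
The random errors of the lower bound: the part which only uses the hierarchy.
-/

set_option linter.unusedSectionVars false

namespace Vale.Agent.P157.Parisi.Rand

open MeasureTheory ProbabilityTheory Finset Filter Topology

section cube

variable {β : Type} [Fintype β]

instance : IsProbabilityMeasure (cubeLaw β) := by
  have : IsProbabilityMeasure (volume.restrict (Set.Icc (0 : ℝ) 1)) := ⟨by simp⟩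
  unfold cubeLaw
  infer_instance

lemma ae_mem_cube : ∀ᵐ v ∂cubeLaw β, ∀ k, v k ∈ Set.Icc (0 : ℝ) 1 := by
  refine ae_all_iff.2 fun k => ?_
  have : IsProbabilityMeasure (volume.restrict (Set.Icc (0 : ℝ) 1)) := ⟨by simp⟩
  exact (measurePreserving_eval (fun _ : β => volume.restrict (Set.Icc (0 : ℝ) 1)) k
    ).quasiMeasurePreserving.ae (ae_restrict_mem measurableSet_Icc)

lemma integrable_of_bdd {g : (β → ℝ) → ℝ} (hg : Continuous g) {C : ℝ} (hC : ∀ v, |g v| ≤ C) :
    Integrable g (cubeLaw β) :=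
  Integrable.of_bound hg.aestronglyMeasurable C (.of_forall fun v => by
    simpa [Real.norm_eq_abs] using hC v)

end cube

variable {ι Ω κ : Type} [Fintype ι] [Fintype κ] [MeasurableSpace Ω]
variable {N : Nest ι} {L : Leaf Ω κ ι} {μ : Measure Ω} [IsProbabilityMeasure μ] {B : ℝ}

lemma tame_const' (c : ℝ) : Tame fun _ : ι → ℝ => c :=
  ⟨continuous_const, |c|, 0, fun _ => by simp⟩

lemma tame_add' {f g : (ι → ℝ) → ℝ} (hf : Tame f) (hg : Tame g) : Tame fun y => f y + g y := by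
  obtain ⟨hfc, C, k, hC⟩ := hf
  obtain ⟨hgc, D, l, hD⟩ := hg
  refine ⟨hfc.add hgc, |C| + |D|, |k| + |l|, fun y => (abs_add_le _ _).trans ?_⟩
  rw [add_mul |C|]
  have hy : 0 ≤ ∑ i, |y i| := sum_nonneg fun _ _ => abs_nonneg _
  refine add_le_add ((hC y).trans ?_) ((hD y).trans ?_)
  · exact mul_le_mul (le_abs_self C) (Real.exp_le_exp.2 (by
      nlinarith [le_abs_self k, abs_nonneg l])) (Real.exp_pos _).le (abs_nonneg _)
  · exact mul_le_mul (le_abs_self D) (Real.exp_le_exp.2 (by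
      nlinarith [le_abs_self l, abs_nonneg k])) (Real.exp_pos _).le (abs_nonneg _)

lemma tame_sq' {f : (ι → ℝ) → ℝ} (hf : Tame f) : Tame fun y => f y ^ 2 := by
  obtain ⟨hc, C, k, hb⟩ := hf
  refine ⟨hc.pow 2, C * C, k + k, fun y => ?_⟩
  rw [abs_pow, pow_two, add_mul, Real.exp_add, mul_mul_mul_comm]
  exact mul_le_mul (hb y) (hb y) (abs_nonneg _) ((abs_nonneg _).trans (hb y))

lemma tame_sum' {γ : Type*} (S : Finset γ) {f : γ → (ι → ℝ) → ℝ} (hf : ∀ i ∈ S, Tame (f i)) :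
    Tame fun y => ∑ i ∈ S, f i y := by
  classical
  induction S using Finset.induction with
  | empty => simpa using tame_const' (ι := ι) 0
  | insert a S ha ih =>
    simp only [sum_insert ha]
    exact tame_add' (hf a (mem_insert_self a S)) (ih fun b hb => hf b (mem_insert_of_mem hb))

lemma obs_sum' {γ : Type*} (S : Finset γ) {f : γ → Ω → (ι → ℝ) → ℝ} (hf : ∀ i ∈ S, Obs (f i)) :
    Obs fun ω y => ∑ i ∈ S, f i ω y := by
  classical
  induction S using Finset.induction with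
  | empty => simpa using obs_const (Ω := Ω) (ι := ι) 0
  | insert a S ha ih =>
    simp only [sum_insert ha]
    exact (hf a (mem_insert_self a S)).add (ih fun b hb => hf b (mem_insert_of_mem hb))

variable (hN : N.Good) (hL : L.Good B)

include hN hL

lemma mean_sum' {γ : Type*} {l : ℕ} (hl : l ≤ N.K) (S : Finset γ) {f : γ → (ι → ℝ) → ℝ}
    (hf : ∀ i ∈ S, Tame (f i)) :
    N.mean (L.logZ μ) l (fun y => ∑ i ∈ S, f i y) = ∑ i ∈ S, N.mean (L.logZ μ) l (f i) := by
  classical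
  induction S using Finset.induction with
  | empty => simpa using mean_const (μ := μ) hN hL hl 0
  | insert a S ha ih =>
    have hS : ∀ i ∈ S, Tame (f i) := fun b hb => hf b (mem_insert_of_mem hb)
    simp only [sum_insert ha]
    rw [mean_add hN hL hl (hf a (mem_insert_self a S)) (tame_sum' S hS), ih hS]

lemma node_sum' {γ : Type*} {l : ℕ} (hl : l ≤ N.K) (S : Finset γ) {f : γ → Ω → (ι → ℝ) → ℝ}
    (hf : ∀ i ∈ S, Obs (f i)) (y : ι → ℝ) :
    N.node L μ l (fun ω v => ∑ i ∈ S, f i ω v) y = ∑ i ∈ S, N.node L μ l (f i) y := by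
  classical
  induction S using Finset.induction with
  | empty => simpa using node_const (μ := μ) hN hL hl 0 y
  | insert a S ha ih =>
    have hS : ∀ i ∈ S, Obs (f i) := fun b hb => hf b (mem_insert_of_mem hb)
    simp only [sum_insert ha]
    rw [node_add hN hL hl (hf a (mem_insert_self a S)) (obs_sum' S hS), ih hS]

lemma sqGrad_nonneg {l : ℕ} (hl : l ≤ N.K) (i : ι) : 0 ≤ N.sqGrad L μ l i := by
  have := mean_mono (μ := μ) hN hL hl (tame_const' 0) (tame_sq' (grad_tame (μ := μ) hN hL hl i))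
    fun v => sq_nonneg _
  rwa [mean_const hN hL hl] at this

lemma sum_sqGrad_le {l : ℕ} (hl : l ≤ N.K) (S : Finset ι) {T : ℝ}
    (hT : ∀ ω y, ∑ i ∈ S, L.vec i ω y ^ 2 ≤ T) : ∑ i ∈ S, N.sqGrad L μ l i ≤ T := by
  have hg : ∀ i ∈ S, Tame fun v => N.grad L μ l i v ^ 2 :=
    fun i _ => tame_sq' (grad_tame hN hL hl i)
  have e : ∑ i ∈ S, N.sqGrad L μ l i =
      N.mean (L.logZ μ) l fun v => ∑ i ∈ S, N.grad L μ l i v ^ 2 := (mean_sum' hN hL hl S hg).symm
  rw [e]
  refine le_of_le_of_eq (mean_mono hN hL hl (tame_sum' S hg) (tame_const' T) fun v => ?_)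
    (mean_const hN hL hl T)
  refine (sum_le_sum fun i _ => grad_sq_le_node hN hL hl i v).trans ?_
  rw [← node_sum' hN hL hl S fun i _ => obs_vec_mul hN hL i i, ← node_const (μ := μ) hN hL hl T v]
  exact node_mono hN hL hl (obs_sum' S fun i _ => obs_vec_mul hN hL i i) (obs_const T)
    (fun ω u => by simpa only [pow_two] using hT ω u) v

lemma sum_heatTop_eq (S : Finset ι) {D : ℝ}
    (hD : ∀ ω y, ∑ i ∈ S, ((∑ j, L.φ2 j (L.loc ω y j) * L.a ω j i ^ 2) + L.vec i ω y ^ 2) = D) :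
    ∑ i ∈ S, N.heatTop L μ i = D := by
  have ho : ∀ i, Obs fun ω v =>
      (∑ j, L.φ2 j (L.loc ω v j) * L.a ω j i ^ 2) + L.vec i ω v ^ 2 := fun i => by
    simpa only [pow_two] using (obs_curvDiag hL i).add (obs_vec_mul hN hL i i)
  have e : ∀ i, N.heat L μ N.K i = N.node L μ N.K fun ω v =>
      (∑ j, L.φ2 j (L.loc ω v j) * L.a ω j i ^ 2) + L.vec i ω v ^ 2 := fun i => by
    rw [node_top hN hL]
    exact funext (heat_top hN hL i)
  simp only [Nest.heatTop, e]
  rw [← mean_sum' hN hL le_rfl S fun i _ => node_tame hN hL le_rfl (ho i)]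
  have : (fun y => ∑ i ∈ S, N.node L μ N.K (fun ω v =>
      (∑ j, L.φ2 j (L.loc ω v j) * L.a ω j i ^ 2) + L.vec i ω v ^ 2) y) = fun _ => D := by
    funext y
    rw [← node_sum' hN hL le_rfl S fun i _ => ho i]
    simp only [hD]
    exact node_const hN hL le_rfl D y
  rw [this, mean_const hN hL le_rfl]

/-- A bounded Hamiltonian gives a bounded free energy. -/
lemma abs_free_le {C : ℝ} (hC : ∀ y, |L.logZ μ y| ≤ C) : |N.free L μ| ≤ C := by
  have hu : ∀ d l, N.K - l = d → ∀ y, |N.u (L.logZ μ) l y| ≤ C := by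
    intro d
    induction d with
    | zero =>
      intro l hl y
      simp only [Nest.u, hl, Nest.uUp]
      exact hC y
    | succ d ih =>
      intro l hl y
      have hlK : l < N.K := by omega
      have hm : 0 < N.x (l + 1) := hN.x_pos _ (by omega) (by omega)
      have e : N.u (L.logZ μ) l =
          stepLog (N.x (l + 1)) (N.amp (l + 1)) (N.u (L.logZ μ) (l + 1)) := by
        have e1 : N.K - l = d + 1 := hl
        have e2 : N.K - (l + 1) = d := by omega
        have e3 : N.K - d = l + 1 := by omega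
        simp only [Nest.u, e1, Nest.uUp, e2, e3]
      rw [e, stepLog]
      have hb := fun z => abs_le.1 (ih (l + 1) (by omega) (move (N.amp (l + 1)) y z))
      have hc : Continuous fun z : ι → ℝ => move (N.amp (l + 1)) y z := by unfold move; fun_prop
      have hi : Integrable (fun z => Real.exp (N.x (l + 1) *
          N.u (L.logZ μ) (l + 1) (move (N.amp (l + 1)) y z))) (gauss ι) :=
        Integrable.of_bound (Real.continuous_exp.comp (continuous_const.mul
          ((u_tame (μ := μ) hN hL (l + 1)).1.comp hc))).aestronglyMeasurable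
          (Real.exp (N.x (l + 1) * C)) (.of_forall fun z => by
            rw [Real.norm_eq_abs, abs_of_pos (Real.exp_pos _)]
            exact Real.exp_le_exp.2 (mul_le_mul_of_nonneg_left (hb z).2 hm.le))
      have h1 : Real.exp (N.x (l + 1) * -C) ≤ ∫ z, Real.exp (N.x (l + 1) *
          N.u (L.logZ μ) (l + 1) (move (N.amp (l + 1)) y z)) ∂gauss ι := by
        simpa using integral_mono (integrable_const (Real.exp (N.x (l + 1) * -C))) hi fun z =>
          Real.exp_le_exp.2 (mul_le_mul_of_nonneg_left (hb z).1 hm.le)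
      have h2 : ∫ z, Real.exp (N.x (l + 1) *
          N.u (L.logZ μ) (l + 1) (move (N.amp (l + 1)) y z)) ∂gauss ι ≤
          Real.exp (N.x (l + 1) * C) := by
        simpa using integral_mono hi (integrable_const (Real.exp (N.x (l + 1) * C))) fun z =>
          Real.exp_le_exp.2 (mul_le_mul_of_nonneg_left (hb z).2 hm.le)
      rw [abs_le, ← div_eq_inv_mul, le_div_iff₀ hm, div_le_iff₀ hm]
      have e1 := Real.log_le_log (Real.exp_pos _) h1
      have e2 := Real.log_le_log (lt_of_lt_of_le (Real.exp_pos _) h1) h2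
      rw [Real.log_exp] at e1 e2
      constructor <;> linarith
  have h0 := fun y => abs_le.1 (hu _ 0 rfl y)
  rw [Nest.free, abs_le]
  constructor
  · have := mean_mono (μ := μ) hN hL (Nat.zero_le _) (tame_const' (-C)) (u_tame hN hL 0)
      fun y => (h0 y).1
    rwa [mean_const hN hL (Nat.zero_le _)] at this
  · have := mean_mono (μ := μ) hN hL (Nat.zero_le _) (u_tame hN hL 0) (tame_const' C)
      fun y => (h0 y).2
    rwa [mean_const hN hL (Nat.zero_le _)] at this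

omit hN hL

/-- The tail `∑_{m ∈ [l, K]}` of the amplitude derivative. -/
lemma ampDeriv_eq {K : ℕ} (hK : N.K = K + 1) (hx : N.x = gridX K) (S : Finset ι) {l : ℕ}
    (hl : l ≤ K + 1) {s : ℝ} (hs : ∀ i ∈ S, N.amp l i = s) :
    N.ampDeriv L μ S l = s * ((∑ i ∈ S, N.heatTop L μ i) -
      (∑ m ∈ Icc l K, ∑ i ∈ S, N.sqGrad L μ m i) / ((K : ℝ) + 1)) := by
  have hw : ∀ m ≤ K, N.w m = 1 / ((K : ℝ) + 1) := by
    intro m hm
    have hKp : (0 : ℝ) < (K : ℝ) + 1 := by positivity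
    have g : ∀ n : ℕ, n ≤ K + 1 → gridX K n = (n : ℝ) / ((K : ℝ) + 1) := fun n hn => by
      rw [gridX, lvl, min_eq_right]
      rw [div_le_one hKp]
      exact_mod_cast hn
    rw [Nest.w, hx, g _ (by omega), g _ (by omega)]
    push_cast
    ring
  have hw' : N.w (K + 1) = 0 := by
    have hKp : (0 : ℝ) < (K : ℝ) + 1 := by positivity
    have g : ∀ n : ℕ, K + 1 ≤ n → gridX K n = 1 := fun n hn => by
      rw [gridX, lvl, min_eq_left]
      rw [le_div_iff₀ hKp, one_mul]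
      exact_mod_cast hn
    rw [Nest.w, hx, g _ (by omega), g _ le_rfl, sub_self]
  rw [Nest.ampDeriv, sum_congr rfl fun i hi => by rw [hs i hi], ← mul_sum, sum_sub_distrib, hK,
    sum_comm]
  congr 2
  rw [Finset.sum_Icc_succ_top hl]
  simp only [hw', zero_mul, sum_const_zero, add_zero]
  rw [sum_div]
  refine sum_congr rfl fun m hm => ?_
  rw [sum_div]
  refine sum_congr rfl fun i _ => ?_
  rw [hw m (mem_Icc.1 hm).2]
  ring

/-! ### The two asymptotic statements -/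

/-- The amplitude of a level at a point of the box. -/
def pos (a : ℕ → ℝ) (ρ : ℝ) {K : ℕ} (j : Fin (K + 1) → Box K) (v : Box K → ℝ) (l : Fin (K + 1)) :
    ℝ :=
  a l + a l * ρ * v (j l)

/-- The points at which free energies are compared. -/
def Near (ρ : ℝ) {K : ℕ} (v : Box K → ℝ) : Prop :=
  ∀ k, -(1 / (2 * ρ)) ≤ v k ∧ v k ≤ 1 + 1 / (2 * ρ)

/-- A family of systems on a set of coordinates moving along the box. -/
structure Fam {ι Ω κ : Type} [Fintype ι] [Fintype κ] [MeasurableSpace Ω] (K : ℕ) (a : ℕ → ℝ)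
    (ρ Γ D : ℝ) (j : Fin (K + 1) → Box K) (N : Nest ι) (A : (Box K → ℝ) → ℕ → ι → ℝ)
    (L : Leaf Ω κ ι) (μ : Measure Ω) (S : Finset ι) (B : ℝ) : Prop where
  prob : IsProbabilityMeasure μ
  good : L.Good B
  ngood : N.Good
  levels : N.K = K + 1
  grid : N.x = gridX K
  curv : L.CurvLower S Γ
  card : (S.card : ℝ) ≤ Γ * D
  weight : ∀ ω y, ∑ i ∈ S,
    (|∑ k, L.φ2 k (L.loc ω y k) * L.a ω k i ^ 2| + L.vec i ω y ^ 2) ≤ Γ * D
  moves : ∀ l : Fin (K + 1), MovesAlong A S l (j l) (a l) (a l + a l * ρ)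
  cont : ∀ m i, Continuous fun v => A v m i

lemma Fam.amp_eq {ι Ω κ : Type} [Fintype ι] [Fintype κ] [MeasurableSpace Ω] {K : ℕ} {a : ℕ → ℝ}
    {ρ Γ D B : ℝ} {j : Fin (K + 1) → Box K} {N : Nest ι} {A : (Box K → ℝ) → ℕ → ι → ℝ}
    {L : Leaf Ω κ ι} {μ : Measure Ω} {S : Finset ι} (F : Fam K a ρ Γ D j N A L μ S B)
    (v : Box K → ℝ) (l : Fin (K + 1)) : ∀ i ∈ S, (N.setAmp (A v)).amp l i = pos a ρ j v l := by
  intro i hi
  have := (F.moves l).1 v i hi
  simp only [Nest.setAmp, this, pos]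
  ring

lemma Fam.ovl_mem {ι Ω κ : Type} [Fintype ι] [Fintype κ] [MeasurableSpace Ω] {K : ℕ} {a : ℕ → ℝ}
    {ρ Γ D B : ℝ} {j : Fin (K + 1) → Box K} {N : Nest ι} {A : (Box K → ℝ) → ℕ → ι → ℝ}
    {L : Leaf Ω κ ι} {μ : Measure Ω} {S : Finset ι} (F : Fam K a ρ Γ D j N A L μ S B) {D' : ℝ}
    (hD : 0 < D') (v : Box K → ℝ) {l : ℕ} (hl : l ≤ K + 1) :
    0 ≤ (N.setAmp (A v)).ovl L μ S D' l ∧
      (N.setAmp (A v)).ovl L μ S D' l ≤ Γ * D / D' := by
  have := F.prob
  have hg : (N.setAmp (A v)).Good := Nest.good_setAmp F.ngood _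
  have hl' : l ≤ (N.setAmp (A v)).K := by simp only [Nest.setAmp, F.levels]; exact hl
  refine ⟨div_nonneg (sum_nonneg fun i _ => sqGrad_nonneg hg F.good hl' i) hD.le,
    div_le_div_of_nonneg_right (sum_sqGrad_le hg F.good hl' S fun ω y => ?_) hD.le⟩
  refine le_trans (sum_le_sum fun i _ => ?_) (F.weight ω y)
  linarith [abs_nonneg (∑ k, L.φ2 k (L.loc ω y k) * L.a ω k i ^ 2)]

lemma Fam.ovl_continuous {ι Ω κ : Type} [Fintype ι] [Fintype κ] [MeasurableSpace Ω] {K : ℕ}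
    {a : ℕ → ℝ} {ρ Γ D B : ℝ} {j : Fin (K + 1) → Box K} {N : Nest ι}
    {A : (Box K → ℝ) → ℕ → ι → ℝ} {L : Leaf Ω κ ι} {μ : Measure Ω} {S : Finset ι}
    (F : Fam K a ρ Γ D j N A L μ S B) (D' : ℝ) {l : ℕ} (hl : l ≤ K + 1) :
    Continuous fun v => (N.setAmp (A v)).ovl L μ S D' l := by
  have := F.prob
  refine (continuous_finsetSum _ fun i _ => ?_).div_const _
  exact continuous_sqGrad F.ngood F.good (fun m _ k => F.cont m k) (F.levels.symm ▸ hl) i

/-- The deviations vanish on average once the normalisation is large. -/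
theorem dev_small (K : ℕ) {a : ℕ → ℝ} {ρ Γ Q ε : ℝ} (ha : ∀ l ≤ K, 0 < a l) (hρ : 0 < ρ)
    (hε : 0 < ε) :
    ∃ D₀ : ℝ, ∀ {ι Ω κ : Type} [Fintype ι] [DecidableEq ι] [Fintype κ] [MeasurableSpace Ω]
      (N : Nest ι) (A : (Box K → ℝ) → ℕ → ι → ℝ) (j : Fin (K + 1) → Box K) (L : Leaf Ω κ ι)
      (μ : Measure Ω) (S : Finset ι) (B D : ℝ), D₀ ≤ D → Fam K a ρ Γ D j N A L μ S B →
      (∀ ω y, |∑ i ∈ S, ((∑ k, L.φ2 k (L.loc ω y k) * L.a ω k i ^ 2) + L.vec i ω y ^ 2)| ≤
        Γ * D) →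
      (∀ v, (∀ k, v k ∈ Set.Icc (0 : ℝ) 1) → ∀ l < K, ∀ s : ℝ,
        ((N.setAmp (A v)).withAmp S (l + 1) s).mean (L.logZ μ) 0 (fun y =>
          |((N.setAmp (A v)).withAmp S (l + 1) s).u (L.logZ μ) 0 y -
            ((N.setAmp (A v)).withAmp S (l + 1) s).free L μ|) ≤ Real.sqrt (Q * D)) →
      ∀ l < K, Integrable (fun v => (N.setAmp (A v)).heatDev L μ S D l) (cubeLaw (Box K)) ∧
        ∫ v, (N.setAmp (A v)).heatDev L μ S D l ∂cubeLaw (Box K) ≤ ε := by
  have hξ : (0 : ℝ) < 1 / ((K : ℝ) + 1) := by positivity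
  have key : ∀ l : Fin K, ∃ D₀ : ℝ, 1 ≤ D₀ ∧
      ∀ {ι Ω κ : Type} [Fintype ι] [DecidableEq ι] [Fintype κ] [MeasurableSpace Ω]
      (N : Nest ι) (A : (Box K → ℝ) → ℕ → ι → ℝ) (j : Fin (K + 1) → Box K) (L : Leaf Ω κ ι)
      (μ : Measure Ω) (S : Finset ι) (B D : ℝ), D₀ ≤ D → Fam K a ρ Γ D j N A L μ S B →
      (∀ ω y, |∑ i ∈ S, ((∑ k, L.φ2 k (L.loc ω y k) * L.a ω k i ^ 2) + L.vec i ω y ^ 2)| ≤
        Γ * D) →
      (∀ v, (∀ k, v k ∈ Set.Icc (0 : ℝ) 1) → ∀ l < K, ∀ s : ℝ,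
        ((N.setAmp (A v)).withAmp S (l + 1) s).mean (L.logZ μ) 0 (fun y =>
          |((N.setAmp (A v)).withAmp S (l + 1) s).u (L.logZ μ) 0 y -
            ((N.setAmp (A v)).withAmp S (l + 1) s).free L μ|) ≤ Real.sqrt (Q * D)) →
      Integrable (fun v => (N.setAmp (A v)).heatDev L μ S D l) (cubeLaw (Box K)) ∧
        ∫ v, (N.setAmp (A v)).heatDev L μ S D l ∂cubeLaw (Box K) ≤ ε := by
    intro l
    have hal := ha (l + 1) (by omega)
    have hab : a (l + 1) < a (l + 1) + a (l + 1) * ρ := lt_add_of_pos_right _ (mul_pos hal hρ)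
    obtain ⟨C, hC⟩ := dev_avg_le (K + 1) (a (l + 1)) (a (l + 1) + a (l + 1) * ρ)
      (1 / ((K : ℝ) + 1)) Γ hal hab hξ
    set d := min (a (l + 1) / 2) (ε / (3 * (|C| + 1))) with hd
    have hd0 : 0 < d := lt_min (by linarith) (by positivity)
    have t1 : Tendsto (fun D : ℝ => |C| * (Real.sqrt |Q| / d + 1) / Real.sqrt D) atTop (𝓝 0) :=
      tendsto_const_nhds.div_atTop Real.tendsto_sqrt_atTop
    obtain ⟨D₁, hD₁⟩ := eventually_atTop.1 (t1.eventually (eventually_le_nhds (half_pos hε)))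
    refine ⟨max D₁ 1, le_max_right _ _, ?_⟩
    intro ι Ω κ _ _ _ _ N A j L μ S B D hD F hT hroot
    have := F.prob
    have hD1 : 1 ≤ D := (le_max_right _ _).trans hD
    have hDp : 0 < Real.sqrt D := Real.sqrt_pos.2 (by linarith)
    have hx : ∀ m, 1 ≤ m → m ≤ N.K → 1 / ((K : ℝ) + 1) ≤ N.x m := by
      intro m hm hm'
      rw [F.grid, gridX, lvl]
      refine le_min ?_ ?_
      · rw [div_le_one (by positivity)]
        linarith [Nat.cast_nonneg (α := ℝ) K]
      · gcongr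
        exact_mod_cast hm
    have hmv := F.moves ⟨l + 1, by omega⟩
    obtain ⟨hint, hle⟩ := hC (N := N) A (j ⟨l + 1, by omega⟩) L μ S B D
      (Real.sqrt |Q| / Real.sqrt D) d (l : ℕ) F.prob F.good F.ngood F.levels.le
      (by rw [F.levels]; omega) hx hD1 F.card hd0 (min_le_left _ _) F.curv hT hmv F.cont
      fun v hv s _ => (hroot v hv l l.2 s).trans (by
        rw [div_mul_eq_mul_div, le_div_iff₀ hDp]
        calc Real.sqrt (Q * D) * Real.sqrt D ≤ Real.sqrt (|Q| * D) * Real.sqrt D :=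
              mul_le_mul_of_nonneg_right (Real.sqrt_le_sqrt
                (mul_le_mul_of_nonneg_right (le_abs_self Q) (by linarith))) hDp.le
          _ = Real.sqrt |Q| * D := by
              rw [Real.sqrt_mul (abs_nonneg Q), mul_assoc, Real.mul_self_sqrt (by linarith)])
    refine ⟨hint, hle.trans ?_⟩
    have h2 := hD₁ D ((le_max_left _ _).trans hD)
    have h3 : |C| * d ≤ ε / 2 := by
      have := mul_le_mul_of_nonneg_left (min_le_right (a (l + 1) / 2) (ε / (3 * (|C| + 1))))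
        (abs_nonneg C)
      rw [← hd] at this
      refine this.trans ?_
      rw [mul_div_assoc', div_le_div_iff₀ (by positivity) two_pos]
      nlinarith [abs_nonneg C]
    calc C * (Real.sqrt |Q| / Real.sqrt D / d + d + 1 / Real.sqrt D)
        ≤ |C| * (Real.sqrt |Q| / Real.sqrt D / d + d + 1 / Real.sqrt D) :=
          mul_le_mul_of_nonneg_right (le_abs_self C) (by positivity)
      _ = |C| * (Real.sqrt |Q| / d + 1) / Real.sqrt D + |C| * d := by field_simp; ring
      _ ≤ ε := by linarith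
  choose D₀ hD0 hD₀ using key
  refine ⟨∑ l, |D₀ l| + 1, ?_⟩
  intro ι Ω κ _ _ _ _ N A j L μ S B D hD F hT hroot l hl
  refine hD₀ ⟨l, hl⟩ N A j L μ S B D ?_ F hT hroot
  linarith [single_le_sum (f := fun l => |D₀ l|) (fun i _ => abs_nonneg _)
    (mem_univ (⟨l, hl⟩ : Fin K)), le_abs_self (D₀ ⟨l, hl⟩)]

/-- Systems with close free energies have close overlaps once the normalisation is large. -/
theorem ovl_small (K : ℕ) {a : ℕ → ℝ} {ρ Γ C E ε : ℝ} (ha : ∀ l ≤ K, 0 < a l) (hρ : 0 < ρ)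
    (hρ1 : ρ ≤ 1) (hC : 0 ≤ C) (hε : 0 < ε) :
    ∃ D₀ : ℝ, ∀ {ι Ω κ ι' Ω' κ' : Type} [Fintype ι] [DecidableEq ι] [Fintype κ]
      [MeasurableSpace Ω] [Fintype ι'] [DecidableEq ι'] [Fintype κ'] [MeasurableSpace Ω']
      (N : Nest ι) (A : (Box K → ℝ) → ℕ → ι → ℝ) (L : Leaf Ω κ ι) (μ : Measure Ω) (S : Finset ι)
      (N' : Nest ι') (A' : (Box K → ℝ) → ℕ → ι' → ℝ) (L' : Leaf Ω' κ' ι') (μ' : Measure Ω')
      (S' : Finset ι') (j : Fin (K + 1) → Box K) (B B' D : ℝ), D₀ ≤ D →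
      Fam K a ρ Γ D j N A L μ S B → Fam K a ρ Γ D j N' A' L' μ' S' B' →
      (∀ v, Near ρ v → |(N.setAmp (A v)).free L μ - (N'.setAmp (A' v)).free L' μ'| ≤ C) →
      ∀ l ≤ K, (l < K ∨ ∀ v, |∑ i ∈ S, (N.setAmp (A v)).heatTop L μ i -
          ∑ i ∈ S', (N'.setAmp (A' v)).heatTop L' μ' i| ≤ E) →
      Integrable (fun v => |(N.setAmp (A v)).ovl L μ S D l - (N'.setAmp (A' v)).ovl L' μ' S' D l|)
          (cubeLaw (Box K)) ∧
        ∫ v, |(N.setAmp (A v)).ovl L μ S D l - (N'.setAmp (A' v)).ovl L' μ' S' D l|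
          ∂cubeLaw (Box K) ≤ ε := by
  have hK : (0 : ℝ) < (K : ℝ) + 1 := by positivity
  set ε' := ε / (3 * ((K : ℝ) + 1)) with hε'
  have hε'0 : 0 < ε' := by positivity
  have key : ∀ l : Fin (K + 1), ∃ D₀ : ℝ, 1 ≤ D₀ ∧
      ∀ {ι Ω κ ι' Ω' κ' : Type} [Fintype ι] [DecidableEq ι] [Fintype κ]
      [MeasurableSpace Ω] [Fintype ι'] [DecidableEq ι'] [Fintype κ'] [MeasurableSpace Ω']
      (N : Nest ι) (A : (Box K → ℝ) → ℕ → ι → ℝ) (L : Leaf Ω κ ι) (μ : Measure Ω) (S : Finset ι)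
      (N' : Nest ι') (A' : (Box K → ℝ) → ℕ → ι' → ℝ) (L' : Leaf Ω' κ' ι') (μ' : Measure Ω')
      (S' : Finset ι') (j : Fin (K + 1) → Box K) (B B' D : ℝ), D₀ ≤ D →
      Fam K a ρ Γ D j N A L μ S B → Fam K a ρ Γ D j N' A' L' μ' S' B' →
      (∀ v, Near ρ v → |(N.setAmp (A v)).free L μ - (N'.setAmp (A' v)).free L' μ'| ≤ C) →
      Integrable (fun v => |(N.setAmp (A v)).ampDeriv L μ S l -
        (N'.setAmp (A' v)).ampDeriv L' μ' S' l|) (cubeLaw (Box K)) ∧
      ∫ v, |(N.setAmp (A v)).ampDeriv L μ S l - (N'.setAmp (A' v)).ampDeriv L' μ' S' l|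
          ∂cubeLaw (Box K) ≤ ε' * a l * D := by
    intro l
    have hal := ha l (by omega)
    have hab : a l < a l + a l * ρ := lt_add_of_pos_right _ (mul_pos hal hρ)
    obtain ⟨Cs, hCs⟩ := deriv_avg_close (K + 1) (a l) (a l + a l * ρ) Γ hal hab
    set d := min (a l / 2) (ε' * a l / (2 * (|Cs| + 1))) with hd
    have hd0 : 0 < d := lt_min (by linarith) (by positivity)
    refine ⟨max 1 (2 * |Cs| * (C / d) / (ε' * a l)), le_max_left _ _, ?_⟩
    intro ι Ω κ ι' Ω' κ' _ _ _ _ _ _ _ _ N A L μ S N' A' L' μ' S' j B B' D hD F F' hclose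
    have hD1 : 1 ≤ D := (le_max_left _ _).trans hD
    have hD2 := (le_max_right _ _).trans hD
    rw [div_le_iff₀ (mul_pos hε'0 hal)] at hD2
    have hl : (l : ℕ) ≤ K + 1 := by omega
    obtain ⟨hint, hle⟩ := hCs N A L μ S N' A' L' μ' S' (j l) B B' D C d (l : ℕ) F.prob F'.prob
      F.good F'.good F.ngood F'.ngood F.levels.le F'.levels.le (F.levels.symm ▸ hl)
      (F'.levels.symm ▸ hl) hD1 hC hd0 (min_le_left _ _) F.curv F'.curv F.card F'.card F.weight
      F'.weight (F.moves l) (F'.moves l) F.cont F'.cont fun v hv hvj => hclose v fun k => by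
        have h2 : (0 : ℝ) ≤ 1 / (2 * ρ) := by positivity
        by_cases hk : k = j l
        · subst hk
          have hda : d ≤ a l / 2 := min_le_left _ _
          have hρ' : a l * ρ * (1 / (2 * ρ)) = a l / 2 := by field_simp
          constructor <;> refine le_of_mul_le_mul_left ?_ (mul_pos hal hρ) <;>
            nlinarith [hvj.1, hvj.2]
        · exact ⟨le_trans (neg_nonpos.2 h2) (hv k hk).1, le_add_of_le_of_nonneg (hv k hk).2 h2⟩
    refine ⟨hint, hle.trans ?_⟩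
    have h3 : |Cs| * d ≤ ε' * a l / 2 := by
      have := mul_le_mul_of_nonneg_left (min_le_right (a l / 2) (ε' * a l / (2 * (|Cs| + 1))))
        (abs_nonneg Cs)
      rw [← hd] at this
      refine this.trans ?_
      rw [mul_div_assoc', div_le_div_iff₀ (by positivity) two_pos]
      nlinarith [mul_pos hε'0 hal, abs_nonneg Cs]
    calc Cs * (C / d + D * d) ≤ |Cs| * (C / d + D * d) :=
          mul_le_mul_of_nonneg_right (le_abs_self Cs) (by positivity)
      _ ≤ ε' * a l * D := by nlinarith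
  choose D₀ hD0 hD₀ using key
  refine ⟨∑ l, |D₀ l| + |E| / ε' + 1, ?_⟩
  intro ι Ω κ ι' Ω' κ' _ _ _ _ _ _ _ _ N A L μ S N' A' L' μ' S' j B B' D hD F F' hclose l hl hE
  have hsum : 0 ≤ ∑ l, |D₀ l| := sum_nonneg fun _ _ => abs_nonneg _
  have hE0 : 0 ≤ |E| / ε' := by positivity
  have hD1 : 1 ≤ D := by linarith
  have hDp : 0 < D := by linarith
  have hge : ∀ m : Fin (K + 1), D₀ m ≤ D := fun m => by
    linarith [single_le_sum (f := fun l => |D₀ l|) (fun i _ => abs_nonneg _) (mem_univ m),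
      le_abs_self (D₀ m)]
  have hED : |E| ≤ ε' * D := by
    have h : |E| / ε' ≤ D := by linarith
    rw [div_le_iff₀ hε'0] at h
    linarith
  let X : (Box K → ℝ) → ℕ → ℝ := fun v m =>
    (∑ i ∈ S, (N.setAmp (A v)).heatTop L μ i) -
      (∑ r ∈ Icc m K, ∑ i ∈ S, (N.setAmp (A v)).sqGrad L μ r i) / ((K : ℝ) + 1)
  let X' : (Box K → ℝ) → ℕ → ℝ := fun v m =>
    (∑ i ∈ S', (N'.setAmp (A' v)).heatTop L' μ' i) -
      (∑ r ∈ Icc m K, ∑ i ∈ S', (N'.setAmp (A' v)).sqGrad L' μ' r i) / ((K : ℝ) + 1)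
  have hstep : ∀ v, (N.setAmp (A v)).ovl L μ S D l - (N'.setAmp (A' v)).ovl L' μ' S' D l =
      ((K : ℝ) + 1) / D * ((X v (l + 1) - X' v (l + 1)) - (X v l - X' v l)) := by
    intro v
    have e : Icc l K = insert l (Icc (l + 1) K) := (Finset.insert_Icc_succ_left_eq_Icc hl).symm
    simp only [X, X', e, sum_insert (show l ∉ Icc (l + 1) K by simp), Nest.ovl]
    field_simp
    ring
  let R : (Box K → ℝ) → ℕ → ℝ := fun v m => if hm : m ≤ K then
    |(N.setAmp (A v)).ampDeriv L μ S m - (N'.setAmp (A' v)).ampDeriv L' μ' S' m| / a m else |E|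
  have hR : ∀ m ≤ l + 1, Integrable (fun v => R v m) (cubeLaw (Box K)) ∧
      ∫ v, R v m ∂cubeLaw (Box K) ≤ ε' * D := by
    intro m _
    by_cases hm : m ≤ K
    · obtain ⟨hi, hb⟩ := hD₀ ⟨m, by omega⟩ N A L μ S N' A' L' μ' S' j B B' D (hge _) F F' hclose
      simp only [R, hm, dite_true]
      refine ⟨hi.div_const _, ?_⟩
      rw [integral_div, div_le_iff₀ (ha m hm)]
      exact hb.trans (le_of_eq (by ring))
    · simp only [R, hm, dite_false]
      exact ⟨integrable_const _, by simpa using hED⟩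
  have hXR : ∀ᵐ v ∂cubeLaw (Box K), ∀ m, m = l ∨ m = l + 1 → |X v m - X' v m| ≤ R v m := by
    filter_upwards [ae_mem_cube] with v hv m hm
    have := F.prob
    have := F'.prob
    by_cases hmK : m ≤ K
    · simp only [R, hmK, dite_true]
      have e1 := ampDeriv_eq (N := N.setAmp (A v)) (L := L) (μ := μ) F.levels F.grid S
        (l := m) (by omega) (F.amp_eq v ⟨m, by omega⟩)
      have e2 := ampDeriv_eq (N := N'.setAmp (A' v)) (L := L') (μ := μ') F'.levels F'.grid S'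
        (l := m) (by omega) (F'.amp_eq v ⟨m, by omega⟩)
      rw [e1, e2, ← mul_sub, abs_mul, le_div_iff₀ (ha m hmK), mul_comm]
      refine mul_le_mul_of_nonneg_right (le_trans ?_ (le_abs_self _)) (abs_nonneg _)
      have := mul_nonneg (mul_nonneg (ha m hmK).le hρ.le) (hv (j ⟨m, by omega⟩)).1
      simp only [pos]
      linarith
    · simp only [R, hmK, dite_false]
      have he : Icc m K = ∅ := Finset.Icc_eq_empty (by omega)
      rcases hE with hE | hE
      · omega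
      · simpa [X, X', he] using (hE v).trans (le_abs_self E)
  have hcont := ((F.ovl_continuous D (l := l) (by omega)).sub
    (F'.ovl_continuous D (l := l) (by omega))).abs
  have hint : Integrable (fun v => |(N.setAmp (A v)).ovl L μ S D l -
      (N'.setAmp (A' v)).ovl L' μ' S' D l|) (cubeLaw (Box K)) := by
    refine integrable_of_bdd hcont (C := Γ * D / D) fun v => ?_
    obtain ⟨a1, a2⟩ := F.ovl_mem hDp v (l := l) (by omega)
    obtain ⟨b1, b2⟩ := F'.ovl_mem hDp v (l := l) (by omega)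
    rw [abs_abs, abs_le]
    constructor <;> linarith
  refine ⟨hint, ?_⟩
  obtain ⟨i1, h1⟩ := hR l (by omega)
  obtain ⟨i2, h2⟩ := hR (l + 1) le_rfl
  calc ∫ v, |(N.setAmp (A v)).ovl L μ S D l - (N'.setAmp (A' v)).ovl L' μ' S' D l| ∂cubeLaw (Box K)
      ≤ ∫ v, ((K : ℝ) + 1) / D * (R v (l + 1) + R v l) ∂cubeLaw (Box K) := by
        refine integral_mono_ae hint ((i2.add i1).const_mul _) ?_
        filter_upwards [hXR] with v hv
        rw [hstep, abs_mul, abs_of_pos (div_pos hK hDp)]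
        exact mul_le_mul_of_nonneg_left
          ((abs_sub _ _).trans (add_le_add (hv _ (Or.inr rfl)) (hv _ (Or.inl rfl))))
          (div_pos hK hDp).le
    _ ≤ ((K : ℝ) + 1) / D * (ε' * D + ε' * D) := by
        rw [integral_const_mul, integral_add i2 i1]
        exact mul_le_mul_of_nonneg_left (add_le_add h2 h1) (div_pos hK hDp).le
    _ = 2 * ε / 3 := by rw [hε']; field_simp; ring
    _ ≤ ε := by linarith

end Vale.Agent.P157.Parisi.Rand
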