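import Vale.Agent.P157.Parisi.LowerRandBase
import Vale.Agent.P157.Parisi.Increments

/-!
The random errors of the lower bound: facts about the perceptron systems.
-/

set_option linter.unusedSectionVars false

namespace Vale.Agent.P157.Parisi.Rand

open MeasureTheory ProbabilityTheory Finset Filter Topology

section leaf

variable {Ω δ : Type} [MeasurableSpace Ω] [Fintype δ] [DecidableEq δ] {φ φ1 φ2 : ℝ → ℝ} {M : ℕ}
  {spin : Ω → δ → ℝ}

lemma percCoef_g (σ : δ → ℝ) (a b : Fin M) (i : δ) :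
    percCoef M σ (Sum.inl a) (Sum.inl (b, i)) = if a = b then σ i else 0 := rfl

lemma percCoef_g' (σ : δ → ℝ) (u : Unit) (b : Fin M) (i : δ) :
    percCoef M σ (Sum.inr u) (Sum.inl (b, i)) = 0 := rfl

lemma percCoef_y (σ : δ → ℝ) (a : Fin M) (i : δ) :
    percCoef M σ (Sum.inl a) (Sum.inr (Sum.inl i)) = 0 := rfl

lemma percCoef_y' (σ : δ → ℝ) (u : Unit) (i : δ) :
    percCoef M σ (Sum.inr u) (Sum.inr (Sum.inl i)) = σ i := rfl

lemma percCoef_c (σ : δ → ℝ) (a b : Fin M) :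
    percCoef M σ (Sum.inl a) (Sum.inr (Sum.inr b)) = if a = b then 1 else 0 := rfl

lemma percCoef_c' (σ : δ → ℝ) (u : Unit) (b : Fin M) :
    percCoef M σ (Sum.inr u) (Sum.inr (Sum.inr b)) = 0 := rfl

lemma vec_y (i : δ) (ω : Ω) (y : PIdx M δ → ℝ) :
    (percLeaf φ φ1 φ2 spin M).vec (Sum.inr (Sum.inl i)) ω y = spin ω i := by
  simp [Leaf.vec, percLeaf, Fintype.sum_sum_type, percCoef_y, percCoef_y']

lemma vec_c (b : Fin M) (ω : Ω) (y : PIdx M δ → ℝ) :
    (percLeaf φ φ1 φ2 spin M).vec (Sum.inr (Sum.inr b)) ω y =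
      φ1 ((percLeaf φ φ1 φ2 spin M).loc ω y (Sum.inl b)) := by
  simp [Leaf.vec, percLeaf, Fintype.sum_sum_type, percCoef_c, percCoef_c']

lemma vec_g (b : Fin M) (i : δ) (ω : Ω) (y : PIdx M δ → ℝ) :
    (percLeaf φ φ1 φ2 spin M).vec (Sum.inl (b, i)) ω y =
      φ1 ((percLeaf φ φ1 φ2 spin M).loc ω y (Sum.inl b)) * spin ω i := by
  simp [Leaf.vec, percLeaf, Fintype.sum_sum_type, percCoef_g, percCoef_g']

lemma curv_y (i : δ) (ω : Ω) (y : PIdx M δ → ℝ) :
    ∑ j, (percLeaf φ φ1 φ2 spin M).φ2 j ((percLeaf φ φ1 φ2 spin M).loc ω y j) *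
      (percLeaf φ φ1 φ2 spin M).a ω j (Sum.inr (Sum.inl i)) ^ 2 = 0 := by
  simp [percLeaf, Fintype.sum_sum_type, percCoef_y, percCoef_y']

lemma curv_c (b : Fin M) (ω : Ω) (y : PIdx M δ → ℝ) :
    ∑ j, (percLeaf φ φ1 φ2 spin M).φ2 j ((percLeaf φ φ1 φ2 spin M).loc ω y j) *
      (percLeaf φ φ1 φ2 spin M).a ω j (Sum.inr (Sum.inr b)) ^ 2 =
      φ2 ((percLeaf φ φ1 φ2 spin M).loc ω y (Sum.inl b)) := by
  simp [percLeaf, Fintype.sum_sum_type, percCoef_c, percCoef_c']

lemma sum_ySet (s : Finset δ) (F : PIdx M δ → ℝ) :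
    ∑ i ∈ ySet M s, F i = ∑ p ∈ s, F (Sum.inr (Sum.inl p)) := by
  rw [ySet, sum_image fun x _ y _ h => Sum.inl_injective (Sum.inr_injective h)]

lemma sum_cSet (F : PIdx M δ → ℝ) :
    ∑ i ∈ (cSet M : Finset (PIdx M δ)), F i = ∑ a, F (Sum.inr (Sum.inr a)) := by
  rw [cSet, sum_image fun x _ y _ h => Sum.inr_injective (Sum.inr_injective h)]

lemma card_ySet (s : Finset δ) : (ySet M s).card = s.card := by
  rw [ySet, card_image_of_injective _ fun x y h => Sum.inl_injective (Sum.inr_injective h)]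

lemma card_cSet : (cSet M : Finset (PIdx M δ)).card = M := by
  rw [cSet, card_image_of_injective _ fun x y h => Sum.inr_injective (Sum.inr_injective h),
    card_univ, Fintype.card_fin]

lemma not_inl_ySet (s : Finset δ) : ∀ p, Sum.inl p ∉ ySet M s := by
  intro p h
  simp [ySet] at h

lemma not_inl_cSet : ∀ p, Sum.inl p ∉ (cSet M : Finset (PIdx M δ)) := by
  intro p h
  simp [cSet] at h

lemma weight_y_sum (s : Finset δ) (ω : Ω) (y : PIdx M δ → ℝ) :
    ∑ i ∈ ySet M s, ((∑ k, (percLeaf φ φ1 φ2 spin M).φ2 k ((percLeaf φ φ1 φ2 spin M).loc ω y k) *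
        (percLeaf φ φ1 φ2 spin M).a ω k i ^ 2) + (percLeaf φ φ1 φ2 spin M).vec i ω y ^ 2) =
      ∑ p ∈ s, spin ω p ^ 2 := by
  rw [sum_ySet]
  simp only [curv_y, vec_y, zero_add]

lemma weight_y_abs (s : Finset δ) (ω : Ω) (y : PIdx M δ → ℝ) :
    ∑ i ∈ ySet M s, (|∑ k, (percLeaf φ φ1 φ2 spin M).φ2 k ((percLeaf φ φ1 φ2 spin M).loc ω y k) *
        (percLeaf φ φ1 φ2 spin M).a ω k i ^ 2| + (percLeaf φ φ1 φ2 spin M).vec i ω y ^ 2) =
      ∑ p ∈ s, spin ω p ^ 2 := by
  rw [sum_ySet]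
  simp only [curv_y, vec_y, abs_zero, zero_add]

lemma weight_c_abs {B : ℝ} (hφ : PhiGood φ φ1 φ2 B) (ω : Ω) (y : PIdx M δ → ℝ) :
    ∑ i ∈ (cSet M : Finset (PIdx M δ)),
      (|∑ k, (percLeaf φ φ1 φ2 spin M).φ2 k ((percLeaf φ φ1 φ2 spin M).loc ω y k) *
        (percLeaf φ φ1 φ2 spin M).a ω k i ^ 2| + (percLeaf φ φ1 φ2 spin M).vec i ω y ^ 2) ≤
      (B + B ^ 2) * M := by
  rw [sum_cSet]
  simp only [curv_c, vec_c]
  refine (sum_le_sum fun a _ => add_le_add (hφ.bound2 _) (sq_le_sq' (abs_le.1 (hφ.bound1 _)).1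
    (abs_le.1 (hφ.bound1 _)).2)).trans (le_of_eq ?_)
  simp
  ring

lemma weight_abs_of {ι Ω' κ : Type} [Fintype ι] [Fintype κ] [MeasurableSpace Ω'] (L : Leaf Ω' κ ι)
    (S : Finset ι) {T : ℝ} (ω : Ω') (y : ι → ℝ)
    (h : ∑ i ∈ S, (|∑ k, L.φ2 k (L.loc ω y k) * L.a ω k i ^ 2| + L.vec i ω y ^ 2) ≤ T) :
    |∑ i ∈ S, ((∑ k, L.φ2 k (L.loc ω y k) * L.a ω k i ^ 2) + L.vec i ω y ^ 2)| ≤ T :=
  (abs_sum_le_sum_abs _ _).trans ((sum_le_sum fun i _ =>
    (abs_add_le _ _).trans (le_of_eq (by rw [abs_sq]))).trans h)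

lemma curvLower_mono {ι Ω' κ : Type} [Fintype ι] [Fintype κ] [MeasurableSpace Ω']
    {L : Leaf Ω' κ ι} {S : Finset ι} {Λ Λ' : ℝ} (h : L.CurvLower S Λ) (hle : Λ ≤ Λ') :
    L.CurvLower S Λ' :=
  ⟨h.1.trans hle, fun ω y v hv => le_trans (neg_le_neg (mul_le_mul_of_nonneg_right hle
    (sum_nonneg fun _ _ => sq_nonneg _))) (h.2 ω y v hv)⟩

lemma sqGrad_g_le {B R : ℝ} (hφ : PhiGood φ φ1 φ2 B) (hs : SpinSys spin R) {μ : Measure Ω}
    [IsProbabilityMeasure μ] (K : ℕ) (g : Fin M → δ → ℝ) (s : ℕ → δ → ℝ) (c : ℕ → Fin M → ℝ)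
    {l : ℕ} (hl : l ≤ K + 1) (U : Finset δ) {T : ℝ} (hT : ∀ ω, ∑ p ∈ U, spin ω p ^ 2 ≤ T) :
    ∑ p ∈ U, ∑ a, (percNest K g s c).sqGrad (percLeaf φ φ1 φ2 spin M) μ l (Sum.inl (a, p)) ≤
      M * (B ^ 2 * T) := by
  rw [sum_comm]
  calc ∑ a, ∑ p ∈ U, (percNest K g s c).sqGrad (percLeaf φ φ1 φ2 spin M) μ l (Sum.inl (a, p))
      ≤ ∑ _a : Fin M, B ^ 2 * T := by
        refine sum_le_sum fun a _ => ?_
        have := sum_sqGrad_le (μ := μ) (percNest_good hφ hs K M g s c) (perc_good hφ hs M) hl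
          (U.image fun p => (Sum.inl (a, p) : PIdx M δ)) (T := B ^ 2 * T) fun ω y => ?_
        · rwa [sum_image fun x _ y _ h => (Prod.ext_iff.1 (Sum.inl_injective h)).2] at this
        · rw [sum_image fun x _ y _ h => (Prod.ext_iff.1 (Sum.inl_injective h)).2]
          simp only [vec_g, mul_pow]
          rw [← mul_sum]
          refine mul_le_mul (sq_le_sq' (abs_le.1 (hφ.bound1 _)).1 (abs_le.1 (hφ.bound1 _)).2)
            (hT ω) (sum_nonneg fun _ _ => sq_nonneg _) (sq_nonneg _)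
    _ = _ := by simp

lemma withAmp_perc (K : ℕ) (g : Fin M → δ → ℝ) (s : ℕ → δ → ℝ) (c : ℕ → Fin M → ℝ)
    (S : Finset (PIdx M δ)) (hS : ∀ p, Sum.inl p ∉ S) {l : ℕ} (hl : l ≠ 0) (r : ℝ) :
    ∃ (s' : ℕ → δ → ℝ) (c' : ℕ → Fin M → ℝ),
      (percNest K g s c).withAmp S l r = percNest K g s' c' ∧ s' 0 = s 0 := by
  refine ⟨fun m i => ((percNest K g s c).withAmp S l r).amp m (Sum.inr (Sum.inl i)),
    fun m a => ((percNest K g s c).withAmp S l r).amp m (Sum.inr (Sum.inr a)), ?_, ?_⟩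
  · simp only [Nest.withAmp, percNest, Nest.mk.injEq, true_and]
    funext m i
    rcases i with ⟨a, p⟩ | p | a <;> simp [percAmp, hS]
  · funext i
    simp only [Nest.withAmp, percNest, percAmp]
    simp [Ne.symm hl]

lemma root_le {B R : ℝ} (hφ : PhiGood φ φ1 φ2 B) (hs : SpinSys spin R) {μ : Measure Ω}
    [IsProbabilityMeasure μ] (K : ℕ) (g : Fin M → δ → ℝ) (s : ℕ → δ → ℝ) (c : ℕ → Fin M → ℝ)
    (S : Finset (PIdx M δ)) (hS : ∀ p, Sum.inl p ∉ S) {l : ℕ} (hl : l ≠ 0) (r : ℝ) {V : ℝ}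
    (hV : 4 * B ^ 2 * M + R ^ 2 * ∑ i, s 0 i ^ 2 ≤ V) :
    ((percNest K g s c).withAmp S l r).mean ((percLeaf φ φ1 φ2 spin M).logZ μ) 0 (fun y =>
      |((percNest K g s c).withAmp S l r).u ((percLeaf φ φ1 φ2 spin M).logZ μ) 0 y -
        ((percNest K g s c).withAmp S l r).free (percLeaf φ φ1 φ2 spin M) μ|) ≤ Real.sqrt V := by
  obtain ⟨s', c', e, e0⟩ := withAmp_perc K g s c S hS hl r
  rw [e]
  exact (root_dev hφ hs K M g s' c').trans (Real.sqrt_le_sqrt (by rw [e0]; exact hV))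

end leaf

/-! ### One more pattern -/

lemma abs_oneFree_le {φ φ1 φ2 : ℝ → ℝ} {B : ℝ} (hφ : PhiGood φ φ1 φ2 B) (K : ℕ) (v : ℕ → ℝ) :
    |oneFree φ φ1 φ2 K v| ≤ B := by
  have hKp : (0 : ℝ) < (K : ℝ) + 1 := by positivity
  refine abs_free_le (B := B) ⟨?_, ?_, ?_, ?_⟩ ⟨zero_le_one.trans hφ.one_le, ?_, ?_, ?_, ?_, ?_, ?_, ?_⟩
    fun y => ?_
  · simp [gridX, lvl]
  · simp only [gridX, lvl]
    rw [min_eq_left]
    rw [le_div_iff₀ hKp]
    push_cast
    linarith
  · intro l hl _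
    exact lt_min one_pos (div_pos (by exact_mod_cast hl) hKp)
  · intro l _
    refine min_le_min le_rfl ?_
    simp only [lvl]
    gcongr
    norm_num
  · exact fun _ _ => measurable_const
  · intro ω j i
    simpa using hφ.one_le
  · exact fun _ z => hφ.deriv1 z
  · exact fun _ z => hφ.deriv2 z
  · exact fun _ => hφ.cont2
  · exact fun _ z => hφ.bound1 z
  · exact fun _ z => hφ.bound2 z
  · simp [Leaf.logZ, Leaf.ham, Leaf.loc, integral_dirac, hφ.bound0]

section systems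

variable {φ φ1 φ2 : ℝ → ℝ} {B : ℝ} (hφ : PhiGood φ φ1 φ2 B) {n : ℕ} (hn : 0 < n)

include hφ hn

omit hφ in
lemma prob_blockLaw (N : ℕ) : IsProbabilityMeasure (blockLaw n N) :=
  (blockSpin_sys (n := n) (N := N) hn).2.1

lemma free_add_pattern {N : ℕ} (hN : 0 < N) (K M : ℕ) (s : ℕ → ℝ) (b : ℕ → ℝ) :
    |(percNest K (unifG n N (M + 1)) (fun l _ => s l) (fun l _ => b l)).free
        (percLeaf φ φ1 φ2 (blockSpin n N) (M + 1)) (blockLaw n N) -
      (percNest K (unifG n N M) (fun l _ => s l) (fun l _ => b l)).free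
        (percLeaf φ φ1 φ2 (blockSpin n N) M) (blockLaw n N)| ≤ 3 * B := by
  have : Nonempty (Fin N × Fin n) := ⟨(⟨0, hN⟩, ⟨0, hn⟩)⟩
  have := prob_blockLaw (n := n) hn N
  have hs := (blockSpin_sys (n := n) (N := N) hn).1
  have h0 := insert_zero hφ hs (μ := blockLaw n N) K M (unifG n N M) (fun l _ => s l)
    (fun l _ => b l) (fun _ => 0) (fun _ => 0)
  have h1 := free_one_pattern hφ hs (μ := blockLaw n N) K (M + 1) (Fin.last M)
    (insG M (unifG n N M) 0) (unifG n N (M + 1)) (fun l _ => s l)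
    (insC K M (fun l _ => b l) (fun _ => 0) (fun _ => 0) 0) (fun l _ => b l)
    (fun a ha => by
      obtain ⟨a', rfl⟩ := Fin.exists_castSucc_eq.2 ha
      funext p
      simp [insG, unifG])
    (fun l a ha => by
      obtain ⟨a', rfl⟩ := Fin.exists_castSucc_eq.2 ha
      simp [insC])
  rw [h0] at h1
  have h2 := abs_le.1 (abs_oneFree_le hφ K
    (fun l => Real.sqrt ((fun _ : ℕ => (0 : ℝ)) l ^ 2 + pathAmp K (fun _ => 0) l ^ 2)))
  have h3 := abs_le.1 h1
  rw [abs_le]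
  constructor <;> linarith

lemma free_patterns_close {N : ℕ} (hN : 0 < N) (K : ℕ) (s : ℕ → ℝ) (b : ℕ → ℝ) :
    ∀ (d M M' : ℕ), M ≤ M' + d → M' ≤ M + d →
      |(percNest K (unifG n N M) (fun l _ => s l) (fun l _ => b l)).free
          (percLeaf φ φ1 φ2 (blockSpin n N) M) (blockLaw n N) -
        (percNest K (unifG n N M') (fun l _ => s l) (fun l _ => b l)).free
          (percLeaf φ φ1 φ2 (blockSpin n N) M') (blockLaw n N)| ≤ 3 * B * d := by
  set F : ℕ → ℝ := fun M => (percNest K (unifG n N M) (fun l _ => s l) (fun l _ => b l)).free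
    (percLeaf φ φ1 φ2 (blockSpin n N) M) (blockLaw n N)
  have step : ∀ M, |F (M + 1) - F M| ≤ 3 * B := fun M => free_add_pattern hφ hn hN K M s b
  have up : ∀ d M, |F (M + d) - F M| ≤ 3 * B * d := by
    intro d
    induction d with
    | zero => intro M; simp
    | succ d ih =>
      intro M
      refine (abs_sub_le _ (F (M + d)) _).trans ?_
      rw [← add_assoc]
      push_cast
      linarith [step (M + d), ih M]
  intro d M M' h h'
  have hB : 0 ≤ 3 * B := by linarith [hφ.one_le]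
  rcases le_total M M' with hle | hle
  · obtain ⟨e, rfl⟩ := Nat.le.dest hle
    rw [abs_sub_comm]
    refine (up e M).trans (mul_le_mul_of_nonneg_left ?_ hB)
    exact_mod_cast (by omega : e ≤ d)
  · obtain ⟨e, rfl⟩ := Nat.le.dest hle
    refine (up e M').trans (mul_le_mul_of_nonneg_left ?_ hB)
    exact_mod_cast (by omega : e ≤ d)

/-! ### Blocks -/

omit hφ in
lemma normBlock_sq (σ : Fin n → ℝ) : ∑ i, normBlock σ i ^ 2 = (n : ℝ) := by
  by_cases h : ∑ k, σ k ^ 2 = 0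
  · simp [normBlock, h]
  · have hp : 0 ≤ ∑ k, σ k ^ 2 := sum_nonneg fun _ _ => sq_nonneg _
    simp only [normBlock, if_neg h, div_pow, mul_pow, Real.sq_sqrt hp,
      Real.sq_sqrt (Nat.cast_nonneg n)]
    rw [← sum_div, ← mul_sum, mul_div_assoc, div_self h, mul_one]

omit hφ in
lemma sum_spin_sq (N : ℕ) (ω : Fin N → Fin n → ℝ) :
    ∑ p, blockSpin n N ω p ^ 2 = (n : ℝ) * N := by
  rw [Fintype.sum_prod_type]
  simp only [blockSpin, normBlock_sq hn]
  simp [mul_comm]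

omit hφ hn in
lemma sum_ite_old (N m : ℕ) (F G : Fin (N + m) × Fin n → ℝ) :
    (∑ p : Fin (N + m) × Fin n, if (p.1 : ℕ) < N then F p else G p) =
      (∑ b : Fin N, ∑ i, F (Fin.castAdd m b, i)) + ∑ b : Fin m, ∑ i, G (Fin.natAdd N b, i) := by
  rw [Fintype.sum_prod_type, Fin.sum_univ_add]
  simp

omit hφ hn in
lemma sum_old (N m : ℕ) (F : Fin (N + m) × Fin n → ℝ) :
    ∑ p ∈ univ.filter (fun p : Fin (N + m) × Fin n => (p.1 : ℕ) < N), F p =
      ∑ b : Fin N, ∑ i, F (Fin.castAdd m b, i) := by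
  rw [sum_filter, sum_ite_old N m F fun _ => 0]
  simp

omit hφ hn in
lemma sum_new (N m : ℕ) (F : Fin (N + m) × Fin n → ℝ) :
    ∑ p ∈ univ.filter (fun p : Fin (N + m) × Fin n => ¬(p.1 : ℕ) < N), F p =
      ∑ b : Fin m, ∑ i, F (Fin.natAdd N b, i) := by
  rw [sum_filter]
  simp only [ite_not]
  rw [sum_ite_old N m (fun _ => 0) F]
  simp

omit hφ in
lemma sum_spin_old (N m : ℕ) (ω : Fin (N + m) → Fin n → ℝ) :
    ∑ p ∈ univ.filter (fun p : Fin (N + m) × Fin n => (p.1 : ℕ) < N),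
      blockSpin n (N + m) ω p ^ 2 = (n : ℝ) * N := by
  rw [sum_old]
  simp only [blockSpin, normBlock_sq hn]
  simp [mul_comm]

omit hφ in
lemma sum_spin_new (N m : ℕ) (ω : Fin (N + m) → Fin n → ℝ) :
    ∑ p ∈ univ.filter (fun p : Fin (N + m) × Fin n => ¬(p.1 : ℕ) < N),
      blockSpin n (N + m) ω p ^ 2 = (n : ℝ) * m := by
  rw [sum_new]
  simp only [blockSpin, normBlock_sq hn]
  simp [mul_comm]

omit hφ hn in
lemma card_old (N m : ℕ) :
    ((univ.filter fun p : Fin (N + m) × Fin n => (p.1 : ℕ) < N).card : ℝ) = (n : ℝ) * N := by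
  rw [card_eq_sum_ones, Nat.cast_sum, Nat.cast_one, sum_old N m fun _ => (1 : ℝ)]
  simp [mul_comm]

/-- The cavity system differs from the reference by a bounded amount. -/
lemma cav_free_close {N m : ℕ} (hN : 0 < N) (hm : 0 < m) (K M : ℕ) {a : ℝ}
    (hM : (M : ℝ) ≤ a * ((n : ℝ) * N)) {s : ℕ → ℝ} (hs : ∀ l, 0 ≤ s l) (e : ℕ → ℝ)
    {h : ℕ → ℝ} (hh : IsPath h) {c : ℕ → Fin M → ℝ} (hc : ∀ l b, 0 ≤ c l b) {t : ℝ}
    (ht : t ∈ Set.Icc (0 : ℝ) 1) :
    |(cavNest n N m K M s e h c t).free (percLeaf φ φ1 φ2 (blockSpin n (N + m)) M)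
        (blockLaw n (N + m)) -
      (percNest K (unifG n N M) (fun l _ => s l) c).free
        (percLeaf φ φ1 φ2 (blockSpin n N) M) (blockLaw n N)| ≤
      (n : ℝ) * m * ∑ l ∈ range (K + 2), e l ^ 2 +
        (n : ℝ) * m * (|blockField n K h| + 2 * h K + 2 * (|a| * B ^ 2)) := by
  have := prob_blockLaw (n := n) hn (N + m)
  obtain ⟨hsys, -, -⟩ := blockSpin_sys (n := n) (N := N + m) hn
  have hnr : (0 : ℝ) < n := by exact_mod_cast hn
  have hNr : (0 : ℝ) < N := by exact_mod_cast hN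
  have hmr : (0 : ℝ) < m := by exact_mod_cast hm
  have hgood := percNest_good hφ hsys
  have hnn : ∀ (e : ℕ → ℝ) l i, 0 ≤ (cavNest n N m K M s e h c t).amp l i := by
    intro e l i
    rcases i with ⟨b, p⟩ | p | b
    · change 0 ≤ if l = 0 then cavG n N m M t b p else 0
      split_ifs with h0
      · simp only [cavG]; split_ifs <;> exact Real.sqrt_nonneg _
      · exact le_rfl
    · change 0 ≤ cavS n N m K s e h t l p
      simp only [cavS]
      split_ifs with h0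
      · exact hs l
      all_goals exact Real.sqrt_nonneg _
    · exact hc l b
  -- removing the own field
  have step1 : |(cavNest n N m K M s e h c t).free (percLeaf φ φ1 φ2 (blockSpin n (N + m)) M)
        (blockLaw n (N + m)) -
      (cavNest n N m K M s (fun _ => 0) h c t).free (percLeaf φ φ1 φ2 (blockSpin n (N + m)) M)
        (blockLaw n (N + m))| ≤ (n : ℝ) * m * ∑ l ∈ range (K + 2), e l ^ 2 := by
    refine free_group_lip (N := cavNest n N m K M s e h c t) (hgood K M _ _ _)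
      (perc_good hφ hsys M) (ySet M (univ.filter fun p : Fin (N + m) × Fin n => ¬(p.1 : ℕ) < N))
      (T := (n : ℝ) * m) (fun ω y => le_of_eq ?_) (cavNest n N m K M s (fun _ => 0) h c t).amp
      (cavNest n N m K M s e h c t).amp (fun l => e l ^ 2)
      (fun l _ i => hnn _ l i) (fun l _ i => hnn _ l i) (fun l _ i hi => ?_) (fun l _ i hi => ?_)
      fun l => sq_nonneg _
    · simp only [Leaf.weight]
      rw [weight_y_abs, sum_spin_new hn]
    · rcases i with ⟨b, p⟩ | p | b <;> try rfl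
      simp only [cavNest, percNest, percAmp, cavS]
      by_cases hp : (p.1 : ℕ) < N
      · simp [hp]
      · exact absurd (mem_image_of_mem _ (by simpa using hp)) hi
    · obtain ⟨p, hp, rfl⟩ := mem_image.1 hi
      have hp' : ¬(p.1 : ℕ) < N := (mem_filter.1 hp).2
      simp only [cavNest, percNest, percAmp, cavS, if_neg hp']
      have hinc : 0 ≤ (1 - t) * if l = 0 then h 0 else if l ≤ K then h l - h (l - 1) else 0 := by
        refine mul_nonneg (by linarith [ht.2]) ?_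
        split_ifs
        · exact hh.2
        · exact sub_nonneg.2 (hh.1 (Nat.sub_le l 1))
        · exact le_rfl
      rw [Real.sq_sqrt (by positivity), Real.sq_sqrt (by positivity)]
      simp [abs_of_nonneg (sq_nonneg (e l))]
  -- along the interpolation
  set F : ℝ → ℝ := fun u => (cavNest n N m K M s (fun _ => 0) h c u).free
    (percLeaf φ φ1 φ2 (blockSpin n (N + m)) M) (blockLaw n (N + m)) with hF
  have hK0 : 0 ≤ h K := hh.2.trans (hh.1 (Nat.zero_le K))
  set G := (n : ℝ) * m * (h K + |a| * B ^ 2) with hG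
  have hG0 : 0 ≤ G := by positivity
  have hder : ∀ u ∈ Set.Ioo (0 : ℝ) 1, ∃ D, HasDerivAt F D u ∧ |D| ≤ G := by
    intro u hu
    refine ⟨_, cavity_deriv hφ hn hN hm K M s (fun _ => 0) hh c hu, ?_⟩
    set Ns := cavNest n N m K M s (fun _ => 0) h c u
    have hNs : Ns.Good := hgood K M _ _ _
    have hL := perc_good hφ hsys M
    have hw0 : ∀ l ∈ range (K + 1), 0 ≤ Ns.w l := fun l hl =>
      Nest.w_nonneg hNs (by have := mem_range.1 hl; change l ≤ K + 1; omega)
    have hw1 : ∑ l ∈ range (K + 1), Ns.w l ≤ 1 := by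
      refine le_trans ?_ (Nest.sum_w_Icc_le hNs (Nat.zero_le _))
      refine sum_le_sum_of_subset_of_nonneg ?_ fun l hl _ => Nest.w_nonneg hNs (mem_Icc.1 hl).2
      intro l hl
      simp only [mem_range, mem_Icc] at hl ⊢
      exact ⟨Nat.zero_le _, by change l ≤ K + 1; omega⟩
    have hM' : cavT N m * ((M : ℝ) * B ^ 2) ≤ (n : ℝ) * m * (|a| * B ^ 2) := by
      have h1 : (M : ℝ) ≤ |a| * ((n : ℝ) * N) :=
        hM.trans (mul_le_mul_of_nonneg_right (le_abs_self a) (by positivity))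
      rw [cavT, div_mul_eq_mul_div, div_le_iff₀ (by positivity)]
      have h2 : (M : ℝ) * (B ^ 2 * m) ≤ |a| * ((n : ℝ) * N) * (B ^ 2 * m) :=
        mul_le_mul_of_nonneg_right h1 (by positivity)
      have h3 : 0 ≤ (n : ℝ) * m * (|a| * B ^ 2) * m := by positivity
      nlinarith
    set X : ℕ → ℝ := fun l => ∑ p : Fin (N + m) × Fin n,
          if (p.1 : ℕ) < N then
            cavT N m / ((n : ℝ) * N) * ∑ b, Ns.sqGrad
              (percLeaf φ φ1 φ2 (blockSpin n (N + m)) M) (blockLaw n (N + m)) l (Sum.inl (b, p))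
          else
            h l * Ns.sqGrad
              (percLeaf φ φ1 φ2 (blockSpin n (N + m)) M) (blockLaw n (N + m)) l
                (Sum.inr (Sum.inl p)) -
            cavT N m / ((n : ℝ) * m) * ∑ b, Ns.sqGrad
              (percLeaf φ φ1 φ2 (blockSpin n (N + m)) M) (blockLaw n (N + m)) l (Sum.inl (b, p))
      with hX
    change |-(1 / 2) * (h K * ((n : ℝ) * m)) + (1 / 2) * ∑ l ∈ range (K + 1), Ns.w l * X l| ≤ G
    have hXb : ∀ l ∈ range (K + 1), |X l| ≤ (n : ℝ) * m * (h K + |a| * B ^ 2) := by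
      intro l hl
      have hl' : l ≤ K + 1 := by have := mem_range.1 hl; omega
      have hlK : l ≤ K := Nat.lt_succ_iff.1 (mem_range.1 hl)
      have hT0 : 0 ≤ cavT N m := by rw [cavT]; positivity
      have p0 : ∀ i, 0 ≤ Ns.sqGrad (percLeaf φ φ1 φ2 (blockSpin n (N + m)) M)
          (blockLaw n (N + m)) l i := fun i => sqGrad_nonneg hNs hL hl' i
      have b1 : ∑ p ∈ univ.filter (fun p : Fin (N + m) × Fin n => (p.1 : ℕ) < N), ∑ b, Ns.sqGrad
          (percLeaf φ φ1 φ2 (blockSpin n (N + m)) M) (blockLaw n (N + m)) l (Sum.inl (b, p)) ≤ _ :=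
        sqGrad_g_le hφ hsys (μ := blockLaw n (N + m)) K (cavG n N m M u)
        (cavS n N m K s (fun _ => 0) h u) c hl'
        (univ.filter fun p : Fin (N + m) × Fin n => (p.1 : ℕ) < N)
        fun ω => (sum_spin_old hn N m ω).le
      have b2 : ∑ p ∈ univ.filter (fun p : Fin (N + m) × Fin n => ¬(p.1 : ℕ) < N), ∑ b, Ns.sqGrad
          (percLeaf φ φ1 φ2 (blockSpin n (N + m)) M) (blockLaw n (N + m)) l (Sum.inl (b, p)) ≤ _ :=
        sqGrad_g_le hφ hsys (μ := blockLaw n (N + m)) K (cavG n N m M u)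
        (cavS n N m K s (fun _ => 0) h u) c hl'
        (univ.filter fun p : Fin (N + m) × Fin n => ¬(p.1 : ℕ) < N)
        fun ω => (sum_spin_new hn N m ω).le
      have b3 := sum_sqGrad_le (μ := blockLaw n (N + m)) hNs hL hl'
        (ySet M (univ.filter fun p : Fin (N + m) × Fin n => ¬(p.1 : ℕ) < N))
        (T := (n : ℝ) * m) fun ω y => by
          rw [sum_ySet]
          simp only [vec_y]
          exact (sum_spin_new hn N m ω).le
      rw [sum_ySet] at b3
      rw [hX]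
      simp only
      rw [sum_ite, sum_sub_distrib, ← mul_sum, ← mul_sum, ← mul_sum]
      have n1 : 0 ≤ cavT N m / ((n : ℝ) * N) := by positivity
      have n2 : 0 ≤ cavT N m / ((n : ℝ) * m) := by positivity
      have a1 := mul_le_mul_of_nonneg_left b1 n1
      have a2 := mul_le_mul_of_nonneg_left b2 n2
      have a3 := mul_le_mul (hh.1 hlK) b3 (sum_nonneg fun i _ => p0 _) hK0
      have c1 := mul_nonneg n1 (sum_nonneg fun p (_ : p ∈ univ.filter fun p : Fin (N + m) × Fin n =>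
        (p.1 : ℕ) < N) => sum_nonneg fun b (_ : b ∈ (univ : Finset (Fin M))) =>
          p0 (Sum.inl (b, p)))
      have c2 := mul_nonneg n2 (sum_nonneg fun p (_ : p ∈ univ.filter fun p : Fin (N + m) × Fin n =>
        ¬(p.1 : ℕ) < N) => sum_nonneg fun b (_ : b ∈ (univ : Finset (Fin M))) =>
          p0 (Sum.inl (b, p)))
      have c3 := mul_nonneg (hh.2.trans (hh.1 (Nat.zero_le l))) (sum_nonneg fun p
        (_ : p ∈ univ.filter fun p : Fin (N + m) × Fin n => ¬(p.1 : ℕ) < N) =>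
          p0 (Sum.inr (Sum.inl p)))
      have e1 : cavT N m / ((n : ℝ) * N) * ((M : ℝ) * (B ^ 2 * ((n : ℝ) * N))) =
          cavT N m * ((M : ℝ) * B ^ 2) := by field_simp
      have e2 : cavT N m / ((n : ℝ) * m) * ((M : ℝ) * (B ^ 2 * ((n : ℝ) * m))) =
          cavT N m * ((M : ℝ) * B ^ 2) := by field_simp
      rw [e1] at a1
      rw [e2] at a2
      rw [abs_le]
      constructor <;> linarith
    have hS : |∑ l ∈ range (K + 1), Ns.w l * X l| ≤ (n : ℝ) * m * (h K + |a| * B ^ 2) := by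
      refine (abs_sum_le_sum_abs _ _).trans ?_
      calc ∑ l ∈ range (K + 1), |Ns.w l * X l|
          ≤ ∑ l ∈ range (K + 1), Ns.w l * ((n : ℝ) * m * (h K + |a| * B ^ 2)) :=
            sum_le_sum fun l hl => by
              rw [abs_mul, abs_of_nonneg (hw0 l hl)]
              exact mul_le_mul_of_nonneg_left (hXb l hl) (hw0 l hl)
        _ ≤ 1 * ((n : ℝ) * m * (h K + |a| * B ^ 2)) := by
            rw [← sum_mul]
            exact mul_le_mul_of_nonneg_right hw1 (by positivity)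
        _ = _ := one_mul _
    have := abs_le.1 hS
    have : 0 ≤ h K * ((n : ℝ) * m) := by positivity
    have : 0 ≤ (n : ℝ) * m * (|a| * B ^ 2) := by positivity
    rw [hG, abs_le]
    constructor <;> nlinarith
  have step2 : |F t - F 0| ≤ G := by
    rcases eq_or_lt_of_le ht.1 with h0 | h0
    · rw [← h0, sub_self, abs_zero]; exact hG0
    choose! D hD using hder
    obtain ⟨u, hu, hueq⟩ := exists_hasDerivAt_eq_slope F D h0
      ((cavity_continuous hφ hn hN hm K M s (fun _ => 0) hh c).mono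
        (Set.Icc_subset_Icc le_rfl ht.2))
      fun x hx => (hD x ⟨hx.1, hx.2.trans_le ht.2⟩).1
    rw [sub_zero, eq_div_iff h0.ne'] at hueq
    rw [← hueq, abs_mul, abs_of_pos h0]
    calc |D u| * t ≤ G * 1 :=
          mul_le_mul (hD u ⟨hu.1, hu.2.trans_le ht.2⟩).2 ht.2 ht.1 hG0
      _ = G := mul_one G
  -- at time zero
  have step3 := cavity_zero hφ hn hN hm K M s (fun _ => 0) rfl hh c
  simp only [ne_eq, OfNat.ofNat_ne_zero, not_false_eq_true, zero_pow, sum_const_zero,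
    add_zero] at step3
  have hb : (percNest K (fun _ : Fin M => fun _ : Fin N × Fin n => (Real.sqrt ((n : ℝ) * N))⁻¹)
      (fun l _ => s l) c) = percNest K (unifG n N M) (fun l _ => s l) c := rfl
  rw [hb] at step3
  simp only [hF] at step2
  rw [step3] at step2
  have := abs_le.1 step1
  have := abs_le.1 step2
  have : 0 ≤ (n : ℝ) * m * (|a| * B ^ 2) := by positivity
  have : 0 ≤ (n : ℝ) * m * h K := by positivity
  have : (n : ℝ) * m * blockField n K (fun l => h l) ≤ (n : ℝ) * m * |blockField n K h| :=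
    mul_le_mul_of_nonneg_left (le_abs_self _) (by positivity)
  have : (n : ℝ) * m * -|blockField n K h| ≤ (n : ℝ) * m * blockField n K (fun l => h l) :=
    mul_le_mul_of_nonneg_left (neg_abs_le _) (by positivity)
  rw [abs_le]
  constructor <;> nlinarith [hG]

end systems

end Vale.Agent.P157.Parisi.Rand
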