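import Vale.Agent.P157.Parisi.CalcAmp
import Vale.Agent.P157.Parisi.Cavity
import Vale.Agent.P157.Parisi.Concave
import Vale.Agent.P157.Parisi.LowerLip
import Vale.Agent.P157.Parisi.LowerBasics

/-!
The tangent inequality of the block field, and the resulting bound on the entropy at a gradient.
-/

namespace Vale.Agent.P157.Parisi

open MeasureTheory ProbabilityTheory Finset

lemma sum_sq_normBlock {n : ℕ} (σ : Fin n → ℝ) : ∑ i, normBlock σ i ^ 2 = (n : ℝ) := by
  unfold normBlock
  split_ifs with h
  · simp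
  · have hp : 0 < ∑ k, σ k ^ 2 := (sum_nonneg fun i _ => sq_nonneg _).lt_of_ne' h
    simp only [div_pow, mul_pow, Real.sq_sqrt (Nat.cast_nonneg n), Real.sq_sqrt hp.le]
    rw [← sum_div, ← mul_sum, mul_div_assoc, div_self h, mul_one]

lemma abs_normBlock_le {n : ℕ} (σ : Fin n → ℝ) (i : Fin n) : |normBlock σ i| ≤ Real.sqrt n := by
  rw [← Real.sqrt_sq_eq_abs]
  refine Real.sqrt_le_sqrt ?_
  rw [← sum_sq_normBlock σ]
  exact single_le_sum (f := fun k => normBlock σ k ^ 2) (fun k _ => sq_nonneg _) (mem_univ i)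

lemma blockLeaf_good' (n : ℕ) : (blockLeaf n).Good (Real.sqrt n + 1) where
  nonneg := by positivity
  meas := fun _ i => cav_measurable_normBlock i
  bound := fun σ _ i => (abs_normBlock_le σ i).trans (le_add_of_nonneg_right zero_le_one)
  deriv1 := fun _ z => hasDerivAt_id' z
  deriv2 := fun _ z => hasDerivAt_const z 1
  cont2 := fun _ => continuous_const
  bound1 := fun _ _ => by simp [blockLeaf]
  bound2 := fun _ _ => by
    simp only [blockLeaf, abs_zero]
    positivity

lemma blockNest_good (n K : ℕ) (h : ℕ → ℝ) : (blockNest n K h).Good where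
  x_zero := by simp [blockNest, gridX, lvl]
  x_last := by
    simp only [blockNest, gridX, lvl, Nat.cast_add, Nat.cast_one]
    rw [div_self (by positivity), min_self]
  x_pos := fun l h1 _ => by
    simp only [blockNest, gridX, lvl]
    refine lt_min one_pos (div_pos ?_ (by positivity))
    exact_mod_cast h1
  x_mono := fun l _ => by
    simp only [blockNest, gridX, lvl]
    gcongr
    simp

lemma blockNest_w (n K : ℕ) (h : ℕ → ℝ) {l : ℕ} (hl : l ≤ K) :
    (blockNest n K h).w l = 1 / ((K : ℝ) + 1) := by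
  simp only [Nest.w, blockNest, gridX, lvl]
  have hK : (0 : ℝ) < (K : ℝ) + 1 := by positivity
  have h1 : ((l : ℝ) + 1) / ((K : ℝ) + 1) ≤ 1 := by
    rw [div_le_one hK]; exact_mod_cast (by omega : l + 1 ≤ K + 1)
  have h2 : (l : ℝ) / ((K : ℝ) + 1) ≤ 1 :=
    le_trans (div_le_div_of_nonneg_right (by linarith) hK.le) h1
  rw [Nat.cast_add, Nat.cast_one, min_eq_right h1, min_eq_right h2]
  ring

/-- The overlaps of one block in the field `b`. -/
noncomputable def gradPath (n K : ℕ) (b : ℕ → ℝ) (l : ℕ) : ℝ :=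
  (∑ i, (blockNest n K b).sqGrad (blockLeaf n) (sphereUnif n) (min l K) i) / n

variable {n : ℕ} [IsProbabilityMeasure (sphereUnif n)]

lemma heatTop_blockLeaf (K : ℕ) (b : ℕ → ℝ) (A : ℕ → Fin n → ℝ) :
    ∑ i, ((blockNest n K b).setAmp A).heatTop (blockLeaf n) (sphereUnif n) i = (n : ℝ) := by
  have hg := Nest.good_setAmp (blockNest_good n K b) A
  have hL := blockLeaf_good' n
  set N := (blockNest n K b).setAmp A with hN
  have hv : ∀ i, (fun ω v => (∑ j, (blockLeaf n).φ2 j ((blockLeaf n).loc ω v j) *
      (blockLeaf n).a ω j i ^ 2) + (blockLeaf n).vec i ω v ^ 2) =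
      fun ω (_ : Fin n → ℝ) => normBlock ω i ^ 2 := fun i => by
    funext ω v; simp [blockLeaf, Leaf.vec]
  have ho : ∀ U : Finset (Fin n), Obs (Ω := Fin n → ℝ) (ι := Fin n)
      (fun ω _ => ∑ i ∈ U, normBlock ω i ^ 2) := fun U =>
    ⟨fun y => Finset.measurable_sum _ fun i _ => (cav_measurable_normBlock i).pow_const 2,
      fun ω => continuous_const, n, fun ω y => by
        rw [abs_of_nonneg (sum_nonneg fun i _ => sq_nonneg _), ← sum_sq_normBlock ω]
        exact sum_le_sum_of_subset_of_nonneg (subset_univ U) fun i _ _ => sq_nonneg _⟩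
  have ht : ∀ f, Obs f → Tame ((blockLeaf n).gibbs (sphereUnif n) f) := fun f hf => by
    have := node_tame hg hL (μ := sphereUnif n) (l := N.K) le_rfl hf
    rwa [node_top hg hL] at this
  have key : ∀ U : Finset (Fin n), ∑ i ∈ U, N.heatTop (blockLeaf n) (sphereUnif n) i =
      N.mean ((blockLeaf n).logZ (sphereUnif n)) N.K ((blockLeaf n).gibbs (sphereUnif n)
        fun ω _ => ∑ i ∈ U, normBlock ω i ^ 2) := by
    intro U
    induction U using Finset.induction with
    | empty =>
      simp only [sum_empty]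
      rw [← node_top hg hL, show N.node (blockLeaf n) (sphereUnif n) N.K
        (fun _ _ => (0 : ℝ)) = fun _ => 0 from funext (node_const hg hL le_rfl 0),
        mean_const hg hL le_rfl]
    | insert a U ha ih =>
      simp only [sum_insert ha]
      have oa : Obs (Ω := Fin n → ℝ) (ι := Fin n) (fun ω _ => normBlock ω a ^ 2) := by
        simpa using ho {a}
      rw [ih, Nest.heatTop,
        show N.heat (blockLeaf n) (sphereUnif n) N.K a = (blockLeaf n).gibbs (sphereUnif n)
          fun ω _ => normBlock ω a ^ 2 from funext fun y => by rw [heat_top hg hL, hv],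
        ← mean_add hg hL le_rfl (ht _ oa) (ht _ (ho U))]
      congr 1
      rw [← node_top hg hL, ← node_top hg hL, ← node_top hg hL]
      exact (funext (node_add hg hL le_rfl oa (ho U))).symm
  rw [key]
  simp only [sum_sq_normBlock]
  rw [← node_top hg hL, show N.node (blockLeaf n) (sphereUnif n) N.K
    (fun _ _ => (n : ℝ)) = fun _ => (n : ℝ) from funext (node_const hg hL le_rfl _),
    mean_const hg hL le_rfl]

lemma gradPath_isPath (K : ℕ) (b : ℕ → ℝ) :
    IsPath (gradPath n K b) ∧ ∀ l, gradPath n K b l ≤ 1 := by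
  have hg := blockNest_good n K b
  have hL := blockLeaf_good' n
  set N := blockNest n K b with hN
  have htv : ∀ i l, l ≤ N.K → Tame (fun v => N.grad (blockLeaf n) (sphereUnif n) l i v ^ 2) :=
    fun i l hl => by
    obtain ⟨hc, C, k, hb⟩ := grad_tame hg hL (μ := sphereUnif n) hl i
    refine ⟨hc.pow 2, C * C, k + k, fun y => ?_⟩
    rw [abs_pow, pow_two, add_mul, Real.exp_add, mul_mul_mul_comm]
    exact mul_le_mul (hb y) (hb y) (abs_nonneg _) ((abs_nonneg _).trans (hb y))
  have hnn : ∀ l, 0 ≤ gradPath n K b l := fun l => by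
    refine div_nonneg (sum_nonneg fun i _ => ?_) (Nat.cast_nonneg n)
    have hl : min l K ≤ N.K := min_le_right _ _
    have := mean_mono hg hL (μ := sphereUnif n) hl (f := fun _ => (0 : ℝ))
      ⟨continuous_const, 0, 0, fun y => by simp⟩ (htv i _ hl) (fun v => sq_nonneg _)
    rwa [mean_const hg hL hl] at this
  refine ⟨⟨fun l m hlm => ?_, hnn 0⟩, fun l => ?_⟩
  · refine div_le_div_of_nonneg_right (sum_le_sum fun i _ => ?_) (Nat.cast_nonneg n)
    exact sqGrad_mono hg hL (min_le_min_right K hlm) (min_le_right _ _) i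
  · rcases Nat.eq_zero_or_pos n with hn | hn
    · subst hn; simp [gradPath]
    rw [gradPath, div_le_one (by exact_mod_cast hn)]
    refine (sum_le_sum fun i _ => sqGrad_mono hg hL (min_le_right l K) le_rfl i).trans ?_
    rw [← heatTop_blockLeaf (n := n) K b N.amp]
    refine sum_le_sum fun i _ => ?_
    have ht : Tame (N.heat (blockLeaf n) (sphereUnif n) N.K i) := heat_tame hg hL le_rfl i
    refine mean_mono hg hL le_rfl (htv i _ le_rfl) ht fun v => ?_
    refine (grad_sq_le_node hg hL le_rfl i v).trans (le_of_eq ?_)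
    rw [node_top hg hL, show ((blockNest n K b).setAmp N.amp) = N from rfl, heat_top hg hL]
    congr 1
    funext ω y
    simp [blockLeaf, Leaf.vec, pow_two]

/-- Tangent inequality at a field with positive increments. -/
theorem blockField_tangent (hn : 0 < n) (K : ℕ) {b g : ℕ → ℝ} (hb : IsPath b)
    (hpos : ∀ l ≤ K, 0 < pInc b l) (hg : IsPath g) :
    blockField n K g ≤ blockField n K b -
      (∑ l ∈ range (K + 1), (g l - b l) * gradPath n K b l) / (2 * ((K : ℝ) + 1)) := by
  have hL := blockLeaf_good' n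
  have hN := blockNest_good n K b
  set A : ℝ → ℕ → Fin n → ℝ := fun t l _ => Real.sqrt (pInc b l + t * (pInc g l - pInc b l))
    with hA
  set A' : ℝ → ℕ → Fin n → ℝ := fun t l i => (pInc g l - pInc b l) / (2 * A t l i) with hA'
  set F : ℝ → ℝ := fun t =>
    ((blockNest n K b).setAmp (A t)).free (blockLeaf n) (sphereUnif n) / n -
      (b K + t * (g K - b K)) / 2 with hF
  obtain ⟨r, hr, hrpos⟩ : ∃ r : ℝ, 0 < r ∧ ∀ t, |t| < r → ∀ l ≤ K,
      0 < pInc b l + t * (pInc g l - pInc b l) := by
    have hne : (range (K + 1)).Nonempty := nonempty_range_add_one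
    refine ⟨(range (K + 1)).inf' hne fun l => pInc b l / (|pInc g l - pInc b l| + 1), ?_, ?_⟩
    · rw [Finset.lt_inf'_iff]
      exact fun l hl => div_pos (hpos l (Nat.lt_succ_iff.1 (mem_range.1 hl))) (by positivity)
    · intro t ht l hl
      have h1 := ht.trans_le (Finset.inf'_le _ (mem_range.2 (Nat.lt_succ_of_le hl)))
      rw [lt_div_iff₀ (by positivity)] at h1
      have h2 := neg_abs_le (t * (pInc g l - pInc b l))
      rw [abs_mul] at h2
      nlinarith [abs_nonneg t, hpos l hl]
  have hd := free_deriv hN hL (μ := sphereUnif n) (A := A) (A' := A') (t₀ := 0) hr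
    (fun l hl i t ht => by
      have hd : HasDerivAt (fun s : ℝ => pInc b l + s * (pInc g l - pInc b l))
          (pInc g l - pInc b l) t := by
        simpa using ((hasDerivAt_id t).mul_const (pInc g l - pInc b l)).const_add (pInc b l)
      exact hd.sqrt (hrpos t (by simpa using ht) l hl).ne')
    (fun l hl i => by
      refine continuousAt_const.div ?_ (mul_ne_zero two_ne_zero
        (Real.sqrt_ne_zero'.2 (hrpos 0 (by simpa using hr) l hl)))
      simp only [hA]
      fun_prop)
  have hAmp : (blockNest n K b).setAmp (A 0) = blockNest n K b := by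
    simp only [Nest.setAmp, hA, blockNest, zero_mul, add_zero, pInc]
    congr 1
    funext l i
    split_ifs <;> rfl
  rw [hAmp] at hd
  have hval : ∑ l ∈ range ((blockNest n K b).K + 1), ∑ i, A' 0 l i * A 0 l i *
      ((blockNest n K b).heatTop (blockLeaf n) (sphereUnif n) i -
        ∑ m ∈ Icc l (blockNest n K b).K, (blockNest n K b).w m *
          (blockNest n K b).sqGrad (blockLeaf n) (sphereUnif n) m i) =
      (n : ℝ) / 2 * ((g K - b K) -
        (∑ l ∈ range (K + 1), (g l - b l) * gradPath n K b l) / ((K : ℝ) + 1)) := by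
    have hK' : (blockNest n K b).K = K := rfl
    have hn' : (n : ℝ) ≠ 0 := by exact_mod_cast hn.ne'
    have hl : ∀ l ∈ range (K + 1), ∑ i, A' 0 l i * A 0 l i *
        ((blockNest n K b).heatTop (blockLeaf n) (sphereUnif n) i -
          ∑ m ∈ Icc l K, (blockNest n K b).w m *
            (blockNest n K b).sqGrad (blockLeaf n) (sphereUnif n) m i) =
        (n : ℝ) / 2 * ((pInc g l - pInc b l) * (1 - pTail K (gradPath n K b) l)) := by
      intro l hl
      have hl' : l ≤ K := Nat.lt_succ_iff.1 (mem_range.1 hl)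
      have hAA : ∀ i, A' 0 l i * A 0 l i = (pInc g l - pInc b l) / 2 := fun i => by
        have : A 0 l i ≠ 0 := Real.sqrt_ne_zero'.2 (hrpos 0 (by simpa using hr) l hl')
        simp only [hA']
        field_simp
      simp only [hAA]
      rw [← mul_sum, sum_sub_distrib]
      have h1 := heatTop_blockLeaf (n := n) K b (blockNest n K b).amp
      change ∑ i, (blockNest n K b).heatTop (blockLeaf n) (sphereUnif n) i = (n : ℝ) at h1
      have h2 : ∑ i, ∑ m ∈ Icc l K, (blockNest n K b).w m *
          (blockNest n K b).sqGrad (blockLeaf n) (sphereUnif n) m i =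
          (n : ℝ) * pTail K (gradPath n K b) l := by
        rw [sum_comm, pTail, mul_sum]
        refine sum_congr rfl fun m hm => ?_
        have hmK := (mem_Icc.1 hm).2
        rw [← mul_sum, blockNest_w n K b hmK, gradPath, min_eq_left hmK]
        field_simp
      rw [h1, h2]
      ring
    rw [hK', sum_congr rfl hl, ← mul_sum]
    congr 1
    simp only [sub_mul _ _ (1 - pTail K (gradPath n K b) _), mul_sub, mul_one, sum_sub_distrib,
      ← pairing_eq_tail]
    simp only [sum_pInc, sub_mul, sum_sub_distrib]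
    ring
  rw [hval] at hd
  have hFd : HasDerivAt F
      (-(∑ l ∈ range (K + 1), (g l - b l) * gradPath n K b l) / (2 * ((K : ℝ) + 1))) 0 := by
    have h2 : HasDerivAt (fun t : ℝ => (b K + t * (g K - b K)) / 2) ((g K - b K) / 2) 0 := by
      simpa using (((hasDerivAt_id (0 : ℝ)).mul_const (g K - b K)).const_add (b K)).div_const 2
    refine ((hd.div_const (n : ℝ)).sub h2).congr_deriv ?_
    have hn' : (n : ℝ) ≠ 0 := by exact_mod_cast hn.ne'
    field_simp
    ring
  have hFval : ∀ t, F t = blockField n K (fun l => (1 - t) * b l + t * g l) := by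
    intro t
    simp only [hF, blockField]
    congr 1
    · congr 2
      simp only [Nest.setAmp, blockNest, hA, pInc]
      congr 1
      funext l i
      split_ifs with h0
      · subst h0; congr 1; ring
      · congr 1; ring
    · ring
  have hconc : ∀ t ∈ Set.Ioc (0 : ℝ) 1, t * (blockField n K g - F 0) ≤ F t - F 0 := by
    intro t ht
    have h0 : F 0 = blockField n K b := by rw [hFval]; congr 1; funext l; ring
    have h1 := blockField_concave hn K hb hg ht.1.le ht.2
    rw [hFval t, h0]
    linarith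
  have hF0 : F 0 = blockField n K b := by rw [hFval]; congr 1; funext l; ring
  have hlim : blockField n K g - F 0 ≤
      -(∑ l ∈ range (K + 1), (g l - b l) * gradPath n K b l) / (2 * ((K : ℝ) + 1)) := by
    refine ge_of_tendsto (hFd.tendsto_slope_zero_right) ?_
    filter_upwards [Ioc_mem_nhdsGT zero_lt_one] with t ht
    rw [zero_add, smul_eq_mul, le_inv_mul_iff₀ ht.1]
    exact hconc t ht
  rw [hF0] at hlim
  rw [neg_div] at hlim
  linarith

/-- At a gradient, shrunk by a factor, the entropy is at most the value of its tangent. -/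
theorem blockEntropy_le_tangent (hn : 0 < n) (K : ℕ) {b : ℕ → ℝ} (hb : IsPath b)
    (hpos : ∀ l ≤ K, 0 < pInc b l) {ζ : ℝ} (h0 : 0 ≤ ζ) (_h1 : ζ ≤ 1) :
    blockEntropy n K (fun l => (1 - ζ) * gradPath n K b l) ≤
      blockField n K b + (∑ l ∈ range (K + 1), b l * gradPath n K b l) / (2 * ((K : ℝ) + 1)) := by
  have : Nonempty {h : ℕ → ℝ // IsPath h} := ⟨⟨b, hb⟩⟩
  refine ciSup_le fun ⟨g, hg⟩ => ?_
  have ht := blockField_tangent hn K hb hpos hg
  obtain ⟨hqp, -⟩ := gradPath_isPath (n := n) K b
  have hg0 : ∀ l, 0 ≤ g l := fun l => hg.2.trans (hg.1 (Nat.zero_le l))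
  have hq0 : ∀ l, 0 ≤ gradPath n K b l := fun l => hqp.2.trans (hqp.1 (Nat.zero_le l))
  have h2 : ∑ l ∈ range (K + 1), g l * ((1 - ζ) * gradPath n K b l) ≤
      ∑ l ∈ range (K + 1), g l * gradPath n K b l := sum_le_sum fun l _ =>
    mul_le_mul_of_nonneg_left (mul_le_of_le_one_left (hq0 l) (by linarith)) (hg0 l)
  have h3 : ∑ l ∈ range (K + 1), (g l - b l) * gradPath n K b l =
      (∑ l ∈ range (K + 1), g l * gradPath n K b l) -
        ∑ l ∈ range (K + 1), b l * gradPath n K b l := by
    rw [← sum_sub_distrib]; exact sum_congr rfl fun l _ => by ring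
  have h4 := div_le_div_of_nonneg_right h2 (show (0 : ℝ) ≤ 2 * ((K : ℝ) + 1) by positivity)
  rw [h3, sub_div] at ht
  linarith

end Vale.Agent.P157.Parisi
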