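import Vale.Agent.P157.Parisi.LowerCav
import Vale.Agent.P157.Parisi.LowerTangent
import Vale.Agent.P157.Parisi.AmpConvex

/-!
Self-consistency of the overlaps at a probe level.

The free energy is convex in the own amplitude of the new blocks at level `l`, with derivative given
by the tail of the overlaps; the value of the cavity has the tail of the gradient of the block field
as derivative.  As the two are close, chords of length `r` compare the tails.
-/

namespace Vale.Agent.P157.Parisi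

open MeasureTheory ProbabilityTheory Finset

section General

variable {ι : Type} [Fintype ι] {Ω κ : Type} [Fintype κ] [MeasurableSpace Ω]
variable {N : Nest ι} {L : Leaf Ω κ ι} {μ : Measure Ω} [IsProbabilityMeasure μ] {B : ℝ}

/-- Coordinates whose curvature plus squared gradient sums to a constant have that heat in total. -/
lemma sum_heatTop_const (hN : N.Good) (hL : L.Good B) (S : Finset ι) {T : ℝ}
    (hS : ∀ ω y, ∑ i ∈ S, ((∑ j, L.φ2 j (L.loc ω y j) * L.a ω j i ^ 2) + L.vec i ω y ^ 2) = T) :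
    ∑ i ∈ S, N.heatTop L μ i = T := by
  classical
  set g : ι → Ω → (ι → ℝ) → ℝ := fun i ω y =>
    (∑ j, L.φ2 j (L.loc ω y j) * L.a ω j i ^ 2) + L.vec i ω y ^ 2 with hg
  have og : ∀ i, Obs (g i) := fun i => by
    have := (obs_curvDiag hL i).add (obs_vec_mul hN hL i i)
    simpa only [pow_two, hg] using this
  have ht : ∀ f, Obs f → Tame (L.gibbs μ f) := fun f hf => by
    have := node_tame hN hL (μ := μ) (l := N.K) le_rfl hf
    rwa [node_top hN hL] at this
  have key : ∀ U : Finset ι, Obs (fun ω y => ∑ i ∈ U, g i ω y) ∧ ∑ i ∈ U, N.heatTop L μ i =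
      N.mean (L.logZ μ) N.K (L.gibbs μ fun ω y => ∑ i ∈ U, g i ω y) := by
    intro U
    induction U using Finset.induction with
    | empty =>
      simp only [sum_empty]
      refine ⟨obs_const 0, ?_⟩
      rw [← node_top hN hL, show N.node L μ N.K (fun _ _ => (0 : ℝ)) = fun _ => 0 from
        funext (node_const hN hL le_rfl 0), mean_const hN hL le_rfl]
    | insert a U ha ih =>
      obtain ⟨oU, eU⟩ := ih
      simp only [sum_insert ha]
      refine ⟨(og a).add oU, ?_⟩
      have e : L.gibbs μ (fun ω y => g a ω y + ∑ i ∈ U, g i ω y) =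
          fun y => L.gibbs μ (g a) y + L.gibbs μ (fun ω y => ∑ i ∈ U, g i ω y) y := by
        rw [← node_top hN hL, ← node_top hN hL, ← node_top hN hL]
        exact funext (node_add hN hL le_rfl (og a) oU)
      rw [e, mean_add hN hL le_rfl (ht _ (og a)) (ht _ oU), eU, Nest.heatTop]
      congr 2
      funext y
      exact heat_top hN hL a y
  rw [(key S).2, show (fun ω y => ∑ i ∈ S, g i ω y) = fun _ _ => T from
    funext fun ω => funext fun y => hS ω y, ← node_top hN hL,
    show N.node L μ N.K (fun _ _ => T) = fun _ => T from funext (node_const hN hL le_rfl T),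
    mean_const hN hL le_rfl]

/-- The derivative in the amplitude of one level on a set, at the current amplitude. -/
lemma hasDerivAt_withAmp [DecidableEq ι] (hN : N.Good) (hL : L.Good B) (S : Finset ι) {l : ℕ}
    (hl : l ≤ N.K) {b : ℝ} (hb : ∀ i ∈ S, N.amp l i = b) :
    HasDerivAt (fun s => (N.withAmp S l s).free L μ)
      (b * ((∑ i ∈ S, N.heatTop L μ i) -
        ∑ k ∈ Icc l N.K, N.w k * ∑ i ∈ S, N.sqGrad L μ k i)) b := by
  set A : ℝ → ℕ → ι → ℝ := fun s k i => if k = l ∧ i ∈ S then s else N.amp k i with hA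
  set A' : ℝ → ℕ → ι → ℝ := fun _ k i => if k = l ∧ i ∈ S then 1 else 0 with hA'
  have hAb : A b = N.amp := by
    funext k i
    by_cases h : k = l ∧ i ∈ S
    · simp only [hA, if_pos h]; rw [h.1]; exact (hb i h.2).symm
    · simp only [hA, if_neg h]
  have hd := free_deriv (μ := μ) hN hL (A := A) (A' := A') (t₀ := b) one_pos
    (fun k _ i t _ => by
      simp only [hA, hA']
      split_ifs
      · exact hasDerivAt_id' t
      · exact hasDerivAt_const t _)
    (fun k _ i => continuousAt_const)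
  refine hd.congr_deriv ?_
  rw [hAb, show N.setAmp N.amp = N from rfl, Finset.sum_eq_single l]
  · have e : ∀ i, A' b l i * N.amp l i = if i ∈ S then b else 0 := fun i => by
      by_cases h : i ∈ S
      · simp only [hA', true_and, if_pos h, one_mul, hb i h]
      · simp only [hA', true_and, if_neg h, zero_mul]
    simp only [e, ite_mul, zero_mul, Finset.sum_ite_mem, Finset.univ_inter]
    rw [← Finset.mul_sum, Finset.sum_sub_distrib, Finset.sum_comm]
    simp only [Finset.mul_sum]
  · intro k _ hk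
    exact Finset.sum_eq_zero fun i _ => by simp [hA', hk]
  · intro h; exact absurd (mem_range.2 (Nat.lt_succ_of_le hl)) h

end General

/-- A convex function lies above its tangent. -/
lemma tangent_le_of_convexOn {f : ℝ → ℝ} (hf : ConvexOn ℝ Set.univ f) {b d : ℝ}
    (hd : HasDerivAt f d b) (s : ℝ) : f b + d * (s - b) ≤ f s := by
  rcases lt_trichotomy s b with h | rfl | h
  · have h1 := hf.slope_le_of_hasDerivAt (Set.mem_univ s) (Set.mem_univ b) h hd
    rw [slope_def_field, div_le_iff₀ (sub_pos.2 h)] at h1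
    nlinarith
  · simp
  · have h1 := hf.le_slope_of_hasDerivAt (Set.mem_univ b) (Set.mem_univ s) h hd
    rw [slope_def_field, le_div_iff₀ (sub_pos.2 h)] at h1
    linarith

/-- One minus the tail of a path with values in `[0, 1]` lies in `[0, 1]`. -/
lemma one_sub_pTail_mem {K : ℕ} {q : ℕ → ℝ} (h0 : ∀ k ≤ K, 0 ≤ q k) (h1 : ∀ k ≤ K, q k ≤ 1)
    (l : ℕ) : 0 ≤ 1 - pTail K q l ∧ 1 - pTail K q l ≤ 1 := by
  refine ⟨sub_nonneg.2 ?_, by linarith [pTail_nonneg h0 l]⟩
  calc pTail K q l ≤ ∑ m ∈ range (K + 1), q m / ((K : ℝ) + 1) :=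
        sum_le_sum_of_subset_of_nonneg (fun m hm => mem_range.2 (Nat.lt_succ_of_le (mem_Icc.1 hm).2))
          fun m hm _ => div_nonneg (h0 m (Nat.lt_succ_iff.1 (mem_range.1 hm))) (by positivity)
    _ ≤ ∑ _m ∈ range (K + 1), 1 / ((K : ℝ) + 1) := sum_le_sum fun m hm =>
        div_le_div_of_nonneg_right (h1 m (Nat.lt_succ_iff.1 (mem_range.1 hm))) (by positivity)
    _ = 1 := by
      rw [sum_const, card_range, nsmul_eq_mul]; push_cast; field_simp

/-- Comparing the slopes by chords of length `σ r`. -/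
lemma chord_compare {σ r ρ A B Y b : ℝ} (hσ : 0 < σ) (hr0 : 0 < r) (hr : r < 1) (hρr : ρ ≤ r)
    (hρ1 : ρ ≤ 1) (hA : 0 ≤ A ∧ A ≤ 1) (hB : 0 ≤ B ∧ B ≤ 1) (hb1 : σ ≤ b)
    (hb2 : b ≤ σ + σ * ρ)
    (hup : b * (σ + σ * r - b) * A ≤ ((σ + σ * r) ^ 2 - σ ^ 2) / 2 * B + 2 * Y)
    (hdn : b * (σ - σ * r - b) * A ≤ ((σ - σ * r) ^ 2 - σ ^ 2) / 2 * B + 2 * Y) :
    |B - A| ≤ r + 4 * ρ / r + 2 * Y / (σ ^ 2 * r) := by
  set u := b / σ - 1 with hu
  have hbu : b = σ * (1 + u) := by rw [hu]; field_simp; ring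
  have hu0 : 0 ≤ u := by rw [hu, sub_nonneg, le_div_iff₀ hσ]; linarith
  have huρ : u ≤ ρ := by rw [hu, sub_le_iff_le_add, div_le_iff₀ hσ]; linarith
  have hd : 0 < σ ^ 2 * r := by positivity
  have hup' : (1 + u) * (r - u) / r * A ≤ (1 + r / 2) * B + 2 * Y / (σ ^ 2 * r) := by
    have := div_le_div_of_nonneg_right hup hd.le
    calc (1 + u) * (r - u) / r * A = b * (σ + σ * r - b) * A / (σ ^ 2 * r) := by
          rw [hbu]; field_simp; ring
      _ ≤ _ := this
      _ = _ := by field_simp; ring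
  have hdn' : (1 - r / 2) * B ≤ (1 + u) * (r + u) / r * A + 2 * Y / (σ ^ 2 * r) := by
    have := div_le_div_of_nonneg_right hdn hd.le
    have e1 : b * (σ - σ * r - b) * A / (σ ^ 2 * r) = -((1 + u) * (r + u) / r * A) := by
      rw [hbu]; field_simp; ring
    have e2 : (((σ - σ * r) ^ 2 - σ ^ 2) / 2 * B + 2 * Y) / (σ ^ 2 * r) =
        -((1 - r / 2) * B) + 2 * Y / (σ ^ 2 * r) := by
      field_simp; ring
    rw [e1, e2] at this
    linarith
  have hur : u / r ≤ ρ / r := div_le_div_of_nonneg_right huρ hr0.le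
  have hr' : 0 ≤ ρ / r := div_nonneg (hu0.trans huρ) hr0.le
  have hle : u ≤ u / r := le_div_self hu0 hr0 hr.le
  have hu2 : u * (u / r) ≤ u / r := mul_le_of_le_one_left (div_nonneg hu0 hr0.le) (huρ.trans hρ1)
  have e1 : (1 + u) * (r - u) / r = 1 - u / r + (u - u * (u / r)) := by
    field_simp
  have e2 : (1 + u) * (r + u) / r = 1 + u / r + (u + u * (u / r)) := by
    field_simp
  have h4 : 4 * ρ / r = 4 * (ρ / r) := by ring
  have hur0 : 0 ≤ u / r := div_nonneg hu0 hr0.le
  rw [abs_le]
  constructor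
  · have h : (1 - u / r) * A ≤ (1 + u) * (r - u) / r * A := by
      refine mul_le_mul_of_nonneg_right ?_ hA.1
      rw [le_div_iff₀ hr0, sub_mul, div_mul_cancel₀ _ hr0.ne', one_mul]
      exact le_mul_of_one_le_left (sub_nonneg.2 (huρ.trans hρr)) (by linarith)
    have := mul_le_of_le_one_right hur0 hA.2
    have := mul_le_of_le_one_right (half_pos hr0).le hB.2
    linarith
  · rw [e2] at hdn'
    have := mul_le_mul_of_nonneg_right (add_le_add hle hu2) hA.1
    have := mul_le_of_le_one_right (by linarith : 0 ≤ u / r + (u / r + u / r)) hA.2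
    have := mul_le_of_le_one_right (half_pos hr0).le hB.2
    linarith

/-- The change of the cavity value along the own field of one level. -/
lemma cavVal_update_le {n : ℕ} [IsProbabilityMeasure (sphereUnif n)] (hn : 0 < n) {K : ℕ}
    {c hg : ℕ → ℝ} (hh : IsPath hg) (hc : ∀ k ≤ K, c k ≠ 0) (qg : ℕ → ℝ) {l : ℕ} (hl : l ≤ K)
    (s : ℝ) :
    cavVal n K (Function.update c l s) hg qg - cavVal n K c hg qg ≤
      (s ^ 2 - c l ^ 2) / 2 *
        (1 - pTail K (gradPath n K fun i => hg i + ∑ k ∈ range (i + 1), c k ^ 2) l) := by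
  set b : ℕ → ℝ := fun i => hg i + ∑ k ∈ range (i + 1), c k ^ 2 with hb
  set g : ℕ → ℝ := fun i => hg i + ∑ k ∈ range (i + 1), Function.update c l s k ^ 2 with hg'
  have hpath : ∀ x : ℕ → ℝ, IsPath fun i => hg i + ∑ k ∈ range (i + 1), x k ^ 2 := fun x =>
    ⟨fun i j hij => add_le_add (hh.1 hij) (sum_le_sum_of_subset_of_nonneg
      (range_subset_range.2 (Nat.succ_le_succ hij)) fun k _ _ => sq_nonneg _),
      add_nonneg hh.2 (sum_nonneg fun k _ => sq_nonneg _)⟩
  have hpos : ∀ k ≤ K, 0 < pInc b k := fun k hk => by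
    have h2 : 0 < c k ^ 2 := lt_of_le_of_ne (sq_nonneg _) (Ne.symm (pow_ne_zero 2 (hc k hk)))
    have e : pInc b k = pInc hg k + c k ^ 2 := by
      rcases k with _ | k
      · simp [pInc, hb]
      · simp only [pInc, hb, Nat.succ_ne_zero, if_false, Nat.add_sub_cancel,
          sum_range_succ _ (k + 1)]
        ring
    rw [e]
    linarith [pInc_nonneg hh k]
  have hdiff : ∀ i, g i - b i = if l ≤ i then s ^ 2 - c l ^ 2 else 0 := fun i => by
    simp only [hb, hg', add_sub_add_left_eq_sub, ← sum_sub_distrib]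
    by_cases h : l ≤ i
    · rw [if_pos h, Finset.sum_eq_single l (fun k _ hk => by simp [Function.update_of_ne hk])
        (fun h' => absurd (mem_range.2 (Nat.lt_succ_of_le h)) h'), Function.update_self]
    · rw [if_neg h]
      refine sum_eq_zero fun k hk => ?_
      rw [Function.update_of_ne (by have := mem_range.1 hk; omega), sub_self]
  have ht := blockField_tangent hn K (hpath c) hpos (hpath (Function.update c l s))
  have hsum : (∑ i ∈ range (K + 1), (g i - b i) * gradPath n K b i) / (2 * ((K : ℝ) + 1)) =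
      (s ^ 2 - c l ^ 2) / 2 * pTail K (gradPath n K b) l := by
    simp only [hdiff, ite_mul, zero_mul]
    rw [← sum_filter, show (range (K + 1)).filter (fun i => l ≤ i) = Icc l K by
      ext i; simp only [mem_filter, mem_range, mem_Icc]; omega]
    rw [pTail, Finset.mul_sum, Finset.sum_div]
    exact sum_congr rfl fun i _ => by field_simp
  have hsq : ∑ i ∈ range (K + 1), Function.update c l s i ^ 2 -
      ∑ i ∈ range (K + 1), c i ^ 2 = s ^ 2 - c l ^ 2 := by
    rw [← sum_sub_distrib, Finset.sum_eq_single l (fun k _ hk => by simp [Function.update_of_ne hk])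
      (fun h' => absurd (mem_range.2 (Nat.lt_succ_of_le hl)) h'), Function.update_self]
  simp only [cavVal]
  rw [hsum] at ht
  linarith

theorem self_consistency {φ φ1 φ2 : ℝ → ℝ} {B : ℝ} (hφ : PhiGood φ φ1 φ2 B) {n N m : ℕ}
    (hn : 0 < n) (hN : 0 < N) (hm : 0 < m) {K : ℕ} {σ : ℕ → ℝ} {η ρ : ℝ}
    (hP : LowerParams K σ η ρ) {r : ℝ} (hρr : ρ ≤ r) (hr : r < 1) {M : ℕ} {hg qg : ℕ → ℝ}
    (hh : IsPath hg) {v : Box K → ℝ} (hv : InBox v) {l : ℕ} (hl : l ≤ K) {E : ℝ}
    (hE : ∀ e : ℕ → ℝ, e = cutAmp K σ ∨ e = Function.update (cutAmp K σ) l (σ l + σ l * r) ∨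
        e = Function.update (cutAmp K σ) l (σ l - σ l * r) →
      |cavFree φ φ1 φ2 n N m K M σ η ρ e hg v - refFree φ φ1 φ2 n N K M σ η ρ v -
        ((n : ℝ) * m) * cavVal n K e hg qg| ≤ ((n : ℝ) * m) * E) :
    |pTail K (qRef φ φ1 φ2 n (N + m) K M σ η ρ v) l -
        pTail K (gradPath n K fun i => hg i + ∑ k ∈ range (i + 1), cutAmp K σ k ^ 2) l| ≤
      r + 4 * ρ / r +
        2 * (E + 3 * ρ * ∑ k ∈ range (K + 1), σ k ^ 2) / (σ l ^ 2 * r) := by
  classical
  have := blockLaw_prob (N := N + m) hn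
  have hsp : IsProbabilityMeasure (sphereUnif n) := cav_sphereUnif_prob hn
  obtain ⟨hs, -, -⟩ := blockSpin_sys (n := n) (N := N + m) hn
  have hρ := hP.ρ_pos
  have hr0 : 0 < r := hρ.trans_le hρr
  set sl := σ l with hsl
  have hsl0 : 0 < sl := hP.σ_pos l hl
  have hcut : ∀ k ≤ K, cutAmp K σ k = σ k := fun k hk => if_pos hk
  -- the system
  set L := percLeaf φ φ1 φ2 (blockSpin n (N + m)) M with hLdef
  have hL : L.Good (max (Real.sqrt n) B) := perc_good hφ hs M
  set Nf := refNest n (N + m) K M σ η ρ v with hNfdef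
  have hNf : Nf.Good := percNest_good hφ hs _ _ _ _ _
  set new : Finset (Fin (N + m) × Fin n) := univ.filter fun p => ¬ (p.1 : ℕ) < N with hnew
  set S : Finset (PIdx M (Fin (N + m) × Fin n)) := ySet M new with hS
  set X : ℝ := (n : ℝ) * m with hX
  have hX0 : 0 < X := by positivity
  set G : ℝ → ℝ := fun s => (Nf.withAmp S l s).free L (blockLaw n (N + m)) with hG
  have hmemS : ∀ p, Sum.inr (Sum.inl p) ∈ S ↔ ¬ (p.1 : ℕ) < N := fun p => by
    simp [hS, hnew, ySet]
  have hnsum : ∀ f : Fin (N + m) × Fin n → ℝ, ∀ Z : ℝ, (∀ b, ∑ i, f (b, i) = Z) →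
      ∑ p ∈ new, f p = (m : ℝ) * Z ∧ ∑ p, f p = ((N : ℝ) + m) * Z := by
    intro f Z hZ
    have hc : (univ.filter fun b : Fin (N + m) => ¬ (b : ℕ) < N).card = m := by
      have hc1 : (univ.filter fun b : Fin (N + m) => (b : ℕ) < N).card = N := by
        rw [show (univ.filter fun b : Fin (N + m) => (b : ℕ) < N) = univ.map (Fin.castAddEmb m) by
          ext b
          simp only [Finset.mem_filter, Finset.mem_univ, true_and, Finset.mem_map,
            Fin.castAddEmb_apply]
          exact ⟨fun hb => ⟨⟨b, hb⟩, rfl⟩, fun ⟨i, hi⟩ => hi ▸ i.2⟩]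
        simp
      rw [Finset.filter_not, Finset.card_sdiff_of_subset (Finset.filter_subset _ _), hc1,
        Finset.card_univ, Fintype.card_fin, Nat.add_sub_cancel_left]
    refine ⟨?_, ?_⟩
    · rw [hnew, ← Finset.univ_product_univ, Finset.filter_product_left
        (p := fun b : Fin (N + m) => ¬ (b : ℕ) < N), Finset.sum_product,
        Finset.sum_congr rfl fun b _ => hZ b, Finset.sum_const, hc, nsmul_eq_mul]
    · rw [Fintype.sum_prod_type, Finset.sum_congr rfl fun b _ => hZ b, Finset.sum_const,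
        Finset.card_univ, Fintype.card_fin, nsmul_eq_mul, Nat.cast_add]
  have hspin : ∀ ω, ∑ p ∈ new, blockSpin n (N + m) ω p ^ 2 = X := fun ω => by
    rw [(hnsum _ _ fun b => show ∑ i, blockSpin n (N + m) ω (b, i) ^ 2 = (n : ℝ) from
      sum_sq_normBlock (ω b)).1, hX, mul_comm]
  have hobs : ∀ p ω y, (∑ j, L.φ2 j (L.loc ω y j) * L.a ω j (Sum.inr (Sum.inl p)) ^ 2) = 0 ∧
      L.vec (Sum.inr (Sum.inl p)) ω y = blockSpin n (N + m) ω p := fun p ω y => by
    simp [hLdef, percLeaf, percCoef, Leaf.vec, Fintype.sum_sum_type]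
  have hsumS : ∀ f : PIdx M (Fin (N + m) × Fin n) → ℝ,
      ∑ i ∈ S, f i = ∑ p ∈ new, f (Sum.inr (Sum.inl p)) := fun f =>
    Finset.sum_image fun a _ b _ h => by simpa using h
  -- the derivative of the free energy in the own amplitude
  set b := boxS K σ ρ v l with hb
  set A := 1 - pTail K (qRef φ φ1 φ2 n (N + m) K M σ η ρ v) l with hA
  have hamp : ∀ i ∈ S, Nf.amp l i = b := fun i hi => by
    rw [hS, ySet, Finset.mem_image] at hi
    obtain ⟨p, -, rfl⟩ := hi
    rfl
  have hder : HasDerivAt G (X * (b * A)) b := by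
    refine (hasDerivAt_withAmp hNf hL S (hl.trans (Nat.le_succ K)) hamp).congr_deriv ?_
    have hw : ∀ k ≤ K, Nf.w k = 1 / ((K : ℝ) + 1) := fun k hk => percNest_w K _ _ _ hk
    have hwlast : Nf.w (K + 1) = 0 := by
      simp only [Nest.w, hNfdef, refNest, percNest, gridX, lvl]
      rw [min_eq_left, min_eq_left, sub_self] <;>
        rw [le_div_iff₀ (by positivity)] <;> push_cast <;> linarith
    have hg : ∀ k ≤ K, ∑ i ∈ S, Nf.sqGrad L (blockLaw n (N + m)) k i =
        X * qRef φ φ1 φ2 n (N + m) K M σ η ρ v k := by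
      intro k hk
      obtain ⟨h1, h2⟩ := hnsum (fun p => Nf.sqGrad L (blockLaw n (N + m)) k (Sum.inr (Sum.inl p)))
        (∑ i, Nf.sqGrad L (blockLaw n (N + m)) k (Sum.inr (Sum.inl (⟨0, by omega⟩, i))))
        (fun c => block_symm hφ hn (Nat.add_pos_left hN m) (m := 1) one_pos K M ((Real.sqrt ((n : ℝ) * (N + m : ℕ)))⁻¹) (boxS K σ ρ v)
          (boxC K η ρ v) (hk.trans (Nat.le_succ K)) c ⟨0, by omega⟩)
      rw [hsumS, h1]
      have hq : qRef φ φ1 φ2 n (N + m) K M σ η ρ v k = (∑ p, Nf.sqGrad L (blockLaw n (N + m)) k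
          (Sum.inr (Sum.inl p))) / ((n : ℝ) * ((N : ℝ) + m)) := by
        rw [qRef, Nest.ovl, min_eq_left hk, ← Nat.cast_add, ySet,
          Finset.sum_image fun a _ b _ h => by simpa using h]
      rw [hq, h2, hX]
      field_simp
    have ht : ∑ i ∈ S, Nf.heatTop L (blockLaw n (N + m)) i = X := by
      refine sum_heatTop_const hNf hL S fun ω y => ?_
      rw [hsumS]
      simp only [(hobs _ ω y).1, (hobs _ ω y).2, zero_add]
      exact hspin ω
    rw [ht, show Icc l Nf.K = Icc l (K + 1) from rfl,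
      sum_Icc_succ_top (hl.trans (Nat.le_succ K)), hwlast, zero_mul, add_zero]
    rw [hA, pTail, mul_sub, mul_sub, mul_one, mul_sub, mul_sum, mul_sum, mul_sum]
    congr 1
    · ring
    · refine sum_congr rfl fun k hk => ?_
      rw [hw k (mem_Icc.1 hk).2, hg k (mem_Icc.1 hk).2]
      ring
  have hconv : ConvexOn ℝ Set.univ G :=
    free_convexOn_withAmp hNf hL (curvLower_y hφ hs M new) l
  -- moving the other levels to the centre
  set P := 3 * ρ * ∑ k ∈ range (K + 1), σ k ^ 2 with hPdef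
  have hlip : ∀ s t, 0 ≤ s → 0 ≤ t → |s ^ 2 - t ^ 2| ≤ 3 * ρ * sl ^ 2 →
      |cavFree φ φ1 φ2 n N m K M σ η ρ (Function.update (cutAmp K σ) l s) hg v - G t| ≤ X * P := by
    intro s t hs0 ht0 hst
    set e := Function.update (cutAmp K σ) l s with he
    have he0 : ∀ k, 0 ≤ e k := fun k => by
      by_cases h : k = l
      · rw [he, h, Function.update_self]; exact hs0
      · rw [he, Function.update_of_ne h, cutAmp]
        split_ifs with hk
        · exact (hP.σ_pos k hk).le
        · exact le_rfl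
    set A₀ : ℕ → PIdx M (Fin (N + m) × Fin n) → ℝ := (Nf.withAmp S l t).amp with hA₀
    set A₁ : ℕ → PIdx M (Fin (N + m) × Fin n) → ℝ := (cavBox n N m K M σ η ρ e hg 1 v).amp with hA₁
    set δ : ℕ → ℝ := fun k => if k ≤ K then 3 * ρ * σ k ^ 2 else 0 with hδdef
    have hbS : ∀ k, 0 ≤ boxS K σ ρ v k := fun k => by
      by_cases hk : k ≤ K
      · exact (hP.σ_pos k hk).le.trans (boxS_bounds hP hv k hk).1
      · rw [boxS, dif_neg hk]
    have hbC : ∀ k (a : Fin M), 0 ≤ boxC K η ρ v k a := fun k a => by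
      by_cases hk : k ≤ K
      · obtain ⟨z, hz, hzb⟩ := boxC_bounds hP hv (M := M) k hk
        rw [hzb a]; exact hP.η_pos.le.trans hz.1
      · rw [boxC, dif_neg hk]
    have hg1 : ∀ (a : Fin M) p,
        cavG n N m M 1 a p = (Real.sqrt ((n : ℝ) * (N + m : ℕ)))⁻¹ := fun a p => by
      simp only [cavG, cavT, one_mul, ← Real.sqrt_inv]
      have hN' : (0 : ℝ) < N := Nat.cast_pos.2 hN
      have hm' : (0 : ℝ) < m := Nat.cast_pos.2 hm
      have hn' : (0 : ℝ) < n := Nat.cast_pos.2 hn
      split_ifs <;> congr 1 <;> push_cast <;> field_simp <;> ring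
    have hnew1 : ∀ k p, ¬ ((p : Fin (N + m) × Fin n).1 : ℕ) < N →
        A₁ k (Sum.inr (Sum.inl p)) = e k := fun k p hp => by
      simp only [hA₁, cavBox, cavNest, percNest, percAmp, cavS, if_neg hp, sub_self, zero_mul,
        add_zero]
      exact Real.sqrt_sq (he0 k)
    have hnew0 : ∀ k p, ¬ ((p : Fin (N + m) × Fin n).1 : ℕ) < N →
        A₀ k (Sum.inr (Sum.inl p)) = if k = l then t else boxS K σ ρ v k := fun k p hp => by
      by_cases h : k = l <;>
        simp [hA₀, Nest.withAmp, hmemS, hp, h, hNfdef, refNest, percNest, percAmp]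
    have hlipf := free_group_lip (μ := blockLaw n (N + m)) hNf hL S (T := X) (fun ω y => by
        rw [hsumS]
        simp only [Leaf.weight, (hobs _ ω y).1, (hobs _ ω y).2, abs_zero, zero_add]
        exact (hspin ω).le) A₀ A₁ δ ?_ ?_ ?_ ?_ ?_
    · refine hlipf.trans (mul_le_mul_of_nonneg_left (le_of_eq ?_) hX0.le)
      change ∑ k ∈ range (K + 1 + 1), δ k = P
      rw [sum_range_succ, hPdef, mul_sum]
      simp only [hδdef, if_neg (Nat.not_succ_le_self K), add_zero]
      exact sum_congr rfl fun k hk => if_pos (Nat.lt_succ_iff.1 (mem_range.1 hk))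
    · rintro k - (⟨a, p⟩ | p | a)
      · simp only [hA₀, Nest.withAmp, hNfdef, refNest, percNest, percAmp, unifG]
        split_ifs <;> first | exact ht0 | exact inv_nonneg.2 (Real.sqrt_nonneg _) | exact le_rfl
      · by_cases hp : (p.1 : ℕ) < N
        · simp only [hA₀, Nest.withAmp, hmemS, hp, not_true_eq_false, and_false, if_false,
            hNfdef, refNest, percNest, percAmp]
          exact hbS k
        · rw [hnew0 k p hp]
          split_ifs
          · exact ht0
          · exact hbS k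
      · simp only [hA₀, Nest.withAmp, hNfdef, refNest, percNest, percAmp]
        split_ifs
        · exact ht0
        · exact hbC k a
    · rintro k - (⟨a, p⟩ | p | a) <;>
        simp only [hA₁, cavBox, cavNest, percNest, percAmp]
      · split_ifs
        · rw [hg1]; positivity
        · exact le_rfl
      · simp only [cavS]
        split_ifs <;> first | exact hbS k | exact Real.sqrt_nonneg _
      · exact hbC k a
    · rintro k - (⟨a, p⟩ | p | a) hi
      · simp only [hA₀, hA₁, Nest.withAmp, hS, ySet, hNfdef, refNest, cavBox, cavNest, percNest,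
          percAmp, unifG, hg1]
        simp
      · have hp : (p.1 : ℕ) < N := by simpa [hmemS] using hi
        simp [hA₀, hA₁, Nest.withAmp, hmemS, hp, hNfdef, refNest, cavBox, cavNest, percNest,
          percAmp, cavS]
      · simp [hA₀, hA₁, Nest.withAmp, hS, ySet, hNfdef, refNest, cavBox, cavNest, percNest,
          percAmp]
    · intro k hk i hi
      rw [hS, ySet, Finset.mem_image] at hi
      obtain ⟨p, hp, rfl⟩ := hi
      rw [hnew, Finset.mem_filter] at hp
      rw [hnew1 k p hp.2, hnew0 k p hp.2]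
      by_cases h : k = l
      · rw [if_pos h, h, he, Function.update_self, hδdef]
        simp only [if_pos hl]
        exact hst
      rw [if_neg h, he, Function.update_of_ne h]
      by_cases hk : k ≤ K
      · simp only [hδdef, if_pos hk, hcut k hk]
        obtain ⟨h1, h2⟩ := boxS_bounds hP hv k hk
        have hσk := hP.σ_pos k hk
        rw [abs_sub_comm, abs_of_nonneg (sub_nonneg.2 (pow_le_pow_left₀ hσk.le h1 2))]
        have h3 := pow_le_pow_left₀ (hσk.le.trans h1) h2 2
        have h4 := mul_le_mul_of_nonneg_left hP.ρ_le (mul_nonneg (sq_nonneg (σ k)) hρ.le)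
        nlinarith
      · simp [hδdef, hk, cutAmp, boxS]
    · intro k
      simp only [hδdef]
      split_ifs
      · positivity
      · exact le_rfl
  -- the two chords
  set B' := 1 - pTail K (gradPath n K fun i => hg i + ∑ k ∈ range (i + 1), cutAmp K σ k ^ 2) l
    with hB'
  have hA01 : 0 ≤ A ∧ A ≤ 1 := by
    obtain ⟨hp, hp1⟩ := ovl_isPath (μ := blockLaw n (N + m)) hNf hL (ySet M univ)
      (T := (n : ℝ) * (N + m : ℕ)) (D := (n : ℝ) * (N + m : ℕ)) (K := K) (by positivity)
      (fun ω y => by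
        rw [ySet, Finset.sum_image fun a _ b _ h => by simpa using h]
        simp only [(hobs _ ω y).2]
        rw [hs.norm_sq ω]
        simp [mul_comm]) (show K ≤ K + 1 from Nat.le_succ K)
    have h1 : ∀ k, qRef φ φ1 φ2 n (N + m) K M σ η ρ v k ≤ 1 := fun k => (hp1 k).trans (div_self_le_one _)
    have h0 : ∀ k, 0 ≤ qRef φ φ1 φ2 n (N + m) K M σ η ρ v k :=
      fun k => hp.2.trans (hp.1 (Nat.zero_le k))
    exact one_sub_pTail_mem (K := K) (fun k _ => h0 k) (fun k _ => h1 k) l
  have hB01 : 0 ≤ B' ∧ B' ≤ 1 := by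
    obtain ⟨hp, hp1⟩ := gradPath_isPath (n := n) K
      fun i => hg i + ∑ k ∈ range (i + 1), cutAmp K σ k ^ 2
    exact one_sub_pTail_mem (K := K) (fun k _ => hp.2.trans (hp.1 (Nat.zero_le k)))
      (fun k _ => hp1 k) l
  set e₀ := cutAmp K σ with he₀
  obtain ⟨hb1, hb2⟩ := boxS_bounds hP hv l hl
  have hupd : Function.update e₀ l sl = e₀ := by
    funext k; by_cases h : k = l <;> simp [hsl, h, hcut l hl]
  have hmid : |cavFree φ φ1 φ2 n N m K M σ η ρ e₀ hg v - G b| ≤ X * P := by
    have h := hlip sl b hsl0.le (hsl0.le.trans hb1) ?_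
    · rwa [hupd] at h
    rw [abs_sub_comm, abs_of_nonneg (sub_nonneg.2 (pow_le_pow_left₀ hsl0.le hb1 2))]
    have h3 := pow_le_pow_left₀ (hsl0.le.trans hb1) hb2 2
    have h4 := mul_le_mul_of_nonneg_left hP.ρ_le (mul_nonneg (sq_nonneg sl) hρ.le)
    nlinarith
  have hchord : ∀ s, 0 ≤ s → (∀ e, e = Function.update e₀ l s →
      |cavFree φ φ1 φ2 n N m K M σ η ρ e hg v - refFree φ φ1 φ2 n N K M σ η ρ v -
        X * cavVal n K e hg qg| ≤ X * E) →
      b * (s - b) * A ≤ (s ^ 2 - sl ^ 2) / 2 * B' + 2 * (E + P) := by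
    intro s hs0 hes
    have h1 := abs_le.1 (hes _ rfl)
    have h2 := abs_le.1 (hE e₀ (Or.inl rfl))
    have h3 := abs_le.1 (hlip s s hs0 hs0 (by rw [sub_self, abs_zero]; positivity))
    have h4 := abs_le.1 hmid
    have h5 := tangent_le_of_convexOn hconv hder s
    have h6 := cavVal_update_le hn hh (c := e₀)
      (fun k hk => by rw [hcut k hk]; exact (hP.σ_pos k hk).ne') qg hl s
    rw [show e₀ l = sl from hcut l hl, ← hB'] at h6
    have h7 := mul_le_mul_of_nonneg_left h6 hX0.le
    have h8 : X * (b * (s - b) * A) ≤ X * ((s ^ 2 - sl ^ 2) / 2 * B' + 2 * (E + P)) := by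
      nlinarith
    exact le_of_mul_le_mul_left h8 hX0
  have hrs : sl * r < sl := mul_lt_of_lt_one_right hsl0 hr
  have hup := hchord (sl + sl * r) (by positivity)
    (fun e he => hE e (Or.inr (Or.inl he)))
  have hdn := hchord (sl - sl * r) (by linarith) (fun e he => hE e (Or.inr (Or.inr he)))
  rw [show pTail K (qRef φ φ1 φ2 n (N + m) K M σ η ρ v) l -
    pTail K (gradPath n K fun i => hg i + ∑ k ∈ range (i + 1), e₀ k ^ 2) l = B' - A by
    rw [hA, hB']; ring]
  exact chord_compare hsl0 hr0 hr hρr hP.ρ_le hA01 hB01 hb1 hb2 hup hdn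

end Vale.Agent.P157.Parisi
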