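import Vale.Agent.P157.Parisi.LowerCav
import Vale.Agent.P157.Parisi.LowerTangent
import Vale.Agent.P157.Parisi.SelfConsistency
import Vale.Agent.P157.Parisi.IsingBridge

/-!
The increment of the randomised free energy is at least the variational formula, up to a
deterministic error and the random errors.
-/

namespace Vale.Agent.P157.Parisi

open MeasureTheory ProbabilityTheory Finset

variable {φ φ1 φ2 : ℝ → ℝ} {B : ℝ}

lemma vec_y (φ φ1 φ2 : ℝ → ℝ) {Ω δ : Type} [MeasurableSpace Ω] [Fintype δ]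
    (spin : Ω → δ → ℝ) (M : ℕ) (i : δ) (ω : Ω) (y : PIdx M δ → ℝ) :
    (percLeaf φ φ1 φ2 spin M).vec (Sum.inr (Sum.inl i)) ω y = spin ω i := by
  simp [Leaf.vec, percLeaf, percCoef, Fintype.sum_sum_type]

lemma weight_y (φ φ1 φ2 : ℝ → ℝ) {Ω δ : Type} [MeasurableSpace Ω] [Fintype δ]
    (spin : Ω → δ → ℝ) (M : ℕ) (i : δ) (ω : Ω) (y : PIdx M δ → ℝ) :
    (percLeaf φ φ1 φ2 spin M).weight (Sum.inr (Sum.inl i)) ω y = spin ω i ^ 2 := by
  unfold Leaf.weight
  rw [vec_y]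
  simp [percLeaf, percCoef, Fintype.sum_sum_type]

lemma qRef_isPath (hφ : PhiGood φ φ1 φ2 B) {n N : ℕ} (hn : 0 < n) (hN : 0 < N) (K M : ℕ)
    (σ : ℕ → ℝ) (η ρ : ℝ) (v : Box K → ℝ) :
    IsPath (qRef φ φ1 φ2 n N K M σ η ρ v) ∧ ∀ l, qRef φ φ1 φ2 n N K M σ η ρ v l ≤ 1 := by
  have := blockLaw_prob (N := N) hn
  obtain ⟨hs, -, -⟩ := blockSpin_sys (n := n) (N := N) hn
  have hT : ∀ ω y, ∑ i ∈ ySet M (univ : Finset (Fin N × Fin n)),
      (percLeaf φ φ1 φ2 (blockSpin n N) M).vec i ω y ^ 2 ≤ (n : ℝ) * N := by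
    intro ω y
    rw [ySet, sum_image (by intro a _ b _ h; simpa using h)]
    simp only [vec_y]
    rw [hs.norm_sq ω, Fintype.card_prod, Fintype.card_fin, Fintype.card_fin]
    push_cast
    linarith
  obtain ⟨hp, hb⟩ := ovl_isPath (percNest_good hφ hs K M (unifG n N M)
    (fun l _ => boxS K σ ρ v l) (boxC K η ρ v)) (perc_good hφ hs M) (μ := blockLaw n N)
    (ySet M univ) (show (0 : ℝ) < (n : ℝ) * N by positivity) hT (K := K)
    (show K ≤ K + 1 by omega)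
  refine ⟨hp, fun l => (hb l).trans_eq ?_⟩
  rw [div_self (by positivity)]

lemma hRef_isPath (hφ : PhiGood φ φ1 φ2 B) {n N m : ℕ} (hn : 0 < n) (hN : 0 < N) (K M : ℕ)
    (σ : ℕ → ℝ) (η ρ : ℝ) (v : Box K → ℝ) {a : ℝ}
    (hM : (M : ℝ) ≤ a * ((n : ℝ) * ((N : ℝ) + m))) :
    IsPath (hRef φ φ1 φ2 n N m K M σ η ρ v) ∧
      ∀ l, hRef φ φ1 φ2 n N m K M σ η ρ v l ≤ B ^ 2 * a := by
  have := blockLaw_prob (N := N) hn
  obtain ⟨hs, -, -⟩ := blockSpin_sys (n := n) (N := N) hn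
  have hD : (0 : ℝ) < (n : ℝ) * ((N : ℝ) + m) := by positivity
  have hT : ∀ ω y, ∑ i ∈ cSet M (δ := Fin N × Fin n),
      (percLeaf φ φ1 φ2 (blockSpin n N) M).vec i ω y ^ 2 ≤ B ^ 2 * M := by
    intro ω y
    rw [cSet, sum_image (by intro x _ y _ h; simpa using h)]
    refine (sum_le_sum fun b _ => (weight_c hφ (blockSpin n N) M b ω y).2).trans ?_
    simp [mul_comm]
  obtain ⟨hp, hb⟩ := ovl_isPath (percNest_good hφ hs K M (unifG n N M)
    (fun l _ => boxS K σ ρ v l) (boxC K η ρ v)) (perc_good hφ hs M) (μ := blockLaw n N)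
    (cSet M) hD hT (K := K) (show K ≤ K + 1 by omega)
  refine ⟨hp, fun l => (hb l).trans ?_⟩
  rw [div_le_iff₀ hD, mul_assoc]
  exact mul_le_mul_of_nonneg_left hM (sq_nonneg B)

/-- The bound `Γ`. -/
noncomputable def gBound (B a : ℝ) : ℝ := max (max B 1) (B ^ 2 * a)

/-- Own fields used in the cavity: the centre, or one level scaled by `1 ± r`. -/
noncomputable def ownField (K : ℕ) (σ : ℕ → ℝ) (r : ℝ) : Option (Fin (K + 1) × Bool) → ℕ → ℝ
  | none => cutAmp K σ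
  | some (l, true) => Function.update (cutAmp K σ) l (σ l + σ l * r)
  | some (l, false) => Function.update (cutAmp K σ) l (σ l - σ l * r)

/-- All random errors of one step. -/
noncomputable def randTot (φ φ1 φ2 : ℝ → ℝ) (B a : ℝ) (n N m K M j : ℕ) (σ : ℕ → ℝ) (η ρ r : ℝ)
    (v : Box K → ℝ) : ℝ :=
  (∑ i ∈ range j, ∑ f : GridIdx K (K + 1),
      ∫ t in (0 : ℝ)..1, insR φ φ1 φ2 n N K (M + i) (M + j) σ η ρ (gridVal f) t v) +
    (∑ f : GridIdx K ⌈gBound B a * ((K : ℝ) + 1)⌉₊, ∑ o : Option (Fin (K + 1) × Bool),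
      ∫ t in (0 : ℝ)..1,
        cavRand φ φ1 φ2 n N m K (M + j) σ η ρ (ownField K σ r o) (gridVal f) t v) +
    ∑ l ∈ range (K + 1), |qRef φ φ1 φ2 n (N + m) K (M + j) σ η ρ v l -
      qRef φ φ1 φ2 n N K (M + j) σ η ρ v l|

/-- The deterministic error of one cavity. -/
noncomputable def cavDet (Γ η σ₀ : ℝ) (n N m K : ℕ) : ℝ :=
  Γ * (pinDet K 1 σ₀ ((n : ℝ) * N) + pinDet K Γ η ((n : ℝ) * ((N : ℝ) + m)) +
    3 * (1 / ((K : ℝ) + 1)) + 2 * Γ / ((K : ℝ) + 1))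

/-- The deterministic error of the tails. -/
noncomputable def tailDet (Γ η σ₀ ρ r η₀ Θ : ℝ) (n N m K J : ℕ) : ℝ :=
  1 / ((K : ℝ) + 1) + 2 * (1 / (J : ℝ) + 1 / ((K : ℝ) + 1)) + r + 4 * ρ / r +
    2 * (cavDet Γ η σ₀ n N m K + 3 * ρ * Θ) / (η₀ * r)

/-- The deterministic error of one step. -/
noncomputable def stepDet (B α Γ η σ₀ ρ r η₀ Θ : ℝ) (n N m K J : ℕ) : ℝ :=
  (Γ + α * B ^ 2) * tailDet Γ η σ₀ ρ r η₀ Θ n N m K J + Θ + α * B ^ 2 * (1 / ((K : ℝ) + 1)) +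
    α * (B ^ 2 * (pinDet K 1 σ₀ ((n : ℝ) * N) + 1 / ((K : ℝ) + 1)) +
      12 * B ^ 2 * (((K : ℝ) + 2) * η ^ 2)) +
    cavDet Γ η σ₀ n N m K + 3 * ρ * Θ

/-- The coefficient of the random errors. -/
noncomputable def randCoef (B α Γ r η₀ : ℝ) : ℝ :=
  (Γ + α * B ^ 2) * (1 + 40 * Γ ^ 2 / (η₀ * r)) + B ^ 2 + 20 * Γ ^ 2

lemma heatDev_nonneg {ι Ω κ : Type} [Fintype ι] [Fintype κ] [MeasurableSpace Ω] {N : Nest ι}
    {L : Leaf Ω κ ι} {μ : Measure Ω} [IsProbabilityMeasure μ] {B : ℝ} (hN : N.Good)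
    (hL : L.Good B) (S : Finset ι) (D : ℝ) {l : ℕ} (hl : l ≤ N.K) :
    0 ≤ N.heatDev L μ S D l := by
  classical
  have hs0 : ∀ U : Finset ι, Tame (fun y => ∑ i ∈ U, N.heat L μ l i y) := fun U => by
    induction U using Finset.induction with
    | empty => simpa using tame_const 0
    | insert b U hb ih => simpa [sum_insert hb] using (heat_tame hN hL (μ := μ) hl b).add' ih
  obtain ⟨hc0, C, k, hb0⟩ := hs0 S
  set cst := N.mean (L.logZ μ) l (N.heatSum L μ S D l)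
  have hdiv : Tame (fun y => N.heatSum L μ S D l y) := by
    refine ⟨hc0.div_const _, C / |D|, k, fun y => ?_⟩
    change |(∑ i ∈ S, N.heat L μ l i y) / D| ≤ _
    rw [abs_div, div_mul_eq_mul_div]
    exact div_le_div_of_nonneg_right (hb0 y) (abs_nonneg _)
  obtain ⟨hc1, C1, k1, hb1⟩ := hdiv.add' (tame_const (-cst))
  have hh : Tame (fun y => |N.heatSum L μ S D l y - cst|) :=
    ⟨by simpa [sub_eq_add_neg] using hc1.abs, C1, k1, fun y => by
      simpa [sub_eq_add_neg] using hb1 y⟩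
  have := mean_mono hN hL (μ := μ) hl (tame_const 0) hh (fun y => abs_nonneg _)
  rwa [mean_const hN hL hl] at this

lemma boxS_cut {K : ℕ} (σ : ℕ → ℝ) (ρ : ℝ) (v : Box K → ℝ) {l : ℕ} (hl : ¬ l ≤ K) :
    boxS K σ ρ v l = 0 ∧ cutAmp K σ l = 0 := by
  simp [boxS, cutAmp, hl]

/-- The free energy with `m` more blocks is close to the cavity system at own field `σ`. -/
lemma refFree_cavFree (hφ : PhiGood φ φ1 φ2 B) {n N m : ℕ} (hn : 0 < n) (hN : 0 < N) {K : ℕ}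
    {σ : ℕ → ℝ} {η ρ : ℝ} (hP : LowerParams K σ η ρ) (M : ℕ) (hg : ℕ → ℝ) {v : Box K → ℝ}
    (hv : InBox v) :
    |refFree φ φ1 φ2 n (N + m) K M σ η ρ v - cavFree φ φ1 φ2 n N m K M σ η ρ (cutAmp K σ) hg v| ≤
      ((n : ℝ) * m) * (3 * ρ * ∑ k ∈ range (K + 1), σ k ^ 2) := by
  have := blockLaw_prob (N := N + m) hn
  obtain ⟨hs, -, -⟩ := blockSpin_sys (n := n) (N := N + m) hn
  set S := ySet M ((univ : Finset (Fin (N + m) × Fin n)).filter fun p => ¬ (p.1 : ℕ) < N) with hS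
  set δl : ℕ → ℝ := fun l => if l ≤ K then 3 * ρ * σ l ^ 2 else 0 with hδl
  have hT : ∀ ω y, ∑ i ∈ S, (percLeaf φ φ1 φ2 (blockSpin n (N + m)) M).weight i ω y ≤
      (n : ℝ) * m := by
    intro ω y
    rw [hS, ySet, sum_image (by intro x _ y _ h; simpa using h)]
    simp only [weight_y]
    rw [sum_filter, Fintype.sum_prod_type]
    have hb : ∀ b : Fin (N + m), (∑ i : Fin n, if ¬ ((b, i).1 : ℕ) < N
        then blockSpin n (N + m) ω (b, i) ^ 2 else 0) = if ¬ (b : ℕ) < N then (n : ℝ) else 0 := by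
      intro b
      by_cases hb : (b : ℕ) < N
      · simp [hb]
      · simp [hb, blockSpin, sum_sq_normBlock]
    simp only [hb]
    rw [Fin.sum_univ_add]
    simp [mul_comm]
  have key := free_group_lip (percNest_good hφ hs K M (cavG n N m M 1)
    (cavS n N m K (boxS K σ ρ v) (cutAmp K σ) hg 1) (boxC K η ρ v))
    (perc_good hφ hs M) (μ := blockLaw n (N + m)) S hT
    (percAmp (cavG n N m M 1) (cavS n N m K (boxS K σ ρ v) (cutAmp K σ) hg 1) (boxC K η ρ v))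
    (percAmp (unifG n (N + m) M) (fun l _ => boxS K σ ρ v l) (boxC K η ρ v)) δl
    ?_ ?_ ?_ ?_ ?_
  · refine key.trans (mul_le_mul_of_nonneg_left (le_of_eq ?_) (by positivity))
    change ∑ l ∈ range (K + 1 + 1), δl l = _
    rw [sum_range_succ, mul_sum]
    simp only [hδl, if_neg (show ¬ K + 1 ≤ K by omega), add_zero]
    exact sum_congr rfl fun l hl => by rw [if_pos (Nat.lt_succ_iff.1 (mem_range.1 hl))]
  · rintro l - (⟨a, i⟩ | i | a)
    · simp only [percAmp, cavG]; split_ifs <;> positivity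
    · simp only [percAmp, cavS]
      split_ifs with h1
      · by_cases hl : l ≤ K
        · exact (hP.σ_pos l hl).le.trans (boxS_bounds hP hv l hl).1
        · simp [(boxS_cut σ ρ v hl).1]
      all_goals positivity
    · simp only [percAmp]
      by_cases hl : l ≤ K
      · obtain ⟨z, hz, hzb⟩ := boxC_bounds hP hv (M := M) l hl
        rw [hzb]; linarith [hP.η_pos, hz.1]
      · simp [boxC, hl]
  · rintro l - (⟨a, i⟩ | i | a)
    · simp only [percAmp, unifG]; split_ifs <;> positivity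
    · simp only [percAmp]
      by_cases hl : l ≤ K
      · exact (hP.σ_pos l hl).le.trans (boxS_bounds hP hv l hl).1
      · simp [(boxS_cut σ ρ v hl).1]
    · simp only [percAmp]
      by_cases hl : l ≤ K
      · obtain ⟨z, hz, hzb⟩ := boxC_bounds hP hv (M := M) l hl
        rw [hzb]; linarith [hP.η_pos, hz.1]
      · simp [boxC, hl]
  · rintro l - (⟨a, i⟩ | i | a) hi
    · simp only [percAmp, unifG]
      by_cases hl : l = 0
      · simp only [if_pos hl, cavG, one_mul, cavT, Nat.cast_add]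
        split_ifs with h1
        · have hN' : (0 : ℝ) < N := by exact_mod_cast hN
          have hn' : (0 : ℝ) < n := by exact_mod_cast hn
          rw [← Real.sqrt_inv]
          congr 1
          field_simp
          ring
        · have hm' : (0 : ℝ) < m := by
            have := i.1.isLt
            exact_mod_cast (show 0 < m by omega)
          have hn' : (0 : ℝ) < n := by exact_mod_cast hn
          rw [← Real.sqrt_inv]
          congr 1
          field_simp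
      · simp [hl]
    · simp only [percAmp, cavS]
      rw [if_pos]
      by_contra hlt
      exact hi (mem_image.2 ⟨i, mem_filter.2 ⟨mem_univ i, hlt⟩, rfl⟩)
    · rfl
  · intro l _ i hi
    simp only [hS, ySet, mem_image, mem_filter, mem_univ, true_and] at hi
    obtain ⟨p, hp, rfl⟩ := hi
    simp only [percAmp, cavS, if_neg hp, sub_self, zero_mul, add_zero, Real.sqrt_sq_eq_abs, sq_abs,
      hδl]
    by_cases hl : l ≤ K
    · have hb := boxS_bounds hP hv l hl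
      have hs0 := hP.σ_pos l hl
      simp only [cutAmp, if_pos hl]
      have hz2 : boxS K σ ρ v l ≤ 2 * σ l := by
        linarith [mul_le_of_le_one_right hs0.le hP.ρ_le, hb.2]
      rw [abs_le]
      constructor <;> nlinarith [hb.1, hb.2, mul_nonneg hs0.le hP.ρ_pos.le]
    · simp [(boxS_cut σ ρ v hl).1, cutAmp, hl]
  · intro l
    simp only [hδl]
    split_ifs
    · have := hP.ρ_pos; positivity
    · rfl

lemma interval_integral_nonneg {f : ℝ → ℝ} (hf : ∀ t ∈ Set.Icc (0 : ℝ) 1, 0 ≤ f t) :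
    0 ≤ ∫ t in (0 : ℝ)..1, f t :=
  intervalIntegral.integral_nonneg zero_le_one hf

lemma insR_nonneg (hφ : PhiGood φ φ1 φ2 B) {n N : ℕ} (hn : 0 < n) (K M M' : ℕ) (σ : ℕ → ℝ)
    (η ρ : ℝ) (q : ℕ → ℝ) (t : ℝ) (v : Box K → ℝ) :
    0 ≤ insR φ φ1 φ2 n N K M M' σ η ρ q t v := by
  have := blockLaw_prob (N := N) hn
  obtain ⟨hs, -, -⟩ := blockSpin_sys (n := n) (N := N) hn
  refine add_nonneg (mul_nonneg (by norm_num) (sum_nonneg fun l hl => ?_))
    (sum_nonneg fun l _ => abs_nonneg _)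
  exact heatDev_nonneg (percNest_good hφ hs _ _ _ _ _) (perc_good hφ hs _) _ _
    (show l ≤ K + 1 by have := mem_range.1 hl; omega)

lemma cavRand_nonneg (hφ : PhiGood φ φ1 φ2 B) {n : ℕ} (hn : 0 < n) (N m K M : ℕ) (σ : ℕ → ℝ)
    (η ρ : ℝ) (e h : ℕ → ℝ) (t : ℝ) (v : Box K → ℝ) :
    0 ≤ cavRand φ φ1 φ2 n N m K M σ η ρ e h t v := by
  have := blockLaw_prob (N := N + m) hn
  obtain ⟨hs, -, -⟩ := blockSpin_sys (n := n) (N := N + m) hn
  refine add_nonneg (add_nonneg (sum_nonneg fun l hl => ?_) (sum_nonneg fun l _ => abs_nonneg _))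
    (sum_nonneg fun l _ => abs_nonneg _)
  have hl' : l ≤ K + 1 := by have := mem_range.1 hl; omega
  exact add_nonneg (heatDev_nonneg (percNest_good hφ hs _ _ _ _ _) (perc_good hφ hs _) _ _ hl')
    (heatDev_nonneg (percNest_good hφ hs _ _ _ _ _) (perc_good hφ hs _) _ _ hl')

lemma pTail_close {K : ℕ} {p q : ℕ → ℝ} {ζ : ℝ} (h : ∀ l ≤ K, |p l - q l| ≤ ζ) (hζ : 0 ≤ ζ)
    (l : ℕ) : |pTail K p l - pTail K q l| ≤ ζ := by
  unfold pTail
  rw [← sum_sub_distrib]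
  refine (abs_sum_le_sum_abs _ _).trans ?_
  calc ∑ m ∈ Icc l K, |p m / ((K : ℝ) + 1) - q m / ((K : ℝ) + 1)|
      ≤ ∑ _m ∈ Icc l K, ζ / ((K : ℝ) + 1) := sum_le_sum fun m hm => by
        rw [← sub_div, abs_div, abs_of_pos (by positivity : (0 : ℝ) < (K : ℝ) + 1)]
        exact div_le_div_of_nonneg_right (h m (mem_Icc.1 hm).2) (by positivity)
    _ ≤ ∑ _m ∈ range (K + 1), ζ / ((K : ℝ) + 1) := by
        refine sum_le_sum_of_subset_of_nonneg ?_ fun _ _ _ => by positivity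
        intro m hm
        simp only [mem_Icc] at hm
        simp only [mem_range]
        omega
    _ = ζ := by
        rw [sum_const, card_range, nsmul_eq_mul, Nat.cast_add, Nat.cast_one]
        field_simp

lemma ownField_last (K : ℕ) (σ : ℕ → ℝ) (r : ℝ) (o : Option (Fin (K + 1) × Bool)) :
    ownField K σ r o (K + 1) = 0 := by
  have hne : ∀ p : Fin (K + 1), K + 1 ≠ (p : ℕ) := fun p => by have := p.isLt; omega
  rcases o with _ | ⟨p, _ | _⟩ <;>
    simp [ownField, Function.update_of_ne (hne _), cutAmp]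

/-- From the tails to the formula. -/
lemma value_bound (hφ : PhiGood φ φ1 φ2 B) {n K : ℕ} (hn : 0 < n) {σ : ℕ → ℝ}
    (hσ : ∀ l ≤ K, 0 < σ l) {hg qg : ℕ → ℝ} (hhp : IsPath hg) (hqp : IsPath qg) (hqK : qg K ≤ 1)
    {Γ : ℝ} (hhK : hg K ≤ Γ) {α V ηT : ℝ} (hα : 0 ≤ α)
    (hV : ∀ q, IsPath q → q K < 1 → V ≤ blockEntropy n K q + α * energy φ K q)
    (htail : ∀ l ≤ K, |pTail K qg l -
      pTail K (gradPath n K fun i => hg i + ∑ k ∈ range (i + 1), cutAmp K σ k ^ 2) l| ≤ ηT) :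
    V ≤ cavVal n K (cutAmp K σ) hg qg + α * energy φ K qg + (Γ + α * B ^ 2) * ηT +
      (∑ k ∈ range (K + 1), σ k ^ 2) + α * B ^ 2 * (1 / ((K : ℝ) + 1)) := by
  have : IsProbabilityMeasure (sphereUnif n) := sphereUnif_prob hn
  set ζ : ℝ := 1 / ((K : ℝ) + 1) with hζdef
  set Θ := ∑ k ∈ range (K + 1), σ k ^ 2 with hΘ
  have hζ0 : 0 ≤ ζ := by positivity
  have hζ1 : ζ ≤ 1 := by
    rw [hζdef, div_le_one (by positivity)]; linarith [Nat.cast_nonneg (α := ℝ) K]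
  set b : ℕ → ℝ := fun i => hg i + ∑ k ∈ range (i + 1), cutAmp K σ k ^ 2 with hb
  have hbp : IsPath b := by
    refine ⟨fun l l' hll => add_le_add (hhp.1 hll) (sum_le_sum_of_subset_of_nonneg
      (range_subset_range.2 (by omega)) fun k _ _ => sq_nonneg _), ?_⟩
    exact add_nonneg hhp.2 (sum_nonneg fun k _ => sq_nonneg _)
  have hbinc : ∀ l ≤ K, 0 < pInc b l := by
    intro l hl
    have hs2 : 0 < cutAmp K σ l ^ 2 := by
      simp only [cutAmp, if_pos hl]; exact pow_pos (hσ l hl) 2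
    rcases Nat.eq_zero_or_pos l with rfl | hl0
    · simp only [pInc, if_pos, hb, zero_add, sum_range_one]
      linarith [hhp.2]
    · obtain ⟨k, rfl⟩ := Nat.exists_eq_succ_of_ne_zero hl0.ne'
      simp only [pInc, Nat.succ_ne_zero, if_false, hb, Nat.succ_eq_add_one, Nat.add_sub_cancel,
        sum_range_succ _ (k + 1)]
      have := hhp.1 (Nat.le_succ k)
      rw [Nat.succ_eq_add_one] at this hs2
      linarith
  set q' := gradPath n K b with hq'
  obtain ⟨hq'p, hq'1⟩ := gradPath_isPath (n := n) K b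
  set q2 : ℕ → ℝ := fun l => (1 - ζ) * q' l with hq2
  have h1ζ : 0 ≤ 1 - ζ := by linarith
  have hq2p : IsPath q2 :=
    ⟨fun l l' hll => mul_le_mul_of_nonneg_left (hq'p.1 hll) h1ζ, mul_nonneg h1ζ hq'p.2⟩
  have hζpos : 0 < ζ := by positivity
  have hq2K : q2 K < 1 :=
    lt_of_le_of_lt (mul_le_of_le_one_right h1ζ (hq'1 K)) (by linarith)
  have hS : blockEntropy n K q2 ≤ _ := blockEntropy_le_tangent hn K hbp hbinc hζ0 hζ1
  have hVle := hV q2 hq2p hq2K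
  have hKpos : (0 : ℝ) < (K : ℝ) + 1 := by positivity
  have hpair := abs_le.1 (pairing_close hhp htail)
  have hbq : (∑ l ∈ range (K + 1), b l * q' l) / ((K : ℝ) + 1) ≤
      (∑ l ∈ range (K + 1), hg l * q' l) / ((K : ℝ) + 1) + Θ := by
    rw [div_add' _ _ _ hKpos.ne']
    refine div_le_div_of_nonneg_right ?_ hKpos.le
    have hterm : ∀ l ∈ range (K + 1), b l * q' l ≤ hg l * q' l + Θ := by
      intro l hl
      have hlK : l + 1 ≤ K + 1 := mem_range.1 hl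
      have h1 : ∑ k ∈ range (l + 1), cutAmp K σ k ^ 2 ≤ Θ := by
        refine (sum_le_sum_of_subset_of_nonneg (range_mono hlK) fun k _ _ => sq_nonneg _).trans
          (le_of_eq ?_)
        exact sum_congr rfl fun k hk => by
          rw [cutAmp, if_pos (Nat.lt_succ_iff.1 (mem_range.1 hk))]
      have h0' : 0 ≤ ∑ k ∈ range (l + 1), cutAmp K σ k ^ 2 := sum_nonneg fun k _ => sq_nonneg _
      have := mul_le_of_le_one_right h0' (hq'1 l)
      simp only [hb, add_mul]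
      linarith
    refine (sum_le_sum hterm).trans (le_of_eq ?_)
    rw [sum_add_distrib, sum_const, card_range, nsmul_eq_mul]
    push_cast
    ring
  have hηT0 : 0 ≤ ηT := (abs_nonneg _).trans (htail 0 (Nat.zero_le K))
  have hen : energy φ K q2 ≤ energy φ K qg + B ^ 2 * (ηT + ζ) := by
    refine energy_tail_bound hφ K hq2p hq2K.le hqp hqK (by linarith) fun l hl => ?_
    simp only [sub_div, sum_sub_distrib]
    change _ ≤ pTail K q2 l - pTail K qg l
    have hc : |pTail K q2 l - pTail K q' l| ≤ ζ := pTail_close (fun k _ => by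
      have h0' : 0 ≤ q' k := hq'p.2.trans (hq'p.1 (Nat.zero_le k))
      rw [hq2, abs_le]
      constructor <;> nlinarith [hq'1 k]) hζ0 l
    linarith [abs_le.1 hc, abs_le.1 (htail l hl)]
  have hval : blockField n K b + (∑ l ∈ range (K + 1), hg l * qg l) / (2 * ((K : ℝ) + 1)) ≤
      cavVal n K (cutAmp K σ) hg qg := by
    have : 0 ≤ (∑ i ∈ range (K + 1), cutAmp K σ i ^ 2) / 2 := by
      have : 0 ≤ ∑ i ∈ range (K + 1), cutAmp K σ i ^ 2 := sum_nonneg fun i _ => sq_nonneg _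
      linarith
    simp only [cavVal, hb]
    linarith
  have hhT : hg K * ηT ≤ Γ * ηT := mul_le_mul_of_nonneg_right hhK hηT0
  have hΓT : 0 ≤ Γ * ηT :=
    mul_nonneg ((hhp.2.trans (hhp.1 (Nat.zero_le K))).trans hhK) hηT0
  have hΘ0 : 0 ≤ Θ := sum_nonneg fun k _ => sq_nonneg _
  have hdiv2 : ∀ x : ℝ, x / (2 * ((K : ℝ) + 1)) = x / ((K : ℝ) + 1) / 2 := fun x => by
    rw [div_div, mul_comm]
  rw [hdiv2] at hS hval
  have hαe := mul_le_mul_of_nonneg_left hen hα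
  simp only [mul_add, add_mul] at hαe ⊢
  linarith

/-- The tails of the reference overlaps are the tails of the gradient. -/
lemma tail_bound (hφ : PhiGood φ φ1 φ2 B) {n N m : ℕ} (hn : 0 < n) (hN : 0 < N) (hm : 0 < m)
    {K : ℕ} {σ : ℕ → ℝ} {η ρ : ℝ} (hP : LowerParams K σ η ρ) {r : ℝ} (hρr : ρ ≤ r) (hr : r < 1)
    {J : ℕ} (hJ : 0 < J) {η₀ : ℝ} (hη₀ : 0 < η₀) (hprobe : ∀ i < J, η₀ ≤ σ (probe K J i) ^ 2)
    {M : ℕ} {hg qg : ℕ → ℝ} (hhp : IsPath hg) {v : Box K → ℝ} (hv : InBox v) {ζ RS E : ℝ}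
    (hζ0 : 0 ≤ ζ) (hζq : ∀ l ≤ K, |qg l - qRef φ φ1 φ2 n N K M σ η ρ v l| ≤ ζ)
    (hRS : ∀ l ≤ K, |qRef φ φ1 φ2 n (N + m) K M σ η ρ v l -
      qRef φ φ1 φ2 n N K M σ η ρ v l| ≤ RS)
    (hcav : ∀ o, |cavFree φ φ1 φ2 n N m K M σ η ρ (ownField K σ r o) hg v -
      refFree φ φ1 φ2 n N K M σ η ρ v -
      ((n : ℝ) * m) * cavVal n K (ownField K σ r o) hg qg| ≤ ((n : ℝ) * m) * E) {l : ℕ}
    (hl : l ≤ K) :
    |pTail K qg l - pTail K (gradPath n K fun i => hg i + ∑ k ∈ range (i + 1), cutAmp K σ k ^ 2) l| ≤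
      ζ + RS + 2 * (1 / (J : ℝ) + 1 / ((K : ℝ) + 1)) + r + 4 * ρ / r +
        2 * (E + 3 * ρ * ∑ k ∈ range (K + 1), σ k ^ 2) / (η₀ * r) := by
  have : IsProbabilityMeasure (sphereUnif n) := sphereUnif_prob hn
  set q' := gradPath n K fun i => hg i + ∑ k ∈ range (i + 1), cutAmp K σ k ^ 2 with hq'
  obtain ⟨hq'p, hq'1⟩ := gradPath_isPath (n := n) K fun i =>
    hg i + ∑ k ∈ range (i + 1), cutAmp K σ k ^ 2
  obtain ⟨i, hi, hpl, hdist⟩ := exists_probe hJ hl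
  set p := probe K J i
  set Q := qRef φ φ1 φ2 n N K M σ η ρ v
  set Qs := qRef φ φ1 φ2 n (N + m) K M σ η ρ v with hQs
  obtain ⟨hQsp, hQs1⟩ := qRef_isPath hφ hn (N := N + m) (by omega) K M σ η ρ v
  have hpK := probe_le (K := K) hi
  have hsc := self_consistency hφ hn hN hm hP hρr hr (qg := qg) hhp hv hpK (M := M)
    (E := E) (fun e he => by
      rcases he with rfl | rfl | rfl
      · exact hcav none
      · exact hcav (some (⟨p, Nat.lt_succ_of_le hpK⟩, true))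
      · exact hcav (some (⟨p, Nat.lt_succ_of_le hpK⟩, false)))
  have nRS : 0 ≤ RS := (abs_nonneg _).trans (hRS 0 (Nat.zero_le K))
  have hs1 : |pTail K qg l - pTail K Q l| ≤ ζ := pTail_close hζq hζ0 l
  have hs2 : |pTail K Qs l - pTail K Q l| ≤ RS := pTail_close hRS nRS l
  have n0 : ∀ {f : ℕ → ℝ}, IsPath f → ∀ k ≤ K, 0 ≤ f k := fun hf k _ =>
    hf.2.trans (hf.1 (Nat.zero_le k))
  obtain ⟨a1, a2⟩ := pTail_sub_le (n0 hQsp) (fun k _ => hQs1 k) hpl
  obtain ⟨b1, b2⟩ := pTail_sub_le (n0 hq'p) (fun k _ => hq'1 k) hpl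
  have hrpos : 0 < r := hP.ρ_pos.trans_le hρr
  have hnm : (0 : ℝ) < (n : ℝ) * m := by positivity
  have hE0 : 0 ≤ E + 3 * ρ * ∑ k ∈ range (K + 1), σ k ^ 2 := by
    have hE' : 0 ≤ E := nonneg_of_mul_nonneg_right ((abs_nonneg _).trans (hcav none)) hnm
    have hρ := hP.ρ_pos
    have : 0 ≤ ∑ k ∈ range (K + 1), σ k ^ 2 := sum_nonneg fun k _ => sq_nonneg _
    positivity
  have hden : 2 * (E + 3 * ρ * ∑ k ∈ range (K + 1), σ k ^ 2) / (σ p ^ 2 * r) ≤
      2 * (E + 3 * ρ * ∑ k ∈ range (K + 1), σ k ^ 2) / (η₀ * r) :=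
    div_le_div_of_nonneg_left (by linarith) (by positivity)
      (mul_le_mul_of_nonneg_right (hprobe i hi) hrpos.le)
  have hsc' := abs_le.1 hsc
  have e1 := abs_le.1 hs1
  have e2 := abs_le.1 hs2
  rw [abs_le]
  constructor <;> linarith

/-- The increment of one step. -/
theorem step_pointwise (hφ : PhiGood φ φ1 φ2 B) {n N m : ℕ} (hn : 0 < n) (hN : 0 < N) (hm : 0 < m)
    {K : ℕ} {σ : ℕ → ℝ} {η ρ : ℝ} (hP : LowerParams K σ η ρ) {σ₀ : ℝ} (hσ₀ : 0 < σ₀)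
    (hσ : ∀ l ≤ K, σ₀ ≤ σ l) {r : ℝ} (hρr : ρ ≤ r) (hr : r < 1) {J : ℕ} (hJ : 0 < J) {η₀ : ℝ}
    (hη₀ : 0 < η₀) (hprobe : ∀ i < J, η₀ ≤ σ (probe K J i) ^ 2) (M j : ℕ) {α : ℝ} (hα : 0 ≤ α)
    (hj : (j : ℝ) = α * ((n : ℝ) * m)) {a : ℝ} (hM : ((M + j : ℕ) : ℝ) ≤ a * ((n : ℝ) * N))
    (ha : 0 ≤ a) {V : ℝ}
    (hV : ∀ q, IsPath q → q K < 1 → V ≤ blockEntropy n K q + α * energy φ K q)
    {v : Box K → ℝ} (hv : InBox v) :
    ((n : ℝ) * m) * (V - stepDet B α (gBound B a) η σ₀ ρ r η₀ (∑ k ∈ range (K + 1), σ k ^ 2)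
        n N m K J) -
      ((n : ℝ) * m) * (randCoef B α (gBound B a) r η₀ * randTot φ φ1 φ2 B a n N m K M j σ η ρ r v) ≤
      refFree φ φ1 φ2 n (N + m) K (M + j) σ η ρ v - refFree φ φ1 φ2 n N K M σ η ρ v := by
  set Γ := gBound B a with hΓdef
  have hΓ1 : 1 ≤ Γ := le_max_of_le_left (le_max_right _ _)
  set Θ := ∑ k ∈ range (K + 1), σ k ^ 2 with hΘ
  set ζ : ℝ := 1 / ((K : ℝ) + 1) with hζdef
  have hζ0 : 0 ≤ ζ := by positivity
  have hζ1 : ζ ≤ 1 := by
    rw [hζdef, div_le_one (by positivity)]; linarith [Nat.cast_nonneg (α := ℝ) K]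
  set RT := randTot φ φ1 φ2 B a n N m K M j σ η ρ r v with hRT
  have hnm : (0 : ℝ) < (n : ℝ) * m := by positivity
  have hM' : ((M + j : ℕ) : ℝ) ≤ a * ((n : ℝ) * ((N : ℝ) + m)) :=
    hM.trans (mul_le_mul_of_nonneg_left
      (mul_le_mul_of_nonneg_left (by linarith [Nat.cast_nonneg (α := ℝ) m]) (Nat.cast_nonneg n)) ha)
  -- grid paths
  obtain ⟨hQ, hQ1⟩ := qRef_isPath hφ hn hN K (M + j) σ η ρ v
  obtain ⟨hH, hH1⟩ := hRef_isPath hφ hn hN (m := m) K (M + j) σ η ρ v hM'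
  have hB2a : B ^ 2 * a ≤ Γ := le_max_right _ _
  set Q := qRef φ φ1 φ2 n N K (M + j) σ η ρ v
  set H := hRef φ φ1 φ2 n N m K (M + j) σ η ρ v
  obtain ⟨⟨fq, hfq⟩, hqg⟩ := gfloor_grid (K := K) (U := K + 1) hQ (fun l _ => by
    push_cast; nlinarith [hQ1 l, Nat.cast_nonneg (α := ℝ) K])
  obtain ⟨⟨fh, hfh⟩, hhg⟩ := gfloor_grid (K := K) (U := ⌈Γ * ((K : ℝ) + 1)⌉₊) hH (fun l _ =>
    (mul_le_mul_of_nonneg_right ((hH1 l).trans hB2a) (by positivity)).trans (Nat.le_ceil _))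
  set qg := gfloor K Q with hqgdef
  set hg := gfloor K H with hhgdef
  have hqp : IsPath qg := hfq ▸ (gridVal_isPath fq).1
  have hhp : IsPath hg := hfh ▸ (gridVal_isPath fh).1
  have hqK : qg K ≤ 1 := (hqg K le_rfl).1.trans (hQ1 K)
  have hhK : hg K ≤ Γ := (hhg K le_rfl).1.trans ((hH1 K).trans hB2a)
  have hζq : ∀ l ≤ K, |qg l - Q l| ≤ ζ := fun l hl => by
    rw [abs_le]; constructor <;> linarith [(hqg l hl).1, (hqg l hl).2]
  have hζh : ∀ l < K, |hg l - H l| ≤ ζ := fun l hl => by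
    rw [abs_le]; constructor <;> linarith [(hhg l hl.le).1, (hhg l hl.le).2]
  -- random parts
  have nI : ∀ (i : ℕ) (f : GridIdx K (K + 1)),
      0 ≤ ∫ t in (0 : ℝ)..1, insR φ φ1 φ2 n N K (M + i) (M + j) σ η ρ (gridVal f) t v :=
    fun i f => interval_integral_nonneg fun t _ => insR_nonneg hφ hn K _ _ σ η ρ _ t v
  have nC : ∀ (f : GridIdx K ⌈Γ * ((K : ℝ) + 1)⌉₊) o, 0 ≤ ∫ t in (0 : ℝ)..1,
      cavRand φ φ1 φ2 n N m K (M + j) σ η ρ (ownField K σ r o) (gridVal f) t v :=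
    fun f o => interval_integral_nonneg fun t _ => cavRand_nonneg hφ hn N m K _ σ η ρ _ _ t v
  set RI := ∑ i ∈ range j, ∑ f : GridIdx K (K + 1),
      ∫ t in (0 : ℝ)..1, insR φ φ1 φ2 n N K (M + i) (M + j) σ η ρ (gridVal f) t v with hRI
  set RC := ∑ f : GridIdx K ⌈Γ * ((K : ℝ) + 1)⌉₊, ∑ o : Option (Fin (K + 1) × Bool),
      ∫ t in (0 : ℝ)..1,
        cavRand φ φ1 φ2 n N m K (M + j) σ η ρ (ownField K σ r o) (gridVal f) t v with hRC
  set RS := ∑ l ∈ range (K + 1), |qRef φ φ1 φ2 n (N + m) K (M + j) σ η ρ v l - Q l| with hRS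
  have hRTeq : RT = RI + RC + RS := rfl
  have nRI : 0 ≤ RI := sum_nonneg fun i _ => sum_nonneg fun f _ => nI i f
  have nRC : 0 ≤ RC := sum_nonneg fun f _ => sum_nonneg fun o _ => nC f o
  have nRS : 0 ≤ RS := sum_nonneg fun l _ => abs_nonneg _
  -- cavity values
  set E := cavDet Γ η σ₀ n N m K + 20 * Γ ^ 2 * RT with hEdef
  have hcav : ∀ o, |cavFree φ φ1 φ2 n N m K (M + j) σ η ρ (ownField K σ r o) hg v -
      refFree φ φ1 φ2 n N K (M + j) σ η ρ v -
      ((n : ℝ) * m) * cavVal n K (ownField K σ r o) hg qg| ≤ ((n : ℝ) * m) * E := by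
    intro o
    refine (cav_pointwise hφ hn hN hm hP hσ₀ hσ hM' rfl (ownField_last K σ r o) hhp hhK hqp hqK hv
      hζq hζh).trans (mul_le_mul_of_nonneg_left ?_ hnm.le)
    refine add_le_add le_rfl (mul_le_mul_of_nonneg_left ?_ (by positivity))
    have h1 : ∫ t in (0 : ℝ)..1,
        cavRand φ φ1 φ2 n N m K (M + j) σ η ρ (ownField K σ r o) hg t v ≤ RC := by
      rw [← hfh]
      refine le_trans ?_ (single_le_sum (fun f _ => sum_nonneg fun o _ => nC f o) (mem_univ fh))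
      exact single_le_sum (fun o _ => nC fh o) (mem_univ o)
    linarith
  -- insertions
  set EI := B ^ 2 * (pinDet K 1 σ₀ ((n : ℝ) * N) + ζ) + 12 * B ^ 2 * (((K : ℝ) + 2) * η ^ 2)
    with hEI
  have hins : (j : ℝ) * (energy φ K qg - EI) - B ^ 2 * RI ≤
      refFree φ φ1 φ2 n N K (M + j) σ η ρ v - refFree φ φ1 φ2 n N K M σ η ρ v := by
    have h1 : ∀ i ∈ range j, energy φ K qg - EI -
        B ^ 2 * (∑ f : GridIdx K (K + 1),
          ∫ t in (0 : ℝ)..1, insR φ φ1 φ2 n N K (M + i) (M + j) σ η ρ (gridVal f) t v) ≤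
        refFree φ φ1 φ2 n N K (M + (i + 1)) σ η ρ v - refFree φ φ1 φ2 n N K (M + i) σ η ρ v := by
      intro i _
      have hp := abs_le.1 (ins_pointwise hφ hn hN hP hσ₀ hσ (M + i) (M + j) hqp hqK hv hζq)
      have hle : ∫ t in (0 : ℝ)..1, insR φ φ1 φ2 n N K (M + i) (M + j) σ η ρ qg t v ≤
          ∑ f : GridIdx K (K + 1),
            ∫ t in (0 : ℝ)..1, insR φ φ1 φ2 n N K (M + i) (M + j) σ η ρ (gridVal f) t v := by
        rw [← hfq]
        exact single_le_sum (fun f _ => nI i f) (mem_univ fq)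
      have := mul_le_mul_of_nonneg_left hle (sq_nonneg B)
      simp only [← add_assoc] at hp ⊢
      linarith [hp.1]
    have h2 := sum_le_sum h1
    rw [sum_range_sub (fun i => refFree φ φ1 φ2 n N K (M + i) σ η ρ v)] at h2
    simp only [sum_sub_distrib, sum_const, card_range, nsmul_eq_mul, ← mul_sum, add_zero] at h2
    linarith
  -- more blocks
  have hsym := abs_le.1 (refFree_cavFree (m := m) hφ hn hN hP (M + j) hg hv)
  have h0 := abs_le.1 (hcav none)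
  simp only [ownField] at h0
  have htail : ∀ l ≤ K, |pTail K qg l -
      pTail K (gradPath n K fun i => hg i + ∑ k ∈ range (i + 1), cutAmp K σ k ^ 2) l| ≤
      tailDet Γ η σ₀ ρ r η₀ Θ n N m K J + (1 + 40 * Γ ^ 2 / (η₀ * r)) * RT := by
    intro l hl
    refine (tail_bound hφ hn hN hm hP hρr hr hJ hη₀ hprobe hhp hv hζ0 hζq
      (fun k hk => single_le_sum
        (f := fun l => |qRef φ φ1 φ2 n (N + m) K (M + j) σ η ρ v l - Q l|)
        (fun l _ => abs_nonneg _) (mem_range.2 (Nat.lt_succ_of_le hk))) hcav hl).trans ?_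
    have he : 2 * (E + 3 * ρ * Θ) / (η₀ * r) =
        2 * (cavDet Γ η σ₀ n N m K + 3 * ρ * Θ) / (η₀ * r) + 40 * Γ ^ 2 / (η₀ * r) * RT := by
      rw [hEdef]; ring
    rw [← hΘ, he, tailDet, ← hζdef]
    linarith
  have hval := value_bound hφ hn hP.σ_pos hhp hqp hqK hhK hα hV htail
  rw [← hΘ, ← hζdef] at hval
  have hRI := mul_le_mul_of_nonneg_left (show RI ≤ RT by linarith) (sq_nonneg B)
  have hid : stepDet B α Γ η σ₀ ρ r η₀ Θ n N m K J + randCoef B α Γ r η₀ * RT =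
      (Γ + α * B ^ 2) * (tailDet Γ η σ₀ ρ r η₀ Θ n N m K J +
        (1 + 40 * Γ ^ 2 / (η₀ * r)) * RT) + Θ + α * B ^ 2 * ζ + α * EI + E + 3 * ρ * Θ +
        B ^ 2 * RT := by
    rw [stepDet, randCoef, hEI, hEdef, ← hζdef]
    ring
  have hmain : V - stepDet B α Γ η σ₀ ρ r η₀ Θ n N m K J - randCoef B α Γ r η₀ * RT ≤
      cavVal n K (cutAmp K σ) hg qg - E - 3 * ρ * Θ + α * (energy φ K qg - EI) - B ^ 2 * RI := by
    linarith
  have hfin := mul_le_mul_of_nonneg_left hmain hnm.le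
  have hj' : (n : ℝ) * m * (α * (energy φ K qg - EI)) = (j : ℝ) * (energy φ K qg - EI) := by
    rw [hj]; ring
  have hRI' : B ^ 2 * RI ≤ (n : ℝ) * m * (B ^ 2 * RI) := by
    refine le_mul_of_one_le_left (by positivity) ?_
    exact_mod_cast Nat.one_le_iff_ne_zero.2 (Nat.mul_ne_zero hn.ne' hm.ne')
  simp only [mul_sub, mul_add] at hfin
  simp only [mul_sub] at hj' hins ⊢
  linarith

end Vale.Agent.P157.Parisi
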