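import Vale.Agent.P157.Parisi.Model

/-!
Hierarchies with one amplitude per level: exact values on quadratic functions, monotonicity,
the bound for a maximum of three functions, and scaling.
-/

namespace Vale.Agent.P157.Parisi

open MeasureTheory ProbabilityTheory Finset

variable {n : ℕ}

/-- A quadratic function of the state with inverse slope `d`. -/
noncomputable def qd (n : ℕ) (d c : ℝ) (y : Fin n → ℝ) : ℝ := normSqF y / (2 * d) + c

lemma measurable_qd (d c : ℝ) : Measurable (qd n d c) :=
  (measurable_normSqF.div_const _).add_const _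

lemma qd_add (d c e : ℝ) (y : Fin n → ℝ) : qd n d c y + e = qd n d (c + e) y := by
  simp only [qd]; ring

/-- The Gaussian integral of the exponential of a quadratic. -/
lemma integral_exp_sq_add {p : ℝ} (hp : p < 1 / 2) (r : ℝ) :
    Integrable (fun z => Real.exp (p * z ^ 2 + r * z)) (gaussianReal 0 1) ∧
      ∫ z, Real.exp (p * z ^ 2 + r * z) ∂gaussianReal 0 1 =
        Real.exp (r ^ 2 / (2 * (1 - 2 * p))) / Real.sqrt (1 - 2 * p) := by
  have hq : 0 < 1 - 2 * p := by linarith
  set c := r / (1 - 2 * p) with hc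
  set E := Real.exp (r ^ 2 / (2 * (1 - 2 * p)))
  have key : ∀ z : ℝ, gaussianPDFReal 0 1 z * Real.exp (p * z ^ 2 + r * z) =
      ((Real.sqrt (2 * Real.pi))⁻¹ * E) *
        Real.exp (-((1 - 2 * p) / 2) * (z - c) ^ 2) := by
    intro z
    simp only [gaussianPDFReal, NNReal.coe_one, mul_one, sub_zero, E]
    rw [mul_assoc, mul_assoc, ← Real.exp_add, ← Real.exp_add]
    congr 2
    rw [hc]
    have hne : 1 - p * 2 ≠ 0 := by linarith
    field_simp
    ring
  have hv : Integrable fun z : ℝ => Real.exp (-((1 - 2 * p) / 2) * (z - c) ^ 2) :=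
    (integrable_exp_neg_mul_sq (by linarith)).comp_sub_right c
  refine ⟨?_, ?_⟩
  · rw [gaussianReal_of_var_ne_zero _ one_ne_zero, integrable_withDensity_iff_integrable_smul']
    · refine (hv.const_mul ((Real.sqrt (2 * Real.pi))⁻¹ * E)).congr (.of_forall fun z => ?_)
      simp only
      rw [← key, gaussianPDF, ENNReal.toReal_ofReal (gaussianPDFReal_nonneg _ _ _), smul_eq_mul]
    · exact measurable_gaussianPDF _ _
    · exact .of_forall fun z => ENNReal.ofReal_lt_top
  · rw [integral_gaussianReal_eq_integral_smul one_ne_zero]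
    simp only [smul_eq_mul, key]
    rw [integral_const_mul,
      integral_sub_right_eq_self (fun z => Real.exp (-((1 - 2 * p) / 2) * z ^ 2)) c,
      integral_gaussian,
      show Real.pi / ((1 - 2 * p) / 2) = 2 * Real.pi / (1 - 2 * p) by field_simp,
      Real.sqrt_div (by positivity)]
    have h1 : Real.sqrt (2 * Real.pi) ≠ 0 := (Real.sqrt_pos.2 (by positivity)).ne'
    have h2 : Real.sqrt (1 - 2 * p) ≠ 0 := (Real.sqrt_pos.2 hq).ne'
    field_simp

/-- The Gaussian integral of the exponential of a diagonal quadratic in `n` variables. -/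
lemma integral_exp_diag {p : ℝ} (hp : p < 1 / 2) (r : Fin n → ℝ) :
    Integrable (fun z => Real.exp (p * normSqF z + ∑ i, r i * z i)) (gauss (Fin n)) ∧
      ∫ z, Real.exp (p * normSqF z + ∑ i, r i * z i) ∂gauss (Fin n) =
        Real.exp (normSqF r / (2 * (1 - 2 * p)) - n / 2 * Real.log (1 - 2 * p)) := by
  have e : (fun z : Fin n → ℝ => Real.exp (p * normSqF z + ∑ i, r i * z i)) =
      fun z => ∏ i, Real.exp (p * z i ^ 2 + r i * z i) := by
    funext z
    rw [← Real.exp_sum, normSqF, mul_sum, ← sum_add_distrib]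
  rw [e]
  unfold gauss
  refine ⟨Integrable.fintype_prod fun i => (integral_exp_sq_add hp (r i)).1, ?_⟩
  rw [integral_fintype_prod_eq_prod (fun i x => Real.exp (p * x ^ 2 + r i * x))]
  simp only [(integral_exp_sq_add hp _).2]
  have hq : 0 < 1 - 2 * p := by linarith
  have e2 : ∀ i : Fin n, Real.exp (r i ^ 2 / (2 * (1 - 2 * p))) / Real.sqrt (1 - 2 * p) =
      Real.exp (r i ^ 2 / (2 * (1 - 2 * p)) - Real.log (1 - 2 * p) / 2) := fun i => by
    rw [Real.exp_sub, ← Real.log_sqrt hq.le, Real.exp_log (Real.sqrt_pos.2 hq)]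
  simp only [e2, ← Real.exp_sum]
  congr 1
  rw [sum_sub_distrib, sum_const, card_univ, Fintype.card_fin, normSqF, sum_div, nsmul_eq_mul]
  ring

/-- One step of a hierarchy on a quadratic function. -/
lemma step_qd {m a d : ℝ} (hm : 0 < m) (hd : 0 < d - m * a ^ 2) (c : ℝ) (y : Fin n → ℝ) :
    Integrable (fun z => Real.exp (m * qd n d c (move (fun _ => a) y z))) (gauss (Fin n)) ∧
      stepLog m (fun _ => a) (qd n d c) y =
        qd n (d - m * a ^ 2) (c + n / (2 * m) * Real.log (d / (d - m * a ^ 2))) y := by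
  have hd0 : 0 < d := by nlinarith
  set p := m * a ^ 2 / (2 * d) with hp_def
  have h2p : 1 - 2 * p = (d - m * a ^ 2) / d := by rw [hp_def]; field_simp
  have hp : p < 1 / 2 := by
    have : 0 < 1 - 2 * p := by rw [h2p]; positivity
    linarith
  set r : Fin n → ℝ := fun i => m * a * y i / d
  obtain ⟨hi, he⟩ := integral_exp_diag hp r
  have e : (fun z : Fin n → ℝ => Real.exp (m * qd n d c (move (fun _ => a) y z))) =
      fun z => Real.exp (m * (c + normSqF y / (2 * d))) *
        Real.exp (p * normSqF z + ∑ i, r i * z i) := by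
    funext z
    rw [← Real.exp_add]
    congr 1
    have hs : normSqF (move (fun _ => a) y z) =
        normSqF y + 2 * a * ∑ i, y i * z i + a ^ 2 * normSqF z := by
      simp only [normSqF, move, mul_sum, ← sum_add_distrib]
      exact sum_congr rfl fun i _ => by ring
    have hr : ∑ i, r i * z i = m * a / d * ∑ i, y i * z i := by
      rw [mul_sum]; exact sum_congr rfl fun i _ => by simp only [r]; ring
    rw [qd, hs, hr, hp_def]
    field_simp
    ring
  refine ⟨by rw [e]; exact hi.const_mul _, ?_⟩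
  unfold stepLog
  rw [e, integral_const_mul, he, ← Real.exp_add, Real.log_exp, h2p]
  have hlog : Real.log (d / (d - m * a ^ 2)) = -Real.log ((d - m * a ^ 2) / d) := by
    rw [← Real.log_inv, inv_div]
  have hr2 : normSqF r = (m * a / d) ^ 2 * normSqF y := by
    simp only [normSqF, mul_sum]
    exact sum_congr rfl fun i _ => by simp only [r]; ring
  rw [hr2, hlog, qd]
  field_simp
  ring

/-- Measurable functions below a quadratic. -/
structure QBound (d c : ℝ) (U : (Fin n → ℝ) → ℝ) : Prop where
  meas : Measurable U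
  le : ∀ y, U y ≤ qd n d c y

lemma QBound.qd_self (d c : ℝ) : QBound d c (qd n d c) := ⟨measurable_qd d c, fun _ => le_rfl⟩

lemma measurable_stepLog (m : ℝ) (s : Fin n → ℝ) {U : (Fin n → ℝ) → ℝ} (hU : Measurable U) :
    Measurable (stepLog m s U) := by
  have h : Measurable fun p : (Fin n → ℝ) × (Fin n → ℝ) => Real.exp (m * U (move s p.1 p.2)) :=
    Real.measurable_exp.comp (measurable_const.mul (hU.comp (by unfold move; fun_prop)))
  exact measurable_const.mul
    (Real.measurable_log.comp h.stronglyMeasurable.integral_prod_right'.measurable)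

lemma measurable_exp_move (m : ℝ) (s y : Fin n → ℝ) {U : (Fin n → ℝ) → ℝ} (hU : Measurable U) :
    Measurable fun z => Real.exp (m * U (move s y z)) :=
  Real.measurable_exp.comp (measurable_const.mul (hU.comp (by unfold move; fun_prop)))

variable {m a d c : ℝ} {U V : (Fin n → ℝ) → ℝ}

lemma QBound.integrable (hU : QBound d c U) (hm : 0 < m) (hd : 0 < d - m * a ^ 2) (y : Fin n → ℝ) :
    Integrable (fun z => Real.exp (m * U (move (fun _ => a) y z))) (gauss (Fin n)) := by
  refine (step_qd hm hd c y).1.mono' (measurable_exp_move m _ y hU.meas).aestronglyMeasurable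
    (.of_forall fun z => ?_)
  rw [Real.norm_eq_abs, Real.abs_exp, Real.exp_le_exp]
  exact mul_le_mul_of_nonneg_left (hU.le _) hm.le

lemma stepLog_le_of_le (hm : 0 < m) (hU : Measurable U) (y : Fin n → ℝ)
    (hV : Integrable (fun z => Real.exp (m * V (move (fun _ => a) y z))) (gauss (Fin n)))
    (h : ∀ y, U y ≤ V y) : stepLog m (fun _ => a) U y ≤ stepLog m (fun _ => a) V y := by
  have hle : ∀ z, Real.exp (m * U (move (fun _ => a) y z)) ≤
      Real.exp (m * V (move (fun _ => a) y z)) := fun z =>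
    Real.exp_le_exp.2 (mul_le_mul_of_nonneg_left (h _) hm.le)
  have hUi : Integrable (fun z => Real.exp (m * U (move (fun _ => a) y z))) (gauss (Fin n)) :=
    hV.mono' (measurable_exp_move m _ y hU).aestronglyMeasurable (.of_forall fun z => by
      rw [Real.norm_eq_abs, Real.abs_exp]; exact hle z)
  exact mul_le_mul_of_nonneg_left (Real.log_le_log (integral_exp_pos hUi)
    (integral_mono hUi hV hle)) (inv_nonneg.2 hm.le)

lemma QBound.step (hU : QBound d c U) (hm : 0 < m) (hd : 0 < d - m * a ^ 2) :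
    QBound (d - m * a ^ 2) (c + n / (2 * m) * Real.log (d / (d - m * a ^ 2)))
      (stepLog m (fun _ => a) U) := by
  refine ⟨measurable_stepLog _ _ hU.meas, fun y => ?_⟩
  rw [← (step_qd hm hd c y).2]
  exact stepLog_le_of_le hm hU.meas y (step_qd hm hd c y).1 hU.le

lemma stepLog_add_const (hm : 0 < m) (e : ℝ) (y : Fin n → ℝ)
    (hi : Integrable (fun z => Real.exp (m * U (move (fun _ => a) y z))) (gauss (Fin n))) :
    stepLog m (fun _ => a) (fun x => U x + e) y = stepLog m (fun _ => a) U y + e := by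
  unfold stepLog
  have h : (fun z => Real.exp (m * (U (move (fun _ => a) y z) + e))) =
      fun z => Real.exp (m * e) * Real.exp (m * U (move (fun _ => a) y z)) := by
    funext z; rw [← Real.exp_add]; congr 1; ring
  rw [h, integral_const_mul, Real.log_mul (Real.exp_ne_zero _) (integral_exp_pos hi).ne',
    Real.log_exp]
  field_simp
  ring

lemma stepLog_nonneg (hm : 0 < m) (h : ∀ y, 0 ≤ U y) (y : Fin n → ℝ)
    (hi : Integrable (fun z => Real.exp (m * U (move (fun _ => a) y z))) (gauss (Fin n))) :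
    0 ≤ stepLog m (fun _ => a) U y := by
  have h1 : (1 : ℝ) ≤ ∫ z, Real.exp (m * U (move (fun _ => a) y z)) ∂gauss (Fin n) := by
    refine le_trans (by simp) (integral_mono (integrable_const (1 : ℝ)) hi fun z => ?_)
    exact Real.one_le_exp (mul_nonneg hm.le (h _))
  exact mul_nonneg (inv_nonneg.2 hm.le) (Real.log_nonneg h1)

lemma stepLog_max3 (hm : 0 < m) {W X Y Z : (Fin n → ℝ) → ℝ} (hW : Measurable W) (e : ℝ)
    (y : Fin n → ℝ)
    (hX : Integrable (fun z => Real.exp (m * X (move (fun _ => a) y z))) (gauss (Fin n)))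
    (hY : Integrable (fun z => Real.exp (m * Y (move (fun _ => a) y z))) (gauss (Fin n)))
    (hZ : Integrable (fun z => Real.exp (m * Z (move (fun _ => a) y z))) (gauss (Fin n)))
    (h : ∀ x, W x ≤ max (X x) (max (Y x) (Z x)) + e) :
    stepLog m (fun _ => a) W y ≤
      max (stepLog m (fun _ => a) X y)
        (max (stepLog m (fun _ => a) Y y) (stepLog m (fun _ => a) Z y)) + (e + Real.log 3 / m) := by
  set IX := ∫ z, Real.exp (m * X (move (fun _ => a) y z)) ∂gauss (Fin n)
  set IY := ∫ z, Real.exp (m * Y (move (fun _ => a) y z)) ∂gauss (Fin n)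
  set IZ := ∫ z, Real.exp (m * Z (move (fun _ => a) y z)) ∂gauss (Fin n)
  have pX : 0 < IX := integral_exp_pos hX
  have pY : 0 < IY := integral_exp_pos hY
  have pZ : 0 < IZ := integral_exp_pos hZ
  set M := max (m⁻¹ * Real.log IX) (max (m⁻¹ * Real.log IY) (m⁻¹ * Real.log IZ)) with hM
  have hle : ∀ z, Real.exp (m * W (move (fun _ => a) y z)) ≤ Real.exp (m * e) *
      (Real.exp (m * X (move (fun _ => a) y z)) + Real.exp (m * Y (move (fun _ => a) y z)) +
        Real.exp (m * Z (move (fun _ => a) y z))) := by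
    intro z
    set x := move (fun _ => a) y z
    calc Real.exp (m * W x) ≤ Real.exp (m * (max (X x) (max (Y x) (Z x)) + e)) :=
          Real.exp_le_exp.2 (mul_le_mul_of_nonneg_left (h x) hm.le)
      _ = Real.exp (m * e) * Real.exp (m * max (X x) (max (Y x) (Z x))) := by
          rw [← Real.exp_add]; ring_nf
      _ ≤ _ := by
          refine mul_le_mul_of_nonneg_left ?_ (Real.exp_pos _).le
          have := Real.exp_pos (m * X x)
          have := Real.exp_pos (m * Y x)
          have := Real.exp_pos (m * Z x)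
          rcases max_choice (X x) (max (Y x) (Z x)) with q | q <;> rw [q]
          · linarith
          · rcases max_choice (Y x) (Z x) with q' | q' <;> rw [q'] <;> linarith
  have hS : Integrable (fun z => Real.exp (m * e) *
      (Real.exp (m * X (move (fun _ => a) y z)) + Real.exp (m * Y (move (fun _ => a) y z)) +
        Real.exp (m * Z (move (fun _ => a) y z)))) (gauss (Fin n)) :=
    ((hX.add hY).add hZ).const_mul _
  have hWi : Integrable (fun z => Real.exp (m * W (move (fun _ => a) y z))) (gauss (Fin n)) :=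
    hS.mono' (measurable_exp_move m _ y hW).aestronglyMeasurable (.of_forall fun z => by
      rw [Real.norm_eq_abs, Real.abs_exp]; exact hle z)
  have key : ∫ z, Real.exp (m * W (move (fun _ => a) y z)) ∂gauss (Fin n) ≤
      Real.exp (m * e) * (3 * Real.exp (m * M)) := by
    refine (integral_mono hWi hS hle).trans ?_
    rw [integral_const_mul, integral_add (hX.fun_add hY) hZ, integral_add hX hY]
    refine mul_le_mul_of_nonneg_left ?_ (Real.exp_pos _).le
    have b : ∀ I : ℝ, 0 < I → m⁻¹ * Real.log I ≤ M → I ≤ Real.exp (m * M) := fun I hI hIM => by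
      rw [← Real.exp_log hI, Real.exp_le_exp]
      have h2 := mul_le_mul_of_nonneg_left hIM hm.le
      rwa [← mul_assoc, mul_inv_cancel₀ hm.ne', one_mul] at h2
    have := b IX pX (le_max_left _ _)
    have := b IY pY ((le_max_left _ _).trans (le_max_right _ _))
    have := b IZ pZ ((le_max_right _ _).trans (le_max_right _ _))
    linarith
  unfold stepLog
  clear_value M
  refine (mul_le_mul_of_nonneg_left (Real.log_le_log (integral_exp_pos hWi) key)
    (inv_nonneg.2 hm.le)).trans (le_of_eq ?_)
  rw [← hM]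
  rw [Real.log_mul (Real.exp_ne_zero _) (by positivity),
    Real.log_mul (by norm_num) (Real.exp_ne_zero _), Real.log_exp, Real.log_exp]
  field_simp
  ring

/-- The hierarchy with amplitude `a l` at level `l` on every coordinate. -/
noncomputable def sphNest (n K : ℕ) (a : ℕ → ℝ) : Nest (Fin n) where
  K := K
  x := gridX K
  amp l _ := a l

/-- The inverse slope at level `l` of the quadratic which has inverse slope `b` at level `K`. -/
noncomputable def dq (K : ℕ) (a : ℕ → ℝ) (b : ℝ) (l : ℕ) : ℝ :=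
  b - ∑ i ∈ Ico l K, lvl K (i + 1) * a (i + 1) ^ 2

/-- The growth of the constant term down to level `l`, for one coordinate. -/
noncomputable def cq (K : ℕ) (a : ℕ → ℝ) (b : ℝ) (l : ℕ) : ℝ :=
  ∑ i ∈ Ico l K, Real.log (dq K a b (i + 1) / dq K a b i) / (2 * lvl K (i + 1))

lemma lvl_nonneg (K l : ℕ) : 0 ≤ lvl K l := by unfold lvl; positivity

lemma lvl_succ_pos (K i : ℕ) : 0 < lvl K (i + 1) := by unfold lvl; positivity

lemma lvl_le_one {K l : ℕ} (h : l ≤ K + 1) : lvl K l ≤ 1 := by
  unfold lvl
  rw [div_le_one (by positivity)]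
  exact_mod_cast h

lemma gridX_eq {K l : ℕ} (h : l ≤ K + 1) : gridX K l = lvl K l := min_eq_right (lvl_le_one h)

lemma dq_succ {K : ℕ} (a : ℕ → ℝ) (b : ℝ) {l : ℕ} (h : l < K) :
    dq K a b l = dq K a b (l + 1) - lvl K (l + 1) * a (l + 1) ^ 2 := by
  unfold dq
  rw [sum_eq_sum_Ico_succ_bot h]
  ring

lemma dq_zero_le (K : ℕ) (a : ℕ → ℝ) (b : ℝ) (l : ℕ) : dq K a b 0 ≤ dq K a b l := by
  unfold dq
  refine sub_le_sub_left (sum_le_sum_of_subset_of_nonneg
    (Ico_subset_Ico (Nat.zero_le l) le_rfl) fun i _ _ => ?_) _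
  exact mul_nonneg (lvl_nonneg _ _) (sq_nonneg _)

lemma dq_top (K : ℕ) (a : ℕ → ℝ) (b : ℝ) : dq K a b K = b := by simp [dq]

lemma cq_top (K : ℕ) (a : ℕ → ℝ) (b : ℝ) : cq K a b K = 0 := by simp [cq]

lemma dq_pos {K : ℕ} {a : ℕ → ℝ} {b : ℝ} (h : 0 < dq K a b 0) (l : ℕ) : 0 < dq K a b l :=
  h.trans_le (dq_zero_le K a b l)

variable {K : ℕ} {a : ℕ → ℝ} {b : ℝ}

lemma uUp_succ (U : (Fin n → ℝ) → ℝ) {j : ℕ} (hj : j < K) :
    (sphNest n K a).uUp U (j + 1) =
      stepLog (lvl K (K - j - 1 + 1)) (fun _ => a (K - j - 1 + 1))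
        ((sphNest n K a).uUp U j) := by
  rw [show K - j - 1 + 1 = K - j by omega, ← gridX_eq (show K - j ≤ K + 1 by omega)]
  rfl

lemma uUp_qbound (hb : 0 < dq K a b 0) {U : (Fin n → ℝ) → ℝ} {c : ℝ} (hU : QBound b c U) :
    ∀ {j : ℕ}, j ≤ K →
      QBound (dq K a b (K - j)) (c + n * cq K a b (K - j)) ((sphNest n K a).uUp U j) := by
  intro j
  induction j with
  | zero => intro _; simpa [dq_top, cq_top, Nest.uUp] using hU
  | succ j ih =>
    intro hj
    have hj' : j < K := by omega
    set l := K - j - 1 with hl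
    have hlK : l < K := by omega
    have e1 : K - (j + 1) = l := by omega
    have e2 : K - j = l + 1 := by omega
    have ih' := ih (by omega)
    rw [e2] at ih'
    rw [uUp_succ U hj', ← hl, e1]
    have hd : 0 < dq K a b (l + 1) - lvl K (l + 1) * a (l + 1) ^ 2 := by
      rw [← dq_succ a b hlK]; exact dq_pos hb l
    have h := ih'.step (lvl_succ_pos K l) hd
    rw [← dq_succ a b hlK] at h
    convert h using 1
    simp only [cq, sum_eq_sum_Ico_succ_bot hlK]
    have := lvl_succ_pos K l
    field_simp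
    ring

lemma uUp_qd (hb : 0 < dq K a b 0) (c : ℝ) :
    ∀ {j : ℕ}, j ≤ K → (sphNest n K a).uUp (qd n b c) j =
      qd n (dq K a b (K - j)) (c + n * cq K a b (K - j)) := by
  intro j
  induction j with
  | zero => intro _; simp [dq_top, cq_top, Nest.uUp]
  | succ j ih =>
    intro hj
    have hj' : j < K := by omega
    set l := K - j - 1 with hl
    have hlK : l < K := by omega
    have e1 : K - (j + 1) = l := by omega
    have e2 : K - j = l + 1 := by omega
    rw [uUp_succ _ hj', ← hl, ih (by omega), e2, e1]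
    funext y
    have hd : 0 < dq K a b (l + 1) - lvl K (l + 1) * a (l + 1) ^ 2 := by
      rw [← dq_succ a b hlK]; exact dq_pos hb l
    rw [(step_qd (lvl_succ_pos K l) hd _ y).2, ← dq_succ a b hlK]
    simp only [cq, sum_eq_sum_Ico_succ_bot hlK, qd]
    have := lvl_succ_pos K l
    field_simp
    ring

/-- The state at level `l + 1` is integrable against the step at level `l`. -/
lemma uUp_integrable (hb : 0 < dq K a b 0) {U : (Fin n → ℝ) → ℝ} {c : ℝ} (hU : QBound b c U)
    {j : ℕ} (hj : j < K) (y : Fin n → ℝ) :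
    Integrable (fun z => Real.exp (lvl K (K - j - 1 + 1) *
      (sphNest n K a).uUp U j (move (fun _ => a (K - j - 1 + 1)) y z))) (gauss (Fin n)) := by
  refine (uUp_qbound hb hU hj.le).integrable (lvl_succ_pos K _) ?_ y
  set l := K - j - 1 with hl
  rw [show K - j = l + 1 by omega, ← dq_succ a b (show l < K by omega)]
  exact dq_pos hb _

lemma sphUp_le_add (hb : 0 < dq K a b 0) {U V : (Fin n → ℝ) → ℝ} {c : ℝ} (hU : Measurable U)
    (hV : QBound b c V) {e : ℝ} (h : ∀ y, U y ≤ V y + e) :
    ∀ {j : ℕ}, j ≤ K → ∀ y, (sphNest n K a).uUp U j y ≤ (sphNest n K a).uUp V j y + e := by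
  intro j
  induction j with
  | zero => intro _ y; exact h y
  | succ j ih =>
    intro hj y
    have hj' : j < K := by omega
    rw [uUp_succ U hj', uUp_succ V hj']
    have hi := uUp_integrable hb hV hj' y
    rw [← stepLog_add_const (lvl_succ_pos K _) e y hi]
    refine stepLog_le_of_le (lvl_succ_pos K _) ?_ y ?_ (ih (by omega))
    · have hU' : QBound b (c + e) U :=
        ⟨hU, fun y => (h y).trans (by rw [← qd_add]; linarith [hV.le y])⟩
      exact (uUp_qbound hb hU' (by omega)).meas
    · refine (hi.const_mul (Real.exp (lvl K (K - j - 1 + 1) * e))).congr (.of_forall fun z => ?_)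
      simp only
      rw [← Real.exp_add]
      ring_nf

lemma uUp_nonneg (hb : 0 < dq K a b 0) {U : (Fin n → ℝ) → ℝ} {c : ℝ} (hU : QBound b c U)
    (h : ∀ y, 0 ≤ U y) : ∀ {j : ℕ}, j ≤ K → ∀ y, 0 ≤ (sphNest n K a).uUp U j y := by
  intro j
  induction j with
  | zero => intro _ y; exact h y
  | succ j ih =>
    intro hj y
    have hj' : j < K := by omega
    rw [uUp_succ U hj']
    exact stepLog_nonneg (lvl_succ_pos K _) (ih (by omega)) y (uUp_integrable hb hU hj' y)

lemma uUp_max3 {W X Y Z : (Fin n → ℝ) → ℝ} {bW bX bY bZ cW cX cY cZ : ℝ}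
    (hbW : 0 < dq K a bW 0) (hbX : 0 < dq K a bX 0) (hbY : 0 < dq K a bY 0)
    (hbZ : 0 < dq K a bZ 0) (hW : QBound bW cW W) (hX : QBound bX cX X) (hY : QBound bY cY Y)
    (hZ : QBound bZ cZ Z) {e : ℝ} (h : ∀ y, W y ≤ max (X y) (max (Y y) (Z y)) + e) :
    ∀ {j : ℕ}, j ≤ K → ∀ y, (sphNest n K a).uUp W j y ≤
      max ((sphNest n K a).uUp X j y)
        (max ((sphNest n K a).uUp Y j y) ((sphNest n K a).uUp Z j y)) +
      (e + j * ((K : ℝ) + 1) * Real.log 3) := by
  intro j
  induction j with
  | zero => intro _ y; simpa [Nest.uUp] using h y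
  | succ j ih =>
    intro hj y
    have hj' : j < K := by omega
    rw [uUp_succ W hj', uUp_succ X hj', uUp_succ Y hj', uUp_succ Z hj']
    refine (stepLog_max3 (lvl_succ_pos K _) (uUp_qbound hbW hW hj'.le).meas _ y
      (uUp_integrable hbX hX hj' y) (uUp_integrable hbY hY hj' y) (uUp_integrable hbZ hZ hj' y)
      (ih hj'.le)).trans ?_
    have h3 : 0 ≤ Real.log 3 := Real.log_nonneg (by norm_num)
    have h4 : Real.log 3 / lvl K (K - j - 1 + 1) ≤ ((K : ℝ) + 1) * Real.log 3 := by
      rw [lvl, div_div_eq_mul_div, mul_comm, div_le_iff₀ (by positivity)]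
      have h5 : (1 : ℝ) ≤ ((K - j - 1 + 1 : ℕ) : ℝ) := by norm_num
      have : 0 ≤ ((K : ℝ) + 1) * Real.log 3 := by positivity
      nlinarith
    push_cast at *
    linarith

lemma uUp_scale (t : ℝ) (U : (Fin n → ℝ) → ℝ) :
    ∀ (j : ℕ) (y : Fin n → ℝ), (sphNest n K a).uUp (fun x => U fun i => t * x i) j y =
      (sphNest n K fun l => t * a l).uUp U j (fun i => t * y i) := by
  intro j
  induction j with
  | zero => intro y; rfl
  | succ j ih =>
    intro y
    simp only [Nest.uUp, stepLog, sphNest]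
    congr 2
    refine integral_congr_ae (.of_forall fun z => ?_)
    simp only
    congr 2
    refine (ih _).trans (congrArg _ (funext fun i => ?_))
    simp only [move]
    ring

/-- The root value of `U` in the hierarchy with amplitudes `a`. -/
noncomputable def rootVal (n K : ℕ) (a : ℕ → ℝ) (U : (Fin n → ℝ) → ℝ) : ℝ :=
  ∫ z, (sphNest n K a).uUp U K (fun i => a 0 * z i) ∂gauss (Fin n)

lemma free_eq_rootVal {Ω κ : Type} [Fintype κ] [MeasurableSpace Ω] (L : Leaf Ω κ (Fin n))
    (μ : Measure Ω) : (sphNest n K a).free L μ = rootVal n K a (L.logZ μ) := rfl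

lemma rootVal_scale (t : ℝ) (U : (Fin n → ℝ) → ℝ) :
    rootVal n K (fun l => t * a l) U = rootVal n K a fun x => U fun i => t * x i := by
  unfold rootVal
  refine integral_congr_ae (.of_forall fun z => ?_)
  simp only [uUp_scale, mul_assoc]

lemma root_qd (d c r : ℝ) :
    Integrable (fun z => qd n d c fun i => r * z i) (gauss (Fin n)) ∧
      ∫ z, qd n d c (fun i => r * z i) ∂gauss (Fin n) = n * r ^ 2 / (2 * d) + c := by
  obtain ⟨hi, he, -, -⟩ := weighted_sq_moments (ι := Fin n) fun _ => r ^ 2
  have e : (fun z : Fin n → ℝ => qd n d c fun i => r * z i) =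
      fun z => (∑ i, r ^ 2 * z i ^ 2) / (2 * d) + c := by
    funext z; simp only [qd, normSqF, mul_pow]
  rw [e]
  refine ⟨(hi.div_const _).add (integrable_const _), ?_⟩
  rw [integral_add (hi.div_const _) (integrable_const _), integral_div, he]
  simp

lemma root_integrable (hb : 0 < dq K a b 0) {U : (Fin n → ℝ) → ℝ} {c : ℝ} (hU : QBound b c U)
    (h : ∀ y, 0 ≤ U y) :
    Integrable (fun z => (sphNest n K a).uUp U K fun i => a 0 * z i) (gauss (Fin n)) := by
  have hq := uUp_qbound hb hU (j := K) le_rfl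
  rw [Nat.sub_self] at hq
  refine (root_qd (dq K a b 0) (c + n * cq K a b 0) (a 0)).1.mono'
    (hq.meas.comp (by fun_prop)).aestronglyMeasurable (.of_forall fun z => ?_)
  rw [Real.norm_eq_abs, abs_of_nonneg (uUp_nonneg hb hU h le_rfl _)]
  exact hq.le _

end Vale.Agent.P157.Parisi
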