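import Vale.Agent.P157.Parisi.UpperStep
import Vale.Agent.P157.Parisi.Conc
import Vale.Agent.P157.Parisi.Box

/-!
The deviations of the heat quantities are small on average over a box of amplitudes.
-/

namespace Vale.Agent.P157.Parisi

open MeasureTheory ProbabilityTheory Finset

lemma cubeUnif_update {ι : Type} [Fintype ι] [DecidableEq ι] (j : ι) :
    MeasurePreserving (fun p : (ι → ℝ) × ℝ => Function.update p.1 j p.2)
      ((cubeUnif ι).prod segUnif) (cubeUnif ι) := by
  refine ⟨measurable_update', ?_⟩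
  symm
  refine Measure.pi_eq fun s hs => ?_
  rw [Measure.map_apply measurable_update' (MeasurableSet.univ_pi hs)]
  have hpre : (fun p : (ι → ℝ) × ℝ => Function.update p.1 j p.2) ⁻¹' Set.univ.pi s =
      (Set.univ.pi fun i => if i = j then Set.univ else s i) ×ˢ s j := by
    ext p
    simp only [Set.mem_preimage, Set.mem_univ_pi, Set.mem_prod]
    constructor
    · intro h
      refine ⟨fun i => ?_, by simpa using h j⟩
      by_cases hi : i = j
      · simp [hi]
      · simpa [hi] using h i
    · rintro ⟨h1, h2⟩ i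
      by_cases hi : i = j
      · subst hi; simpa using h2
      · simpa [hi] using h1 i
  rw [hpre, Measure.prod_prod, cubeUnif, Measure.pi_pi,
    ← Finset.mul_prod_erase univ _ (mem_univ j), ← Finset.mul_prod_erase univ
      (fun i => segUnif (s i)) (mem_univ j)]
  simp only [if_true, measure_univ, one_mul]
  rw [mul_comm]
  congr 1
  exact Finset.prod_congr rfl fun i hi => by rw [if_neg (ne_of_mem_erase hi)]

/-- A bound along every line in one coordinate bounds the box average. -/
theorem boxAvg_le_of_line {ι : Type} [Fintype ι] [DecidableEq ι] {f : (ι → ℝ) → ℝ}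
    (hf : Continuous f) (hf0 : ∀ v, 0 ≤ f v) {d : ℝ} (hd : 0 < d) (c : ι → ℝ) (j : ι)
    {a b X : ℝ} (ha : a ≤ c j - d) (hb : c j + d ≤ b)
    (hX : ∀ u : ι → ℝ, (∀ i, |u i| ≤ 1) →
      ∫ x in a..b, f (Function.update (fun i => c i + d * u i) j x) ≤ X) :
    boxAvg d f c ≤ X / (2 * d) := by
  set g : (ι → ℝ) → ℝ := fun u => f fun i => c i + d * u i with hg
  have hgc : Continuous g := hf.comp (by fun_prop)
  have hmp := cubeUnif_update (ι := ι) j
  have hgi : Integrable g (cubeUnif ι) := integrable_cubeUnif hgc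
  have hgi2 : Integrable (fun p : (ι → ℝ) × ℝ => g (Function.update p.1 j p.2))
      ((cubeUnif ι).prod segUnif) := by
    refine (hmp.integrable_comp hgc.aestronglyMeasurable).2 hgi
  have e : boxAvg d f c = ∫ u, ∫ x, g (Function.update u j x) ∂segUnif ∂cubeUnif ι := by
    rw [← integral_prod _ hgi2, boxAvg]
    conv_lhs => rw [← hmp.map_eq]
    rw [integral_map hmp.measurable.aemeasurable hgc.aestronglyMeasurable]
  rw [e]
  calc ∫ u, ∫ x, g (Function.update u j x) ∂segUnif ∂cubeUnif ι
      ≤ ∫ _u, X / (2 * d) ∂cubeUnif ι := ?_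
    _ = X / (2 * d) := by simp
  refine integral_mono_ae hgi2.integral_prod_left (integrable_const _) ?_
  filter_upwards [cubeUnif_ae_mem (ι := ι)] with u hu
  rw [integral_segUnif]
  set w : ι → ℝ := fun i => c i + d * u i with hw
  set φ : ℝ → ℝ := fun x => f (Function.update w j x) with hφ
  have hφc : Continuous φ := hf.comp (continuous_const.update j continuous_id)
  have e1 : (fun x => g (Function.update u j x)) = fun x => φ (c j + d * x) := by
    funext x
    simp only [hg, hφ]
    congr 1
    funext i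
    by_cases hi : i = j
    · subst hi; simp
    · simp [hi, hw]
  rw [e1, intervalIntegral.integral_comp_add_mul φ hd.ne']
  simp only [mul_neg, mul_one, smul_eq_mul]
  have h1 : ∫ x in (c j + -d)..(c j + d), φ x ≤ X := by
    refine le_trans ?_ (hX u hu)
    exact intervalIntegral.integral_mono_interval (by linarith) (by linarith) hb
      (Filter.Eventually.of_forall fun x => hf0 _) (hφc.intervalIntegrable a b)
  calc 2⁻¹ * (d⁻¹ * ∫ x in (c j + -d)..(c j + d), φ x) ≤ 2⁻¹ * (d⁻¹ * X) := by gcongr
    _ = X / (2 * d) := by field_simp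

section

variable {φ φ1 φ2 : ℝ → ℝ} {B : ℝ} (hφ : PhiGood φ φ1 φ2 B) {n : ℕ} (hn : 0 < n)

include hφ hn

/-- The box average of the deviations along one insertion. -/
theorem upDev_avg_le (K : ℕ) {a b α : ℝ} (ha : 0 < a) (hab : a < b) (hα : 0 ≤ α) (q : ℕ → ℝ) :
    ∃ Cst : ℝ, ∀ N M : ℕ, 0 < N → (M : ℝ) ≤ α * ((n : ℝ) * N) → ∀ d : ℝ, 0 < d →
      ∀ c : Fin (K + 1) → ℝ, (∀ i, a ≤ c i - d) → (∀ i, c i + d ≤ b) →
      ∀ d' : ℝ, 0 < d' → d' ≤ a / 2 →
      boxAvg d (fun v => ∫ t in (0:ℝ)..1, upDev φ φ1 φ2 n N K M q v t) c ≤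
        (K : ℝ) * (|Cst| * (((Real.sqrt (4 * B ^ 2 * (α + 1) + n * (a + b) ^ 2)) / d' + 1) /
          Real.sqrt ((n : ℝ) * (N : ℝ)) + d')) / (2 * d) := by
  obtain ⟨Cst, hC⟩ := heatDev_integral_le (K + 1) a b (1 / ((K : ℝ) + 1)) 1 ha hab (by positivity)
  refine ⟨Cst, fun N M hN hM d hd c hca hcb d' hd' hd'a => ?_⟩
  obtain ⟨hsys, hprob, -⟩ := blockSpin_sys (n := n) (N := N) hn
  have hnR : (1:ℝ) ≤ n := by exact_mod_cast hn
  have hNR : (1:ℝ) ≤ N := by exact_mod_cast hN
  set D : ℝ := (n : ℝ) * N with hD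
  have hD1 : 1 ≤ D := one_le_mul_of_one_le_of_one_le hnR hNR
  have hcard : (Fintype.card (Fin N × Fin n) : ℝ) = D := by simp [hD, mul_comm]
  set C0 := Real.sqrt (4 * B ^ 2 * (α + 1) + n * (a + b) ^ 2) with hC0
  set X : ℝ := |Cst| * ((C0 / d' + 1) / Real.sqrt D + d') with hX
  set G : (Fin (K + 1) → ℝ) → ℝ → ℝ := fun v t => upDev φ φ1 φ2 n N K M q v t with hGdef
  have hGc : Continuous fun p : (Fin (K + 1) → ℝ) × ℝ => G p.1 p.2 := continuous_upDev hφ hn hN K M q
  have hcomp : Continuous fun p : (Fin (K + 1) → ℝ) × ℝ => G (fun i => c i + d * p.1 i) p.2 :=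
    hGc.comp (f := fun p : (Fin (K + 1) → ℝ) × ℝ => ((fun i => c i + d * p.1 i), p.2))
      (by fun_prop)
  have hint : Integrable (fun p : (Fin (K + 1) → ℝ) × ℝ => G (fun i => c i + d * p.1 i) p.2)
      ((cubeUnif (Fin (K + 1))).prod (volume.restrict (Set.Ioc (0:ℝ) 1))) := by
    have hKc : IsCompact ((Set.pi Set.univ fun _ : Fin (K + 1) => Set.Icc (-1:ℝ) 1) ×ˢ
        Set.Icc (0:ℝ) 1) := (isCompact_univ_pi fun _ => isCompact_Icc).prod isCompact_Icc
    obtain ⟨C, hCb⟩ := hKc.exists_bound_of_continuousOn hcomp.continuousOn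
    refine Integrable.of_bound hcomp.aestronglyMeasurable C ?_
    filter_upwards [Measure.quasiMeasurePreserving_fst.ae (cubeUnif_ae_mem (ι := Fin (K + 1))),
      Measure.quasiMeasurePreserving_snd.ae (ae_restrict_mem measurableSet_Ioc)] with p hp1 hp2
    exact hCb p ⟨fun i _ => abs_le.1 (hp1 i), Set.Ioc_subset_Icc_self hp2⟩
  have hswap : boxAvg d (fun v => ∫ t in (0:ℝ)..1, G v t) c =
      ∫ t in (0:ℝ)..1, boxAvg d (fun v => G v t) c := by
    simp only [boxAvg, intervalIntegral.integral_of_le (zero_le_one' ℝ)]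
    exact integral_integral_swap hint
  rw [hswap]
  have hline : ∀ t : ℝ, boxAvg d (fun v => G v t) c ≤ (K : ℝ) * X / (2 * d) := by
    intro t
    set Nf : (Fin (K + 1) → ℝ) → Nest (PIdx (M + 1) (Fin N × Fin n)) :=
      fun v => upNest n N K (upG n N M t) (upC K M q t) v with hNf
    set L := percLeaf φ φ1 φ2 (blockSpin n N) (M + 1) with hL
    set S := ySet (M + 1) (univ : Finset (Fin N × Fin n)) with hS
    set h : ℕ → (Fin (K + 1) → ℝ) → ℝ :=
      fun l v => (Nf v).heatDev L (blockLaw n N) S D l with hh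
    have hG : ∀ v, (Nf v).Good := fun v => upNest_good hφ hn K _ _ v
    have hLg : L.Good (max (Real.sqrt n) B) := upLeaf_good hφ hn (M + 1)
    have hhc : ∀ l, l ≤ K + 1 → Continuous (h l) := by
      intro l hl
      refine continuous_heatDev (hG 0) hLg (μ := blockLaw n N)
        (A := fun v => percAmp (upG n N M t) (fun l _ => sAmp v l) (upC K M q t))
        (fun m _ i => ?_) hl S D
      rcases i with ⟨a, x⟩ | x | a <;> simp only [percAmp]
      · exact continuous_const
      · exact continuous_sAmp m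
      · exact continuous_const
    have hsum : boxAvg d (fun v => G v t) c = ∑ l ∈ range K, boxAvg d (h l) c := by
      simp only [boxAvg]
      rw [← integral_finsetSum _ fun l hl =>
        integrable_box (hhc l ((mem_range.1 hl).le.trans (Nat.le_succ K))) d c]
      rfl
    rw [hsum]
    calc ∑ l ∈ range K, boxAvg d (h l) c ≤ ∑ _l ∈ range K, X / (2 * d) := ?_
      _ = (K : ℝ) * X / (2 * d) := by rw [sum_const, card_range, nsmul_eq_mul]; ring
    refine sum_le_sum fun l hl => ?_
    have hlK := mem_range.1 hl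
    set j : Fin (K + 1) := ⟨l + 1, by omega⟩ with hj
    refine boxAvg_le_of_line (hhc l (by omega))
      (fun v => inc_heatDev_nonneg (hG v) hLg (show l ≤ K + 1 by omega) S D) hd c j (hca j) (hcb j)
      fun u hu => ?_
    set w : Fin (K + 1) → ℝ := fun i => c i + d * u i with hw
    have hwith : ∀ s, Nf (Function.update w j s) = (Nf w).withAmp S (l + 1) s := by
      intro s
      simp only [hNf, upNest, percNest, Nest.withAmp]
      congr 1
      funext m i
      rcases i with ⟨a', x⟩ | x | a'
      · simp [percAmp, hS, ySet]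
      · have hmem : (Sum.inr (Sum.inl x) : PIdx (M + 1) (Fin N × Fin n)) ∈ S := by simp [hS, ySet]
        simp only [percAmp, hmem, and_true]
        by_cases hm : m = l + 1
        · subst hm
          rw [if_pos rfl, sAmp_of_le _ (show l + 1 ≤ K by omega)]
          simp [hj]
        · rw [if_neg hm]
          unfold sAmp
          split_ifs with h1
          · rw [Function.update_of_ne]
            exact fun e => hm (congrArg Fin.val e)
          · rfl
      · simp [percAmp, hS, ySet]
    have hw0 : |sAmp w 0| ≤ a + b := by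
      rw [sAmp_of_le w (Nat.zero_le K)]
      have h1 := abs_le.1 (hu ⟨0, Nat.succ_pos K⟩)
      have h2 := hca ⟨0, Nat.succ_pos K⟩
      have h3 := hcb ⟨0, Nat.succ_pos K⟩
      simp only [hw, abs_le]
      constructor <;> nlinarith
    have hmain := hC (Nf w) L (blockLaw n N) S (max (Real.sqrt n) B) D (C0 / Real.sqrt D) d' l
      hprob hLg (hG w) le_rfl (show l < K + 1 by omega) (fun i h1 h2 => ?_) hD1 ?_ hd' hd'a
      (inc_curv_mono (curvLower_y hφ hsys (M + 1) univ) zero_le_one) (fun ω y => ?_) (fun s hs => ?_)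
    · refine (le_of_eq_of_le ?_ hmain).trans ?_
      · simp only [hh, hwith]
      · rw [hX]
        calc Cst * (C0 / Real.sqrt D / d' + d' + 1 / Real.sqrt D)
            ≤ |Cst| * (C0 / Real.sqrt D / d' + d' + 1 / Real.sqrt D) :=
              mul_le_mul_of_nonneg_right (le_abs_self _) (by positivity)
          _ = _ := by ring
    · rw [show (Nf w).x i = gridX K i from rfl, inc_gridX (show i ≤ K + 1 from h2)]
      gcongr
      exact_mod_cast h1
    · rw [one_mul, ← hcard]
      exact_mod_cast Finset.card_image_le.trans (le_of_eq Finset.card_univ)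
    · rw [one_mul, hS, sum_ySet]
      have e : ∀ p : Fin N × Fin n, (∑ k, L.φ2 k (L.loc ω y k) * L.a ω k (Sum.inr (Sum.inl p)) ^ 2) +
          L.vec (Sum.inr (Sum.inl p)) ω y ^ 2 = blockSpin n N ω p ^ 2 := fun p => perc_heat_y ω y p
      simp only [e, hsys.norm_sq ω, hcard]
      rw [abs_of_nonneg (by linarith)]
    · have hr := root_dev hφ hsys (μ := blockLaw n N) K (M + 1) (upG n N M t)
        (fun m _ => sAmp (Function.update w j s) m) (upC K M q t)
      rw [← hwith]
      refine hr.trans ?_
      have h0 : sAmp (Function.update w j s) 0 = sAmp w 0 := by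
        rw [sAmp_of_le _ (Nat.zero_le K), sAmp_of_le _ (Nat.zero_le K), Function.update_of_ne]
        exact fun e => by simp [hj, Fin.ext_iff] at e
      simp only [h0]
      rw [sum_const, card_univ, nsmul_eq_mul, hcard, Real.sq_sqrt (Nat.cast_nonneg n)]
      rw [show C0 / Real.sqrt D * D = C0 * Real.sqrt D from by
        rw [div_mul_eq_mul_div, div_eq_iff (by positivity), mul_assoc,
          Real.mul_self_sqrt (by linarith)], hC0, ← Real.sqrt_mul (by positivity)]
      refine Real.sqrt_le_sqrt ?_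
      have hsq : sAmp w 0 ^ 2 ≤ (a + b) ^ 2 := sq_le_sq' (abs_le.1 hw0).1 (abs_le.1 hw0).2
      have hM' : ((M + 1 : ℕ) : ℝ) ≤ (α + 1) * D := by push_cast; nlinarith
      nlinarith [mul_le_mul_of_nonneg_left hM' (by positivity : (0:ℝ) ≤ 4 * B ^ 2),
        mul_le_mul_of_nonneg_left hsq (by positivity : (0:ℝ) ≤ (n:ℝ) * D)]
  refine (intervalIntegral.integral_mono_on zero_le_one ?_ intervalIntegrable_const
    fun t _ => hline t).trans ?_
  · rw [intervalIntegrable_iff_integrableOn_Ioc_of_le zero_le_one]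
    exact hint.integral_prod_right
  · simp [hX]

end

end Vale.Agent.P157.Parisi
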