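import Vale.Agent.P157.Parisi.UpperDev
import Vale.Agent.P157.Parisi.CSLimit

/-!
The upper bound on a fixed grid of levels, with an error of the order of the square root of the mesh.
-/

namespace Vale.Agent.P157.Parisi

open MeasureTheory ProbabilityTheory Finset Filter Topology

section

variable {φ φ1 φ2 : ℝ → ℝ} {B : ℝ} (hφ : PhiGood φ φ1 φ2 B) {n : ℕ} (hn : 0 < n)

include hφ hn

lemma upBase_zero_patterns_zero {N : ℕ} (hN : 0 < N) (K : ℕ) :
    upBase φ φ1 φ2 n N K 0 0 = 0 := by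
  obtain ⟨hsys, hprob, hmap⟩ := blockSpin_sys (n := n) (N := N) hn
  have : IsProbabilityMeasure (blockPrior n N) := hmap ▸
    Measure.isProbabilityMeasure_map (measurable_pi_lambda _ hsys.meas).aemeasurable
  rw [upBase, upFree_zero_fields hφ hn hN]
  simp [priorPressure]

/-- Without patterns: the entropy of a raised path leaves room in the quadratic form. -/
lemma upBase_zero_le {N : ℕ} (hN : 0 < N) (K : ℕ) {q : ℕ → ℝ} (hq : IsPath q) {τ : ℝ} (hτ : 0 ≤ τ)
    (h1 : q K + τ < 1) {v : Fin (K + 1) → ℝ} (hv : ∀ i, 0 ≤ v i) :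
    upBase φ φ1 φ2 n N K 0 v / ((n : ℝ) * N) ≤ blockEntropy n K (fun l => q l + τ) +
      (∑ i : Fin (K + 1), (1 - pTail K q i - 2 * (τ / (2 * ((K : ℝ) + 1)))) * v i ^ 2) / 2 := by
  set h : ℕ → ℝ := fun l => ∑ i ∈ range (l + 1), sAmp v i ^ 2 with hh
  have hpath : IsPath h := by
    refine ⟨monotone_nat_of_le_succ fun l => ?_, sum_nonneg fun i _ => sq_nonneg _⟩
    simp only [hh, sum_range_succ _ (l + 1), le_add_iff_nonneg_right]
    exact sq_nonneg _
  have hq' : IsPath fun l => q l + τ :=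
    ⟨fun a b hab => add_le_add (hq.1 hab) le_rfl, add_nonneg hq.2 hτ⟩
  have hsup := le_ciSup (blockEntropy_bddAbove hn K hq' h1) (⟨h, hpath⟩ : {h : ℕ → ℝ // IsPath h})
  change _ ≤ blockEntropy n K (fun l => q l + τ) at hsup
  have hinc : ∀ l, pInc h l = sAmp v l ^ 2 := by
    intro l
    rcases Nat.eq_zero_or_pos l with rfl | hl
    · simp [pInc, hh]
    · obtain ⟨k, rfl⟩ : ∃ k, l = k + 1 := ⟨l - 1, by omega⟩
      simp [pInc, hh, sum_range_succ _ (k + 1)]
  have hpair := pairing_eq_tail K h fun l => q l + τ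
  have e : (∑ l ∈ range (K + 1), h l * (q l + τ)) / (2 * ((K : ℝ) + 1)) =
      (∑ l ∈ range (K + 1), pInc h l * pTail K (fun l => q l + τ) l) / 2 := by
    rw [← hpair, div_div, mul_comm ((K : ℝ) + 1) 2]
  simp only at hsup
  rw [e] at hsup
  simp only [hinc] at hsup
  have hrw : upBase φ φ1 φ2 n N K 0 v / ((n : ℝ) * N) = blockField n K h + h K / 2 := by
    rw [upBase, upFree_zero_patterns hφ hn K hv]
    have : (n : ℝ) * N ≠ 0 := by positivity
    field_simp
    simp only [hh]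
    ring
  rw [hrw, ← sum_sAmp v fun l x => (1 - pTail K q l - 2 * (τ / (2 * ((K : ℝ) + 1)))) * x ^ 2]
  have hcmp : h K - ∑ l ∈ range (K + 1), sAmp v l ^ 2 * pTail K (fun l => q l + τ) l ≤
      ∑ l ∈ range (K + 1), (1 - pTail K q l - 2 * (τ / (2 * ((K : ℝ) + 1)))) * sAmp v l ^ 2 := by
    simp only [hh]
    rw [← sum_sub_distrib]
    refine sum_le_sum fun l hl => ?_
    have hlK := Nat.lt_succ_iff.1 (mem_range.1 hl)
    have h2 : pTail K q l + τ / ((K : ℝ) + 1) ≤ pTail K (fun l => q l + τ) l := by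
      simp only [pTail, add_div, sum_add_distrib, sum_const, nsmul_eq_mul]
      refine add_le_add le_rfl (le_mul_of_one_le_left (by positivity) ?_)
      exact_mod_cast card_pos.2 ⟨l, mem_Icc.2 ⟨le_rfl, hlK⟩⟩
    have h3 := mul_le_mul_of_nonneg_left h2 (sq_nonneg (sAmp v l))
    have e3 : 2 * (τ / (2 * ((K : ℝ) + 1))) = τ / ((K : ℝ) + 1) := by
      field_simp
    rw [e3]
    linarith
  linarith

/-- The entropy is upper semicontinuous towards raised paths. -/
lemma exists_raise (K : ℕ) {q : ℕ → ℝ} (hq : IsPath q) (h1 : q K < 1) {ε : ℝ} (hε : 0 < ε) :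
    ∃ τ > 0, q K + τ < 1 ∧ blockEntropy n K (fun l => q l + τ) ≤ blockEntropy n K q + ε := by
  set τ0 := (1 - q K) / 2 with hτ0
  set S := blockEntropy n K q
  set S0 := blockEntropy n K (fun l => q l + τ0)
  set θ := min 1 (ε / (|S0 - S| + 1)) with hθ
  have hθ0 : 0 < θ := lt_min one_pos (by positivity)
  have hθ1 : θ ≤ 1 := min_le_left _ _
  refine ⟨θ * τ0, mul_pos hθ0 (by linarith), ?_, ?_⟩
  · have := mul_le_of_le_one_left (show 0 ≤ τ0 by linarith) hθ1
    linarith
  have : Nonempty {h : ℕ → ℝ // IsPath h} := ⟨⟨fun _ => 0, monotone_const, le_rfl⟩⟩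
  have hq' : IsPath fun l => q l + τ0 :=
    ⟨fun a b hab => add_le_add (hq.1 hab) le_rfl, add_nonneg hq.2 (by linarith)⟩
  have hle : blockEntropy n K (fun l => q l + θ * τ0) ≤ (1 - θ) * S + θ * S0 := by
    refine ciSup_le fun h => ?_
    have a1 := le_ciSup (blockEntropy_bddAbove hn K hq h1) h
    have a2 := le_ciSup (blockEntropy_bddAbove hn K hq' (by linarith)) h
    have e : blockField n K h.1 + (∑ l ∈ range (K + 1), h.1 l * (q l + θ * τ0)) /
        (2 * ((K : ℝ) + 1)) =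
        (1 - θ) * (blockField n K h.1 + (∑ l ∈ range (K + 1), h.1 l * q l) /
          (2 * ((K : ℝ) + 1))) + θ * (blockField n K h.1 +
          (∑ l ∈ range (K + 1), h.1 l * (q l + τ0)) / (2 * ((K : ℝ) + 1))) := by
      simp only [mul_add, sum_add_distrib, add_div, ← sum_mul]
      ring
    rw [e]
    exact add_le_add (mul_le_mul_of_nonneg_left a1 (by linarith))
      (mul_le_mul_of_nonneg_left a2 hθ0.le)
  have h2 : θ * (S0 - S) ≤ ε := by
    refine (mul_le_mul_of_nonneg_left (le_abs_self _) hθ0.le).trans ?_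
    calc θ * |S0 - S| ≤ ε / (|S0 - S| + 1) * |S0 - S| :=
          mul_le_mul_of_nonneg_right (min_le_right _ _) (abs_nonneg _)
      _ ≤ ε := by
          rw [div_mul_eq_mul_div, div_le_iff₀ (by positivity)]
          exact mul_le_mul_of_nonneg_left (by linarith) hε.le
  linarith

/-- Crude bounds on the normalised free energy. -/
lemma upBase_bounds {N : ℕ} (hN : 0 < N) (K : ℕ) {q : ℕ → ℝ} (hq : IsPath q) {τ : ℝ} (hτ : 0 ≤ τ)
    (h1 : q K + τ < 1) (m : ℕ) :
    (∀ v : Fin (K + 1) → ℝ, (∀ i, 0 ≤ v i) → upBase φ φ1 φ2 n N K m v / ((n : ℝ) * N) ≤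
      blockEntropy n K (fun l => q l + τ) +
        (m : ℝ) * ((|energy φ K q| + B ^ 2) / ((n : ℝ) * N)) +
        (∑ i : Fin (K + 1), (1 - pTail K q i - 2 * (τ / (2 * ((K : ℝ) + 1)))) * v i ^ 2) / 2) ∧
    -((m : ℝ) * ((|energy φ K q| + B ^ 2) / ((n : ℝ) * N))) ≤
      upBase φ φ1 φ2 n N K m 0 / ((n : ℝ) * N) := by
  have hD0 : (0:ℝ) < (n : ℝ) * N := by positivity
  set D : ℝ := (n : ℝ) * N
  set E := energy φ K q
  have hstep : ∀ m v, upBase φ φ1 φ2 n N K (m + 1) v / D ≤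
      upBase φ φ1 φ2 n N K m v / D + (|E| + B ^ 2) / D ∧
      upBase φ φ1 φ2 n N K m v / D - (|E| + B ^ 2) / D ≤ upBase φ φ1 φ2 n N K (m + 1) v / D := by
    intro m v
    have h := abs_le.1 (upBase_step_abs hφ hn hN K m hq (by linarith : q K ≤ 1) v)
    rw [← add_div, ← sub_div]
    constructor <;> refine div_le_div_of_nonneg_right ?_ hD0.le
    · linarith [le_abs_self E]
    · linarith [neg_abs_le E]
  induction m with
  | zero =>
    refine ⟨fun v hv => ?_, by simp [upBase_zero_patterns_zero hφ hn hN K]⟩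
    simp only [Nat.cast_zero, zero_mul, add_zero]
    exact upBase_zero_le hφ hn hN K hq hτ h1 hv
  | succ m ih =>
    refine ⟨fun v hv => ?_, ?_⟩
    · have := ih.1 v hv
      have := (hstep m v).1
      push_cast
      rw [add_mul, one_mul]
      linarith
    · have := ih.2
      have := (hstep m 0).2
      push_cast
      rw [add_mul, one_mul]
      linarith

/-- One more pattern at a maximiser. -/
theorem upper_step {N : ℕ} (hN : 0 < N) (K m : ℕ) {q : ℕ → ℝ} (hq : IsPath q) (h1 : q K ≤ 1)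
    (hk01 : ∀ i : Fin (K + 1), 0 ≤ 1 - pTail K q i ∧ 1 - pTail K q i ≤ 1) {d e : ℝ} (hd : 0 < d)
    (he : 0 < e) (hdρ : 40 * d ≤ Real.sqrt e) {c : Fin (K + 1) → ℝ}
    (hcw : ∀ i, Real.sqrt e / 3 ≤ c i - 2 * d)
    (hmax : ∀ c' : Fin (K + 1) → ℝ, (∀ i, 2 * d < c' i) →
      boxObj d e (fun i : Fin (K + 1) => 1 - pTail K q i)
          (fun v => upBase φ φ1 φ2 n N K (m + 1) v / ((n : ℝ) * N)) c' ≤
        boxObj d e (fun i : Fin (K + 1) => 1 - pTail K q i)
          (fun v => upBase φ φ1 φ2 n N K (m + 1) v / ((n : ℝ) * N)) c)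
    {devN : ℝ}
    (hdev : boxAvg d (fun v => ∫ t in (0:ℝ)..1, upDev φ φ1 φ2 n N K m q v t) c ≤ devN) :
    boxAvg d (fun v => upBase φ φ1 φ2 n N K (m + 1) v / ((n : ℝ) * N)) c ≤
      boxAvg d (fun v => upBase φ φ1 φ2 n N K m v / ((n : ℝ) * N)) c +
      (energy φ K q + (B ^ 2 * (4 * (229 * ((K : ℝ) + 1) * d + 4 * B / ((n : ℝ) * N * d)) /
          Real.sqrt e) + 10 * B ^ 2 * (Real.sqrt (((K : ℝ) + 1)⁻¹) +
        Real.sqrt ((((K : ℝ) + 1) / (Real.sqrt e / 4) + ((K : ℝ) + 1)) / Real.sqrt ((n : ℝ) * N)) +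
        (((K : ℝ) + 1) / (Real.sqrt e / 4) + ((K : ℝ) + 1)) / Real.sqrt ((n : ℝ) * N) + devN))) /
        ((n : ℝ) * N) := by
  have hK : (0:ℝ) < (K : ℝ) + 1 := by positivity
  set Kr : ℝ := (K : ℝ) + 1 with hKr
  set D : ℝ := (n : ℝ) * N with hD
  have hD0 : 0 < D := by positivity
  set ρ := Real.sqrt e with hρ
  have hρ0 : 0 < ρ := Real.sqrt_pos.2 he
  have hρe : ρ * ρ = e := Real.mul_self_sqrt he.le
  have hB1 : 1 ≤ B := hφ.one_le
  set k : Fin (K + 1) → ℝ := fun i => 1 - pTail K q i with hk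
  set E := energy φ K q
  set a : ℕ → (Fin (K + 1) → ℝ) → ℝ := fun m v => upBase φ φ1 φ2 n N K m v / D with ha
  have hac : ∀ m, Continuous (a m) := fun m => (continuous_upFree hφ hn K _ _).div_const D
  have hcst : ∀ i, 2 * d < c i := fun i => by linarith [hcw i]
  set σ₀ := ρ / 4 with hσ₀
  set r0 := Kr / σ₀ + Kr with hr0
  set etaN := 4 * (229 * Kr * d + 4 * B / (D * d)) / ρ with hetaN
  have hetaN0 : 0 ≤ etaN := by positivity
  have hvc : ∀ v : Fin (K + 1) → ℝ, (∀ i, |v i - c i| ≤ d) → ∀ i, ρ / 4 ≤ v i := fun v hv i => by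
    linarith [(abs_le.1 (hv i)).1, hcw i]
  have hC19 : ∀ i, k i / 2 + 2 * e / (c i - 2 * d) ^ 2 ≤ 19 := by
    intro i
    have hw := hcw i
    have hwp : 0 < c i - 2 * d := by linarith
    have : 2 * e / (c i - 2 * d) ^ 2 ≤ 18 := by
      rw [div_le_iff₀ (by positivity)]
      nlinarith
    linarith [(hk01 i).2]
  have htail : ∀ v : Fin (K + 1) → ℝ, (∀ i, |v i - c i| ≤ d) → ∀ t, ∀ l ≤ K, pTail K q l - etaN ≤
      pTail K (upOvl φ φ1 φ2 n N K (upG n N m t) (upC K m q t) v) l := by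
    intro v hv t l hl
    set j : Fin (K + 1) := ⟨l, Nat.lt_succ_of_le hl⟩ with hj
    set bt : (Fin (K + 1) → ℝ) → ℝ := fun v =>
      upFree φ φ1 φ2 n N K (upG n N m t) (upC K m q t) v / D with hbt
    have hbc : ConvexOn ℝ Set.univ bt := by
      have := (upFree_convex hφ hn K (upG n N m t) (upC K m q t)).smul
        (show (0:ℝ) ≤ D⁻¹ by positivity)
      simpa [hbt, div_eq_inv_mul] using this
    have hac' : ConvexOn ℝ Set.univ (a (m + 1)) := by
      have := (upFree_convex hφ hn K (unifG n N (m + 1)) (fun _ _ => 0)).smul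
        (show (0:ℝ) ≤ D⁻¹ by positivity)
      simpa [ha, upBase, div_eq_inv_mul] using this
    have hclose : ∀ u : Fin (K + 1) → ℝ, (∀ i, |u i| ≤ 2 * d) →
        |bt (fun i => c i + u i) - boxAvg d (a (m + 1)) c -
          ∑ i, (k i * c i - e / (c i - 2 * d)) * u i| ≤ 6 * 19 * Kr * d ^ 2 + 2 * B / D := by
      intro u hu
      have h1 := boxObj_affine hac' (hac (m + 1)) hd.le he.le (by norm_num : (0:ℝ) ≤ 19)
        hcst hmax (fun i => by linarith [hcw i]) hC19 hu
      have h2 : |bt (fun i => c i + u i) - a (m + 1) (fun i => c i + u i)| ≤ 2 * B / D := by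
        simp only [hbt, ha]
        rw [← sub_div, abs_div, abs_of_pos hD0]
        gcongr
        exact upFree_ins_close hφ hn hN K m q t _
      simp only [Fintype.card_fin, Nat.cast_add, Nat.cast_one, ← hKr] at h1
      obtain ⟨p1, p2⟩ := abs_le.1 h1
      obtain ⟨p3, p4⟩ := abs_le.1 h2
      rw [abs_le]
      constructor <;> linarith
    have hder : HasDerivAt (fun x => bt (Function.update v j x))
        (v j * (1 - pTail K (upOvl φ φ1 φ2 n N K (upG n N m t) (upC K m q t) v) l)) (v j) := by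
      refine ((upFree_hasDeriv hφ hn hN K (upG n N m t) (upC K m q t) v j).div_const D).congr_deriv
        ?_
      simp only [hj, hD]
      have : (n:ℝ) * N ≠ 0 := by positivity
      field_simp
    have hslope := slope_le_of_close hbc hd hclose hv hder
    have hvj := hvc v hv j
    have hkd : k j * c j ≤ k j * v j + d := by
      have h1 := mul_le_mul_of_nonneg_left
        (show c j ≤ v j + d by linarith [(abs_le.1 (hv j)).1]) (hk01 j).1
      have h2 : k j * d ≤ d := mul_le_of_le_one_left hd.le (hk01 j).2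
      linarith
    have hw0 : 0 ≤ e / (c j - 2 * d) := div_nonneg he.le (by linarith [hcw j])
    have e1 : 2 * (6 * 19 * Kr * d ^ 2 + 2 * B / D) / d = 228 * Kr * d + 4 * B / (D * d) := by
      field_simp
      ring
    rw [e1] at hslope
    have hd229 : d + 228 * Kr * d ≤ 229 * Kr * d := by
      have := mul_le_mul_of_nonneg_right (show 1 ≤ Kr by simp [hKr]) hd.le
      linarith
    have hkj : k j = 1 - pTail K q l := rfl
    set T' := pTail K (upOvl φ φ1 φ2 n N K (upG n N m t) (upC K m q t) v) l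
    have hfin : v j * (pTail K q l - T') ≤ 229 * Kr * d + 4 * B / (D * d) := by
      rw [hkj] at hkd hslope
      linarith
    rcases le_total (pTail K q l - T') 0 with hneg | hpos
    · linarith
    · have h5 := (mul_le_mul_of_nonneg_right hvj hpos).trans hfin
      have : pTail K q l - T' ≤ etaN := by
        simp only [hetaN]
        rw [le_div_iff₀ hρ0]
        linarith
      linarith
  set R : (Fin (K + 1) → ℝ) → ℝ := fun v => ∫ t in (0:ℝ)..1, upDev φ φ1 φ2 n N K m q v t with hRdef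
  have hRc : Continuous R :=
    intervalIntegral.continuous_parametric_intervalIntegral_of_continuous'
      (continuous_upDev hφ hn hN K m q) 0 1
  set c1 := B ^ 2 * etaN + 10 * B ^ 2 * (Real.sqrt (Kr⁻¹) + Real.sqrt (r0 / Real.sqrt D) +
    r0 / Real.sqrt D) with hc1
  have hpt : ∀ v : Fin (K + 1) → ℝ, (∀ i, |v i - c i| ≤ d) →
      a (m + 1) v ≤ a m v + ((E + c1) / D + 10 * B ^ 2 / D * R v) := by
    intro v hv
    have hst := upBase_step_le hφ hn hN K m hq h1 v (show 0 < σ₀ by positivity) hetaN0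
      (fun i _ => hvc v hv i) (fun t _ l hl => htail v hv t l hl)
    simp only [ha]
    rw [div_mul_eq_mul_div, ← add_div, ← add_div]
    refine div_le_div_of_nonneg_right ?_ hD0.le
    simp only [hc1, hr0, hRdef]
    linarith
  have hR' : Continuous fun v => (E + c1) / D + 10 * B ^ 2 / D * R v :=
    continuous_const.add (continuous_const.mul hRc)
  have havg : boxAvg d (a (m + 1)) c ≤ boxAvg d (a m) c + ((E + c1) / D +
      10 * B ^ 2 / D * boxAvg d R c) := by
    refine (boxAvg_le (hac (m + 1)) ((hac m).add hR') hd.le hpt).trans (le_of_eq ?_)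
    simp only [boxAvg, Pi.add_apply]
    rw [integral_add (integrable_box (hac m) d c) (integrable_box hR' d c),
      integral_add (integrable_const _) ((integrable_box hRc d c).const_mul _),
      integral_const_mul]
    simp
  have h3 := mul_le_mul_of_nonneg_left hdev (show 0 ≤ 10 * B ^ 2 / D by positivity)
  refine havg.trans (le_of_le_of_eq (add_le_add_right (add_le_add_right h3 _) _) ?_)
  simp only [hc1]
  ring

omit hφ hn in
/-- One term of the barrier. -/
lemma barrier_le {η e x d : ℝ} (hη : 0 < η) (he : 0 ≤ e) (hd : 0 ≤ d) (hx : 2 * d < x) :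
    -η * x ^ 2 + e * Real.log (x - 2 * d) ≤ e ^ 2 / (4 * η) ∧
      -η * x ^ 2 + e * Real.log (x - 2 * d) ≤ -η * x ^ 2 + e * x := by
  have hl : Real.log (x - 2 * d) ≤ x := by
    have := Real.log_le_sub_one_of_pos (show 0 < x - 2 * d by linarith)
    linarith
  have h2 := mul_le_mul_of_nonneg_left hl he
  refine ⟨?_, by linarith⟩
  rw [le_div_iff₀ (by linarith)]
  nlinarith [sq_nonneg (2 * η * x - e)]

omit hφ hn in
/-- The value at the test point. -/
lemma boxObj_test {K : ℕ} {a : (Fin (K + 1) → ℝ) → ℝ} (ha : Continuous a)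
    {k : Fin (K + 1) → ℝ} (hk : ∀ i, k i ≤ 1) {d e : ℝ} (hd : 0 ≤ d) (he : 0 < e)
    (hde : 4 * d ≤ Real.sqrt e) (hmono : ∀ v, (∀ i, 0 ≤ v i) → a 0 ≤ a v) :
    a 0 + ((K : ℝ) + 1) * (e * Real.log (Real.sqrt e / 2)) - ((K : ℝ) + 1) * (e / 2) ≤
      boxObj d e k a fun _ => Real.sqrt e := by
  set ρ := Real.sqrt e with hρ
  have hρ0 : 0 < ρ := Real.sqrt_pos.2 he
  have hb : a 0 ≤ boxAvg d a (fun _ => ρ) := by
    have := boxAvg_le (a := fun _ => a 0) (b := a) (d := d) continuous_const ha hd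
      (c := fun _ => ρ) fun v hv => hmono v fun i => by linarith [(abs_le.1 (hv i)).1]
    simpa [boxAvg] using this
  have hq : (∑ i : Fin (K + 1), k i * ρ ^ 2) ≤ ((K : ℝ) + 1) * e := by
    have := sum_le_sum fun i (_ : i ∈ (univ : Finset (Fin (K + 1)))) =>
      mul_le_mul_of_nonneg_right (hk i) (sq_nonneg ρ)
    simpa [hρ, Real.sq_sqrt he.le] using this
  have hl : Real.log (ρ / 2) ≤ Real.log (ρ - 2 * d) :=
    Real.log_le_log (by positivity) (by linarith)
  simp only [boxObj, sum_const, card_univ, Fintype.card_fin, nsmul_eq_mul]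
  have := mul_le_mul_of_nonneg_left
    (mul_le_mul_of_nonneg_left hl (show (0:ℝ) ≤ (K:ℝ) + 1 by positivity)) he.le
  push_cast
  linarith

omit hφ hn in
/-- A uniform bound on maximisers. -/
lemma boxObj_max_upper {K : ℕ} {a : (Fin (K + 1) → ℝ) → ℝ} (ha : Continuous a)
    {k : Fin (K + 1) → ℝ} {d e η A L Y : ℝ} (hd : 0 ≤ d) (hd1 : d ≤ 1) (he : 0 ≤ e) (hη : 0 < η)
    (hk : ∀ i, k i ≤ 1) (hY0 : 0 ≤ Y) {c : Fin (K + 1) → ℝ} (hc : ∀ i, 2 * d < c i)
    (hA : ∀ v, (∀ i, 0 ≤ v i) → a v ≤ A + (∑ i, (k i - 2 * η) * v i ^ 2) / 2)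
    (hL : L ≤ boxObj d e k a c)
    (hY : A + ((K : ℝ) + 1) + ((K : ℝ) + 1) * (e ^ 2 / (4 * η)) - L ≤ Y) (i : Fin (K + 1)) :
    c i + d ≤ 2 + (e + Y) / η := by
  have hK : (0:ℝ) < (K : ℝ) + 1 := by positivity
  have h := boxObj_le (ε := e) ha hd hc hA
  rw [← add_sum_erase univ (fun j => -η * c j ^ 2 + e * Real.log (c j - 2 * d)) (mem_univ i)] at h
  have h4 : ∑ j ∈ univ.erase i, (-η * c j ^ 2 + e * Real.log (c j - 2 * d)) ≤
      ((K : ℝ) + 1) * (e ^ 2 / (4 * η)) := by
    refine (sum_le_sum fun j _ => (barrier_le hη he hd (hc j)).1).trans ?_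
    rw [sum_const, nsmul_eq_mul]
    refine mul_le_mul_of_nonneg_right ?_ (by positivity)
    rw [card_erase_of_mem (mem_univ i), card_univ, Fintype.card_fin]
    simp
  have hk' := sum_le_sum fun i (_ : i ∈ (univ : Finset (Fin (K + 1)))) =>
    show k i - 2 * η ≤ 1 by linarith [hk i]
  simp only [sum_const, card_univ, Fintype.card_fin, nsmul_eq_mul, mul_one] at hk'
  push_cast at hk'
  have h5 : d ^ 2 * (∑ i, (k i - 2 * η)) / 6 ≤ (K : ℝ) + 1 := by
    have h6 := mul_le_mul_of_nonneg_left hk' (sq_nonneg d)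
    have h7 : d ^ 2 * ((K : ℝ) + 1) ≤ 1 * ((K : ℝ) + 1) :=
      mul_le_mul_of_nonneg_right (pow_le_one₀ hd hd1) hK.le
    linarith
  have hquad : η * c i ^ 2 ≤ e * c i + Y := by linarith [(barrier_le hη he hd (hc i)).2]
  rcases le_total (c i) 1 with hh | hh
  · have : 0 ≤ (e + Y) / η := by positivity
    linarith
  · have : c i ≤ (e + Y) / η := by
      rw [le_div_iff₀ hη]
      nlinarith
    linarith

/-- The error of one step. -/
noncomputable def upErr (B n N K d e devN : ℝ) : ℝ :=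
  B ^ 2 * (4 * (229 * (K + 1) * d + 4 * B / (n * N * d)) / Real.sqrt e) +
    10 * B ^ 2 * (Real.sqrt ((K + 1)⁻¹) +
      Real.sqrt (((K + 1) / (Real.sqrt e / 4) + (K + 1)) / Real.sqrt (n * N)) +
      ((K + 1) / (Real.sqrt e / 4) + (K + 1)) / Real.sqrt (n * N) + devN)

/-- All steps at fixed parameters. -/
theorem upper_fixed {N : ℕ} (hN : 0 < N) (K : ℕ) {q : ℕ → ℝ} (hq : IsPath q) {τ : ℝ} (hτ : 0 < τ)
    (hτ1 : q K + τ < 1) {α : ℝ} {d e bmax devN : ℝ} (hd : 0 < d) (hd1 : d ≤ 1)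
    (he : 0 < e) (he1 : e ≤ 1) (hdρ : 40 * d ≤ Real.sqrt e) (hdev0 : 0 ≤ devN)
    (hdev : ∀ m : ℕ, (m : ℝ) ≤ α * ((n : ℝ) * N) → ∀ c : Fin (K + 1) → ℝ,
      (∀ i, Real.sqrt e / 4 ≤ c i - d) → (∀ i, c i + d ≤ bmax) →
      boxAvg d (fun v => ∫ t in (0:ℝ)..1, upDev φ φ1 φ2 n N K m q v t) c ≤ devN)
    (hbmax : 2 + (e + (|blockEntropy n K (fun l => q l + τ)| + 2 * (α * (|energy φ K q| + B ^ 2)) +
      ((K : ℝ) + 1) + ((K : ℝ) + 1) * (e ^ 2 / (4 * (τ / (2 * ((K : ℝ) + 1))))) +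
      |((K : ℝ) + 1) * (e * Real.log (Real.sqrt e / 2))| + ((K : ℝ) + 1))) /
        (τ / (2 * ((K : ℝ) + 1))) ≤ bmax)
    {M : ℕ} (hMle : (M : ℝ) ≤ α * ((n : ℝ) * N)) :
    priorPressure φ M (blockPrior n N) +
        (((K : ℝ) + 1) * (e * Real.log (Real.sqrt e / 2)) - ((K : ℝ) + 1) * (e / 2)) ≤
      blockEntropy n K (fun l => q l + τ) + ((K : ℝ) + 1) * d +
        ((K : ℝ) + 1) * (e ^ 2 / (4 * (τ / (2 * ((K : ℝ) + 1))))) +
        (M : ℝ) * ((energy φ K q + upErr B n N K d e devN) / ((n : ℝ) * N)) := by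
  have hK : (0:ℝ) < (K : ℝ) + 1 := by positivity
  set Kr : ℝ := (K : ℝ) + 1 with hKr
  set η0 := τ / (2 * Kr) with hη0
  have hη0p : 0 < η0 := by positivity
  have h1 : q K ≤ 1 := by linarith
  set k : Fin (K + 1) → ℝ := fun i => 1 - pTail K q i with hk
  have h0 : ∀ m ≤ K, 0 ≤ q m := fun m _ => hq.2.trans (hq.1 (Nat.zero_le m))
  have hk01 : ∀ i, 0 ≤ k i ∧ k i ≤ 1 := by
    intro i
    refine ⟨?_, by simp only [hk]; linarith [pTail_nonneg (K := K) h0 i]⟩
    have hb := pTail_sub_le (K := K) h0 (fun m hm => (hq.1 hm).trans h1)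
      (show (i : ℕ) ≤ K + 1 from i.2.le)
    have h2 : pTail K q (K + 1) = 0 := by simp [pTail]
    have h3 : (((K + 1 : ℕ) : ℝ) - (i : ℕ)) / ((K : ℝ) + 1) ≤ 1 := by
      rw [div_le_one hK]; push_cast; linarith [(Nat.cast_nonneg (i : ℕ) : (0:ℝ) ≤ _)]
    simp only [hk]
    linarith [hb.2]
  set E := energy φ K q
  set D : ℝ := (n : ℝ) * N with hD
  have hD0 : 0 < D := by positivity
  set a : ℕ → (Fin (K + 1) → ℝ) → ℝ := fun m v => upBase φ φ1 φ2 n N K m v / D with ha
  have hac : ∀ m, Continuous (a m) := fun m => (continuous_upFree hφ hn K _ _).div_const D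
  choose cst hcst hmax using fun m => exists_boxObj_max (hac m) (k := k) (η := η0) hd.le he hη0p
    (upBase_bounds hφ hn hN K hq hτ.le hτ1 m).1
  have hmono : ∀ m v, (∀ i, 0 ≤ v i) → a m 0 ≤ a m v := fun m v hv =>
    div_le_div_of_nonneg_right (upFree_ge_zero hφ hn hN K _ _ hv) hD0.le
  have htest : ∀ m, a m 0 + Kr * (e * Real.log (Real.sqrt e / 2)) - Kr * (e / 2) ≤
      boxObj d e k (a m) (cst m) := fun m =>
    (boxObj_test (hac m) (fun i => (hk01 i).2) hd.le he (by linarith) (hmono m)).trans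
      (hmax m _ fun i => by linarith [Real.sqrt_pos.2 he])
  have hcw : ∀ m i, Real.sqrt e / 3 ≤ cst m i - 2 * d := fun m i =>
    boxObj_max_lower (hac m) hd.le he (by linarith) (hcst m) (hmax m) (fun i => (hk01 i).2)
      (fun v i r hv hr => div_le_div_of_nonneg_right (upFree_mono hφ hn hN K _ _ v i (hv i) hr).1
        hD0.le) i
  have hbound : ∀ m ≤ M, ∀ i, cst m i + d ≤ bmax := by
    intro m hm i
    obtain ⟨hA, hlow⟩ := upBase_bounds hφ hn hN K hq hτ.le hτ1 m
    have hmD : (m : ℝ) * ((|E| + B ^ 2) / D) ≤ α * (|E| + B ^ 2) := by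
      rw [mul_div, div_le_iff₀ hD0, mul_right_comm α]
      exact mul_le_mul_of_nonneg_right ((Nat.cast_le.2 hm).trans hMle) (by positivity)
    have hmD0 : 0 ≤ (m : ℝ) * ((|E| + B ^ 2) / D) := by positivity
    refine le_trans ?_ hbmax
    refine boxObj_max_upper (hac m) hd.le hd1 he.le hη0p (fun i => (hk01 i).2) ?_ (hcst m) hA
      (htest m) ?_ i
    · have : 0 ≤ α * (|E| + B ^ 2) := hmD0.trans hmD
      positivity
    · have hKe : Kr * (e / 2) ≤ Kr := mul_le_of_le_one_right hK.le (by linarith)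
      linarith [le_abs_self (blockEntropy n K fun l => q l + τ),
        neg_abs_le (Kr * (e * Real.log (Real.sqrt e / 2)))]
  set err := upErr B n N K d e devN with herr
  have hsucc : ∀ m, m + 1 ≤ M → boxObj d e k (a (m + 1)) (cst (m + 1)) ≤
      boxObj d e k (a m) (cst m) + (E + err) / D := by
    intro m hm
    refine le_trans ?_ (add_le_add (hmax m (cst (m + 1)) (hcst (m + 1))) le_rfl)
    have h := upper_step hφ hn hN K m hq h1 hk01 hd he hdρ (hcw (m + 1)) (hmax (m + 1))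
      (hdev m ((Nat.cast_le.2 (by omega : m ≤ M)).trans hMle) _
        (fun i => by linarith [hcw (m + 1) i, Real.sqrt_pos.2 he]) (hbound (m + 1) hm))
    change boxAvg d (a (m + 1)) _ ≤ boxAvg d (a m) _ + (E + err) / D at h
    simp only [boxObj]
    linarith
  have hall : ∀ m ≤ M, boxObj d e k (a m) (cst m) ≤
      blockEntropy n K (fun l => q l + τ) + Kr * d + Kr * (e ^ 2 / (4 * η0)) +
        (m : ℝ) * ((E + err) / D) := by
    intro m hm
    induction m with
    | zero =>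
      have h := boxObj_le (ε := e) (η := η0) (hac 0) hd.le (hcst 0)
        (upBase_bounds hφ hn hN K hq hτ.le hτ1 0).1
      have h2 := sum_le_sum fun i (_ : i ∈ (univ : Finset (Fin (K + 1)))) =>
        (barrier_le hη0p he.le hd.le (hcst 0 i)).1
      have h3 := sum_le_sum fun i (_ : i ∈ (univ : Finset (Fin (K + 1)))) =>
        show k i - 2 * η0 ≤ 1 by linarith [(hk01 i).2]
      simp only [sum_const, card_univ, Fintype.card_fin, nsmul_eq_mul, mul_one] at h2 h3
      push_cast at h2 h3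
      have h4 := mul_le_mul_of_nonneg_left h3 (sq_nonneg d)
      have h5 : d ^ 2 * ((K : ℝ) + 1) ≤ d * ((K : ℝ) + 1) :=
        mul_le_mul_of_nonneg_right (by nlinarith) hK.le
      have h6 : 0 ≤ Kr * d := by positivity
      simp only [Nat.cast_zero, zero_mul, add_zero] at h ⊢
      simp only [hKr] at h6 ⊢
      linarith
    | succ m ih =>
      have := hsucc m hm
      have := ih (by omega)
      push_cast
      rw [add_mul, one_mul]
      linarith
  have hp : priorPressure φ M (blockPrior n N) = a M 0 := by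
    simp only [ha, upBase, upFree_zero_fields hφ hn hN]
    rw [mul_div_cancel_left₀ _ hD0.ne']
  have := (htest M).trans (hall M le_rfl)
  linarith

/-- The upper bound on a grid. -/
theorem upper_grid {α : ℝ} (hα : 0 ≤ α) (K : ℕ) {q : ℕ → ℝ} (hq : IsPath q) (h1 : q K < 1) {ε : ℝ}
    (hε : 0 < ε) :
    ∀ᶠ N : ℕ in atTop, priorPressure φ ⌊α * (N * n : ℕ)⌋₊ (blockPrior n N) ≤
      blockEntropy n K q + α * energy φ K q + 10 * α * B ^ 2 * Real.sqrt (((K : ℝ) + 1)⁻¹) + ε := by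
  have hK : (0:ℝ) < (K:ℝ) + 1 := by positivity
  have hB1 : 1 ≤ B := hφ.one_le
  set Kr : ℝ := (K:ℝ) + 1 with hKr
  set E := energy φ K q with hE
  obtain ⟨τ, hτ, hτ1, hS⟩ := exists_raise hφ hn K hq h1 (show 0 < ε / 8 by linarith)
  set η0 := τ / (2 * Kr) with hη0
  have hη0p : 0 < η0 := by positivity
  obtain ⟨e, he, he1, hesmall⟩ : ∃ e : ℝ, 0 < e ∧ e ≤ 1 ∧
      Kr * (e ^ 2 / (4 * η0) + e / 2 + |e * Real.log e / 2 - e * Real.log 2|) ≤ ε / 8 := by
    set F : ℝ → ℝ := fun e =>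
      Kr * (e ^ 2 / (4 * η0) + e / 2 + |e * Real.log e / 2 - e * Real.log 2|) with hF
    have hc : Continuous F := continuous_const.mul (((continuous_id.pow 2).div_const _).add
      (continuous_id.div_const 2) |>.add ((Real.continuous_mul_log.div_const 2).sub
        (continuous_id.mul continuous_const)).abs)
    have h0 : F 0 = 0 := by simp [hF]
    obtain ⟨δ, hδ, hδ'⟩ := Metric.continuousAt_iff.1 (hc.continuousAt (x := 0)) (ε / 8)
      (by linarith)
    refine ⟨min (δ / 2) 1, by positivity, min_le_right _ _, ?_⟩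
    have h := hδ' (x := min (δ / 2) 1) (by
      rw [Real.dist_eq, sub_zero, abs_of_pos (by positivity)]
      linarith [min_le_left (δ / 2) 1])
    rw [Real.dist_eq, h0, sub_zero] at h
    exact (le_abs_self _).trans h.le
  set ρ := Real.sqrt e with hρ
  have hρ0 : 0 < ρ := Real.sqrt_pos.2 he
  have hρ1 : ρ ≤ 1 := Real.sqrt_le_one.2 he1
  set bmax := 2 + (e + (|blockEntropy n K (fun l => q l + τ)| + 2 * (α * (|E| + B ^ 2)) +
    Kr + Kr * (e ^ 2 / (4 * η0)) + |Kr * (e * Real.log (ρ / 2))| + Kr)) / η0 with hbmax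
  have hab : ρ / 4 < bmax := by
    have : 0 ≤ (e + (|blockEntropy n K (fun l => q l + τ)| + 2 * (α * (|E| + B ^ 2)) +
      Kr + Kr * (e ^ 2 / (4 * η0)) + |Kr * (e * Real.log (ρ / 2))| + Kr)) / η0 := by positivity
    simp only [hbmax]; linarith
  obtain ⟨d, hd, hdρ, hdsmall⟩ : ∃ d : ℝ, 0 < d ∧ 40 * d ≤ ρ ∧
      α * B ^ 2 * (4 * 229 * Kr * d / ρ) + Kr * d ≤ ε / 8 := by
    set c := α * B ^ 2 * (4 * 229 * Kr / ρ) + Kr with hc
    have hc0 : 0 < c := by positivity
    refine ⟨min (ρ / 40) (ε / 8 / c), by positivity,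
      by linarith [min_le_left (ρ / 40) (ε / 8 / c)], ?_⟩
    have h := mul_le_mul_of_nonneg_left (min_le_right (ρ / 40) (ε / 8 / c)) hc0.le
    rw [mul_div_cancel₀ _ hc0.ne'] at h
    refine le_trans (le_of_eq ?_) h
    simp only [hc]; ring
  obtain ⟨Cst, hdev⟩ := upDev_avg_le hφ hn K (show 0 < ρ / 4 by positivity) hab hα q
  obtain ⟨d', hd', hd'a, hd'small⟩ : ∃ d' : ℝ, 0 < d' ∧ d' ≤ ρ / 4 / 2 ∧
      α * (10 * B ^ 2) * ((K : ℝ) * (|Cst| * d') / (2 * d)) ≤ ε / 8 := by
    set c := α * (10 * B ^ 2) * ((K : ℝ) * |Cst| / (2 * d)) + 1 with hc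
    have hc0 : 0 < c := by positivity
    refine ⟨min (ρ / 4 / 2) (ε / 8 / c), by positivity, min_le_left _ _, ?_⟩
    have h := mul_le_mul_of_nonneg_left (min_le_right (ρ / 4 / 2) (ε / 8 / c)) hc0.le
    rw [mul_div_cancel₀ _ hc0.ne'] at h
    refine le_trans ?_ h
    have h0 : (0:ℝ) ≤ min (ρ / 4 / 2) (ε / 8 / c) := by positivity
    have e3 : α * (10 * B ^ 2) * ((K : ℝ) * (|Cst| * min (ρ / 4 / 2) (ε / 8 / c)) / (2 * d)) =
        c * min (ρ / 4 / 2) (ε / 8 / c) - min (ρ / 4 / 2) (ε / 8 / c) := by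
      simp only [hc]; ring
    linarith
  set C0 := Real.sqrt (4 * B ^ 2 * (α + 1) + n * (ρ / 4 + bmax) ^ 2) with hC0
  set r0 := Kr / (ρ / 4) + Kr with hr0
  set T : ℕ → ℝ := fun N =>
    |E| * (1 / ((n : ℝ) * N)) + α * B ^ 2 * (16 * B / (ρ * d)) * (1 / ((n : ℝ) * N)) +
      α * (10 * B ^ 2) * (Real.sqrt (r0 * (1 / Real.sqrt ((n : ℝ) * N))) +
        r0 * (1 / Real.sqrt ((n : ℝ) * N)) +
        (K : ℝ) * (|Cst| * ((C0 / d' + 1) * (1 / Real.sqrt ((n : ℝ) * N)))) / (2 * d)) with hT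
  have hTlim : Tendsto T atTop (𝓝 0) := by
    have hD : Tendsto (fun N : ℕ => (n : ℝ) * N) atTop atTop :=
      tendsto_natCast_atTop_atTop.const_mul_atTop (by exact_mod_cast hn)
    have h1 : Tendsto (fun N : ℕ => 1 / ((n : ℝ) * N)) atTop (𝓝 0) := tendsto_const_nhds.div_atTop hD
    have h2 : Tendsto (fun N : ℕ => 1 / Real.sqrt ((n : ℝ) * N)) atTop (𝓝 0) :=
      tendsto_const_nhds.div_atTop (Real.tendsto_sqrt_atTop.comp hD)
    have h3 := ((h1.const_mul |E|).add (h1.const_mul (α * B ^ 2 * (16 * B / (ρ * d))))).add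
      ((((Real.continuous_sqrt.tendsto _).comp (h2.const_mul r0)).add (h2.const_mul r0)).add
        ((((h2.const_mul (C0 / d' + 1)).const_mul |Cst|).const_mul (K : ℝ)).div_const (2 * d))
        |>.const_mul (α * (10 * B ^ 2)))
    simpa [hT, Function.comp_def] using h3
  filter_upwards [eventually_ge_atTop 1, hTlim.eventually_le_const (show (0:ℝ) < ε / 8 by linarith)]
    with N hN hTN
  set D : ℝ := (n : ℝ) * N with hD
  have hD0 : 0 < D := by
    have : (1:ℝ) ≤ N := by exact_mod_cast hN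
    have : (0:ℝ) < n := by exact_mod_cast hn
    positivity
  have hMD : α * ((N * n : ℕ) : ℝ) = α * D := by simp [hD, mul_comm]
  set M := ⌊α * (N * n : ℕ)⌋₊ with hM
  have hMle : (M : ℝ) ≤ α * D := hMD ▸ Nat.floor_le (by positivity)
  have hMge : α * D - 1 ≤ (M : ℝ) := by
    have := (Nat.lt_floor_add_one (α * ((N * n : ℕ) : ℝ))).le
    rw [← hM, hMD] at this
    linarith
  set devN := (K : ℝ) * (|Cst| * ((C0 / d' + 1) / Real.sqrt D + d')) / (2 * d) with hdevN
  have hfix := upper_fixed hφ hn hN K hq hτ hτ1 (bmax := bmax) (devN := devN) hd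
    (by linarith) he he1 hdρ (by positivity)
    (fun m hm c h1 h2 => hdev N m hN hm d hd c h1 h2 d' hd' hd'a) (le_of_eq hbmax.symm) hMle
  have hlog : e * Real.log (ρ / 2) = e * Real.log e / 2 - e * Real.log 2 := by
    rw [Real.log_div hρ0.ne' two_ne_zero, hρ, Real.log_sqrt he.le]; ring
  rw [hlog] at hfix
  have hlow := mul_le_mul_of_nonneg_left
    (neg_abs_le (e * Real.log e / 2 - e * Real.log 2)) hK.le
  set err := upErr B n N K d e devN with herr
  have herr0 : 0 ≤ err := by simp only [herr, upErr]; positivity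
  have hME : (M : ℝ) * ((E + err) / D) ≤ α * E + |E| / D + α * err := by
    have h1 : (M : ℝ) * (err / D) ≤ α * err := by
      rw [mul_div, div_le_iff₀ hD0, mul_right_comm α]
      exact mul_le_mul_of_nonneg_right hMle herr0
    have h2 : (M : ℝ) * E ≤ α * D * E + |E| := by
      have h3 : |(M : ℝ) - α * D| ≤ 1 := abs_le.2 ⟨by linarith, by linarith⟩
      have h4 := (le_abs_self (((M:ℝ) - α * D) * E)).trans (le_of_eq (abs_mul _ _))
      have h5 := mul_le_mul_of_nonneg_right h3 (abs_nonneg E)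
      linarith
    have h6 := div_le_div_of_nonneg_right h2 hD0.le
    rw [add_div, mul_right_comm α D E, mul_div_cancel_right₀ _ hD0.ne'] at h6
    rw [add_div, mul_add, mul_div]
    linarith
  have hTexp : |E| / D + α * err = T N + α * B ^ 2 * (4 * 229 * Kr * d / ρ) +
      α * (10 * B ^ 2) * ((K : ℝ) * (|Cst| * d') / (2 * d)) +
      10 * α * B ^ 2 * Real.sqrt (Kr⁻¹) := by
    simp only [hT, herr, upErr, hdevN, hr0, hKr, hρ, hD, mul_one_div]
    ring
  linarith

end

end Vale.Agent.P157.Parisi
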