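import Vale.Agent.P157.Parisi.UpperSys

/-!
One more pattern in the enriched system of the upper bound.
-/

namespace Vale.Agent.P157.Parisi

open MeasureTheory ProbabilityTheory Finset

/-- Pattern entries along the insertion. -/
noncomputable def upG (n N M : ℕ) (t : ℝ) : Fin (M + 1) → Fin N × Fin n → ℝ :=
  insG M (unifG n N M) t

/-- Pattern fields along the insertion. -/
noncomputable def upC (K M : ℕ) (q : ℕ → ℝ) (t : ℝ) : ℕ → Fin (M + 1) → ℝ :=
  insC K M (fun _ _ => 0) (fun _ => 0) q t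

/-- The system without pattern fields. -/
noncomputable def upBase (φ φ1 φ2 : ℝ → ℝ) (n N K M : ℕ) (v : Fin (K + 1) → ℝ) : ℝ :=
  upFree φ φ1 φ2 n N K (unifG n N M) (fun _ _ => 0) v

/-- The deviations entering the pinning of the configurations. -/
noncomputable def upDev (φ φ1 φ2 : ℝ → ℝ) (n N K M : ℕ) (q : ℕ → ℝ) (v : Fin (K + 1) → ℝ)
    (t : ℝ) : ℝ :=
  ∑ l ∈ range K, (upNest n N K (upG n N M t) (upC K M q t) v).heatDev
    (percLeaf φ φ1 φ2 (blockSpin n N) (M + 1)) (blockLaw n N)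
    (ySet (M + 1) (univ : Finset (Fin N × Fin n))) ((n : ℝ) * N) l

section

variable {φ φ1 φ2 : ℝ → ℝ} {B : ℝ} (hφ : PhiGood φ φ1 φ2 B) {n N : ℕ} (hn : 0 < n) (hN : 0 < N)

include hφ hn hN

lemma upG_one (M : ℕ) : upG n N M 1 = unifG n N (M + 1) := by
  funext a p
  refine Fin.lastCases ?_ (fun j => ?_) a
  · simp [upG, insG, unifG, mul_comm]
  · simp [upG, insG, unifG]

lemma upC_one (K M : ℕ) (q : ℕ → ℝ) : upC K M q 1 = fun _ _ => 0 := by
  funext l a
  refine Fin.lastCases ?_ (fun j => ?_) a <;> simp [upC, insC]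

lemma upFree_ins_one (K M : ℕ) (q : ℕ → ℝ) (v : Fin (K + 1) → ℝ) :
    upFree φ φ1 φ2 n N K (upG n N M 1) (upC K M q 1) v = upBase φ φ1 φ2 n N K (M + 1) v := by
  rw [upG_one hφ hn hN, upC_one hφ hn hN, upBase]

lemma upFree_ins_zero (K M : ℕ) {q : ℕ → ℝ} (hq : IsPath q) (hq1 : q K ≤ 1)
    (v : Fin (K + 1) → ℝ) :
    upFree φ φ1 φ2 n N K (upG n N M 0) (upC K M q 0) v =
      upBase φ φ1 φ2 n N K M v + energy φ K q := by
  obtain ⟨hsys, hprob, -⟩ := blockSpin_sys (n := n) (N := N) hn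
  have : Nonempty (Fin N × Fin n) := ⟨⟨⟨0, hN⟩, ⟨0, hn⟩⟩⟩
  have h := insert_zero hφ hsys (μ := blockLaw n N) K M (unifG n N M)
    (fun l _ => sAmp v l) (fun _ _ => 0) (fun _ => 0) q
  have hpa : (fun l => Real.sqrt ((0:ℝ) ^ 2 + pathAmp K q l ^ 2)) = pathAmp K q := by
    funext l
    rw [zero_pow two_ne_zero, zero_add, Real.sqrt_sq]
    unfold pathAmp
    split_ifs <;> exact Real.sqrt_nonneg _
  rw [hpa, oneFree_path hφ K hq hq1] at h
  exact h

lemma upFree_ins_close (K M : ℕ) (q : ℕ → ℝ) (t : ℝ) (v : Fin (K + 1) → ℝ) :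
    |upFree φ φ1 φ2 n N K (upG n N M t) (upC K M q t) v - upBase φ φ1 φ2 n N K (M + 1) v| ≤
      2 * B := by
  obtain ⟨hsys, hprob, -⟩ := blockSpin_sys (n := n) (N := N) hn
  refine free_one_pattern hφ hsys K (M + 1) (Fin.last M) (unifG n N (M + 1)) (upG n N M t)
    (fun l _ => sAmp v l) (fun _ _ => 0) (upC K M q t) ?_ ?_
  · intro b hb
    obtain ⟨b', rfl⟩ := Fin.exists_castSucc_eq.2 hb
    funext p
    simp [upG, insG, unifG]
  · intro l b hb
    obtain ⟨b', rfl⟩ := Fin.exists_castSucc_eq.2 hb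
    simp [upC, insC]

/-- The derivative of the insertion: an exact form, a crude bound, and the pinned bound. -/
lemma upIns_deriv (K M : ℕ) {q : ℕ → ℝ} (hq : IsPath q) (hq1 : q K ≤ 1) (v : Fin (K + 1) → ℝ)
    {t : ℝ} (ht : t ∈ Set.Ioo (0 : ℝ) 1) :
    ∃ d, HasDerivAt (fun t => upFree φ φ1 φ2 n N K (upG n N M t) (upC K M q t) v) d t ∧
      |d| ≤ B ^ 2 ∧
      ∀ σ₀ η : ℝ, 0 < σ₀ → 0 ≤ η → (∀ l : Fin (K + 1), 1 ≤ (l : ℕ) → σ₀ ≤ v l) →
        (∀ l ≤ K, pTail K q l - η ≤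
          pTail K (upOvl φ φ1 φ2 n N K (upG n N M t) (upC K M q t) v) l) →
        d ≤ B ^ 2 * η + 10 * B ^ 2 * (Real.sqrt (((K : ℝ) + 1)⁻¹) +
          Real.sqrt ((((K : ℝ) + 1) / σ₀ + ((K : ℝ) + 1)) / Real.sqrt ((n : ℝ) * N)) +
          (((K : ℝ) + 1) / σ₀ + ((K : ℝ) + 1)) / Real.sqrt ((n : ℝ) * N) +
          upDev φ φ1 φ2 n N K M q v t) := by
  obtain ⟨hsys, hprob, -⟩ := blockSpin_sys (n := n) (N := N) hn
  have : Nonempty (Fin N × Fin n) := ⟨⟨⟨0, hN⟩, ⟨0, hn⟩⟩⟩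
  have hnR : (1:ℝ) ≤ n := by exact_mod_cast hn
  have hNR : (1:ℝ) ≤ N := by exact_mod_cast hN
  set D : ℝ := (n : ℝ) * N with hD
  have hD1 : 1 ≤ D := one_le_mul_of_one_le_of_one_le hnR hNR
  have hcard : (Fintype.card (Fin N × Fin n) : ℝ) = D := by simp [hD, mul_comm]
  set Nt := upNest n N K (upG n N M t) (upC K M q t) v with hNt
  set L := percLeaf φ φ1 φ2 (blockSpin n N) (M + 1) with hLdef
  set μ := blockLaw n N with hμ
  set S := ySet (M + 1) (univ : Finset (Fin N × Fin n)) with hS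
  have hG : Nt.Good := upNest_good hφ hn K _ _ v
  have hL : L.Good (max (Real.sqrt n) B) := upLeaf_good hφ hn (M + 1)
  have hw : ∀ m ≤ K, Nt.w m = 1 / ((K : ℝ) + 1) := fun m hm => upNest_w hφ hn K _ _ v hm
  set PG : ℕ → ℝ := fun m => (∑ i, Nt.sqGrad L μ m (Sum.inl (Fin.last M, i))) / D with hPG
  set PC : ℕ → ℝ := fun m => Nt.sqGrad L μ m (Sum.inr (Sum.inr (Fin.last M))) with hPC
  have hd : HasDerivAt (fun t => upFree φ φ1 φ2 n N K (upG n N M t) (upC K M q t) v)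
      (-(1 / 2) * ∑ m ∈ range (K + 1), Nt.w m * (PG m - q m * PC m)) t := by
    have h := insert_deriv hφ hsys (μ := μ) K M (unifG n N M) (fun l _ => sAmp v l) (fun _ _ => 0)
      (fun _ => 0) hq hq1 ht
    refine h.congr_deriv ?_
    simp only [hPG, hPC, hcard]
    rfl
  have hb : ∀ ω y, ∑ _x : Unit, L.vec (Sum.inr (Sum.inr (Fin.last M))) ω y ^ 2 ≤ B ^ 2 := by
    intro ω y
    simp only [hLdef, Fintype.sum_unique, perc_vec_c, ← sq_abs (φ1 _)]
    exact pow_le_pow_left₀ (abs_nonneg _) (hφ.bound1 _) 2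
  have hPCb : ∀ m ≤ K, 0 ≤ PC m ∧ PC m ≤ B ^ 2 := by
    intro m hm
    have h := inc_sqGrad_sum_le (μ := μ) hG hL (show m ≤ Nt.K from Nat.le_succ_of_le hm)
      (univ : Finset Unit) (fun _ => Sum.inr (Sum.inr (Fin.last M))) hb
    simpa [hPC] using h
  have hPGb : ∀ m ≤ K, 0 ≤ PG m ∧ PG m ≤ B ^ 2 := by
    intro m hm
    have hβ : ∀ ω y, ∑ i ∈ (univ : Finset (Fin N × Fin n)),
        L.vec (Sum.inl (Fin.last M, i)) ω y ^ 2 ≤ B ^ 2 * D := by
      intro ω y
      simp only [hLdef, perc_vec_g, mul_pow, ← mul_sum, hsys.norm_sq ω, hcard]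
      refine mul_le_mul_of_nonneg_right ?_ (by linarith)
      rw [← sq_abs]
      exact pow_le_pow_left₀ (abs_nonneg _) (hφ.bound1 _) 2
    have h := inc_sqGrad_sum_le (μ := μ) hG hL (show m ≤ Nt.K from Nat.le_succ_of_le hm)
      (univ : Finset (Fin N × Fin n)) (fun i => Sum.inl (Fin.last M, i)) hβ
    exact ⟨div_nonneg h.1 (by linarith), (div_le_iff₀ (by linarith)).2 h.2⟩
  have hq01 : ∀ m ≤ K, 0 ≤ q m ∧ q m ≤ 1 := fun m hm =>
    ⟨hq.2.trans (hq.1 (Nat.zero_le m)), (hq.1 hm).trans hq1⟩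
  refine ⟨_, hd, ?_, ?_⟩
  · have h1 : |∑ m ∈ range (K + 1), Nt.w m * (PG m - q m * PC m)| ≤ 2 * B ^ 2 := by
      refine (abs_sum_le_sum_abs _ _).trans ?_
      calc _ ≤ ∑ _m ∈ range (K + 1), 1 / ((K : ℝ) + 1) * (2 * B ^ 2) := by
            refine sum_le_sum fun m hm => ?_
            have hm' := Nat.lt_succ_iff.1 (mem_range.1 hm)
            rw [abs_mul, hw m hm', abs_of_nonneg (by positivity : (0:ℝ) ≤ 1 / ((K : ℝ) + 1))]
            refine mul_le_mul_of_nonneg_left ((abs_sub _ _).trans ?_) (by positivity)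
            obtain ⟨a1, a2⟩ := hPGb m hm'
            obtain ⟨b1, b2⟩ := hPCb m hm'
            obtain ⟨c1, c2⟩ := hq01 m hm'
            rw [abs_of_nonneg a1, abs_of_nonneg (mul_nonneg c1 b1)]
            linarith [mul_le_mul c2 b2 b1 zero_le_one]
        _ = 2 * B ^ 2 := by rw [sum_const, card_range, nsmul_eq_mul]; push_cast; field_simp
    rw [abs_mul, abs_neg, abs_of_pos (by norm_num : (0:ℝ) < 1 / 2)]
    linarith
  intro σ₀ η hσ hη hv htail
  set R : ℕ → ℝ := upOvl φ φ1 φ2 n N K (upG n N M t) (upC K M q t) v with hR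
  have hsum := prodErr_sum (μ := μ) hG hL (K := K) rfl (fun l hl => inc_gridX hl) S hD1 le_rfl
    (inc_curv_mono (curvLower_y hφ hsys (M + 1) univ) zero_le_one) hσ
    (fun l h1 h2 => ⟨sAmp v l, (sAmp_of_le v h2).ge.trans' (hv _ h1), fun i hi => by
      obtain ⟨p, -, rfl⟩ := Finset.mem_image.1 hi
      rfl⟩)
    (fun ω y => by
      rw [hS, sum_ySet]
      simp only [hLdef, perc_vec_y, one_mul]
      rw [hsys.norm_sq ω, hcard])
    (b := fun _ : Unit => L.vec (Sum.inr (Sum.inr (Fin.last M)))) (fun _ => vec_obs hG hL _) hb rfl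
  have hterm : ∀ l ≤ K, |PG l - R l * PC l| ≤
      Nt.prodErr L μ S D (fun _ : Unit => L.vec (Sum.inr (Sum.inr (Fin.last M)))) l := by
    intro l hl
    have h := inc_pin_product (μ := μ) hG hL (show l ≤ Nt.K from Nat.le_succ_of_le hl) S D
      (fun _ : Unit => Sum.inr (Sum.inr (Fin.last M)))
      (fun _ i => match i with
        | Sum.inr (Sum.inl p) => Sum.inl (Fin.last M, p)
        | i => i)
      (fun _ i hi ω y => by
        obtain ⟨p, -, rfl⟩ := Finset.mem_image.1 hi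
        simp [hLdef, perc_vec_y, perc_vec_c, perc_vec_g, mul_comm])
    simp only [Fintype.sum_unique] at h
    rw [hS, sum_ySet, ← hS] at h
    exact h
  -- the path of the squared gradients of the pattern field
  set P : ℕ → ℝ := fun m => PC (min m K) with hP
  have hPpath : IsPath P := by
    refine ⟨fun a b hab => ?_, (hPCb _ (min_le_right _ _)).1⟩
    exact sqGrad_mono hG hL (min_le_min_right K hab)
      (show min b K ≤ Nt.K from (min_le_right b K).trans (Nat.le_succ K)) _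
  have habel : -(B ^ 2 * η) ≤ (∑ m ∈ range (K + 1), P m * (R m - q m)) / ((K : ℝ) + 1) := by
    rw [pairing_eq_tail]
    have htl : ∀ l ∈ range (K + 1), -(pInc P l * η) ≤
        pInc P l * pTail K (fun m => R m - q m) l := by
      intro l hl
      rw [← mul_neg]
      refine mul_le_mul_of_nonneg_left ?_ (pInc_nonneg hPpath l)
      have := htail l (Nat.lt_succ_iff.1 (mem_range.1 hl))
      simp only [pTail] at this ⊢
      simp only [sub_div, sum_sub_distrib]
      linarith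
    refine le_trans ?_ (sum_le_sum htl)
    rw [sum_neg_distrib, ← sum_mul, sum_pInc, neg_le_neg_iff]
    refine mul_le_mul_of_nonneg_right ?_ hη
    simpa [hP] using (hPCb K le_rfl).2
  have hmain : -∑ m ∈ range (K + 1), Nt.w m * (PG m - q m * PC m) ≤
      ∑ m ∈ range (K + 1), Nt.w m *
        Nt.prodErr L μ S D (fun _ : Unit => L.vec (Sum.inr (Sum.inr (Fin.last M)))) m +
      B ^ 2 * η := by
    have e : ∀ m ∈ range (K + 1), -(Nt.w m * (PG m - q m * PC m)) ≤ Nt.w m *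
        Nt.prodErr L μ S D (fun _ : Unit => L.vec (Sum.inr (Sum.inr (Fin.last M)))) m -
        P m * (R m - q m) / ((K : ℝ) + 1) := by
      intro m hm
      have hm' := Nat.lt_succ_iff.1 (mem_range.1 hm)
      have h1 := (abs_le.1 (hterm m hm')).1
      have h2 : P m = PC m := by simp [hP, min_eq_left hm']
      rw [hw m hm', h2]
      have h3 := mul_le_mul_of_nonneg_left h1 (by positivity : (0:ℝ) ≤ 1 / ((K : ℝ) + 1))
      have e4 : PC m * (R m - q m) / ((K : ℝ) + 1) = 1 / ((K : ℝ) + 1) * (PC m * (R m - q m)) := by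
        ring
      rw [e4]
      linarith
    have h := sum_le_sum e
    rw [sum_neg_distrib, sum_sub_distrib, ← sum_div] at h
    linarith
  have hdev : upDev φ φ1 φ2 n N K M q v t = ∑ l ∈ range K, Nt.heatDev L μ S D l := rfl
  simp only [one_mul, mul_one] at hsum
  rw [hdev]
  nlinarith [hmain, hsum, mul_nonneg (sq_nonneg B) hη]

lemma upIns_continuous (K M : ℕ) {q : ℕ → ℝ} (hq : IsPath q) (hq1 : q K ≤ 1)
    (v : Fin (K + 1) → ℝ) :
    ContinuousOn (fun t => upFree φ φ1 φ2 n N K (upG n N M t) (upC K M q t) v) (Set.Icc 0 1) := by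
  obtain ⟨hsys, hprob, -⟩ := blockSpin_sys (n := n) (N := N) hn
  have : Nonempty (Fin N × Fin n) := ⟨⟨⟨0, hN⟩, ⟨0, hn⟩⟩⟩
  exact insert_continuous hφ hsys K M (unifG n N M) (fun l _ => sAmp v l) (fun _ _ => 0)
    (fun _ => 0) hq hq1

lemma continuous_upDev (K M : ℕ) (q : ℕ → ℝ) :
    Continuous fun p : (Fin (K + 1) → ℝ) × ℝ => upDev φ φ1 φ2 n N K M q p.1 p.2 := by
  obtain ⟨hsys, hprob, -⟩ := blockSpin_sys (n := n) (N := N) hn
  refine continuous_finsetSum _ fun l hl => ?_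
  refine continuous_heatDev (upNest_good hφ hn K (upG n N M 0) (upC K M q 0) 0)
    (upLeaf_good hφ hn (M + 1)) (μ := blockLaw n N)
    (A := fun p : (Fin (K + 1) → ℝ) × ℝ =>
      percAmp (upG n N M p.2) (fun l _ => sAmp p.1 l) (upC K M q p.2)) (fun m _ i => ?_)
    (show l ≤ K + 1 from (mem_range.1 hl).le.trans (Nat.le_succ K)) _ _
  rcases i with ⟨a, x⟩ | x | a <;> simp only [percAmp]
  · split_ifs
    · refine Fin.lastCases ?_ (fun j => ?_) a
      · simp only [upG, insG, Fin.snoc_last]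
        fun_prop
      · simp only [upG, insG, Fin.snoc_castSucc]
        exact continuous_const
    · exact continuous_const
  · exact (continuous_sAmp m).comp continuous_fst
  · refine Fin.lastCases ?_ (fun j => ?_) a
    · simp only [upC, insC, Fin.snoc_last]
      fun_prop
    · simp only [upC, insC, Fin.snoc_castSucc]
      exact continuous_const

lemma upDev_nonneg (K M : ℕ) (q : ℕ → ℝ) (v : Fin (K + 1) → ℝ) (t : ℝ) :
    0 ≤ upDev φ φ1 φ2 n N K M q v t := by
  obtain ⟨hsys, hprob, -⟩ := blockSpin_sys (n := n) (N := N) hn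
  exact sum_nonneg fun l hl => inc_heatDev_nonneg (upNest_good hφ hn K _ _ v)
    (upLeaf_good hφ hn (M + 1)) (show l ≤ K + 1 from (mem_range.1 hl).le.trans (Nat.le_succ K)) _ _

/-- The crude bound of one insertion. -/
theorem upBase_step_abs (K M : ℕ) {q : ℕ → ℝ} (hq : IsPath q) (hq1 : q K ≤ 1)
    (v : Fin (K + 1) → ℝ) :
    |upBase φ φ1 φ2 n N K (M + 1) v - upBase φ φ1 φ2 n N K M v - energy φ K q| ≤ B ^ 2 := by
  choose! F' hF' hb _ using fun t (ht : t ∈ Set.Ioo (0:ℝ) 1) =>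
    upIns_deriv hφ hn hN K M hq hq1 v ht
  have h := inc_abs_le_integral (upIns_continuous hφ hn hN K M hq hq1 v) hF'
    (g := fun _ => B ^ 2) continuous_const hb
  rw [upFree_ins_one hφ hn hN, upFree_ins_zero hφ hn hN K M hq hq1] at h
  simp only [intervalIntegral.integral_const, sub_zero, one_smul] at h
  rw [← sub_sub] at h
  exact h

/-- One more pattern adds at most the energy, up to pinning and the defect of the tails. -/
theorem upBase_step_le (K M : ℕ) {q : ℕ → ℝ} (hq : IsPath q) (hq1 : q K ≤ 1)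
    (v : Fin (K + 1) → ℝ) {σ₀ η : ℝ} (hσ : 0 < σ₀) (hη : 0 ≤ η)
    (hv : ∀ l : Fin (K + 1), 1 ≤ (l : ℕ) → σ₀ ≤ v l)
    (htail : ∀ t ∈ Set.Ioo (0:ℝ) 1, ∀ l ≤ K, pTail K q l - η ≤
      pTail K (upOvl φ φ1 φ2 n N K (upG n N M t) (upC K M q t) v) l) :
    upBase φ φ1 φ2 n N K (M + 1) v - upBase φ φ1 φ2 n N K M v ≤ energy φ K q + (B ^ 2 * η +
      10 * B ^ 2 * (Real.sqrt (((K : ℝ) + 1)⁻¹) +
        Real.sqrt ((((K : ℝ) + 1) / σ₀ + ((K : ℝ) + 1)) / Real.sqrt ((n : ℝ) * N)) +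
        (((K : ℝ) + 1) / σ₀ + ((K : ℝ) + 1)) / Real.sqrt ((n : ℝ) * N) +
        ∫ t in (0:ℝ)..1, upDev φ φ1 φ2 n N K M q v t)) := by
  choose! F' hF' _ hb using fun t (ht : t ∈ Set.Ioo (0:ℝ) 1) =>
    upIns_deriv hφ hn hN K M hq hq1 v ht
  set c0 : ℝ := Real.sqrt (((K : ℝ) + 1)⁻¹) +
    Real.sqrt ((((K : ℝ) + 1) / σ₀ + ((K : ℝ) + 1)) / Real.sqrt ((n : ℝ) * N)) +
    (((K : ℝ) + 1) / σ₀ + ((K : ℝ) + 1)) / Real.sqrt ((n : ℝ) * N) with hc0
  have hE : Continuous fun t => upDev φ φ1 φ2 n N K M q v t :=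
    (continuous_upDev hφ hn hN K M q).comp (continuous_const.prodMk continuous_id)
  set g : ℝ → ℝ := fun t => B ^ 2 * η + 10 * B ^ 2 * (c0 + upDev φ φ1 φ2 n N K M q v t) with hg
  have hgc : Continuous g := continuous_const.add (continuous_const.mul (continuous_const.add hE))
  have h := intervalIntegral.sub_le_integral_of_hasDeriv_right_of_le zero_le_one
    (upIns_continuous hφ hn hN K M hq hq1 v) (fun t ht => (hF' t ht).hasDerivWithinAt)
    hgc.continuousOn.integrableOn_Icc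
    (fun t ht => hb t ht σ₀ η hσ hη hv (htail t ht))
  rw [upFree_ins_one hφ hn hN, upFree_ins_zero hφ hn hN K M hq hq1] at h
  have e : ∫ t in (0:ℝ)..1, g t = B ^ 2 * η + 10 * B ^ 2 *
      (c0 + ∫ t in (0:ℝ)..1, upDev φ φ1 φ2 n N K M q v t) := by
    have hi := hE.intervalIntegrable (μ := volume) 0 1
    simp only [hg]
    rw [intervalIntegral.integral_add intervalIntegrable_const
      ((intervalIntegrable_const.add hi).const_mul _),
      intervalIntegral.integral_const_mul (10 * B ^ 2),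
      intervalIntegral.integral_add intervalIntegrable_const hi]
    simp
  rw [e] at h
  linarith

end

end Vale.Agent.P157.Parisi
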