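import Vale.Agent.P157.Parisi.Increments
import Vale.Agent.P157.Parisi.AmpConvex
import Vale.Agent.P157.Parisi.LowerBasics

/-!
The enriched system of the upper bound: constant field amplitudes on the configurations at the levels
`0..K`, as a vector parameter.
-/

namespace Vale.Agent.P157.Parisi

open MeasureTheory ProbabilityTheory Finset

/-- Amplitudes `v` on the levels `0..K`, zero above. -/
noncomputable def sAmp {K : ℕ} (v : Fin (K + 1) → ℝ) (l : ℕ) : ℝ :=
  if h : l < K + 1 then v ⟨l, h⟩ else 0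

lemma sAmp_of_le {K l : ℕ} (v : Fin (K + 1) → ℝ) (hl : l ≤ K) :
    sAmp v l = v ⟨l, Nat.lt_succ_of_le hl⟩ := dif_pos _

lemma sAmp_top {K : ℕ} (v : Fin (K + 1) → ℝ) : sAmp v (K + 1) = 0 := dif_neg (lt_irrefl _)

lemma sum_sAmp {K : ℕ} (v : Fin (K + 1) → ℝ) (F : ℕ → ℝ → ℝ) :
    ∑ l ∈ range (K + 1), F l (sAmp v l) = ∑ i : Fin (K + 1), F i (v i) := by
  rw [← Fin.sum_univ_eq_sum_range fun l => F l (sAmp v l)]
  exact sum_congr rfl fun i _ => by rw [sAmp_of_le v (Nat.lt_succ_iff.1 i.2)]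

lemma continuous_sAmp {K : ℕ} (l : ℕ) : Continuous fun v : Fin (K + 1) → ℝ => sAmp v l := by
  unfold sAmp
  by_cases h : l < K + 1
  · simp only [h, dite_true]; fun_prop
  · simp only [h, dite_false]; fun_prop

lemma sAmp_affine {K : ℕ} (p q : ℝ) (v w : Fin (K + 1) → ℝ) (l : ℕ) :
    sAmp (p • v + q • w) l = p * sAmp v l + q * sAmp w l := by
  unfold sAmp
  split_ifs <;> simp

/-- The hierarchy with configuration amplitudes `v`. -/
noncomputable def upNest (n N K : ℕ) {M : ℕ} (g : Fin M → Fin N × Fin n → ℝ)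
    (c : ℕ → Fin M → ℝ) (v : Fin (K + 1) → ℝ) : Nest (PIdx M (Fin N × Fin n)) :=
  percNest K g (fun l _ => sAmp v l) c

/-- Its free energy. -/
noncomputable def upFree (φ φ1 φ2 : ℝ → ℝ) (n N K : ℕ) {M : ℕ} (g : Fin M → Fin N × Fin n → ℝ)
    (c : ℕ → Fin M → ℝ) (v : Fin (K + 1) → ℝ) : ℝ :=
  (upNest n N K g c v).free (percLeaf φ φ1 φ2 (blockSpin n N) M) (blockLaw n N)

/-- Its configuration overlaps. -/
noncomputable def upOvl (φ φ1 φ2 : ℝ → ℝ) (n N K : ℕ) {M : ℕ} (g : Fin M → Fin N × Fin n → ℝ)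
    (c : ℕ → Fin M → ℝ) (v : Fin (K + 1) → ℝ) (m : ℕ) : ℝ :=
  (upNest n N K g c v).ovl (percLeaf φ φ1 φ2 (blockSpin n N) M) (blockLaw n N)
    (ySet M (univ : Finset (Fin N × Fin n))) ((n : ℝ) * N) m

section

variable {φ φ1 φ2 : ℝ → ℝ} {B : ℝ} (hφ : PhiGood φ φ1 φ2 B) {n N : ℕ} (hn : 0 < n)

include hφ hn

lemma upNest_good (K : ℕ) {M : ℕ} (g : Fin M → Fin N × Fin n → ℝ) (c : ℕ → Fin M → ℝ)
    (v : Fin (K + 1) → ℝ) : (upNest n N K g c v).Good :=
  percNest_good hφ (blockSpin_sys (N := N) hn).1 K M _ _ _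

lemma upLeaf_good (M : ℕ) :
    (percLeaf φ φ1 φ2 (blockSpin n N) M).Good (max (Real.sqrt n) B) :=
  perc_good hφ (blockSpin_sys (N := N) hn).1 M

lemma upNest_w (K : ℕ) {M : ℕ} (g : Fin M → Fin N × Fin n → ℝ) (c : ℕ → Fin M → ℝ)
    (v : Fin (K + 1) → ℝ) {m : ℕ} (hm : m ≤ K) :
    (upNest n N K g c v).w m = 1 / ((K : ℝ) + 1) := by
  simp only [Nest.w, upNest, percNest]
  rw [inc_gridX (show m + 1 ≤ K + 1 by omega), inc_gridX (show m ≤ K + 1 by omega)]
  push_cast
  ring

lemma upFree_convex (K : ℕ) {M : ℕ} (g : Fin M → Fin N × Fin n → ℝ) (c : ℕ → Fin M → ℝ) :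
    ConvexOn ℝ Set.univ (upFree φ φ1 φ2 n N K g c) := by
  obtain ⟨hsys, hprob, -⟩ := blockSpin_sys (n := n) (N := N) hn
  refine free_convexOn (N := upNest n N K g c 0) (μ := blockLaw n N)
    (A := fun v => percAmp g (fun l _ => sAmp v l) c) (upNest_good hφ hn K g c 0) (upLeaf_good hφ hn M)
    (S := ySet M (univ : Finset (Fin N × Fin n))) (curvLower_y hφ hsys M univ) ?_ ?_
  · intro p q hpq v w l i
    rcases i with ⟨a, x⟩ | x | a <;> simp only [percAmp]
    · linear_combination (-(if l = 0 then g a x else 0)) * hpq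
    · exact sAmp_affine p q v w l
    · linear_combination (-(c l a)) * hpq
  · intro v w l i hi
    rcases i with ⟨a, x⟩ | x | a <;> simp only [percAmp]
    exact absurd (mem_image.2 ⟨x, mem_univ _, rfl⟩) hi

lemma continuous_upFree (K : ℕ) {M : ℕ} (g : Fin M → Fin N × Fin n → ℝ) (c : ℕ → Fin M → ℝ) :
    Continuous (upFree φ φ1 φ2 n N K g c) := by
  obtain ⟨hsys, hprob, -⟩ := blockSpin_sys (n := n) (N := N) hn
  refine continuous_free (upNest_good hφ hn K g c 0) (upLeaf_good hφ hn M) (μ := blockLaw n N)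
    (A := fun v => percAmp g (fun l _ => sAmp v l) c) fun l _ i => ?_
  rcases i with ⟨a, x⟩ | x | a <;> simp only [percAmp]
  · exact continuous_const
  · exact continuous_sAmp l
  · exact continuous_const

lemma upOvl_mem (hN : 0 < N) (K : ℕ) {M : ℕ} (g : Fin M → Fin N × Fin n → ℝ) (c : ℕ → Fin M → ℝ)
    (v : Fin (K + 1) → ℝ) {m : ℕ} (hm : m ≤ K) :
    0 ≤ upOvl φ φ1 φ2 n N K g c v m ∧ upOvl φ φ1 φ2 n N K g c v m ≤ 1 := by
  obtain ⟨hsys, hprob, -⟩ := blockSpin_sys (n := n) (N := N) hn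
  have hD : (0:ℝ) < (n : ℝ) * N := by positivity
  have hβ : ∀ ω y, ∑ p ∈ (univ : Finset (Fin N × Fin n)),
      (percLeaf φ φ1 φ2 (blockSpin n N) M).vec (Sum.inr (Sum.inl p)) ω y ^ 2 ≤ (n : ℝ) * N := by
    intro ω y
    simp only [perc_vec_y]
    rw [hsys.norm_sq ω]
    simp [mul_comm]
  have h := inc_sqGrad_sum_le (μ := blockLaw n N) (upNest_good hφ hn K g c v) (upLeaf_good hφ hn M)
    (show m ≤ (upNest n N K g c v).K from Nat.le_succ_of_le hm) (univ : Finset (Fin N × Fin n))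
    (fun p => Sum.inr (Sum.inl p)) hβ
  simp only [upOvl, Nest.ovl, sum_ySet]
  exact ⟨div_nonneg h.1 hD.le, (div_le_one hD).2 h.2⟩

lemma upFree_hasDeriv (hN : 0 < N) (K : ℕ) {M : ℕ} (g : Fin M → Fin N × Fin n → ℝ)
    (c : ℕ → Fin M → ℝ) (v : Fin (K + 1) → ℝ) (j : Fin (K + 1)) :
    HasDerivAt (fun t => upFree φ φ1 φ2 n N K g c (Function.update v j t))
      (v j * ((n : ℝ) * N) * (1 - pTail K (upOvl φ φ1 φ2 n N K g c v) j)) (v j) := by
  obtain ⟨hsys, hprob, -⟩ := blockSpin_sys (n := n) (N := N) hn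
  have hL := upLeaf_good (N := N) hφ hn M
  have hG := upNest_good hφ hn K g c v
  set L := percLeaf φ φ1 φ2 (blockSpin n N) M with hLdef
  set Nv := upNest n N K g c v with hNv
  let A : ℝ → ℕ → PIdx M (Fin N × Fin n) → ℝ := fun t l i =>
    percAmp g (fun l _ => sAmp (Function.update v j t) l) c l i
  let A' : ℝ → ℕ → PIdx M (Fin N × Fin n) → ℝ := fun _ l i => match i with
    | Sum.inr (Sum.inl _) => if l = (j : ℕ) then 1 else 0
    | _ => 0
  have hs : ∀ l, ∀ t : ℝ, HasDerivAt (fun t => sAmp (Function.update v j t) l)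
      (if l = (j : ℕ) then (1:ℝ) else 0) t := by
    intro l t
    by_cases hlj : l = (j : ℕ)
    · subst hlj
      simp only [sAmp_of_le _ (Nat.lt_succ_iff.1 j.2), if_true, Fin.eta, Function.update_self]
      exact hasDerivAt_id t
    · simp only [hlj, if_false]
      have : (fun t => sAmp (Function.update v j t) l) = fun _ => sAmp v l := by
        funext t
        unfold sAmp
        split_ifs with h
        · rw [Function.update_of_ne]
          exact fun e => hlj (congrArg Fin.val e)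
        · rfl
      rw [this]
      exact hasDerivAt_const t _
  have hd := free_deriv hG hL (μ := blockLaw n N) (A := A) (A' := A') (t₀ := v j) one_pos
    (fun l _ i t _ => by
      rcases i with ⟨a, x⟩ | x | a <;> simp only [A, A', percAmp]
      · exact hasDerivAt_const t _
      · exact hs l t
      · exact hasDerivAt_const t _)
    (fun l _ i => by
      rcases i with ⟨a, x⟩ | x | a <;> exact continuousAt_const)
  have hA0 : A (v j) = Nv.amp := by
    simp only [A, Function.update_eq_self]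
    rfl
  rw [hA0, show Nv.setAmp Nv.amp = Nv from rfl] at hd
  refine HasDerivAt.congr_deriv (f' := ∑ l ∈ range (Nv.K + 1), ∑ i, A' (v j) l i * Nv.amp l i *
    (Nv.heatTop L (blockLaw n N) i - ∑ m ∈ Icc l Nv.K, Nv.w m *
      Nv.sqGrad L (blockLaw n N) m i)) hd ?_
  have hjK : (j : ℕ) ≤ K := Nat.lt_succ_iff.1 j.2
  have hrow : ∀ l ∈ range (Nv.K + 1), ∑ i, A' (v j) l i * Nv.amp l i *
      (Nv.heatTop L (blockLaw n N) i - ∑ m ∈ Icc l Nv.K, Nv.w m *
        Nv.sqGrad L (blockLaw n N) m i) =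
      if l = (j : ℕ) then v j * ∑ p : Fin N × Fin n, (Nv.heatTop L (blockLaw n N) (Sum.inr (Sum.inl p)) -
        ∑ m ∈ Icc (j : ℕ) Nv.K, Nv.w m * Nv.sqGrad L (blockLaw n N) m (Sum.inr (Sum.inl p)))
      else 0 := by
    intro l _
    rw [Fintype.sum_sum_type, Fintype.sum_sum_type]
    simp only [A', zero_mul, sum_const_zero, zero_add, add_zero]
    by_cases hlj : l = (j : ℕ)
    · subst hlj
      simp only [if_true, one_mul, mul_sum]
      refine sum_congr rfl fun p _ => ?_
      rw [show Nv.amp (j : ℕ) (Sum.inr (Sum.inl p)) = v j from by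
        simp [hNv, upNest, percNest, percAmp, sAmp_of_le _ hjK]]
    · simp [hlj]
  rw [sum_congr rfl hrow, sum_ite_eq' (range (Nv.K + 1)) (j : ℕ),
    if_pos (mem_range.2 (by show (j:ℕ) < K + 1 + 1; omega))]
  have hht := (sum_heatTop (μ := blockLaw n N) hG hL (univ : Finset (Fin N × Fin n))
    (fun p => Sum.inr (Sum.inl p)) (fun _ => (1:ℝ)) (fun p ω _ => blockSpin n N ω p ^ 2)
    (fun p => ⟨fun _ => (hsys.meas p).pow_const 2, fun _ => continuous_const, Real.sqrt n ^ 2,
      fun ω _ => by rw [abs_pow]; exact pow_le_pow_left₀ (abs_nonneg _) (hsys.bound ω p) 2⟩)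
    (fun p ω y => perc_heat_y ω y p)).2.2
  have hcard : (Fintype.card (Fin N × Fin n) : ℝ) = (n : ℝ) * N := by simp [mul_comm]
  have e1 : (fun (ω : Fin N → Fin n → ℝ) (_ : PIdx M (Fin N × Fin n) → ℝ) =>
      ∑ p, blockSpin n N ω p ^ 2) = fun _ _ => (n : ℝ) * N := by
    funext ω y; rw [hsys.norm_sq ω, hcard]
  simp only [one_mul] at hht
  rw [e1, show Nv.node L (blockLaw n N) Nv.K (fun _ _ => (n:ℝ) * N) = fun _ => (n:ℝ) * N from
    funext (node_const hG hL le_rfl _), mean_const hG hL le_rfl] at hht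
  rw [sum_sub_distrib, hht, sum_comm,
    show Icc (j : ℕ) Nv.K = insert (K + 1) (Icc (j : ℕ) K) from by
      ext m; simp only [mem_Icc, mem_insert]; show _ ∧ m ≤ K + 1 ↔ _; omega,
    sum_insert (by simp)]
  have hwtop : Nv.w (K + 1) = 0 := by
    have hK : (0:ℝ) < (K:ℝ) + 1 := by positivity
    simp only [Nest.w, hNv, upNest, percNest, gridX, lvl]
    rw [min_eq_left (by rw [le_div_iff₀ hK]; push_cast; linarith),
      min_eq_left (by rw [le_div_iff₀ hK]; push_cast; linarith)]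
    ring
  have hD : (n : ℝ) * N ≠ 0 := by positivity
  have e2 : ∀ m ∈ Icc (j : ℕ) K, ∑ p : Fin N × Fin n,
      Nv.w m * Nv.sqGrad L (blockLaw n N) m (Sum.inr (Sum.inl p)) =
      ((n : ℝ) * N) * (upOvl φ φ1 φ2 n N K g c v m / ((K : ℝ) + 1)) := by
    intro m hm
    rw [← mul_sum, upNest_w hφ hn K g c v (mem_Icc.1 hm).2]
    simp only [upOvl, Nest.ovl, sum_ySet, ← hNv, ← hLdef]
    field_simp
  rw [sum_congr rfl e2, hwtop]
  simp only [zero_mul, sum_const_zero, zero_add, pTail, ← mul_sum]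
  generalize ∑ m ∈ Icc (j : ℕ) K, upOvl φ φ1 φ2 n N K g c v m / ((K : ℝ) + 1) = T
  ring

lemma upFree_mono (hN : 0 < N) (K : ℕ) {M : ℕ} (g : Fin M → Fin N × Fin n → ℝ)
    (c : ℕ → Fin M → ℝ) (v : Fin (K + 1) → ℝ) (j : Fin (K + 1)) (hv : 0 ≤ v j) {r : ℝ}
    (hr : 0 ≤ r) :
    upFree φ φ1 φ2 n N K g c v ≤ upFree φ φ1 φ2 n N K g c (Function.update v j (v j + r)) ∧
    upFree φ φ1 φ2 n N K g c (Function.update v j (v j + r)) ≤
      upFree φ φ1 φ2 n N K g c v + ((n : ℝ) * N) * ((v j + r) ^ 2 - v j ^ 2) / 2 := by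
  set F := fun t => upFree φ φ1 φ2 n N K g c (Function.update v j t) with hF
  set w := fun t => pTail K (upOvl φ φ1 φ2 n N K g c (Function.update v j t)) j with hw
  have hd : ∀ t, HasDerivAt F (t * ((n : ℝ) * N) * (1 - w t)) t := by
    intro t
    have h := upFree_hasDeriv hφ hn hN K g c (Function.update v j t) j
    simpa only [Function.update_self, Function.update_idem] using h
  have hw01 : ∀ t, 0 ≤ w t ∧ w t ≤ 1 := by
    intro t
    have hq := fun m (hm : m ≤ K) => upOvl_mem hφ hn hN K g c (Function.update v j t) hm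
    refine ⟨pTail_nonneg (fun m hm => (hq m hm).1) _, ?_⟩
    calc w t ≤ ∑ _m ∈ Icc (j : ℕ) K, 1 / ((K : ℝ) + 1) :=
          sum_le_sum fun m hm => by
            have := (hq m (mem_Icc.1 hm).2).2
            gcongr
      _ ≤ ∑ _m ∈ range (K + 1), 1 / ((K : ℝ) + 1) :=
          sum_le_sum_of_subset_of_nonneg (fun m hm => mem_range.2 (Nat.lt_succ_of_le (mem_Icc.1 hm).2))
            fun _ _ _ => by positivity
      _ = 1 := by rw [sum_const, card_range, nsmul_eq_mul]; push_cast; field_simp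
  have hD : (0:ℝ) ≤ (n : ℝ) * N := by positivity
  have hc : Continuous F := continuous_iff_continuousAt.2 fun t => (hd t).continuousAt
  have hle : v j ≤ v j + r := le_add_of_nonneg_right hr
  have h1 : MonotoneOn F (Set.Ici 0) := by
    refine monotoneOn_of_hasDerivWithinAt_nonneg (convex_Ici 0) hc.continuousOn
      (fun t _ => (hd t).hasDerivWithinAt) fun t ht => ?_
    rw [interior_Ici] at ht
    exact mul_nonneg (mul_nonneg (le_of_lt ht) hD) (by linarith [(hw01 t).2])
  have h2 : MonotoneOn (fun t => ((n : ℝ) * N) * t ^ 2 / 2 - F t) (Set.Ici 0) := by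
    refine monotoneOn_of_hasDerivWithinAt_nonneg (convex_Ici 0)
      (Continuous.continuousOn (by fun_prop))
      (fun t _ => ((((hasDerivAt_pow 2 t).const_mul ((n : ℝ) * N)).div_const 2).sub
        (hd t)).hasDerivWithinAt) fun t ht => ?_
    rw [interior_Ici] at ht
    have := mul_nonneg (mul_nonneg (le_of_lt ht) hD) (hw01 t).1
    simp only [Nat.cast_ofNat, Nat.add_one_sub_one, pow_one]
    linarith
  have e0 : F (v j) = upFree φ φ1 φ2 n N K g c v := by simp [hF]
  have a1 := h1 hv (hv.trans hle) hle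
  have a2 := h2 hv (hv.trans hle) hle
  simp only [e0] at a1 a2
  exact ⟨a1, by simp only [hF] at a2; linarith⟩

/-- Monotonicity in all coordinates, from zero. -/
lemma upFree_ge_zero (hN : 0 < N) (K : ℕ) {M : ℕ} (g : Fin M → Fin N × Fin n → ℝ)
    (c : ℕ → Fin M → ℝ) {v : Fin (K + 1) → ℝ} (hv : ∀ i, 0 ≤ v i) :
    upFree φ φ1 φ2 n N K g c 0 ≤ upFree φ φ1 φ2 n N K g c v := by
  have key : ∀ s : Finset (Fin (K + 1)), upFree φ φ1 φ2 n N K g c 0 ≤
      upFree φ φ1 φ2 n N K g c (fun i => if i ∈ s then v i else 0) := by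
    intro s
    induction s using Finset.induction with
    | empty => simp [Pi.zero_def]
    | @insert a s ha ih =>
      refine ih.trans ?_
      have h := (upFree_mono hφ hn hN K g c (fun i => if i ∈ s then v i else 0) a (by simp [ha])
        (hv a)).1
      have e : Function.update (fun i => if i ∈ s then v i else 0) a
          ((if a ∈ s then v a else 0) + v a) = fun i => if i ∈ insert a s then v i else 0 := by
        funext i
        by_cases hi : i = a
        · subst hi; simp [ha]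
        · simp [hi]
      rwa [e] at h
  simpa using key univ

lemma upFree_empty_blocks (K : ℕ) (v : Fin (K + 1) → ℝ) :
    upFree φ φ1 φ2 n 0 K (fun a : Fin 0 => a.elim0) (fun _ _ => 0) v = 0 := by
  obtain ⟨hsys, hprob, -⟩ := blockSpin_sys (n := n) (N := 0) hn
  set Nv := upNest n 0 K (fun a : Fin 0 => a.elim0) (fun _ _ => (0:ℝ)) v with hNv
  have hz : (percLeaf φ φ1 φ2 (blockSpin n 0) 0).logZ (blockLaw n 0) = fun _ => 0 := by
    funext y
    simp [Leaf.logZ, perc_ham]
  have hu : ∀ d, Nv.uUp ((percLeaf φ φ1 φ2 (blockSpin n 0) 0).logZ (blockLaw n 0)) d =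
      fun _ => 0 := by
    intro d
    induction d with
    | zero => exact hz
    | succ d ih => funext y; simp [Nest.uUp, ih, stepLog]
  simp [upFree, Nest.free, Nest.mean, Nest.u, ← hNv, hu]

/-- Without patterns the blocks decouple. -/
theorem upFree_zero_patterns (K : ℕ) {v : Fin (K + 1) → ℝ} (hv : ∀ i, 0 ≤ v i) :
    upFree φ φ1 φ2 n N K (unifG n N 0) (fun _ _ => 0) v =
      (N : ℝ) * (n * (blockField n K (fun l => ∑ i ∈ range (l + 1), sAmp v i ^ 2) +
        (∑ i ∈ range (K + 1), sAmp v i ^ 2) / 2)) := by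
  set h : ℕ → ℝ := fun l => ∑ i ∈ range (l + 1), sAmp v i ^ 2
  have hnn : ∀ l, 0 ≤ sAmp v l := fun l => by unfold sAmp; split_ifs <;> simp [hv]
  have hsb := single_block hn K (h := h) (sAmp v) (fun l hl => by
    split_ifs with h0
    · subst h0; simp [h, Real.sqrt_sq (hnn 0)]
    · obtain ⟨k, rfl⟩ : ∃ k, l = k + 1 := ⟨l - 1, by omega⟩
      simp only [h, Nat.add_sub_cancel, sum_range_succ _ (k + 1), add_sub_cancel_left,
        Real.sqrt_sq (hnn _)]) (sAmp_top v)
  induction N with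
  | zero =>
    rw [Nat.cast_zero, zero_mul]
    refine Eq.trans ?_ (upFree_empty_blocks hφ hn K v)
    refine congrArg (fun g => upFree φ φ1 φ2 n 0 K g (fun _ _ => (0:ℝ)) v) ?_
    funext a
    exact a.elim0
  | succ N ih =>
    have hl := split_last hφ hn (Nb := N) K 0 (unifG n (N + 1) 0) (fun l _ => sAmp v l)
      (fun _ _ => 0) (sAmp v) (fun b => b.elim0) (fun _ _ => rfl)
    have e : (fun (b : Fin 0) (p : Fin N × Fin n) => unifG n (N + 1) 0 b (p.1.castSucc, p.2)) =
        unifG n N 0 := funext fun b => b.elim0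
    rw [e] at hl
    simp only [upFree, upNest] at ih ⊢
    rw [hl, ih, hsb]
    push_cast
    ring

/-- The value without fields is the pressure. -/
theorem upFree_zero_fields (hN : 0 < N) (K M : ℕ) :
    upFree φ φ1 φ2 n N K (unifG n N M) (fun _ _ => 0) 0 =
      ((n : ℝ) * N) * priorPressure φ M (blockPrior n N) := by
  obtain ⟨hsys, hprob, hmap⟩ := blockSpin_sys (n := n) (N := N) hn
  have : Nonempty (Fin N × Fin n) := ⟨⟨⟨0, hN⟩, ⟨0, hn⟩⟩⟩
  have h := free_zero_fields hφ hsys (μ := blockLaw n N) K M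
  have hs : (fun (l : ℕ) (_ : Fin N × Fin n) => sAmp (0 : Fin (K + 1) → ℝ) l) = fun _ _ => 0 := by
    funext l p; simp [sAmp]
  have hc : (Fintype.card (Fin N × Fin n) : ℝ) = (n : ℝ) * N := by simp [mul_comm]
  rw [hmap, hc] at h
  simp only [upFree, upNest, hs]
  exact h

end

end Vale.Agent.P157.Parisi
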